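import Vale.Agent.Q258U.Core
import Mathlib.Topology.Connected.PathConnected
import Mathlib.Analysis.Complex.Convex

/-!
The bottom of the plat.
-/

set_option linter.all false

namespace Vale.Agent.Q258U

open Vale.Agent.P258.Braid Vale.Agent.N258B Vale.Agent.Q258D Set Complex

namespace Bot

/-- segments on the two sides of a line -/
theorem sep (α β γ : ℝ) {a b c d : ℂ} (ha : α * a.re + β * a.im ≤ γ)
    (hb : α * b.re + β * b.im ≤ γ) (hc : γ < α * c.re + β * c.im)
    (hd : γ < α * d.re + β * d.im) : Disjoint (segment ℝ a b) (segment ℝ c d) := by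
  refine disjoint_left.2 ?_
  rintro _ ⟨s, t, hs, ht, hst, rfl⟩ ⟨s', t', hs', ht', hst', e⟩
  have e1 := congrArg Complex.re e
  have e2 := congrArg Complex.im e
  simp only [add_re, add_im, real_smul, mul_re, mul_im, ofReal_re, ofReal_im, zero_mul, sub_zero,
    add_zero] at e1 e2
  have h1 : s * (α * a.re + β * a.im) + t * (α * b.re + β * b.im) ≤ γ := by
    calc _ ≤ s * γ + t * γ := by gcongr
      _ = γ := by rw [← add_mul, hst, one_mul]
  have h2 : min (α * c.re + β * c.im) (α * d.re + β * d.im) ≤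
      s' * (α * c.re + β * c.im) + t' * (α * d.re + β * d.im) := by
    calc _ = s' * min (α * c.re + β * c.im) (α * d.re + β * d.im) +
          t' * min (α * c.re + β * c.im) (α * d.re + β * d.im) := by
            rw [← add_mul, hst', one_mul]
      _ ≤ _ := by gcongr; exacts [min_le_left _ _, min_le_right _ _]
  have h3 := lt_min hc hd
  have h4 : s' * (α * c.re + β * c.im) + t' * (α * d.re + β * d.im) =
      s * (α * a.re + β * a.im) + t * (α * b.re + β * b.im) := by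
    linear_combination α * e1 + β * e2
  linarith

variable {ι : Type}

/-- horizontal segments in the order of `l` -/
theorem scL (l : ι ↪ ℕ) (μ : ι → ℕ) (hμ : ∀ a a', l a / 2 = l a' / 2 ↔ μ a = μ a') (y : X ι)
    (h1 : ∀ a a', μ a = μ a' → (y.1 a).im = (y.1 a').im)
    (h2 : ∀ a a', (y.1 a).im = (y.1 a').im → l a < l a' → (y.1 a).re < (y.1 a').re) :
    SC μ y := by
  have key : ∀ i j i' j', μ i = μ j → μ i' = μ j' → l i / 2 < l i' / 2 →
      Disjoint (segment ℝ (y.1 i) (y.1 j)) (segment ℝ (y.1 i') (y.1 j')) := by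
    intro i j i' j' e e' h
    have a1 := h1 _ _ e
    have a2 := h1 _ _ e'
    have b1 := (hμ _ _).2 e
    have b2 := (hμ _ _).2 e'
    rcases lt_trichotomy (y.1 i).im (y.1 i').im with c | c | c
    · exact sep 0 1 (y.1 i).im (by linarith) (by linarith) (by linarith) (by linarith)
    · have k1 := h2 i i' c (by omega)
      have k2 := h2 i j' (by linarith) (by omega)
      have k3 := h2 j i' (by linarith) (by omega)
      have k4 := h2 j j' (by linarith) (by omega)
      refine sep 1 0 (max (y.1 i).re (y.1 j).re) ?_ ?_ ?_ ?_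
      · linarith [le_max_left (y.1 i).re (y.1 j).re]
      · linarith [le_max_right (y.1 i).re (y.1 j).re]
      · linarith [max_lt k1 k3]
      · linarith [max_lt k2 k4]
    · exact sep 0 (-1) (-(y.1 i).im) (by linarith) (by linarith) (by linarith) (by linarith)
  intro i j i' j' e e' h
  rcases lt_trichotomy (l i / 2) (l i' / 2) with c | c | c
  · exact key _ _ _ _ e e' c
  · exact absurd ((hμ _ _).1 c) h
  · exact (key _ _ _ _ e' e c).symm

/-- the straight path to a layered configuration -/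
theorem line (l : ι ↪ ℕ) (la : ι → ℝ) (y : X ι) (h1 : ∀ a, (y.1 a).im = la a)
    (h2 : ∀ a a', la a = la a' → l a < l a' → (y.1 a).re < (y.1 a').re) :
    ∃ σ : Path (cfg l) y, (∀ t, σ t ∈ Lay la) ∧
      (∀ (t : unitInterval) a, ((σ t).1 a).re = (1 - t) * l a + t * (y.1 a).re) ∧
      (∀ (t : unitInterval) a, ((σ t).1 a).im = t * la a) ∧
      ∀ t a a', ((σ t).1 a).im = ((σ t).1 a').im → l a < l a' →
        ((σ t).1 a).re < ((σ t).1 a').re := by
  let f : ℝ → ι → ℂ := fun t a => ((1 - t : ℝ) : ℂ) * l a + (t : ℂ) * y.1 a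
  have fr : ∀ t a, (f t a).re = (1 - t) * l a + t * (y.1 a).re := fun t a => by
    simp only [f, add_re, mul_re, ofReal_re, ofReal_im, natCast_re, natCast_im]; ring
  have fi : ∀ t a, (f t a).im = t * la a := fun t a => by
    simp only [f, add_im, mul_im, ofReal_re, ofReal_im, natCast_re, natCast_im, h1]; ring
  have ord : ∀ (t : unitInterval) a a', (f t a).im = (f t a').im → l a < l a' →
      (f t a).re < (f t a').re := by
    intro t a a' e h
    rw [fi, fi] at e
    rw [fr, fr]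
    have h' : (l a : ℝ) < l a' := by exact_mod_cast h
    have t0 := t.2.1
    have t1 := t.2.2
    rcases eq_or_lt_of_le t0 with c | c
    · rw [← c]; linarith
    · have := h2 a a' (mul_left_cancel₀ c.ne' e) h
      nlinarith
  have ne : ∀ (t : unitInterval) a a', (f t a).im = (f t a').im → (f t a).re = (f t a').re →
      a = a' := by
    intro t a a' e e'
    rcases lt_trichotomy (l a) (l a') with c | c | c
    · exact absurd e' (ord t a a' e c).ne
    · exact l.injective c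
    · exact absurd e'.symm (ord t a' a e.symm c).ne
  refine ⟨⟨⟨fun t => ⟨f t, fun a a' e => ne t a a' (by rw [e]) (by rw [e])⟩, ?_⟩, ?_, ?_⟩,
    ?_, fun t => fr t, fun t => fi t, ord⟩
  · refine Continuous.subtype_mk (continuous_pi fun a => ?_) _
    simp only [f]
    fun_prop
  · refine Subtype.ext (funext fun a => ?_)
    simp [f, cfg_apply]
  · refine Subtype.ext (funext fun a => ?_)
    simp [f]
  · intro t i j hij e
    change (f t i).re = (f t j).re at e
    have h3 : (f t i).im ≠ (f t j).im := fun e' => hij (ne t i j e' e)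
    change _ ∧ (_ → (f t i).im < (f t j).im)
    rw [fi, fi] at *
    refine ⟨fun e' => h3 (by rw [e']), fun h => ?_⟩
    exact lt_of_le_of_ne (mul_le_mul_of_nonneg_left h.le t.2.1) h3

/-! the points on the boundary of the disc -/

theorem ds_im {s : ℕ → ℂ} (h : DS s) : ∀ n, 1 ≤ n → n ≤ 14 → (s n).im = (s 1).im := by
  intro n h1
  induction n, h1 using Nat.le_induction with
  | base => exact fun _ => rfl
  | succ n h1 ih => exact fun h2 => ((h.2.2.2 n h1 (by omega)).1.symm).trans (ih (by omega))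

theorem ds_re {s : ℕ → ℂ} (h : DS s) {n : ℕ} (h1 : 1 ≤ n) :
    ∀ m, n + 1 ≤ m → m ≤ 14 → (s n).re < (s m).re := by
  intro m h2
  induction m, h2 using Nat.le_induction with
  | base => exact fun h3 => (h.2.2.2 n h1 (by omega)).2
  | succ m h2 ih => exact fun h3 => (ih (by omega)).trans (h.2.2.2 m (by omega) (by omega)).2

theorem ds_sep {s : ℕ → ℂ} (h : DS s) {N n m n' m' : ℕ} (h1 : 1 ≤ N) (hn : n ≤ N) (hm : m ≤ N)
    (hn' : N < n') (hm' : N < m') (bn : n' < 16) (bm : m' < 16) :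
    Disjoint (segment ℝ (s n) (s m)) (segment ℝ (s n') (s m')) := by
  have d : 0 < (s 1).im - (s 0).im := sub_pos.2 h.2.2.1
  have L : ∀ n, n ≤ N → ((s 1).im - (s 0).im) * (s n).re + -((s N).re - (s 0).re) * (s n).im ≤
      ((s 1).im - (s 0).im) * (s 0).re + -((s N).re - (s 0).re) * (s 0).im := by
    intro n hn
    rcases Nat.eq_zero_or_pos n with rfl | c
    · exact le_rfl
    · rw [ds_im h n c (by omega)]
      have : (s n).re ≤ (s N).re := by
        rcases eq_or_lt_of_le hn with rfl | c'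
        · exact le_rfl
        · exact (ds_re h c N c' (by omega)).le
      nlinarith
  have R : ∀ n, N < n → n < 16 →
      ((s 1).im - (s 0).im) * (s 0).re + -((s N).re - (s 0).re) * (s 0).im <
        ((s 1).im - (s 0).im) * (s n).re + -((s N).re - (s 0).re) * (s n).im := by
    intro n hn bn
    by_cases c : n = 15
    · subst c
      rw [← h.1]
      nlinarith [h.2.1]
    · rw [ds_im h n (by omega) (by omega)]
      nlinarith [ds_re h h1 n hn (by omega)]
  exact sep _ _ _ (L n hn) (L m hm) (R n' hn' bn) (R m' hm' bm)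

theorem ds_band {s : ℕ → ℂ} (h : DS s) {n m n' m' : ℕ} (bn : n < 16) (bm : m < 16)
    (bn' : n' < 16) (bm' : m' < 16) (e : n / 2 = m / 2) (e' : n' / 2 = m' / 2)
    (c : n / 2 ≠ n' / 2) : Disjoint (segment ℝ (s n) (s m)) (segment ℝ (s n') (s m')) := by
  rcases lt_or_gt_of_ne c with c | c
  · exact ds_sep h (N := 2 * (n / 2) + 1) (by omega) (by omega) (by omega) (by omega) (by omega)
      bn' bm'
  · exact (ds_sep h (N := 2 * (n' / 2) + 1) (by omega) (by omega) (by omega) (by omega) (by omega)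
      bn bm).symm

theorem ds_gap {s : ℕ → ℂ} (h : DS s) {n m n' m' : ℕ} (bn : n < 16) (bm : m < 16)
    (bn' : n' < 16) (bm' : m' < 16) (e : (n + 1) / 2 % 8 = (m + 1) / 2 % 8)
    (e' : (n' + 1) / 2 % 8 = (m' + 1) / 2 % 8) (c : (n + 1) / 2 % 8 ≠ (n' + 1) / 2 % 8) :
    Disjoint (segment ℝ (s n) (s m)) (segment ℝ (s n') (s m')) := by
  have key : ∀ {n m n' m' : ℕ}, n < 16 → m < 16 → n' < 16 → m' < 16 →
      (n + 1) / 2 % 8 = (m + 1) / 2 % 8 → (n' + 1) / 2 % 8 = (m' + 1) / 2 % 8 →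
      (n + 1) / 2 % 8 < (n' + 1) / 2 % 8 →
      Disjoint (segment ℝ (s n) (s m)) (segment ℝ (s n') (s m')) := by
    intro n m n' m' bn bm bn' bm' e e' c
    by_cases z : (n + 1) / 2 % 8 = 0
    · have lo : ∀ n, n < 16 → (n + 1) / 2 % 8 = 0 → (s n).im = (s 0).im := fun n bn z => by
        rcases (by omega : n = 0 ∨ n = 15) with rfl | rfl
        exacts [rfl, h.1.symm]
      have d := h.2.2.1
      refine sep 0 1 (s 0).im ?_ ?_ ?_ ?_
      · linarith [lo n bn z]
      · linarith [lo m bm (e ▸ z)]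
      · linarith [ds_im h n' (by omega) (by omega)]
      · linarith [ds_im h m' (by omega) (by omega)]
    · exact ds_sep h (N := 2 * ((n + 1) / 2)) (by omega) (by omega) (by omega) (by omega)
        (by omega) bn' bm'
  rcases lt_or_gt_of_ne c with c | c
  · exact key bn bm bn' bm' e e' c
  · exact (key bn' bm' bn bm e' e c).symm

/-! parallelograms -/

/-- a point of a parallelogram -/
def pt (P : ℂ × ℂ × ℂ) (u v : ℝ) : ℂ := P.1 + u * (P.2.1 - P.1) + v * P.2.2

theorem pt_inj {P : ℂ × ℂ × ℂ} (h : 0 < det (P.2.1 - P.1) P.2.2) {u v u' v' : ℝ}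
    (e : pt P u v = pt P u' v') : u = u' ∧ v = v' := by
  have e1 := congrArg Complex.re e
  have e2 := congrArg Complex.im e
  simp only [pt, add_re, add_im, mul_re, mul_im, ofReal_re, ofReal_im, zero_mul, sub_zero,
    add_zero] at e1 e2
  unfold det at h
  constructor
  · refine mul_right_cancel₀ h.ne' ?_
    linear_combination P.2.2.im * e1 - P.2.2.re * e2
  · refine mul_right_cancel₀ h.ne' ?_
    linear_combination (P.2.1 - P.1).re * e2 - (P.2.1 - P.1).im * e1

theorem seg_pt {P : ℂ × ℂ × ℂ} {u v u' v' : ℝ} {z : ℂ} (h : z ∈ segment ℝ (pt P u v) (pt P u' v')) :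
    ∃ a b : ℝ, 0 ≤ a ∧ 0 ≤ b ∧ a + b = 1 ∧ z = pt P (a * u + b * u') (a * v + b * v') := by
  obtain ⟨a, b, ha, hb, hab, rfl⟩ := h
  refine ⟨a, b, ha, hb, hab, ?_⟩
  have : (a : ℂ) + b = 1 := by exact_mod_cast hab
  simp only [pt, real_smul]
  push_cast
  linear_combination P.1 * this

theorem seg_par {P : ℂ × ℂ × ℂ} {u v u' v' : ℝ} (hu : u ∈ Icc (0 : ℝ) 1) (hu' : u' ∈ Icc (0 : ℝ) 1)
    (hv : v ∈ Icc (-1 : ℝ) 1) (hv' : v' ∈ Icc (-1 : ℝ) 1) :
    segment ℝ (pt P u v) (pt P u' v') ⊆ par P := fun z hz => by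
  obtain ⟨a, b, ha, hb, hab, rfl⟩ := seg_pt hz
  exact ⟨_, convex_Icc _ _ hu hu' ha hb hab, _, convex_Icc _ _ hv hv' ha hb hab, rfl⟩

/-! the configuration -/

variable {k : ℕ}

/-- the strands that end on the disc -/
def Ft (k : ℕ) (a : Lb k) : Prop := a.1.2.val = 0 ∨ a.1.2.val + 1 = 2 * k

instance (a : Lb k) : Decidable (Ft k a) := inferInstanceAs (Decidable (_ ∨ _))

/-- the number of the end -/
def nn (a : Lb k) : ℕ :=
  if a.1.2.val = 0 then 2 * fS a.1.1 + a.2.toNat else 2 * fE a.1.1 + a.2.toNat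

/-- the first coordinate of a corner -/
def uu (a : Lb k) : ℝ := if a.1.2.val % 2 = 1 then 0 else 1

/-- the second coordinate of a corner -/
def vv (a : Lb k) : ℝ := if (a.1.2.val + a.2.toNat) % 2 = 1 then -1 else 1

/-- the number of the cup -/
def ci (a : Lb k) (h : ¬ Ft k a) : Fin 4 × Fin (k - 1) :=
  (a.1.1, ⟨(a.1.2.val - 1) / 2, by have := a.1.2.2; unfold Ft at h; omega⟩)

/-- the configuration of the points `s` and the parallelograms `p` -/
noncomputable def cf (s : ℕ → ℂ) (p : Fin 4 × Fin (k - 1) → ℂ × ℂ × ℂ) (a : Lb k) : ℂ :=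
  if h : Ft k a then s (nn a) else pt (p (ci a h)) (uu a) (vv a)

theorem four (j : Fin 4) : j = 0 ∨ j = 1 ∨ j = 2 ∨ j = 3 := by
  fin_cases j <;> simp

theorem tn (e : Bool) : e.toNat < 2 := by cases e <;> simp

theorem fS_eq (j : Fin 4) : fS j = 4 * (j.val / 2) + j.val % 2 := by
  fin_cases j <;> rfl

theorem fE_eq (j : Fin 4) : fE j = 4 * (j.val / 2) + j.val % 2 + 2 := by
  fin_cases j <;> rfl

theorem nn_lt (a : Lb k) : nn a < 16 := by
  have := tn a.2
  unfold nn
  rcases four a.1.1 with e | e | e | e <;> rw [e] <;> simp only [fS, fE] <;> split_ifs <;>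
    simp <;> omega

theorem mB_ft {a : Lb k} (h : Ft k a) : mB k a = (nn a + 1) / 2 % 8 := by
  unfold mB nn
  unfold Ft at h
  split_ifs <;> first | rfl | omega

theorem mB_nft {a : Lb k} (h : ¬ Ft k a) : mB k a =
    8 + 2 * (k * a.1.1.val + (a.1.2.val + 1) / 2) + (a.1.2.val + a.2.toNat) % 2 := by
  unfold mB
  unfold Ft at h
  split_ifs <;> first | rfl | omega

theorem ft_iff (a : Lb k) : Ft k a ↔ mB k a < 8 := by
  by_cases h : Ft k a
  · rw [mB_ft h]; exact iff_of_true h (by omega)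
  · rw [mB_nft h]; exact iff_of_false h (by omega)

theorem uu_mem (a : Lb k) : uu a ∈ Icc (0 : ℝ) 1 := by
  unfold uu; split_ifs <;> norm_num

theorem vv_mem (a : Lb k) : vv a ∈ Icc (-1 : ℝ) 1 := by
  unfold vv; split_ifs <;> norm_num

theorem blk {j j' : Fin 4} {x x' : ℕ} (hx : x < k) (hx' : x' < k)
    (e : k * j.val + x = k * j'.val + x') : j = j' := by
  rcases four j with rfl | rfl | rfl | rfl <;> rcases four j' with rfl | rfl | rfl | rfl <;>
    first | rfl | (exfalso; simp at e; omega)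

theorem mB_cup {a a' : Lb k} (h : ¬ Ft k a) (h' : ¬ Ft k a') :
    mB k a = mB k a' ↔ ci a h = ci a' h' ∧ vv a = vv a' := by
  have h1 := a.1.2.2
  have h2 := a'.1.2.2
  rw [mB_nft h, mB_nft h']
  have hv : vv a = vv a' ↔ (a.1.2.val + a.2.toNat) % 2 = (a'.1.2.val + a'.2.toNat) % 2 := by
    unfold vv
    split_ifs <;> norm_num <;> omega
  rw [hv]
  simp only [ci, Prod.mk.injEq, Fin.mk.injEq]
  unfold Ft at h h'
  constructor
  · intro e
    have e1 : a.1.1 = a'.1.1 :=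
      blk (k := k) (x := (a.1.2.val + 1) / 2) (x' := (a'.1.2.val + 1) / 2) (by omega) (by omega)
        (by omega)
    rw [e1] at e
    exact ⟨⟨e1, by omega⟩, by omega⟩
  · rintro ⟨⟨e1, e2⟩, e3⟩
    rw [e1]; omega

theorem band_cup {a a' : Lb k} (h : ¬ Ft k a) (h' : ¬ Ft k a') :
    a.1 = a'.1 ↔ ci a h = ci a' h' ∧ uu a = uu a' := by
  have hu : uu a = uu a' ↔ a.1.2.val % 2 = a'.1.2.val % 2 := by
    unfold uu
    split_ifs <;> norm_num <;> omega
  rw [hu]
  simp only [ci, Prod.mk.injEq, Fin.mk.injEq]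
  unfold Ft at h h'
  constructor
  · intro e; rw [e]; exact ⟨⟨rfl, rfl⟩, rfl⟩
  · rintro ⟨⟨e1, e2⟩, e3⟩
    exact Prod.ext e1 (Fin.ext (by omega))

theorem band_ft {a a' : Lb k} (h : Ft k a) (h' : Ft k a') : a.1 = a'.1 ↔ nn a / 2 = nn a' / 2 := by
  have t1 := tn a.2
  have t2 := tn a'.2
  unfold nn
  unfold Ft at h h'
  constructor
  · intro e; rw [e]; split_ifs <;> omega
  · intro e
    have a1 := fS_eq a.1.1
    have a2 := fS_eq a'.1.1
    have a3 := fE_eq a.1.1
    have a4 := fE_eq a'.1.1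
    have a5 := a.1.1.2
    have a6 := a'.1.1.2
    have : a.1.1.val = a'.1.1.val ∧ a.1.2.val = a'.1.2.val := by
      split_ifs at e <;> omega
    exact Prod.ext (Fin.ext this.1) (Fin.ext this.2)

/-- admissible data -/
def Good (k : ℕ) : Set ((ℕ → ℂ) × (Fin 4 × Fin (k - 1) → ℂ × ℂ × ℂ)) :=
  {d | DS d.1 ∧ ∃ B, Convex ℝ B ∧ (∀ n < 16, d.1 n ∈ B) ∧ d.2 ∈ PC _ B}

/-- disjoint segments -/
def SC' (μ : ι → ℕ) (y : ι → ℂ) : Prop :=
  ∀ i j i' j', μ i = μ j → μ i' = μ j' → μ i ≠ μ i' →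
    Disjoint (segment ℝ (y i) (y j)) (segment ℝ (y i') (y j'))

theorem sc_cf {d} (hd : d ∈ Good k) (μ : Lb k → ℕ) (c : ℕ → ℕ) (w : Lb k → ℝ)
    (h1 : ∀ a a', μ a = μ a' → (Ft k a ↔ Ft k a'))
    (h2 : ∀ a a', Ft k a → Ft k a' → (μ a = μ a' ↔ c (nn a) = c (nn a')))
    (h3 : ∀ a a' h h', μ a = μ a' ↔ ci a h = ci a' h' ∧ w a = w a') (hw : w = uu ∨ w = vv)
    (h4 : ∀ n m n' m', n < 16 → m < 16 → n' < 16 → m' < 16 → c n = c m → c n' = c m' →
      c n ≠ c n' → Disjoint (segment ℝ (d.1 n) (d.1 m)) (segment ℝ (d.1 n') (d.1 m'))) :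
    SC' μ (cf d.1 d.2) := by
  obtain ⟨-, B, hB, hs, hp⟩ := hd
  have A : ∀ i j, μ i = μ j → Ft k i → segment ℝ (cf d.1 d.2 i) (cf d.1 d.2 j) ⊆ B := by
    intro i j e h
    rw [cf, cf, dif_pos h, dif_pos ((h1 _ _ e).1 h)]
    exact hB.segment_subset (hs _ (nn_lt _)) (hs _ (nn_lt _))
  have C : ∀ i j, μ i = μ j → ∀ h : ¬ Ft k i, segment ℝ (cf d.1 d.2 i) (cf d.1 d.2 j) =
      segment ℝ (pt (d.2 (ci i h)) (uu i) (vv i)) (pt (d.2 (ci i h)) (uu j) (vv j)) ∧
      w i = w j := by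
    intro i j e h
    have h' : ¬ Ft k j := fun c => h ((h1 _ _ e).2 c)
    have := (h3 i j h h').1 e
    rw [cf, cf, dif_neg h, dif_neg h', ← this.1]
    exact ⟨rfl, this.2⟩
  have D : ∀ i j, μ i = μ j → ∀ h : ¬ Ft k i,
      segment ℝ (cf d.1 d.2 i) (cf d.1 d.2 j) ⊆ par (d.2 (ci i h)) := fun i j e h => by
    rw [(C i j e h).1]
    exact seg_par (uu_mem _) (uu_mem _) (vv_mem _) (vv_mem _)
  intro i j i' j' e e' ne
  by_cases h : Ft k i <;> by_cases h' : Ft k i'
  · have g := (h1 _ _ e).1 h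
    have g' := (h1 _ _ e').1 h'
    rw [cf, cf, cf, cf, dif_pos h, dif_pos h', dif_pos g, dif_pos g']
    exact h4 _ _ _ _ (nn_lt _) (nn_lt _) (nn_lt _) (nn_lt _) ((h2 _ _ h g).1 e)
      ((h2 _ _ h' g').1 e') fun c => ne ((h2 _ _ h h').2 c)
  · exact (hp.2.1 _).symm.mono (A i j e h) (D i' j' e' h')
  · exact (hp.2.1 _).mono (D i j e h) (A i' j' e' h')
  · by_cases c : ci i h = ci i' h'
    · have nw : w i ≠ w i' := fun g => ne ((h3 i i' h h').2 ⟨c, g⟩)
      obtain ⟨c1, w1⟩ := C i j e h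
      obtain ⟨c2, w2⟩ := C i' j' e' h'
      rw [c1, c2, ← c]
      refine disjoint_left.2 fun z hz hz' => nw ?_
      obtain ⟨a, b, -, -, hab, rfl⟩ := seg_pt hz
      obtain ⟨a', b', -, -, hab', g⟩ := seg_pt hz'
      obtain ⟨g1, g2⟩ := pt_inj (hp.1 _) g
      rcases hw with rfl | rfl
      · rw [← w1, ← w2, ← add_mul, ← add_mul, hab, hab'] at g1
        linarith
      · rw [← w1, ← w2, ← add_mul, ← add_mul, hab, hab'] at g2
        linarith
    · exact (hp.2.2 _ _ c).mono (D i j e h) (D i' j' e' h')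

theorem sc_mB {d} (hd : d ∈ Good k) : SC' (mB k) (cf d.1 d.2) :=
  sc_cf hd _ (fun n => (n + 1) / 2 % 8) vv (fun a a' e => by rw [ft_iff, ft_iff, e])
    (fun a a' h h' => by rw [mB_ft h, mB_ft h']) (fun a a' h h' => mB_cup h h') (Or.inr rfl)
    fun n m n' m' => ds_gap hd.1

theorem sc_band {d} (hd : d ∈ Good k) : SC' (fun a : Lb k => lT k a.1) (cf d.1 d.2) :=
  sc_cf hd _ (fun n => n / 2) uu
    (fun a a' e => by unfold Ft; rw [(lT k).injective e])
    (fun a a' h h' => by rw [← band_ft h h']; exact (lT k).injective.eq_iff)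
    (fun a a' h h' => by rw [← band_cup h h']; exact (lT k).injective.eq_iff) (Or.inl rfl)
    fun n m n' m' => ds_band hd.1

theorem mB_ne (b : Bn k) : mB k (b, false) ≠ mB k (b, true) := by
  unfold mB
  rcases four b.1 with e | e | e | e <;> simp only [e, fS, fE] <;> split_ifs <;> simp <;> omega

theorem cf_inj {d} (hd : d ∈ Good k) : Function.Injective (cf d.1 d.2) := by
  have key : ∀ μ : Lb k → ℕ, SC' μ (cf d.1 d.2) → ∀ a a', cf d.1 d.2 a = cf d.1 d.2 a' →
      μ a = μ a' := by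
    intro μ h a a' e
    by_contra c
    have := h a a a' a' rfl rfl c
    rw [e] at this
    exact disjoint_left.1 this (left_mem_segment _ _ _) (left_mem_segment _ _ _)
  rintro ⟨b, e⟩ ⟨b', e'⟩ h
  have h1 : b = b' := (lT k).injective (key _ (sc_band hd) _ _ h)
  subst h1
  have h2 := key _ (sc_mB hd) _ _ h
  cases e <;> cases e'
  exacts [rfl, absurd h2 (mB_ne b), absurd h2.symm (mB_ne b), rfl]

theorem path_cf {d d'} (h : JoinedIn (Good k) d d') {x x' : X (Lb k)} (hx : x.1 = cf d.1 d.2)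
    (hx' : x'.1 = cf d'.1 d'.2) : ∃ τ : Path x x', (∀ t, SC (mB k) (τ t)) ∧
      ∀ t, SC (fun a => lT k a.1) (τ t) := by
  obtain ⟨γ, hγ⟩ := h
  refine ⟨⟨⟨fun t => ⟨cf (γ t).1 (γ t).2, cf_inj (hγ t)⟩, ?_⟩, ?_, ?_⟩,
    fun t => sc_mB (hγ t), fun t => sc_band (hγ t)⟩
  · refine Continuous.subtype_mk (continuous_pi fun a => ?_) _
    unfold cf pt
    split_ifs
    · fun_prop
    · fun_prop
  · exact Subtype.ext (by simp [hx])
  · exact Subtype.ext (by simp [hx'])

theorem eq_cf {y : X (Lb k)} {s : ℕ → ℂ} {p : Fin 4 × Fin (k - 1) → ℂ × ℂ × ℂ}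
    (h1 : ∀ j (r : Fin (2 * k)) (e : Bool), (r.val = 0 → y.1 ((j, r), e) = s (2 * fS j + e.toNat)) ∧
      (r.val + 1 = 2 * k → y.1 ((j, r), e) = s (2 * fE j + e.toNat)))
    (h2 : ∀ j (i : Fin (k - 1)) (r r' : Fin (2 * k)), r.val = 2 * i.val + 1 →
      r'.val = 2 * i.val + 2 → Cor y (j, r) (j, r') (p (j, i))) : y.1 = cf s p := by
  funext ⟨⟨j, r⟩, e⟩
  unfold cf
  split_ifs with h
  · unfold nn
    split_ifs with c
    · exact (h1 j r e).1 c
    · exact (h1 j r e).2 (h.resolve_left c)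
  · have hr := r.2
    have h' : ¬ (r.val = 0 ∨ r.val + 1 = 2 * k) := h
    by_cases c : r.val % 2 = 1
    · have := h2 j (ci ((j, r), e) h).2 r ⟨r.val + 1, by omega⟩ (by simp only [ci]; omega)
        (by simp only [ci]; omega)
      cases e
      · rw [this.1, uu, vv, if_pos c, if_pos (by simpa using c)]
        simp [pt, ci, sub_eq_add_neg]
      · rw [this.2.1, uu, vv, if_pos c, if_neg (by simp; omega)]
        simp [pt, ci]
    · have := h2 j (ci ((j, r), e) h).2 ⟨r.val - 1, by omega⟩ r (by simp only [ci]; omega)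
        (by simp only [ci]; omega)
      cases e
      · rw [this.2.2.1, uu, vv, if_neg c, if_neg (by simpa using c)]
        simp [pt, ci]
      · rw [this.2.2.2, uu, vv, if_neg c, if_pos (by simp; omega)]
        simp [pt, ci, sub_eq_add_neg]

/-! the standard configuration -/

/-- the positions of the ends -/
def pos (k n : ℕ) : ℕ := 4 * k * (n / 4) + if n % 4 < 2 then n % 4 else 4 * k - 4 + n % 4

/-- the standard points -/
noncomputable def s0 (k n : ℕ) : ℂ := ⟨pos k n, if (n + 1) / 2 % 8 = 0 then -3 else -2⟩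

/-- the standard parallelograms at the height `h` -/
noncomputable def p0 (k : ℕ) (h : ℝ) (c : Fin 4 × Fin (k - 1)) : ℂ × ℂ × ℂ :=
  (⟨((4 * (k * c.1.val + c.2.val) + 2 : ℕ) : ℝ) + 1 / 2, h⟩,
    ⟨((4 * (k * c.1.val + c.2.val) + 2 : ℕ) : ℝ) + 5 / 2, h⟩, I)

theorem pt_re (h u v : ℝ) (c : Fin 4 × Fin (k - 1)) :
    (pt (p0 k h c) u v).re = ((4 * (k * c.1.val + c.2.val) + 2 : ℕ) : ℝ) + 1 / 2 + 2 * u := by
  simp only [pt, p0, add_re, mul_re, sub_re, sub_im, ofReal_re, ofReal_im, I_re, I_im]; ring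

theorem pt_im (h u v : ℝ) (c : Fin 4 × Fin (k - 1)) : (pt (p0 k h c) u v).im = h + v := by
  simp only [pt, p0, add_im, mul_im, sub_re, sub_im, ofReal_re, ofReal_im, I_re, I_im]; ring

theorem p0_mem (h : ℝ) {B : Set ℂ} (hB : ∀ z ∈ B, z.im ≤ h - 2) : p0 k h ∈ PC _ B := by
  refine ⟨fun c => ?_, fun c => ?_, fun c c' hc => ?_⟩
  · simp only [det, p0, sub_re, sub_im, I_re, I_im]; norm_num
  · refine disjoint_left.2 ?_
    rintro _ ⟨u, -, v, hv, rfl⟩ hz
    have := hB _ hz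
    change (pt (p0 k h c) u v).im ≤ _ at this
    rw [pt_im] at this
    linarith [hv.1]
  · refine disjoint_left.2 ?_
    rintro _ ⟨u, hu, v, -, rfl⟩ ⟨u', hu', v', -, e⟩
    have e1 : (pt (p0 k h c) u v).re = (pt (p0 k h c') u' v').re := congrArg Complex.re e
    rw [pt_re, pt_re] at e1
    have h1 := c.2.2
    have h2 := c'.2.2
    have e2 : k * c.1.val + c.2.val = k * c'.1.val + c'.2.val := by
      have a1 : ((4 * (k * c.1.val + c.2.val) + 2 : ℕ) : ℝ) <
          ((4 * (k * c'.1.val + c'.2.val) + 2 + 3 : ℕ) : ℝ) := by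
        rw [Nat.cast_add _ 3]; norm_num only; linarith [hu.1, hu'.2]
      have a2 : ((4 * (k * c'.1.val + c'.2.val) + 2 : ℕ) : ℝ) <
          ((4 * (k * c.1.val + c.2.val) + 2 + 3 : ℕ) : ℝ) := by
        rw [Nat.cast_add _ 3]; norm_num only; linarith [hu'.1, hu.2]
      have b1 := Nat.cast_lt.1 a1
      have b2 := Nat.cast_lt.1 a2
      omega
    have e3 : c.1 = c'.1 := blk (by omega) (by omega) e2
    rw [e3] at e2
    exact hc (Prod.ext e3 (Fin.ext (by omega)))

theorem ds_s0 (hk : 0 < k) : DS (s0 k) := by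
  refine ⟨rfl, ?_, by norm_num [s0], fun n h1 h2 => ⟨?_, ?_⟩⟩
  · exact Nat.cast_lt.2 (by simp [pos])
  · simp only [s0]
    rw [if_neg (by omega), if_neg (by omega)]
  · refine Nat.cast_lt.2 ?_
    interval_cases n <;> simp [pos] <;> omega

theorem s0_im (n : ℕ) : (s0 k n).im ≤ -2 := by
  simp only [s0]; split_ifs <;> norm_num

theorem cvx (c : ℝ) : Convex ℝ {z : ℂ | z.im ≤ c} := convex_halfSpace_im_le c

theorem join (hC : RowCl) (hk : 0 < k) {s : ℕ → ℂ} (hs : DS s) (hb : ∀ n < 16, s n ∈ Box)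
    {p : Fin 4 × Fin (k - 1) → ℂ × ℂ × ℂ} (hp : p ∈ PC _ Box) :
    JoinedIn (Good k) (s0 k, p0 k 0) (s, p) := by
  have eB : Box = Icc (-4 : ℝ) 64 ×ℂ Icc (-1 : ℝ) 2 := by
    ext z; simp [Box, mem_reProdIm, and_assoc]
  have cB : Convex ℝ Box := by
    have : Box = (({z : ℂ | -4 ≤ z.re} ∩ {z | z.re ≤ 64}) ∩ {z | -1 ≤ z.im}) ∩ {z | z.im ≤ 2} := by
      ext z; simp [Box, and_assoc]
    rw [this]
    exact (((convex_halfSpace_re_ge _).inter (convex_halfSpace_re_le _)).inter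
      (convex_halfSpace_im_ge _)).inter (convex_halfSpace_im_le _)
  have kB : IsCompact Box := eB ▸ isCompact_Icc.reProdIm isCompact_Icc
  have j1 : JoinedIn (Good k) (s, p0 k 4) (s, p) := by
    obtain ⟨γ, hγ⟩ := hC _ Box kB cB (p0 k 4) (p0_mem 4 fun z hz => by linarith [hz.2.2.2]) p hp
    exact ⟨(Path.refl s).prod γ, fun t => ⟨hs, Box, cB, hb, hγ t⟩⟩
  refine JoinedIn.trans ?_ j1
  have h0 := ds_s0 hk
  refine JoinedIn.ofLine (f := fun t : ℝ =>
    (fun n => ((1 - t : ℝ) : ℂ) * s0 k n + (t : ℂ) * s n, p0 k (4 * t))) ?_ ?_ ?_ ?_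
  · refine Continuous.continuousOn (Continuous.prodMk (by fun_prop) (continuous_pi fun c => ?_))
    have h : ∀ a : ℝ, Continuous fun t : ℝ => (⟨a, 4 * t⟩ : ℂ) := fun a =>
      equivRealProdCLM.symm.continuous.comp (continuous_const.prodMk (by fun_prop))
    exact (h _).prodMk ((h _).prodMk continuous_const)
  · simp
  · simp
  · rintro _ ⟨t, ⟨t0, t1⟩, rfl⟩
    have fr : ∀ n, (((1 - t : ℝ) : ℂ) * s0 k n + (t : ℂ) * s n).re =
        (1 - t) * (s0 k n).re + t * (s n).re := fun n => by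
      simp only [add_re, mul_re, ofReal_re, ofReal_im]; ring
    have fi : ∀ n, (((1 - t : ℝ) : ℂ) * s0 k n + (t : ℂ) * s n).im =
        (1 - t) * (s0 k n).im + t * (s n).im := fun n => by
      simp only [add_im, mul_im, ofReal_re, ofReal_im]; ring
    have lt : ∀ a b c d : ℝ, a < b → c < d → (1 - t) * a + t * c < (1 - t) * b + t * d := by
      intro a b c d h h'
      rcases eq_or_lt_of_le t0 with c | c
      · rw [← c]; linarith
      · nlinarith
    refine ⟨⟨?_, ?_, ?_, fun n h1 h2 => ⟨?_, ?_⟩⟩, {z | z.im ≤ 4 * t - 2}, cvx _,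
      fun n hn => ?_, p0_mem _ fun z hz => hz⟩
    · simp only [fi, h0.1, hs.1]
    · simp only [fr]; exact lt _ _ _ _ h0.2.1 hs.2.1
    · simp only [fi]; exact lt _ _ _ _ h0.2.2.1 hs.2.2.1
    · simp only [fi, (h0.2.2.2 n h1 h2).1, (hs.2.2.2 n h1 h2).1]
    · simp only [fr]; exact lt _ _ _ _ (h0.2.2.2 n h1 h2).2 (hs.2.2.2 n h1 h2).2
    · simp only [mem_setOf_eq, fi]
      nlinarith [s0_im (k := k) n, (hb n hn).2.2.2]

theorem v0 : ((0 : Fin 4) : ℕ) = 0 := rfl
theorem v1 : ((1 : Fin 4) : ℕ) = 1 := rfl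
theorem v2 : ((2 : Fin 4) : ℕ) = 2 := rfl
theorem v3 : ((3 : Fin 4) : ℕ) = 3 := rfl

theorem lB_eq (hk : 0 < k) (b : Bn k) : lB k b =
    if 2 * k * b.1.val + b.2.val = 2 * k - 1 then 2 * k
    else if 2 * k * b.1.val + b.2.val = 2 * k then 2 * k - 1
    else if 2 * k * b.1.val + b.2.val = 6 * k - 1 then 6 * k
    else if 2 * k * b.1.val + b.2.val = 6 * k then 6 * k - 1 else 2 * k * b.1.val + b.2.val := by
  rw [lB, swE_apply, swE_apply, lT_apply]
  generalize 2 * k * b.1.val + b.2.val = q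
  unfold sw
  split_ifs <;> omega

theorem lB_ft (hk : 0 < k) {a : Lb k} (h : Ft k a) : dbl (lB k) a = pos k (nn a) := by
  obtain ⟨⟨j, r⟩, e⟩ := a
  have hr := r.2
  have h' : r.val = 0 ∨ r.val + 1 = 2 * k := h
  rw [dbl_apply, lB_eq hk]
  simp only [nn, fS_eq, fE_eq]
  rcases h' with h' | h'
  · rw [if_pos h']
    rcases four j with rfl | rfl | rfl | rfl <;> cases e <;>
      simp only [v0, v1, v2, v3, pos, Bool.toNat_false, Bool.toNat_true, Nat.reduceDiv,
        Nat.reduceMul, Nat.reduceAdd, Nat.reduceMod] <;> split_ifs <;> omega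
  · rw [if_neg (by omega : ¬ r.val = 0)]
    rcases four j with rfl | rfl | rfl | rfl <;> cases e <;>
      simp only [v0, v1, v2, v3, pos, Bool.toNat_false, Bool.toNat_true, Nat.reduceDiv,
        Nat.reduceMul, Nat.reduceAdd, Nat.reduceMod] <;> split_ifs <;> omega

theorem lB_nft {a : Lb k} (h : ¬ Ft k a) : lB k a.1 = 2 * k * a.1.1.val + a.1.2.val := by
  obtain ⟨⟨j, r⟩, e⟩ := a
  have hr := r.2
  have h' : ¬ (r.val = 0 ∨ r.val + 1 = 2 * k) := h
  rw [lB_eq (by omega)]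
  rcases four j with rfl | rfl | rfl | rfl <;> simp only [v0, v1, v2, v3] <;> split_ifs <;> omega

theorem x0_im (a : Lb k) : (cf (s0 k) (p0 k 0) a).im = laB k a := by
  unfold cf laB
  split_ifs with h h1 h2 h3 h4 h5 h6
  · rw [mB_ft h] at h1; simp only [s0, if_pos h1]
  · rw [mB_ft h] at h1; simp only [s0, if_neg h1]
  · exact absurd ((ft_iff a).1 h) h2
  · exact absurd ((ft_iff a).1 h) h2
  · exact absurd ((ft_iff a).2 (by omega)) h
  · exact absurd ((ft_iff a).2 h5) h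
  · rw [pt_im, vv, if_pos h6, zero_add]
  · rw [pt_im, vv, if_neg h6, zero_add]

theorem x0_ft (hk : 0 < k) {a : Lb k} (h : Ft k a) :
    (cf (s0 k) (p0 k 0) a).re = dbl (lB k) a := by
  rw [cf, dif_pos h, lB_ft hk h]; rfl

theorem x0_nft {a : Lb k} (h : ¬ Ft k a) :
    (cf (s0 k) (p0 k 0) a).re = 2 * lB k a.1 + 1 / 2 := by
  rw [cf, dif_neg h, pt_re, lB_nft h, uu]
  have h' : ¬ (a.1.2.val = 0 ∨ a.1.2.val + 1 = 2 * k) := h
  simp only [ci]
  split_ifs with c
  · have : 4 * (k * a.1.1.val + (a.1.2.val - 1) / 2) + 2 = 2 * (2 * k * a.1.1.val + a.1.2.val) := by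
      rw [mul_assoc 2 k]; omega
    rw [this]; push_cast; ring
  · have : 4 * (k * a.1.1.val + (a.1.2.val - 1) / 2) + 2 + 2 =
        2 * (2 * k * a.1.1.val + a.1.2.val) := by
      rw [mul_assoc 2 k]; omega
    have h2 := congrArg (Nat.cast : ℕ → ℝ) this
    rw [Nat.cast_add _ 2, Nat.cast_mul 2] at h2
    norm_num only at h2 ⊢
    linarith

theorem x0_mem (hk : 0 < k) (a : Lb k) : (2 * lB k a.1 : ℝ) ≤ (cf (s0 k) (p0 k 0) a).re ∧
    (cf (s0 k) (p0 k 0) a).re ≤ 2 * lB k a.1 + 1 := by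
  by_cases h : Ft k a
  · rw [x0_ft hk h, dbl_apply]
    have := tn a.2
    constructor
    · exact_mod_cast (by omega : 2 * lB k a.1 ≤ 2 * lB k a.1 + a.2.toNat)
    · exact_mod_cast (by omega : 2 * lB k a.1 + a.2.toNat ≤ 2 * lB k a.1 + 1)
  · rw [x0_nft h]; constructor <;> linarith

theorem x0_ord (hk : 0 < k) (a a' : Lb k) (e : laB k a = laB k a')
    (h : dbl (lB k) a < dbl (lB k) a') :
    (cf (s0 k) (p0 k 0) a).re < (cf (s0 k) (p0 k 0) a').re := by
  have t1 := tn a.2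
  have t2 := tn a'.2
  by_cases c : a.1 = a'.1
  · by_cases f : Ft k a
    · rw [x0_ft hk f, x0_ft hk (by unfold Ft at *; rw [← c]; exact f)]
      exact_mod_cast h
    · exfalso
      have f' : ¬ Ft k a' := by unfold Ft at *; rw [← c]; exact f
      rw [ft_iff] at f f'
      rw [dbl_apply, dbl_apply, c] at h
      unfold laB at e
      rw [if_neg (by omega : ¬ mB k a = 0), if_neg f, if_neg (by omega : ¬ mB k a' = 0), if_neg f',
        c] at e
      split_ifs at e <;> first | omega | norm_num at e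
  · have c' : lB k a.1 ≠ lB k a'.1 := fun g => c ((lB k).injective g)
    rw [dbl_apply, dbl_apply] at h
    have h1 : ((lB k a.1 + 1 : ℕ) : ℝ) ≤ lB k a'.1 := Nat.cast_le.2 (by omega)
    push_cast at h1
    linarith [(x0_mem hk a).2, (x0_mem hk a').1]

theorem la_eq {a a' : Lb k} (e : mB k a = mB k a') : laB k a = laB k a' := by
  unfold laB
  rw [← e]
  split_ifs with h1 h2 h3 h4 h4 <;> try rfl
  all_goals
    have f : ¬ Ft k a := fun g => h2 ((ft_iff a).1 g)
    have f' : ¬ Ft k a' := fun g => h2 (e ▸ (ft_iff a').1 g)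
    rw [mB_nft f, mB_nft f'] at e
    omega

theorem all_trans {Y : Type} [TopologicalSpace Y] {a b c : Y} (P : Y → Prop) (γ : Path a b)
    (γ' : Path b c) (h : ∀ t, P (γ t)) (h' : ∀ t, P (γ' t)) (t) : P (γ.trans γ' t) := by
  rw [Path.trans_apply]
  split_ifs
  exacts [h _, h' _]

theorem cancel {Y : Type} [TopologicalSpace Y] {a b c d : Y} (σ : Path a c) (δ : Path b c)
    (τ : Path c d) : ((σ.trans τ).trans (δ.trans τ).symm).Homotopic (σ.trans δ.symm) := by
  rw [Path.trans_symm]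
  refine Path.Homotopic.trans ⟨Path.Homotopy.transAssoc _ _ _⟩
    ((Path.Homotopic.refl σ).hcomp ?_)
  refine Path.Homotopic.trans ⟨(Path.Homotopy.transAssoc _ _ _).symm⟩ ?_
  exact (Path.Homotopic.hcomp ⟨(Path.Homotopy.reflTransSymm τ).symm⟩
    (Path.Homotopic.refl _)).trans ⟨Path.Homotopy.reflTrans _⟩

end Bot

open Bot in
theorem rowBot (hW : RowW) (hC : RowCl) (hT : RowTB) : RowBot := by
  rintro k hk x ⟨s, hs, hb, h1, p, hp, h2⟩
  obtain ⟨-, -, -, -, -, -, -, l0, b0, e0, r0, m0, o0⟩ := hT k hk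
  have J := join hC hk hs hb hp
  let x0 : X (Lb k) := ⟨cf (s0 k) (p0 k 0), cf_inj J.source_mem⟩
  obtain ⟨τ, τ1, τ2⟩ := path_cf J (x := x0) (x' := x) rfl (eq_cf h1 h2)
  obtain ⟨σ, σ1, -, σ3, σ4⟩ := line l0 (laB k) x0 x0_im fun a a' e h =>
    x0_ord hk a a' e ((o0 a a' e).1 h)
  obtain ⟨δ, δ1, δ2, -, -⟩ := line (dbl (lB k)) (laB k) x0 x0_im (x0_ord hk)
  refine ⟨l0, σ.trans τ, δ.trans τ, b0, m0, all_trans _ _ _ (fun t => ?_) τ1,
    all_trans _ _ _ (fun t => ?_) τ2, IsW.homotopic ?_ (cancel σ δ τ)⟩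
  · exact scL l0 _ m0 _ (fun a a' e => by rw [σ3, σ3, la_eq e]) (σ4 t)
  · refine SC.congr (μ := fun a : Lb k => lB k a.1)
      (fun a a' => (lB k).injective.eq_iff.trans (lT k).injective.eq_iff.symm) ?_
    refine SC.of_re (fun m => 2 * m) (fun m => 2 * m + 1) (fun a => ?_) fun m n h => ?_
    · rw [δ2, dbl_apply]
      have t0 := t.2.1
      have t1 := t.2.2
      obtain ⟨a1, a2⟩ := x0_mem hk a
      have a3 : (0 : ℝ) ≤ a.2.toNat := Nat.cast_nonneg _
      have a4 : (a.2.toNat : ℝ) ≤ 1 := by exact_mod_cast Nat.lt_succ_iff.1 (tn a.2)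
      push_cast
      constructor <;> nlinarith
    · exact_mod_cast (by omega : 2 * m + 1 < 2 * n)
  · exact (hW _ (laB k)).2 _ _ _ r0 e0 _
      (all_trans (· ∈ Lay (laB k)) _ _ σ1 fun t => δ1 _)

end Vale.Agent.Q258U
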