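import Vale.Agent.Q258U.Core
import Mathlib.GroupTheory.Congruence.Basic
import Mathlib.Algebra.FreeMonoid.Basic

/-!
# The knot depends only on the braid
-/

set_option linter.all false

namespace Vale.Agent.Q258U.Br

open Vale.Agent.P258.Braid Vale.Agent.N258B Vale.Agent.Q258D Set Complex

variable {ι : Type}

theorem cfg_lay (la : ι → ℝ) (l : ι ↪ ℕ) : cfg l ∈ Lay la := fun i j h e => by
  rw [cfg_apply, cfg_apply, natCast_re, natCast_re] at e
  exact absurd (l.injective (Nat.cast_injective e)) h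

theorem lp_lay (la : ι → ℝ) (l : ι ↪ ℕ) (x : ℕ × Bool)
    (h : ∀ i j, l i = x.1 → l j = x.1 + 1 → if x.2 then la j < la i else la i < la j)
    (t : unitInterval) : lp l x t ∈ Lay la := fun i j hij e => by
  have hl : l i ≠ l j := fun e => hij (l.injective e)
  have t0 := t.2.1
  have t1 := t.2.2
  have key : ∀ {a b : ℕ}, (a : ℝ) ≤ b → (b : ℝ) ≤ a + 1 → b = a ∨ b = a + 1 := fun {a b} h1 h2 => by
    have h1' : a ≤ b := by exact_mod_cast h1
    have h2' : b ≤ a + 1 := by exact_mod_cast h2
    omega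
  rw [lp_apply, lp_apply] at e ⊢
  unfold mv at e ⊢
  split_ifs at e ⊢ with c1 c2 c3 c4 c5 c6 c7 c8 <;> simp only [natCast_re, natCast_im] at e ⊢
  · omega
  · have k := h i j c1 c3
    have e2 : (t : ℝ) = 1 / 2 := by rw [c1, c3] at e; push_cast at e; linarith
    rw [e2]
    cases hx : x.2 <;> simp only [hx, sg] at k ⊢ <;> norm_num at k ⊢
    · exact k.ne
    · exact ⟨k.ne', k.le⟩
  · have := key (a := l i) (b := l j) (by linarith) (by linarith)
    omega
  · have k := h j i c5 c4
    have e2 : (t : ℝ) = 1 / 2 := by rw [c4, c5] at e; push_cast at e; linarith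
    rw [e2]
    cases hx : x.2 <;> simp only [hx, sg] at k ⊢ <;> norm_num at k ⊢
    · exact ⟨k.ne', k.le⟩
    · exact k.ne
  · omega
  · have := key (a := l j) (b := l i) (by linarith) (by linarith)
    omega
  · have := key (a := l j) (b := l i) (by linarith) (by linarith)
    omega
  · have := key (a := l i) (b := l j) (by linarith) (by linarith)
    omega
  · exact absurd (Nat.cast_injective e) hl

theorem exists_lay (la : ι → ℝ) (w : Word) : ∀ l : ι ↪ ℕ, Resp la l w →
    ∃ γ : Path (cfg l) (cfg (fin l w)), ∀ t, γ t ∈ Lay la := by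
  induction w with
  | nil => exact fun l _ => ⟨Path.refl _, fun _ => cfg_lay la l⟩
  | cons x w ih =>
    intro l h
    obtain ⟨δ, hδ⟩ := ih (swE x l) h.2
    refine ⟨(lp l x).trans δ, fun t => ?_⟩
    have : ((lp l x).trans δ) t ∈ range (lp l x) ∪ range δ :=
      Path.trans_range (lp l x) δ ▸ mem_range_self t
    rcases this with ⟨s, e⟩ | ⟨s, e⟩
    · exact e ▸ lp_lay la l x h.1 s
    · exact e ▸ hδ s

/-- two words that respect the same layers have the same paths -/
theorem of_resp [Finite ι] (hW : RowW) (la : ι → ℝ) {l l' : ι ↪ ℕ} {u v : Word}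
    (hu : Resp la l u) (hv : Resp la l v) (e : fin l u = fin l v) {γ : Path (cfg l) (cfg l')}
    (h : IsW l l' u γ) : IsW l l' v γ := by
  obtain rfl := h.fin
  obtain ⟨δ, hδ⟩ := exists_lay la u l hu
  exact ((hW ι la).2 l _ v hv e δ hδ).homotopic (h.unique ((hW ι la).2 l _ u hu rfl δ hδ))

/-- words with the same paths -/
def Same (ι : Type) (u v : Word) : Prop :=
  ∀ (l l' : ι ↪ ℕ) (γ : Path (cfg l) (cfg l')), IsW l l' u γ ↔ IsW l l' v γ

theorem Same.append {u u' v v' : Word} (h : Same ι u u') (h' : Same ι v v') :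
    Same ι (u ++ v) (u' ++ v') := by
  have key : ∀ {u u' v v' : Word}, Same ι u u' → Same ι v v' → ∀ (l l' : ι ↪ ℕ)
      (γ : Path (cfg l) (cfg l')), IsW l l' (u ++ v) γ → IsW l l' (u' ++ v') γ := by
    intro u u' v v' h h' l l' γ k
    obtain ⟨α, β, ha, hb, e⟩ := k.split
    exact (((h _ _ _).1 ha).append ((h' _ _ _).1 hb)).homotopic e
  exact fun l l' γ => ⟨key h h' l l' γ,
    key (fun a b c => (h a b c).symm) (fun a b c => (h' a b c).symm) l l' γ⟩

theorem same_of [Finite ι] (hW : RowW) (φ : ℕ → ℝ) {u v : Word}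
    (hu : ∀ l : ι ↪ ℕ, Resp (fun i => φ (l i)) l u) (hv : ∀ l : ι ↪ ℕ, Resp (fun i => φ (l i)) l v)
    (e : ∀ q, u.foldl (fun q x => sw x q) q = v.foldl (fun q x => sw x q) q) : Same ι u v := by
  have e' : ∀ l : ι ↪ ℕ, fin l u = fin l v := fun l => by
    ext i; rw [fin_apply, fin_apply, e]
  exact fun l l' γ => ⟨of_resp hW _ (hu l) (hv l) (e' l), of_resp hW _ (hv l) (hu l) (e' l).symm⟩

theorem dn {a b : ℕ} (h : a < b) : -(b : ℝ) < -(a : ℝ) := neg_lt_neg (by exact_mod_cast h)

theorem upw {a b : ℕ} (h : a < b) : (a : ℝ) < (b : ℝ) := by exact_mod_cast h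

theorem cancel1 [Finite ι] (hW : RowW) (q : ℕ) : Same ι [(q, true), (q, false)] [] := by
  refine same_of hW (fun a => -(a : ℝ)) (fun l => ?_) (fun l => trivial) fun s => ?_
  · simp only [Resp, swE_apply, sw, and_true, if_true, Bool.false_eq_true, if_false]
    refine ⟨fun i j h1 h2 => dn (by omega), fun i j h1 h2 => dn ?_⟩
    split_ifs at h1 h2 <;> omega
  · simp only [List.foldl, sw]
    split_ifs <;> omega

theorem cancel2 [Finite ι] (hW : RowW) (q : ℕ) : Same ι [(q, false), (q, true)] [] := by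
  refine same_of hW (fun a => (a : ℝ)) (fun l => ?_) (fun l => trivial) fun s => ?_
  · simp only [Resp, swE_apply, sw, and_true, if_true, Bool.false_eq_true, if_false]
    refine ⟨fun i j h1 h2 => upw (by omega), fun i j h1 h2 => upw ?_⟩
    split_ifs at h1 h2 <;> omega
  · simp only [List.foldl, sw]
    split_ifs <;> omega

theorem comm [Finite ι] (hW : RowW) {p q : ℕ} (h : p + 2 ≤ q) :
    Same ι [(p, true), (q, true)] [(q, true), (p, true)] := by
  refine same_of hW (fun a => -(a : ℝ)) (fun l => ?_) (fun l => ?_) fun s => ?_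
  · simp only [Resp, swE_apply, sw, and_true, if_true]
    refine ⟨fun i j h1 h2 => dn (by omega), fun i j h1 h2 => dn ?_⟩
    split_ifs at h1 h2 <;> omega
  · simp only [Resp, swE_apply, sw, and_true, if_true]
    refine ⟨fun i j h1 h2 => dn (by omega), fun i j h1 h2 => dn ?_⟩
    split_ifs at h1 h2 <;> omega
  · simp only [List.foldl, sw]
    split_ifs <;> omega

theorem braid [Finite ι] (hW : RowW) (p : ℕ) :
    Same ι [(p, true), (p + 1, true), (p, true)] [(p + 1, true), (p, true), (p + 1, true)] := by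
  refine same_of hW (fun a => -(a : ℝ)) (fun l => ?_) (fun l => ?_) fun s => ?_
  · simp only [Resp, swE_apply, sw, and_true, if_true]
    refine ⟨fun i j h1 h2 => dn (by omega), fun i j h1 h2 => dn ?_, fun i j h1 h2 => dn ?_⟩ <;>
    split_ifs at h1 h2 <;> omega
  · simp only [Resp, swE_apply, sw, and_true, if_true]
    refine ⟨fun i j h1 h2 => dn (by omega), fun i j h1 h2 => dn ?_, fun i j h1 h2 => dn ?_⟩ <;>
    split_ifs at h1 h2 <;> omega
  · simp only [List.foldl]
    have n1 : p + 1 + 1 ≠ p := by omega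
    have n2 : p ≠ p + 1 + 1 := by omega
    by_cases h0 : s = p
    · subst h0; simp [sw, n1, n2]
    by_cases h1 : s = p + 1
    · subst h1; simp [sw, n1, n2]
    by_cases h2 : s = p + 1 + 1
    · subst h2; simp [sw, n1, n2]
    simp [sw, h0, h1, h2]

/-- the congruence on words -/
def con (ι : Type) : Con (FreeMonoid (ℕ × Bool)) where
  r u v := Same ι u.toList v.toList
  iseqv := ⟨fun _ _ _ _ => Iff.rfl, fun h a b c => (h a b c).symm,
    fun h h' a b c => (h a b c).trans (h' a b c)⟩
  mul' h h' := Same.append h h'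

/-- the class of a word -/
def cl (ι : Type) (w : Word) : (con ι).Quotient := (con ι).mk' (FreeMonoid.ofList w)

theorem cl_append (u v : Word) : cl ι (u ++ v) = cl ι u * cl ι v := by
  rw [cl, cl, cl, ← map_mul, FreeMonoid.ofList_append]

theorem cl_nil : cl ι [] = 1 := map_one (con ι).mk'

theorem cl_eq {u v : Word} : cl ι u = cl ι v ↔ Same ι u v := (con ι).eq

/-- the unit of a generator -/
def gen [Finite ι] (hW : RowW) (q : ℕ) : ((con ι).Quotient)ˣ where
  val := cl ι [(q, true)]
  inv := cl ι [(q, false)]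
  val_inv := by rw [← cl_append, ← cl_nil]; exact cl_eq.2 (cancel1 hW q)
  inv_val := by rw [← cl_append, ← cl_nil]; exact cl_eq.2 (cancel2 hW q)

theorem rels [Finite ι] (hW : RowW) (m : ℕ) : ∀ r ∈ braidRels m,
    FreeGroup.lift (fun i : Fin (m - 1) => gen (ι := ι) hW i.val) r = 1 := by
  rintro _ (⟨i, j, h, rfl⟩ | ⟨i, j, h, rfl⟩)
  · simp only [map_mul, map_inv, FreeGroup.lift_apply_of, mul_inv_eq_one]
    apply Units.ext
    simp only [Units.val_mul, gen, ← cl_append, ← h]
    exact cl_eq.2 (braid hW i.val)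
  · simp only [map_mul, map_inv, FreeGroup.lift_apply_of, mul_inv_eq_one]
    apply Units.ext
    simp only [Units.val_mul, gen, ← cl_append]
    exact cl_eq.2 (comm hW h)

theorem hom_word [Finite ι] (hW : RowW) (m : ℕ) (w : Word) (h : Rng m w) :
    (PresentedGroup.toGroup (rels (ι := ι) hW m) (toBraid m w)).val = cl ι w := by
  induction w with
  | nil => simp [toBraid, cl_nil]
  | cons x w ih =>
    obtain ⟨h1, h2⟩ := rng_cons.1 h
    have e : toBraid m (x :: w) = letter m x * toBraid m w := by simp [toBraid]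
    rw [e, map_mul, Units.val_mul, ih h2, show x :: w = [x] ++ w from rfl, cl_append]
    congr 1
    obtain ⟨q, d⟩ := x
    rw [letter, dif_pos (by simp only at h1 ⊢; omega)]
    cases d
    · simp only [Bool.false_eq_true, if_false, map_inv, PresentedGroup.toGroup.of]
      rfl
    · simp only [if_true, PresentedGroup.toGroup.of]
      rfl

/-- words with the same braid have the same paths -/
theorem same_of_braid [Finite ι] (hW : RowW) {m : ℕ} {w w' : Word} (h : Rng m w) (h' : Rng m w')
    (e : toBraid m w = toBraid m w') : Same ι w w' := by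
  rw [← cl_eq, ← hom_word hW m w h, ← hom_word hW m w' h', e]

end Vale.Agent.Q258U.Br

namespace Vale.Agent.Q258U

theorem rowBr (hW : RowW) (h2 : RowC2) : RowBr := by
  intro b w w' h h' n n' e
  obtain ⟨γ, hγ⟩ := IsW.exists w (idE (2 * b))
  have hγ' := (Br.same_of_braid hW h h' e _ _ γ).1 hγ
  exact (h2 _ b _ _ w γ (bij_idE _) h n hγ).symm.trans (h2 _ b _ _ w' γ (bij_idE _) h' n' hγ')

end Vale.Agent.Q258U
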