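import Vale.Agent.Q258U.Core
import Mathlib.Topology.MetricSpace.Contracting
import Mathlib.Topology.Order.Lattice
import Mathlib.Topology.Order.ProjIcc

/-!
# Families of strands: level preserving homeomorphisms
-/

set_option linter.all false

namespace Vale.Agent.Q258U

open Set Complex Filter Topology

namespace C1

/-- a displacement that is a contraction on each level gives a homeomorphism -/
theorem shear (φ : E3 → ℂ) (hc : Continuous φ)
    (hl : ∀ t z z', ‖φ (z, t) - φ (z', t)‖ ≤ 1 / 2 * ‖z - z'‖) :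
    ∃ h : E3 ≃ₜ E3, ∀ z t, h (z, t) = (z + φ (z, t), t) := by
  have low : ∀ t z z', ‖z - z'‖ ≤ 2 * ‖(z + φ (z, t)) - (z' + φ (z', t))‖ := fun t z z' => by
    have h1 := hl t z z'
    have h2 : z - z' = ((z + φ (z, t)) - (z' + φ (z', t))) - (φ (z, t) - φ (z', t)) := by ring
    have h3 := norm_sub_le ((z + φ (z, t)) - (z' + φ (z', t))) (φ (z, t) - φ (z', t))
    rw [← h2] at h3
    linarith
  have sur : ∀ p : E3, ∃ z, z + φ (z, p.2) = p.1 := fun p => by
    have hk : ContractingWith (1 / 2) fun z => p.1 - φ (z, p.2) := by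
      refine ⟨by norm_num, LipschitzWith.of_dist_le_mul fun z z' => ?_⟩
      rw [dist_eq_norm, dist_eq_norm]
      have e : p.1 - φ (z, p.2) - (p.1 - φ (z', p.2)) = -(φ (z, p.2) - φ (z', p.2)) := by ring
      rw [e, norm_neg]
      simpa using hl p.2 z z'
    refine ⟨hk.fixedPoint _, ?_⟩
    have e : p.1 - φ (hk.fixedPoint _, p.2) = hk.fixedPoint _ := hk.fixedPoint_isFixedPt
    exact (eq_sub_iff_add_eq.1 e.symm)
  choose g hg using sur
  have cg : Continuous g := by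
    refine continuous_iff_continuousAt.2 fun q => ?_
    refine tendsto_iff_norm_sub_tendsto_zero.2 ?_
    have c1 : Continuous fun p : E3 => 2 * ‖p.1 - (g q + φ (g q, p.2))‖ := by fun_prop
    have c2 := c1.tendsto q
    rw [hg q, sub_self, norm_zero, mul_zero] at c2
    refine squeeze_zero (fun _ => norm_nonneg _) (fun p => ?_) c2
    have h1 := low p.2 (g p) (g q)
    rwa [hg p] at h1
  refine ⟨⟨⟨fun p => (p.1 + φ p, p.2), fun p => (g p, p.2), fun p => ?_, fun p => ?_⟩, ?_, ?_⟩,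
    fun z t => rfl⟩
  · refine Prod.ext ?_ rfl
    have h1 := low p.2 (g (p.1 + φ p, p.2)) p.1
    have h2 := hg (p.1 + φ p, p.2)
    dsimp only at h2 ⊢
    rw [h2, sub_self, norm_zero, mul_zero] at h1
    exact sub_eq_zero.1 (norm_le_zero_iff.1 h1)
  · exact Prod.ext (hg p) rfl
  · dsimp only; fun_prop
  · dsimp only; fun_prop

/-- extension of real values, level by level -/
theorem ext1 {ι : Type} [Finite ι] [Nonempty ι] (y : ι → ℝ → ℂ) (f : ι → ℝ → ℝ)
    (hy : ∀ i, Continuous (y i)) (hf : ∀ i, Continuous (f i))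
    (h : ∀ t i j, f i t - f j t ≤ 1 / 4 * ‖y i t - y j t‖) :
    ∃ ψ : E3 → ℝ, Continuous ψ ∧ (∀ i t, ψ (y i t, t) = f i t) ∧
      ∀ t z z', |ψ (z, t) - ψ (z', t)| ≤ 1 / 4 * ‖z - z'‖ := by
  classical
  have := Fintype.ofFinite ι
  refine ⟨fun p => Finset.univ.inf' Finset.univ_nonempty
    fun i => f i p.2 + 1 / 4 * ‖p.1 - y i p.2‖, ?_, fun i t => ?_, ?_⟩
  · refine Continuous.finset_inf'_apply _ fun i _ => ?_
    have := hy i
    have := hf i
    fun_prop
  · refine le_antisymm ((Finset.inf'_le _ (Finset.mem_univ i)).trans (by simp)) ?_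
    refine Finset.le_inf' _ _ fun j _ => ?_
    have := h t i j
    dsimp only
    linarith
  · have key : ∀ t z z', (Finset.univ.inf' Finset.univ_nonempty
        fun i => f i t + 1 / 4 * ‖z - y i t‖) - (Finset.univ.inf' Finset.univ_nonempty
        fun i => f i t + 1 / 4 * ‖z' - y i t‖) ≤ 1 / 4 * ‖z - z'‖ := fun t z z' => by
      obtain ⟨j, -, hj⟩ := Finset.exists_mem_eq_inf' (Finset.univ_nonempty (α := ι))
        fun i => f i t + 1 / 4 * ‖z' - y i t‖
      rw [hj]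
      have h1 := Finset.inf'_le (fun i => f i t + 1 / 4 * ‖z - y i t‖) (Finset.mem_univ j)
      have h2 := norm_sub_le_norm_sub_add_norm_sub z z' (y j t)
      linarith
    intro t z z'
    refine abs_le.2 ⟨?_, key t z z'⟩
    have h1 := key t z' z
    rw [norm_sub_rev] at h1
    dsimp only
    linarith

/-- a small displacement of strands -/
theorem step0 {ι : Type} [Finite ι] (y d : ι → ℝ → ℂ)
    (hy : ∀ i, Continuous (y i)) (hd : ∀ i, Continuous (d i))
    (h : ∀ t i j, ‖d i t - d j t‖ ≤ 1 / 4 * ‖y i t - y j t‖) :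
    ∃ h : E3 ≃ₜ E3, ∀ i t, h (y i t, t) = (y i t + d i t, t) := by
  rcases isEmpty_or_nonempty ι with h0 | h0
  · exact ⟨Homeomorph.refl _, fun i => h0.elim i⟩
  obtain ⟨ψ, c1, v1, l1⟩ := ext1 y (fun i t => (d i t).re) hy
    (fun i => continuous_re.comp (hd i)) fun t i j =>
      ((le_abs_self _).trans (by rw [← sub_re]; exact abs_re_le_norm _)).trans (h t i j)
  obtain ⟨χ, c2, v2, l2⟩ := ext1 y (fun i t => (d i t).im) hy
    (fun i => continuous_im.comp (hd i)) fun t i j =>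
      ((le_abs_self _).trans (by rw [← sub_im]; exact abs_im_le_norm _)).trans (h t i j)
  obtain ⟨H, hH⟩ := shear (fun p => (ψ p : ℂ) + (χ p : ℂ) * I) (by fun_prop) fun t z z' => by
    refine (norm_le_abs_re_add_abs_im _).trans ?_
    have h1 := l1 t z z'
    have h2 := l2 t z z'
    simp only [sub_re, add_re, ofReal_re, mul_re, I_re, mul_zero, ofReal_im, I_im, mul_one,
      sub_self, add_zero, sub_im, add_im, mul_im, zero_add]
    linarith
  refine ⟨H, fun i t => ?_⟩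
  rw [hH, v1, v2, re_add_im]

/-- the same on an interval -/
theorem step1 {ι : Type} [Finite ι] {a b : ℝ} (hab : a ≤ b) (y y' : ι → ℝ → ℂ)
    (hy : ∀ i, ContinuousOn (y i) (Icc a b)) (hy' : ∀ i, ContinuousOn (y' i) (Icc a b))
    (h : ∀ t ∈ Icc a b, ∀ i j,
      ‖(y' i t - y' j t) - (y i t - y j t)‖ ≤ 1 / 4 * ‖y i t - y j t‖) :
    ∃ h : E3 ≃ₜ E3, ∀ i, ∀ t ∈ Icc a b, h (y i t, t) = (y' i t, t) := by
  have cp : Continuous fun t => ((projIcc a b hab t : Icc a b) : ℝ) :=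
    continuous_subtype_val.comp continuous_projIcc
  have c : ∀ i, Continuous fun t => y i (projIcc a b hab t) := fun i =>
    (hy i).comp_continuous cp fun t => (projIcc a b hab t).2
  have c' : ∀ i, Continuous fun t => y' i (projIcc a b hab t) := fun i =>
    (hy' i).comp_continuous cp fun t => (projIcc a b hab t).2
  obtain ⟨H, hH⟩ := step0 (fun i t => y i (projIcc a b hab t))
    (fun i t => y' i (projIcc a b hab t) - y i (projIcc a b hab t)) c
    (fun i => (c' i).sub (c i)) fun t i j => by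
      have h1 := h _ (projIcc a b hab t).2 i j
      convert h1 using 2
      ring
  refine ⟨H, fun i t ht => ?_⟩
  have h1 := hH i t
  rw [projIcc_of_mem hab ht] at h1
  simpa using h1

/-- relative uniform continuity of a function without zeros -/
theorem near {a b : ℝ} (hab : a ≤ b) (D : ℝ × ℝ → ℂ) (hD : ContinuousOn D (Icc 0 1 ×ˢ Icc a b))
    (h0 : ∀ s ∈ Icc (0 : ℝ) 1, ∀ t ∈ Icc a b, D (s, t) ≠ 0) (s : ℝ) (hs : s ∈ Icc (0 : ℝ) 1) :
    ∀ᶠ s' in 𝓝[Icc 0 1] s, ∀ t ∈ Icc a b, ‖D (s', t) - D (s, t)‖ ≤ 1 / 4 * ‖D (s, t)‖ := by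
  have hK : IsCompact (Icc (0 : ℝ) 1 ×ˢ Icc a b) := isCompact_Icc.prod isCompact_Icc
  obtain ⟨p, hp, hm⟩ := hK.exists_isMinOn ⟨(s, a), hs, left_mem_Icc.2 hab⟩ hD.norm
  have pos : 0 < 1 / 4 * ‖D p‖ := by
    have := norm_pos_iff.2 (h0 p.1 hp.1 p.2 hp.2)
    positivity
  obtain ⟨δ, hδ, hu⟩ := Metric.uniformContinuousOn_iff.1
    (hK.uniformContinuousOn_of_continuous hD) _ pos
  filter_upwards [self_mem_nhdsWithin, mem_nhdsWithin_of_mem_nhds (Metric.ball_mem_nhds s hδ)]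
    with s' h1 h2 t ht
  have h3 := hu (s', t) ⟨h1, ht⟩ (s, t) ⟨hs, ht⟩ (by
    rw [Prod.dist_eq, dist_self]
    exact max_lt h2 hδ)
  have h4 : ‖D p‖ ≤ ‖D (s, t)‖ := hm (⟨hs, ht⟩ : (s, t) ∈ Icc (0 : ℝ) 1 ×ˢ Icc a b)
  rw [dist_eq_norm] at h3
  linarith

end C1

theorem rowC1 : RowC1 := by
  intro ι _ a b Y hab hY hD
  choose φ D cD hD using hD
  have cs : ∀ s ∈ Icc (0 : ℝ) 1, ∀ i, ContinuousOn (fun t => Y i (s, t)) (Icc a b) :=
    fun s hs i => (hY i).comp (by fun_prop) fun t ht => ⟨hs, ht⟩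
  refine isPreconnected_Icc.induction₂
    (fun s s' => ∃ h : E3 ≃ₜ E3, ∀ i, ∀ t ∈ Icc a b, h (Y i (s, t), t) = (Y i (s', t), t))
    (fun s hs => ?_) ?_ ?_ (left_mem_Icc.2 zero_le_one) (right_mem_Icc.2 zero_le_one)
  · have h1 : ∀ᶠ s' in 𝓝[Icc 0 1] s, ∀ i j, ∀ t ∈ Icc a b,
        ‖D i j (s', t) - D i j (s, t)‖ ≤ 1 / 4 * ‖D i j (s, t)‖ :=
      eventually_all.2 fun i => eventually_all.2 fun j =>
        C1.near hab _ (cD i j) (fun s hs t ht => (hD i j s hs t ht).1) s hs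
    filter_upwards [h1, self_mem_nhdsWithin] with s' h2 hs'
    refine C1.step1 hab _ _ (cs s hs) (cs s' hs') fun t ht i j => ?_
    rw [(hD i j s hs t ht).2, (hD i j s' hs' t ht).2, ← mul_sub, norm_mul, norm_mul,
      mul_left_comm]
    exact mul_le_mul_of_nonneg_left (h2 i j t ht) (norm_nonneg _)
  · rintro s s' s'' - - - ⟨h, e⟩ ⟨h', e'⟩
    exact ⟨h.trans h', fun i t ht => by rw [Homeomorph.trans_apply, e i t ht, e' i t ht]⟩
  · rintro s s' - - ⟨h, e⟩
    exact ⟨h.symm, fun i t ht => by rw [← e i t ht, h.symm_apply_apply]⟩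

end Vale.Agent.Q258U
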