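import Vale.Agent.Q258U.Core

/-!
# Plats of words are the knots of the statement
-/

set_option linter.all false

namespace Vale.Agent.Q258U

open Vale.Agent.P258.Braid Vale.Agent.N258B Vale.Agent.Q258D Set Complex

namespace C2

variable {ι : Type}

/-- the motion of the points, without the caps -/
noncomputable def U : Word → ℕ → ℝ → ℂ
  | [], q, _ => q
  | x :: w, q, t => if t ≤ 1 then mv x q (max t 0) else U w (sw x q) (t - 1)

theorem U_zero (w : Word) (q : ℕ) : U w q 0 = q := by
  cases w with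
  | nil => rfl
  | cons x w => simp [U, mv_zero]

theorem U_low (x : ℕ × Bool) (w : Word) (q : ℕ) {t : ℝ} (h0 : 0 ≤ t) (h1 : t ≤ 1) :
    U (x :: w) q t = mv x q t := by
  rw [U, if_pos h1, max_eq_left h0]

theorem U_high (x : ℕ × Bool) (w : Word) (q : ℕ) {t : ℝ} (h : 1 ≤ t) :
    U (x :: w) q t = U w (sw x q) (t - 1) := by
  rcases h.eq_or_lt with rfl | h
  · rw [U_low _ _ _ zero_le_one le_rfl, mv_one, sub_self, U_zero]
  · rw [U, if_neg (not_le.2 h)]

theorem U_cont (w : Word) : ∀ q, Continuous (U w q) := by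
  induction w with
  | nil => exact fun _ => continuous_const
  | cons x w ih =>
    intro q
    refine Continuous.if_le ((cont_mv x q).comp (continuous_id.max continuous_const))
      ((ih _).comp (continuous_id.sub continuous_const)) continuous_id continuous_const ?_
    intro t ht
    obtain rfl : t = 1 := ht
    simp [mv_one, U_zero]

theorem U_inj (w : Word) : ∀ (t : ℝ) (a c : ℕ), U w a t = U w c t → a = c := by
  induction w with
  | nil => exact fun _ _ _ h => Nat.cast_injective h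
  | cons x w ih =>
    intro t a c h
    by_cases ht : t ≤ 1
    · rw [U, U, if_pos ht, if_pos ht] at h
      exact mv_inj x (le_max_right _ _) (max_le ht zero_le_one) h
    · rw [U, U, if_neg ht, if_neg ht] at h
      have := congrArg (sw x) (ih _ _ _ h)
      rwa [sw_sw, sw_sw] at this

theorem U_top (w : Word) : ∀ q : ℕ,
    U w q w.length = ((w.foldl (fun q x => sw x q) q : ℕ) : ℂ) := by
  induction w with
  | nil => exact fun _ => rfl
  | cons x w ih =>
    intro q
    have h : (0 : ℝ) ≤ w.length := Nat.cast_nonneg _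
    rw [U_high _ _ _ (by simp), List.foldl_cons, ← ih]
    simp

theorem cap_zero (b q : ℕ) : cap b q 0 = q := by
  unfold cap; split_ifs <;> simp

theorem up_mid (b : ℕ) (w : Word) : ∀ (q : ℕ) (t : ℝ), 0 ≤ t → t ≤ w.length →
    up b w q t = U w q t := by
  induction w with
  | nil =>
    intro q t h0 h1
    obtain rfl : t = 0 := le_antisymm (by simpa using h1) h0
    exact cap_zero b q
  | cons x w ih =>
    intro q t h0 h1
    by_cases ht : t ≤ 1
    · rw [up, if_pos ht, U_low _ _ _ h0 ht]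
    · rw [up, U, if_neg ht, if_neg ht]
      refine ih _ _ (by linarith [not_le.1 ht]) ?_
      simp only [List.length_cons, Nat.cast_add, Nat.cast_one] at h1
      linarith

theorem up_top (b : ℕ) (w : Word) : ∀ (q : ℕ) (s : ℝ), 0 ≤ s →
    up b w q (w.length + s) = cap b (w.foldl (fun q x => sw x q) q) s := by
  induction w with
  | nil => intro q s _; simp [up]
  | cons x w ih =>
    intro q s hs
    have h : (0 : ℝ) ≤ w.length := Nat.cast_nonneg _
    have e : ((x :: w).length : ℝ) + s = (w.length + s) + 1 := by simp; ring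
    rw [e, List.foldl_cons, ← ih _ _ hs, up]
    split_ifs with ht
    · have e1 : (w.length : ℝ) + s = 0 := by linarith
      rw [e1, zero_add, mv_one, up_mid b w _ 0 le_rfl h, U_zero]
    · rw [add_sub_cancel_right]

theorem strand_nonneg (b : ℕ) (w : Word) (q : ℕ) {t : ℝ} (h : 0 ≤ t) :
    strand b w q t = up b w q t := by
  unfold strand
  split_ifs with ht
  · obtain rfl : t = 0 := le_antisymm ht h
    rw [neg_zero, cap_zero, up_mid b w q 0 le_rfl (Nat.cast_nonneg _), U_zero]
  · rfl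

theorem cap_eq {b a c : ℕ} (ha : a < 2 * b) (hne : a ≠ c) (h : a / 2 = c / 2) {s : ℝ}
    (hs : s ≤ 1) : cap b a s = (a : ℂ) + (s / 2 : ℝ) * ((c : ℂ) - a) := by
  rw [cap, if_pos ha, min_eq_left hs]
  rcases Nat.even_or_odd a with he | ho
  · obtain rfl : c = a + 1 := by obtain ⟨k, hk⟩ := he; omega
    rw [he.neg_one_pow]; push_cast; ring
  · obtain rfl : a = c + 1 := by obtain ⟨k, hk⟩ := ho; omega
    rw [ho.neg_one_pow]; push_cast; ring

/-- the configuration at the time `t` -/
noncomputable def cf (w : Word) (l : ι ↪ ℕ) (t : ℝ) : X ι :=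
  ⟨fun i => U w (l i) t, fun _ _ h => l.injective (U_inj w t _ _ h)⟩

theorem cf_cont (w : Word) (l : ι ↪ ℕ) : Continuous (cf w l) :=
  (continuous_pi fun i => U_cont w (l i)).subtype_mk _

/-- the path of a word -/
noncomputable def kp (w : Word) (l : ι ↪ ℕ) : Path (cfg l) (cfg (fin l w)) where
  toFun t := cf w l (w.length * t)
  continuous_toFun := (cf_cont w l).comp (continuous_const.mul continuous_subtype_val)
  source' := Subtype.ext (funext fun i => by simp [cf, U_zero, cfg_apply])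
  target' := Subtype.ext (funext fun i => by simp [cf, U_top, cfg_apply, fin_apply])

theorem kp_apply (w : Word) (l : ι ↪ ℕ) (t : unitInterval) (i : ι) :
    (kp w l t).1 i = U w (l i) (w.length * t) := rfl

/-- two parametrisations of the same curve -/
theorem repar {Z : Type} [TopologicalSpace Z] {x y : Z} (γ γ' : Path x y) (f : ℝ → Z)
    (hf : Continuous f) (ρ ρ' : unitInterval → ℝ) (h : Continuous ρ) (h' : Continuous ρ')
    (e0 : ρ 0 = ρ' 0) (e1 : ρ 1 = ρ' 1) (e : ∀ t, γ t = f (ρ t)) (e' : ∀ t, γ' t = f (ρ' t)) :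
    γ.Homotopic γ' := by
  refine ⟨⟨⟨⟨fun p => f (ρ p.2 + p.1 * (ρ' p.2 - ρ p.2)), hf.comp (by fun_prop)⟩,
    fun t => ?_, fun t => ?_⟩, fun s t ht => ?_⟩⟩
  · simp [e]
  · simp [e']
  · rcases ht with rfl | rfl
    · simp [← e0, ← e]
    · simp [← e1, ← e]

theorem isW (w : Word) : ∀ l : ι ↪ ℕ, IsW l (fin l w) w (kp w l) := by
  induction w with
  | nil =>
    intro l
    refine IsW.nil _ _ ?_
    have : kp [] l = Path.refl _ := by ext t i; rfl
    rw [this]
  | cons x w ih =>
    intro l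
    refine IsW.cons _ _ x w (kp w (swE x l)) _ (ih _) ?_
    have h : (0 : ℝ) ≤ w.length := Nat.cast_nonneg _
    refine repar _ _ (cf (x :: w) l) (cf_cont _ _) (fun t => (x :: w).length * t)
      (fun t => min (2 * (t : ℝ)) 1 + w.length * max (2 * (t : ℝ) - 1) 0) (by fun_prop) (by fun_prop)
      (by simp) (by norm_num [add_comm]) (fun t => rfl) fun t => ?_
    rw [Path.trans_apply]
    split_ifs with ht
    · refine Subtype.ext (funext fun i => ?_)
      have h1 : 2 * (t : ℝ) ≤ 1 := by linarith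
      have h0 : 0 ≤ 2 * (t : ℝ) := by linarith [t.2.1]
      show mv x (l i) (2 * t) = U (x :: w) (l i) _
      rw [min_eq_left h1, max_eq_right (by linarith), mul_zero, add_zero, U_low _ _ _ h0 h1]
    · refine Subtype.ext (funext fun i => ?_)
      have h1 : 1 ≤ 2 * (t : ℝ) := by linarith [not_le.1 ht]
      show U w (sw x (l i)) (w.length * (2 * t - 1)) = U (x :: w) (l i) _
      rw [min_eq_right h1, max_eq_left (by linarith), U_high _ _ _
        (by nlinarith), add_sub_cancel_left]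

/-- the change of the height -/
noncomputable def ht (n t : ℝ) : ℝ := t + (n - 1) * max 0 (min t 1)

theorem ht_low (n : ℝ) {t : ℝ} (h : t ≤ 0) : ht n t = t := by
  rw [ht, max_eq_left ((min_le_left _ _).trans h), mul_zero, add_zero]

theorem ht_mid (n : ℝ) {t : ℝ} (h0 : 0 ≤ t) (h1 : t ≤ 1) : ht n t = n * t := by
  rw [ht, min_eq_left h1, max_eq_right h0]; ring

theorem ht_top (n : ℝ) {s : ℝ} (h : 0 ≤ s) : ht n (1 + s) = n + s := by
  rw [ht, min_eq_right (by linarith), max_eq_right zero_le_one]; ring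

theorem exists_ht {n : ℝ} (hn : 1 ≤ n) : ∃ h : E3 ≃ₜ E3, ∀ z t, h (z, t) = (z, ht n t) := by
  have hm : StrictMono (ht n) := fun s t hst =>
    add_lt_add_of_lt_of_le hst (mul_le_mul_of_nonneg_left
      (max_le_max le_rfl (min_le_min hst.le le_rfl)) (by linarith))
  have hs : Function.Surjective (ht n) := fun y => by
    have h0 : 0 < n := by linarith
    rcases le_total y 0 with h | h
    · exact ⟨y, ht_low n h⟩
    rcases le_total y n with h' | h'
    · exact ⟨y / n, by
        rw [ht_mid n (div_nonneg h h0.le) ((div_le_one h0).2 h'), mul_div_cancel₀ _ h0.ne']⟩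
    · exact ⟨1 + (y - n), by rw [ht_top n (by linarith)]; ring⟩
  exact ⟨(Homeomorph.refl ℂ).prodCongr (hm.orderIsoOfSurjective _ hs).toHomeomorph,
    fun _ _ => rfl⟩

theorem main (b : ℕ) (l : ι ↪ ℕ) (w : Word) (hl : Bij (2 * b) l) (hw : Rng (2 * b) w)
    (hne : w ≠ []) :
    Eqv (plat (fun i => l i / 2) (fun i => fin l w i / 2) (kp w l)) (knot b w) := by
  have hn : (1 : ℝ) ≤ w.length := by exact_mod_cast List.length_pos_iff.2 hne
  have hl' : Bij (2 * b) (fin l w) := hl.fin hw
  obtain ⟨h, e⟩ := exists_ht hn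
  have k1 : ∀ i (t : unitInterval), strand b w (l i) (w.length * t) = (kp w l t).1 i :=
    fun i t => by
      have h0 : (0 : ℝ) ≤ w.length * t := mul_nonneg (by linarith) t.2.1
      rw [strand_nonneg _ _ _ h0, up_mid _ _ _ _ h0 (by nlinarith [t.2.2]), kp_apply]
  have k2 : ∀ i j, i ≠ j → l i / 2 = l j / 2 → ∀ s ∈ Icc (0 : ℝ) 1, strand b w (l i) (-s) =
      (cfg l).1 i + (s / 2 : ℝ) * ((cfg l).1 j - (cfg l).1 i) := fun i j hij hm s hs => by
    rw [strand, if_pos (by linarith [hs.1]), neg_neg,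
      cap_eq (hl.lt i) (fun e => hij (l.injective e)) hm hs.2]
    rfl
  have k3 : ∀ i j, i ≠ j → fin l w i / 2 = fin l w j / 2 → ∀ s ∈ Icc (0 : ℝ) 1,
      strand b w (l i) (w.length + s) = (cfg (fin l w)).1 i +
        (s / 2 : ℝ) * ((cfg (fin l w)).1 j - (cfg (fin l w)).1 i) := fun i j hij hm s hs => by
    rw [strand_nonneg _ _ _ (by linarith [hs.1]), up_top _ _ _ _ hs.1, ← fin_apply,
      cap_eq (hl'.lt i) (fun e => hij ((fin l w).injective e)) hm hs.2]
    rfl
  refine ⟨h, Set.ext fun y => ⟨?_, ?_⟩⟩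
  · rintro ⟨_, ⟨i, t, rfl⟩ | ⟨i, j, hij, hm, s, hs, rfl⟩ | ⟨i, j, hij, hm, s, hs, rfl⟩, rfl⟩
    · rw [e, ht_mid _ t.2.1 t.2.2]
      exact ⟨l i, hl.lt i, by nlinarith [t.2.1], by nlinarith [t.2.2], (k1 i t).symm⟩
    · rw [e, ht_low _ (by linarith [hs.1])]
      exact ⟨l i, hl.lt i, by linarith [hs.2], by linarith [hs.1], (k2 i j hij hm s hs).symm⟩
    · rw [e, ht_top _ hs.1]
      exact ⟨l i, hl.lt i, by linarith [hs.1], by linarith [hs.2], (k3 i j hij hm s hs).symm⟩
  · obtain ⟨z, t⟩ := y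
    rintro ⟨p, hp, h1, h2, h3⟩
    obtain ⟨i, rfl⟩ := (hl p).1 hp
    simp only at h1 h2 h3
    subst h3
    have h0 : (0 : ℝ) < w.length := by linarith
    rcases le_total t 0 with c | c
    · obtain ⟨j, hj, hm, -⟩ := hl.two i
      have hs : -t ∈ Icc (0 : ℝ) 1 := ⟨by linarith, by linarith⟩
      refine ⟨_, Or.inr (Or.inl ⟨i, j, hj.symm, hm.symm, -t, hs, rfl⟩), ?_⟩
      rw [e, ← k2 i j hj.symm hm.symm _ hs, neg_neg, ht_low _ c]
    rcases le_total t w.length with c' | c'
    · have hs : t / w.length ∈ Icc (0 : ℝ) 1 := ⟨div_nonneg c h0.le, (div_le_one h0).2 c'⟩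
      refine ⟨_, Or.inl ⟨i, ⟨_, hs⟩, rfl⟩, ?_⟩
      rw [e, ← k1, ht_mid _ hs.1 hs.2]
      simp only [mul_div_cancel₀ _ h0.ne']
    · obtain ⟨j, hj, hm, -⟩ := hl'.two i
      have hs : t - w.length ∈ Icc (0 : ℝ) 1 := ⟨by linarith, by linarith⟩
      refine ⟨_, Or.inr (Or.inr ⟨i, j, hj.symm, hm.symm, _, hs, rfl⟩), ?_⟩
      rw [e, ← k3 i j hj.symm hm.symm _ hs, ht_top _ hs.1, add_sub_cancel]

end C2

/-- plats of words -/
theorem rowC2 (h : RowC3) : RowC2 := by
  intro ι _ b l l' w γ hl hw hne hγ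
  obtain rfl := hγ.fin
  exact ((h ι _ _ hl.two (hl.fin hw).two).1 _ _ _ _ (SC.cfg l) (SC.cfg _)
    (hγ.unique (C2.isW w l))).trans (C2.main b l w hl hw hne)

end Vale.Agent.Q258U
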