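import Vale.Agent.Q258U.Core

/-!
# Invariance of plats under homotopies and moves of the caps
-/

set_option linter.all false

namespace Vale.Agent.Q258U

open Set Complex

namespace C3

variable {ι : Type}

/-- `p` is the partner function of the matching `μ` -/
def Par (μ : ι → ℕ) (p : ι → ι) : Prop :=
  ∀ i, p i ≠ i ∧ μ (p i) = μ i ∧ ∀ j, μ j = μ i → j = i ∨ j = p i

theorem Par.symm {μ : ι → ℕ} {p : ι → ι} (h : Par μ p) (i : ι) : p (p i) = i := by
  rcases (h (p i)).2.2 i (h i).2.1.symm with e | e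
  · exact absurd e.symm (h i).1
  · exact e.symm

/-- the displacement along a cap -/
noncomputable def cap (p : ι → ι) (x : X ι) (r : ℝ) (i : ι) : ℂ :=
  ((r / 2 : ℝ) : ℂ) * (x.1 (p i) - x.1 i)

open Classical in
/-- the difference of the displacements, dropped for matched pairs -/
noncomputable def dc (p : ι → ι) (x : X ι) (r : ℝ) (i j : ι) : ℂ :=
  if j = p i then 0 else cap p x r i - cap p x r j

open Classical in
/-- the scalar factor -/
noncomputable def fc (p : ι → ι) (r : ℝ) (i j : ι) : ℝ := if j = p i then 1 - r else 1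

theorem cap_zero (p : ι → ι) (x : X ι) (i : ι) : cap p x 0 i = 0 := by simp [cap]

theorem dc_zero (p : ι → ι) (x : X ι) (i j : ι) : dc p x 0 i j = 0 := by simp [dc, cap]

theorem fc_zero (p : ι → ι) (i j : ι) : fc p 0 i j = 1 := by simp [fc]

theorem mem_seg (p : ι → ι) (x : X ι) {r : ℝ} (hr : r ∈ Icc (0 : ℝ) 1) (i : ι) :
    x.1 i + cap p x r i ∈ segment ℝ (x.1 i) (x.1 (p i)) := by
  refine ⟨1 - r / 2, r / 2, by linarith [hr.2], by linarith [hr.1], by ring, ?_⟩
  simp only [cap, real_smul]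
  push_cast
  ring

theorem side {μ : ι → ℕ} {p : ι → ι} (h : Par μ p) {x : X ι} (hx : SC μ x) {r : ℝ}
    (hr : r ∈ Icc (0 : ℝ) 1) {i j : ι} (hij : i ≠ j) :
    x.1 i - x.1 j + dc p x r i j ≠ 0 ∧
      x.1 i + cap p x r i - (x.1 j + cap p x r j) =
        fc p r i j * (x.1 i - x.1 j + dc p x r i j) := by
  unfold dc fc
  split_ifs with e
  · refine ⟨by rw [add_zero, sub_ne_zero]; exact fun e' => hij (x.2 e'), ?_⟩
    subst e
    simp only [cap, h.symm]
    push_cast
    ring
  · refine ⟨fun e' => ?_, by push_cast; ring⟩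
    have hne : μ i ≠ μ j := fun e'' => by
      rcases (h i).2.2 j e''.symm with e3 | e3
      · exact hij e3.symm
      · exact e e3
    have hd := hx i (p i) j (p j) (h i).2.1.symm (h j).2.1.symm hne
    have e2 : x.1 i + cap p x r i = x.1 j + cap p x r j := by linear_combination e'
    exact disjoint_left.1 hd (mem_seg p x hr i) (e2 ▸ mem_seg p x hr j)

/-- the level, clamped to the unit interval -/
def cl (t : ℝ) : ℝ := max 0 (min 1 t)

/-- the depth below the level zero -/
def lw (t : ℝ) : ℝ := max (-t) 0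

/-- the height above the level one -/
def hg (t : ℝ) : ℝ := max (t - 1) 0

theorem low {t : ℝ} (h : t ≤ 0) : cl t = 0 ∧ lw t = -t ∧ hg t = 0 :=
  ⟨max_eq_left (min_le_of_right_le h), max_eq_left (by linarith), max_eq_right (by linarith)⟩

theorem midl {t : ℝ} (h : 0 ≤ t) (h' : t ≤ 1) : cl t = t ∧ lw t = 0 ∧ hg t = 0 :=
  ⟨by rw [cl, min_eq_right h', max_eq_right h], max_eq_right (by linarith),
    max_eq_right (by linarith)⟩

theorem high {t : ℝ} (h : 1 ≤ t) : cl t = 1 ∧ lw t = 0 ∧ hg t = t - 1 :=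
  ⟨by rw [cl, min_eq_left h, max_eq_right zero_le_one], max_eq_right (by linarith),
    max_eq_left (by linarith)⟩

/-- the strands with the caps -/
noncomputable def Y (pb pt : ι → ι) (H : ℝ × ℝ → X ι) (i : ι) (q : ℝ × ℝ) : ℂ :=
  (H (q.1, cl q.2)).1 i + cap pb (H (q.1, 0)) (lw q.2) i + cap pt (H (q.1, 1)) (hg q.2) i

/-- the differences of the strands, without the scalar factor -/
noncomputable def D (pb pt : ι → ι) (H : ℝ × ℝ → X ι) (i j : ι) (q : ℝ × ℝ) : ℂ :=
  (H (q.1, cl q.2)).1 i - (H (q.1, cl q.2)).1 j + dc pb (H (q.1, 0)) (lw q.2) i j +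
    dc pt (H (q.1, 1)) (hg q.2) i j

theorem cont_ev {H : ℝ × ℝ → X ι} (hH : Continuous H) {f : ℝ → ℝ} (hf : Continuous f) (i : ι) :
    Continuous fun q : ℝ × ℝ => (H (q.1, f q.2)).1 i :=
  (continuous_apply i).comp (continuous_subtype_val.comp
    (hH.comp (continuous_fst.prodMk (hf.comp continuous_snd))))

theorem cont_cap {H : ℝ × ℝ → X ι} (hH : Continuous H) (p : ι → ι) (c : ℝ) {f : ℝ → ℝ}
    (hf : Continuous f) (i : ι) : Continuous fun q : ℝ × ℝ => cap p (H (q.1, c)) (f q.2) i := by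
  unfold cap
  exact (continuous_ofReal.comp ((hf.comp continuous_snd).div_const 2)).mul
    ((cont_ev hH (f := fun _ => c) continuous_const _).sub
      (cont_ev hH (f := fun _ => c) continuous_const _))

theorem cont_dc {H : ℝ × ℝ → X ι} (hH : Continuous H) (p : ι → ι) (c : ℝ) {f : ℝ → ℝ}
    (hf : Continuous f) (i j : ι) :
    Continuous fun q : ℝ × ℝ => dc p (H (q.1, c)) (f q.2) i j := by
  unfold dc
  split_ifs
  · exact continuous_const
  · exact (cont_cap hH p c hf i).sub (cont_cap hH p c hf j)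

theorem cont_cl : Continuous cl := by unfold cl; fun_prop

theorem cont_lw : Continuous lw := by unfold lw; fun_prop

theorem cont_hg : Continuous hg := by unfold hg; fun_prop

theorem cont_Y {H : ℝ × ℝ → X ι} (hH : Continuous H) (pb pt : ι → ι) (i : ι) :
    Continuous (Y pb pt H i) :=
  ((cont_ev hH cont_cl i).add (cont_cap hH pb 0 cont_lw i)).add (cont_cap hH pt 1 cont_hg i)

theorem cont_D {H : ℝ × ℝ → X ι} (hH : Continuous H) (pb pt : ι → ι) (i j : ι) :
    Continuous (D pb pt H i j) :=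
  (((cont_ev hH cont_cl i).sub (cont_ev hH cont_cl j)).add (cont_dc hH pb 0 cont_lw i j)).add
    (cont_dc hH pt 1 cont_hg i j)

theorem diff {μb μt : ι → ℕ} {pb pt : ι → ι} (hb : Par μb pb) (ht : Par μt pt)
    {H : ℝ × ℝ → X ι} {s t : ℝ} (h0 : SC μb (H (s, 0))) (h1 : SC μt (H (s, 1)))
    (h : t ∈ Icc (-1 : ℝ) 2) {i j : ι} (hij : i ≠ j) :
    D pb pt H i j (s, t) ≠ 0 ∧ Y pb pt H i (s, t) - Y pb pt H j (s, t) =
      (fc pb (lw t) i j * fc pt (hg t) i j : ℝ) * D pb pt H i j (s, t) := by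
  unfold D Y
  rcases le_total t 0 with c | c
  · obtain ⟨e1, e2, e3⟩ := low c
    simp only [e1, e2, e3, cap_zero, dc_zero, fc_zero, add_zero, mul_one]
    exact side hb h0 ⟨by linarith, by linarith [h.1]⟩ hij
  rcases le_total t 1 with c' | c'
  · obtain ⟨e1, e2, e3⟩ := midl c c'
    simp only [e1, e2, e3, cap_zero, dc_zero, fc_zero, add_zero, mul_one, ofReal_one, one_mul,
      and_true]
    rw [sub_ne_zero]
    exact fun e => hij ((H (s, t)).2 e)
  · obtain ⟨e1, e2, e3⟩ := high c'
    simp only [e1, e2, e3, cap_zero, dc_zero, fc_zero, add_zero, one_mul]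
    exact side ht h1 ⟨by linarith, by linarith [h.2]⟩ hij

theorem plat_eq {μb μt : ι → ℕ} {pb pt : ι → ι} (hb : Par μb pb) (ht : Par μt pt)
    (H : ℝ × ℝ → X ι) (s : ℝ) {x y : X ι} (γ : Path x y)
    (e : ∀ t : unitInterval, H (s, t) = γ t) :
    plat μb μt γ =
      range fun q : ι × Icc (-1 : ℝ) 2 => ((Y pb pt H q.1 (s, q.2), (q.2 : ℝ)) : E3) := by
  have ex : H (s, 0) = x := (e 0).trans γ.source
  have ey : H (s, 1) = y := (e 1).trans γ.target
  ext z
  constructor
  · rintro (⟨i, t, rfl⟩ | ⟨i, j, hij, hm, r, hr, rfl⟩ | ⟨i, j, hij, hm, r, hr, rfl⟩)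
    · obtain ⟨e1, e2, e3⟩ := midl t.2.1 t.2.2
      refine ⟨(i, ⟨t, by linarith [t.2.1], by linarith [t.2.2]⟩), ?_⟩
      simp only [Y, e1, e2, e3, cap_zero, add_zero, e]
    · obtain ⟨e1, e2, e3⟩ := low (t := -r) (by linarith [hr.1])
      have ej : j = pb i := ((hb i).2.2 j hm.symm).resolve_left hij.symm
      refine ⟨(i, ⟨-r, by linarith [hr.2], by linarith [hr.1]⟩), ?_⟩
      simp only [Y, e1, e2, e3, cap_zero, add_zero, ex, neg_neg, ej]
      rfl
    · obtain ⟨e1, e2, e3⟩ := high (t := 1 + r) (by linarith [hr.1])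
      have ej : j = pt i := ((ht i).2.2 j hm.symm).resolve_left hij.symm
      refine ⟨(i, ⟨1 + r, by linarith [hr.1], by linarith [hr.2]⟩), ?_⟩
      simp only [Y, e1, e2, e3, cap_zero, add_zero, ey, add_sub_cancel_left, ej]
      rfl
  · rintro ⟨⟨i, t, h⟩, rfl⟩
    rcases le_total t 0 with c | c
    · obtain ⟨e1, e2, e3⟩ := low c
      refine Or.inr (Or.inl ⟨i, pb i, (hb i).1.symm, (hb i).2.1.symm, -t,
        ⟨by linarith, by linarith [h.1]⟩, ?_⟩)
      simp only [Y, e1, e2, e3, cap_zero, add_zero, ex, neg_neg]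
      rfl
    rcases le_total t 1 with c' | c'
    · obtain ⟨e1, e2, e3⟩ := midl c c'
      refine Or.inl ⟨i, ⟨t, c, c'⟩, ?_⟩
      simp only [Y, e1, e2, e3, cap_zero, add_zero, ← e]
    · obtain ⟨e1, e2, e3⟩ := high c'
      refine Or.inr (Or.inr ⟨i, pt i, (ht i).1.symm, (ht i).2.1.symm, t - 1,
        ⟨by linarith, by linarith [h.2]⟩, ?_⟩)
      simp only [Y, e1, e2, e3, cap_zero, add_zero, ey, add_sub_cancel]
      rfl

/-- a family of paths whose ends keep the caps disjoint -/
theorem gen (h : RowC1) [Finite ι] {μb μt : ι → ℕ} (hb : Two μb) (ht : Two μt)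
    (H : ℝ × ℝ → X ι) (hH : Continuous H) (h0 : ∀ s ∈ Icc (0 : ℝ) 1, SC μb (H (s, 0)))
    (h1 : ∀ s ∈ Icc (0 : ℝ) 1, SC μt (H (s, 1))) {x y x' y' : X ι} (γ : Path x y)
    (γ' : Path x' y') (e : ∀ t : unitInterval, H (0, t) = γ t)
    (e' : ∀ t : unitInterval, H (1, t) = γ' t) : Eqv (plat μb μt γ) (plat μb μt γ') := by
  choose pb hb using hb
  choose pt ht using ht
  obtain ⟨g, hg'⟩ := h ι (-1) 2 (Y pb pt H) (by norm_num)
    (fun i => (cont_Y hH pb pt i).continuousOn) fun i j => by
      by_cases hij : i = j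
      · exact ⟨fun _ => 0, fun _ => 1, continuousOn_const, fun s _ t _ =>
          ⟨one_ne_zero, by simp [hij]⟩⟩
      · exact ⟨fun t => fc pb (lw t) i j * fc pt (hg t) i j, D pb pt H i j,
          (cont_D hH pb pt i j).continuousOn, fun s hs t ht' =>
            diff hb ht (h0 s hs) (h1 s hs) ht' hij⟩
  rw [plat_eq hb ht H 0 γ e, plat_eq hb ht H 1 γ' e']
  exact Eqv.of_param g fun q => hg' q.1 q.2 q.2.2

end C3

/-- invariance of plats -/
theorem rowC3 (h : RowC1) : RowC3 := by
  intro ι _ μb μt hb ht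
  refine ⟨?_, ?_, ?_⟩
  · rintro x y γ γ' hx hy ⟨F⟩
    refine C3.gen h hb ht (fun q => F (projIcc 0 1 zero_le_one q.1, projIcc 0 1 zero_le_one q.2))
      (F.continuous.comp ((continuous_projIcc.comp continuous_fst).prodMk
        (continuous_projIcc.comp continuous_snd))) (fun s _ => ?_) (fun s _ => ?_) γ γ'
      (fun t => ?_) fun t => ?_
    · simp only [projIcc_left]
      exact (F.source _).symm ▸ hx
    · simp only [projIcc_right]
      exact (F.target _).symm ▸ hy
    · simp only [projIcc_left, projIcc_val]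
      exact F.apply_zero t
    · simp only [projIcc_right, projIcc_val]
      exact F.apply_one t
  · intro x' x y σ γ hσ hy
    refine C3.gen h hb ht (fun q => (σ.trans γ).extend (q.1 / 2 + q.2 * (1 - q.1 / 2)))
      ((σ.trans γ).continuous_extend.comp (by fun_prop)) (fun s hs => ?_) (fun s _ => ?_) _ _
      (fun t => ?_) fun t => ?_
    · beta_reduce
      rw [Path.extend_trans_of_le_half _ _ (by linarith [hs.2]), Path.extend_apply _
        (t := 2 * (s / 2 + 0 * (1 - s / 2))) ⟨by linarith [hs.1], by linarith [hs.2]⟩]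
      exact hσ _
    · beta_reduce
      rw [Path.extend_of_one_le _ (by linarith)]
      exact hy
    · beta_reduce
      rw [← Path.extend_extends']
      congr 1
      ring
    · beta_reduce
      rw [Path.extend_trans_of_half_le _ _ (by linarith [t.2.1]), ← Path.extend_extends']
      congr 1
      ring
  · intro x y y' γ σ hx hσ
    refine C3.gen h hb ht (fun q => (γ.trans σ).extend (q.2 * (1 - q.1 / 2)))
      ((γ.trans σ).continuous_extend.comp (by fun_prop)) (fun s _ => ?_) (fun s hs => ?_) _ _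
      (fun t => ?_) fun t => ?_
    · beta_reduce
      rw [Path.extend_of_le_zero _ (by linarith)]
      exact hx
    · beta_reduce
      rw [Path.extend_trans_of_half_le _ _ (by linarith [hs.2]), Path.extend_apply _
        (t := 2 * (1 * (1 - s / 2)) - 1) ⟨by linarith [hs.2], by linarith [hs.1]⟩]
      exact hσ _
    · beta_reduce
      rw [← Path.extend_extends']
      congr 1
      ring
    · beta_reduce
      rw [Path.extend_trans_of_le_half _ _ (by linarith [t.2.2]), ← Path.extend_extends']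
      congr 1
      ring

end Vale.Agent.Q258U
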