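import Vale.Agent.Q258U.Core
import Mathlib.Analysis.Normed.Module.Connected
import Mathlib.LinearAlgebra.Complex.FiniteDimensional
import Mathlib.Analysis.Convex.PathConnected

/-!
# The space of disjoint parallelograms is connected

Base points and frames are joined along a complex line; then the base points are scaled from a
point of the convex set.
-/

set_option linter.all false

namespace Vale.Agent.Q258U.Cl

open Vale.Agent.P258.Braid Vale.Agent.N258B Vale.Agent.Q258D Set Complex Filter Topology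

variable {ι : Type}

theorem fin_aff {a : ℂ} (b : ℂ) (ha : a ≠ 0) : ∀ᶠ w : ℂ in cofinite, a + w * b ≠ 0 := by
  filter_upwards [eventually_cofinite_ne (-a / b)] with w h hw
  have hb : b ≠ 0 := by
    rintro rfl
    simp [ha] at hw
  apply h
  rw [eq_div_iff hb]
  linear_combination hw

/-- distinct points, different from `c`, with nonzero vectors -/
def T (ι : Type) (c : ℂ) : Set (ι → ℂ × ℂ) :=
  {y | (∀ i, (y i).2 ≠ 0) ∧ (∀ i, (y i).1 ≠ c) ∧ ∀ i j, i ≠ j → (y i).1 ≠ (y j).1}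

theorem joinT [Finite ι] {c : ℂ} {y y' : ι → ℂ × ℂ} (h : y ∈ T ι c) (h' : y' ∈ T ι c) :
    JoinedIn (T ι c) y y' := by
  let f : ℂ → ι → ℂ × ℂ := fun w i =>
    ((y i).1 + w * ((y' i).1 - (y i).1), (y i).2 + w * ((y' i).2 - (y i).2))
  have hf : Continuous f := by fun_prop
  have hfin : (f ⁻¹' T ι c)ᶜ.Finite := by
    rw [← mem_cofinite]
    refine Eventually.and (eventually_all.2 fun i => fin_aff _ (h.1 i)) (Eventually.and
      (eventually_all.2 fun i => ?_) (eventually_all.2 fun i => eventually_all.2 fun j =>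
        eventually_imp_distrib_left.2 fun hij => ?_))
    · filter_upwards [fin_aff ((y' i).1 - (y i).1) (sub_ne_zero.2 (h.2.1 i))] with w hw e
      apply hw
      linear_combination (e : (y i).1 + w * ((y' i).1 - (y i).1) = c)
    · filter_upwards [fin_aff ((y' i).1 - (y i).1 - ((y' j).1 - (y j).1))
        (sub_ne_zero.2 (h.2.2 i j hij))] with w hw e
      apply hw
      linear_combination
        (e : (y i).1 + w * ((y' i).1 - (y i).1) = (y j).1 + w * ((y' j).1 - (y j).1))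
  have := hfin.countable.isPathConnected_compl_of_one_lt_rank
    (by rw [rank_real_complex]; norm_num)
  rw [compl_compl] at this
  have e0 : f 0 = y := by simp [f]
  have e1 : f 1 = y' := by simp [f]
  exact ((this.image hf).joinedIn y ⟨0, by rwa [mem_preimage, e0], e0⟩ y'
    ⟨1, by rwa [mem_preimage, e1], e1⟩).mono (image_preimage_subset _ _)

/-- positive frames at distinct points, different from `c` -/
def S (ι : Type) (c : ℂ) : Set (ι → ℂ × ℂ × ℂ) :=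
  {p | (∀ i, 0 < det ((p i).2.1 - (p i).1) (p i).2.2) ∧ (∀ i, (p i).1 ≠ c) ∧
    ∀ i j, i ≠ j → (p i).1 ≠ (p j).1}

/-- the square frame -/
def sq (y : ι → ℂ × ℂ) (i : ι) : ℂ × ℂ × ℂ := ((y i).1, (y i).1 + (y i).2, I * (y i).2)

/-- the base point and the first vector -/
def pr (p : ι → ℂ × ℂ × ℂ) (i : ι) : ℂ × ℂ := ((p i).1, (p i).2.1 - (p i).1)

theorem det_sq {d : ℂ} (h : d ≠ 0) : 0 < det d (I * d) := by
  have := normSq_pos.2 h
  rw [normSq_apply] at this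
  simpa [det] using this

theorem pr_mem {c : ℂ} {p : ι → ℂ × ℂ × ℂ} (h : p ∈ S ι c) : pr p ∈ T ι c := by
  refine ⟨fun i e => ?_, h.2.1, h.2.2⟩
  have := h.1 i
  rw [show (p i).2.1 - (p i).1 = 0 from e] at this
  simp [det] at this

theorem join_sq {c : ℂ} {p : ι → ℂ × ℂ × ℂ} (h : p ∈ S ι c) : JoinedIn (S ι c) p (sq (pr p)) := by
  refine JoinedIn.ofLine (f := fun (t : ℝ) i => ((p i).1, (p i).2.1,
    (1 - t) * (p i).2.2 + t * (I * ((p i).2.1 - (p i).1)))) (by fun_prop) (by simp)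
    (by ext i <;> simp [sq, pr]) ?_
  rintro _ ⟨t, ⟨t0, t1⟩, rfl⟩
  refine ⟨fun i => ?_, h.2.1, h.2.2⟩
  have h1 := h.1 i
  have h2 := det_sq ((pr_mem h).1 i)
  have : det ((p i).2.1 - (p i).1) ((1 - t) * (p i).2.2 + t * (I * ((p i).2.1 - (p i).1))) =
      (1 - t) * det ((p i).2.1 - (p i).1) (p i).2.2 + t * det (pr p i).2 (I * (pr p i).2) := by
    simp [det, pr]
    ring
  beta_reduce
  rw [this]
  rcases t0.eq_or_lt with rfl | t0
  · simpa using h1
  · have := mul_nonneg (sub_nonneg.2 t1) h1.le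
    have := mul_pos t0 h2
    linarith

theorem joinS [Finite ι] {c : ℂ} {p q : ι → ℂ × ℂ × ℂ} (h : p ∈ S ι c) (h' : q ∈ S ι c) :
    JoinedIn (S ι c) p q := by
  have hc : Continuous (sq : (ι → ℂ × ℂ) → _) := by unfold sq; fun_prop
  refine (join_sq h).trans ((((joinT (pr_mem h) (pr_mem h')).map hc).mono ?_).trans
    (join_sq h').symm)
  rintro _ ⟨y, hy, rfl⟩
  exact ⟨fun i => by simpa [sq] using det_sq (hy.1 i), hy.2.1, hy.2.2⟩

/-- the base points are scaled from `c` -/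
def sc (c : ℂ) (l : ℝ) (p : ι → ℂ × ℂ × ℂ) (i : ι) : ℂ × ℂ × ℂ :=
  (c + l * ((p i).1 - c), c + l * ((p i).1 - c) + ((p i).2.1 - (p i).1), (p i).2.2)

theorem sc_one (c : ℂ) (p : ι → ℂ × ℂ × ℂ) : sc c 1 p = p := by
  ext i <;> simp [sc]

theorem mem_sc {c : ℂ} {l : ℝ} {p : ι → ℂ × ℂ × ℂ} {i : ι} {z : ℂ} (h : z ∈ par (sc c l p i)) :
    ∃ s ∈ Icc (0 : ℝ) 1, ∃ r ∈ Icc (-1 : ℝ) 1,
      z = c + l * ((p i).1 - c) + s * ((p i).2.1 - (p i).1) + r * (p i).2.2 := by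
  simpa [par, sc] using h

theorem det_sc (c : ℂ) (l : ℝ) (p : ι → ℂ × ℂ × ℂ) (i : ι) :
    det ((sc c l p i).2.1 - (sc c l p i).1) (sc c l p i).2.2 =
      det ((p i).2.1 - (p i).1) (p i).2.2 := by
  simp [sc]

theorem back {c : ℂ} {l : ℝ} (hl : 1 ≤ l) {p : ι → ℂ × ℂ × ℂ} {i : ι} {z : ℂ}
    (h : z ∈ par (sc c l p i)) : (1 - l⁻¹) • c + l⁻¹ • z ∈ par (p i) := by
  obtain ⟨s, ⟨s0, s1⟩, r, ⟨r0, r1⟩, rfl⟩ := mem_sc h
  have l0 : 0 < l := by linarith
  have lc : (l : ℂ) ≠ 0 := by exact_mod_cast l0.ne'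
  refine ⟨s / l, ⟨by positivity, (div_le_one l0).2 (by linarith)⟩, r / l,
    ⟨(le_div_iff₀ l0).2 (by linarith), (div_le_one l0).2 (by linarith)⟩, ?_⟩
  simp only [real_smul]
  push_cast
  field_simp
  ring

theorem sc_mem {B : Set ℂ} {c : ℂ} (hB : StarConvex ℝ c B) {l : ℝ} (hl : 1 ≤ l)
    {p : ι → ℂ × ℂ × ℂ} (h : p ∈ PC ι B) : sc c l p ∈ PC ι B := by
  have l1 : l⁻¹ ≤ 1 := inv_le_one_of_one_le₀ hl
  refine ⟨fun i => (det_sc c l p i).symm ▸ h.1 i, fun i => disjoint_left.2 fun z hz hz' => ?_,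
    fun i j hij => disjoint_left.2 fun z hz hz' => ?_⟩
  · exact disjoint_left.1 (h.2.1 i) (back hl hz)
      (hB hz' (sub_nonneg.2 l1) (by positivity) (by ring))
  · exact disjoint_left.1 (h.2.2 i j hij) (back hl hz) (back hl hz')

theorem join_sc {B : Set ℂ} {c : ℂ} (hB : StarConvex ℝ c B) {l : ℝ} (hl : 1 ≤ l)
    {p : ι → ℂ × ℂ × ℂ} (h : p ∈ PC ι B) : JoinedIn (PC ι B) p (sc c l p) := by
  have hc : Continuous fun l : ℝ => sc c l p := by unfold sc; fun_prop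
  refine ((((convex_Ici (1 : ℝ)).isPathConnected ⟨1, self_mem_Ici⟩).image hc).joinedIn p
    ⟨1, self_mem_Ici, sc_one c p⟩ _ ⟨l, hl, rfl⟩).mono ?_
  rintro _ ⟨l, hl, rfl⟩
  exact sc_mem hB hl h

theorem small {Y : Type} [TopologicalSpace Y] {K : Set Y} (hK : IsCompact K) {a b : Y → ℂ}
    (ha : Continuous a) (hb : Continuous b) (h : ∀ y ∈ K, a y ≠ 0) :
    ∀ᶠ l : ℝ in atTop, ∀ y ∈ K, l * a y + b y ≠ 0 := by
  have : ∀ᶠ r : ℝ in 𝓝 0, ∀ y ∈ K, a y + r * b y ≠ 0 := by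
    refine hK.eventually_forall_of_forall_eventually fun y hy => ?_
    have : ContinuousAt (fun z : ℝ × Y => a z.2 + z.1 * b z.2) (0, y) := by fun_prop
    exact this.eventually_ne (by simpa using h y hy)
  filter_upwards [tendsto_inv_atTop_zero.eventually this, eventually_gt_atTop 0] with l hl l0 y hy e
  have lc : (l : ℂ) ≠ 0 := by exact_mod_cast l0.ne'
  apply hl y hy
  push_cast
  field_simp
  linear_combination e

theorem far [Finite ι] {B : Set ℂ} (hB : IsCompact B) {c : ℂ} {p q : ι → ℂ × ℂ × ℂ}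
    (γ : Path p q) (h : ∀ t, γ t ∈ S ι c) : ∀ᶠ l : ℝ in atTop, ∀ t, sc c l (γ t) ∈ PC ι B := by
  have hI : IsCompact (Icc (0 : ℝ) 1 ×ˢ Icc (-1 : ℝ) 1) := isCompact_Icc.prod isCompact_Icc
  have hγ := γ.continuous
  have A : ∀ i, ∀ᶠ l : ℝ in atTop, ∀ t, Disjoint (par (sc c l (γ t) i)) B := fun i => by
    filter_upwards [small ((isCompact_univ (X := unitInterval)).prod (hI.prod hB))
      (a := fun y => (γ y.1 i).1 - c)
      (b := fun y => c + y.2.1.1 * ((γ y.1 i).2.1 - (γ y.1 i).1) + y.2.1.2 * (γ y.1 i).2.2 - y.2.2)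
      (by fun_prop) (by fun_prop) fun y _ => sub_ne_zero.2 ((h y.1).2.1 i)] with l hl t
    refine disjoint_left.2 fun z hz hz' => ?_
    obtain ⟨s, hs, r, hr, e⟩ := mem_sc hz
    apply hl (t, (s, r), z) ⟨trivial, ⟨hs, hr⟩, hz'⟩
    linear_combination -e
  have A' : ∀ i j, i ≠ j → ∀ᶠ l : ℝ in atTop, ∀ t,
      Disjoint (par (sc c l (γ t) i)) (par (sc c l (γ t) j)) := fun i j hij => by
    filter_upwards [small ((isCompact_univ (X := unitInterval)).prod (hI.prod hI))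
      (a := fun y => (γ y.1 i).1 - (γ y.1 j).1)
      (b := fun y => y.2.1.1 * ((γ y.1 i).2.1 - (γ y.1 i).1) + y.2.1.2 * (γ y.1 i).2.2 -
        (y.2.2.1 * ((γ y.1 j).2.1 - (γ y.1 j).1) + y.2.2.2 * (γ y.1 j).2.2))
      (by fun_prop) (by fun_prop) fun y _ => sub_ne_zero.2 ((h y.1).2.2 i j hij)] with l hl t
    refine disjoint_left.2 fun z hz hz' => ?_
    obtain ⟨s, hs, r, hr, e⟩ := mem_sc hz
    obtain ⟨s', hs', r', hr', e'⟩ := mem_sc hz'
    apply hl (t, (s, r), (s', r')) ⟨trivial, ⟨hs, hr⟩, hs', hr'⟩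
    linear_combination e' - e
  filter_upwards [eventually_all.2 A, eventually_all.2 fun i => eventually_all.2 fun j =>
    eventually_imp_distrib_left.2 (A' i j)] with l h1 h2 t
  exact ⟨fun i => (det_sc c l (γ t) i).symm ▸ (h t).1 i, fun i => h1 i t,
    fun i j hij => h2 i j hij t⟩

theorem base (p : ℂ × ℂ × ℂ) : p.1 ∈ par p :=
  ⟨0, ⟨le_rfl, zero_le_one⟩, 0, ⟨by norm_num, zero_le_one⟩, by simp⟩

theorem mem_S {B : Set ℂ} {c : ℂ} {p : ι → ℂ × ℂ × ℂ} (h : p ∈ PC ι B) (hc : ∀ i, (p i).1 ≠ c) :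
    p ∈ S ι c :=
  ⟨h.1, hc, fun i j hij e => disjoint_left.1 (h.2.2 i j hij) (base _) (e ▸ base _)⟩

end Vale.Agent.Q258U.Cl

open Set Filter Topology Vale.Agent.Q258U.Cl in
theorem Vale.Agent.Q258U.rowCl : Vale.Agent.Q258U.RowCl := fun ι _ B hB hB' p hp q hq => by
  obtain ⟨c, hc, h1, h2⟩ : ∃ c : ℂ, StarConvex ℝ c B ∧ (∀ i, (p i).1 ≠ c) ∧ ∀ i, (q i).1 ≠ c := by
    rcases B.eq_empty_or_nonempty with rfl | ⟨c, hc⟩
    · obtain ⟨c, hc⟩ := ((eventually_all.2 fun i => eventually_cofinite_ne (p i).1).and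
        (eventually_all.2 fun i => eventually_cofinite_ne (q i).1)).exists
      exact ⟨c, starConvex_empty c, fun i => (hc.1 i).symm, fun i => (hc.2 i).symm⟩
    · exact ⟨c, hB' hc, fun i e => disjoint_left.1 (hp.2.1 i) (base _) (e ▸ hc),
        fun i e => disjoint_left.1 (hq.2.1 i) (base _) (e ▸ hc)⟩
  obtain ⟨γ, hγ⟩ := joinS (mem_S hp h1) (mem_S hq h2)
  obtain ⟨l, hl, l1⟩ := ((far hB γ hγ).and (eventually_ge_atTop 1)).exists
  have hs : Continuous (sc c l : (ι → ℂ × ℂ × ℂ) → _) := by unfold sc; fun_prop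
  exact (join_sc hc l1 hp).trans (JoinedIn.trans ⟨γ.map hs, hl⟩ (join_sc hc l1 hq).symm)
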