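import Vale.Agent.Q258U.Rows

/-!
# First lemmas
-/

set_option linter.all false

namespace Vale.Agent.Q258U

open Vale.Agent.P258.Braid Vale.Agent.N258B Vale.Agent.Q258D Set Complex

theorem Eqv.refl (K : Set E3) : Eqv K K := ⟨Homeomorph.refl _, by simp⟩

theorem Eqv.of_eq {K K' : Set E3} (h : K = K') : Eqv K K' := h ▸ Eqv.refl K

theorem Eqv.symm {K K' : Set E3} (h : Eqv K K') : Eqv K' K := by
  obtain ⟨h, rfl⟩ := h
  exact ⟨h.symm, by rw [← image_comp]; simp⟩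

theorem Eqv.trans {K K' K'' : Set E3} (h : Eqv K K') (h' : Eqv K' K'') : Eqv K K'' := by
  obtain ⟨h, rfl⟩ := h
  obtain ⟨h', rfl⟩ := h'
  exact ⟨h.trans h', by rw [← image_comp]; rfl⟩

/-- a homeomorphism that carries one parametrisation to another -/
theorem Eqv.of_param {α : Type} {F G : α → E3} (h : E3 ≃ₜ E3) (e : ∀ x, h (F x) = G x) :
    Eqv (range F) (range G) :=
  ⟨h, by rw [← range_comp]; exact congrArg range (funext e)⟩

theorem Sim.refl (P : FP) : Sim P P := ⟨1, one_pos, fun _ _ => Eqv.refl _⟩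

theorem Sim.symm {P P' : FP} (h : Sim P P') : Sim P' P := by
  obtain ⟨e, he, h⟩ := h
  exact ⟨e, he, fun ε hε => (h ε hε).symm⟩

theorem Sim.trans {P P' P'' : FP} (h : Sim P P') (h' : Sim P' P'') : Sim P P'' := by
  obtain ⟨e, he, h⟩ := h
  obtain ⟨e', he', h'⟩ := h'
  exact ⟨min e e', lt_min he he', fun ε hε => (h ε ⟨hε.1, hε.2.trans (min_le_left _ _)⟩).trans
    (h' ε ⟨hε.1, hε.2.trans (min_le_right _ _)⟩)⟩

theorem Sim.of_bd {P P' : FP} (h : ∀ ε, Bd P' ε = Bd P ε) : Sim P P' :=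
  ⟨1, one_pos, fun ε _ => Eqv.of_eq (by rw [Kn, Kn, h])⟩

theorem pS_eq (j : Fin 4) : pS j = 4 * (fS j : ℝ) := by
  fin_cases j <;> simp [pS, fS] <;> norm_num

theorem pE_eq (j : Fin 4) : pE j = 4 * (fE j : ℝ) := by
  fin_cases j <;> simp [pE, fE] <;> norm_num

variable {ι : Type}

theorem cfg_apply (l : ι ↪ ℕ) (i : ι) : (cfg l).1 i = (l i : ℂ) := rfl

theorem swE_apply (x : ℕ × Bool) (l : ι ↪ ℕ) (i : ι) : swE x l i = sw x (l i) := rfl

theorem lp_apply (l : ι ↪ ℕ) (x : ℕ × Bool) (t : unitInterval) (i : ι) :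
    (lp l x t).1 i = mv x (l i) t := rfl

theorem dbl_apply (l : ι ↪ ℕ) (a : ι × Bool) : dbl l a = 2 * l a.1 + a.2.toNat := rfl

theorem lT_apply (k : ℕ) (b : Bn k) : lT k b = 2 * k * b.1.val + b.2.val := rfl

theorem fin_nil (l : ι ↪ ℕ) : fin l [] = l := rfl

theorem fin_cons (l : ι ↪ ℕ) (x : ℕ × Bool) (w : Word) : fin l (x :: w) = fin (swE x l) w := rfl

theorem fin_append (l : ι ↪ ℕ) (u v : Word) : fin l (u ++ v) = fin (fin l u) v :=
  List.foldl_append

theorem fin_apply (w : Word) : ∀ (l : ι ↪ ℕ) (i : ι),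
    fin l w i = w.foldl (fun q x => sw x q) (l i) := by
  induction w with
  | nil => intro l i; rfl
  | cons x w ih => intro l i; exact ih (swE x l) i

theorem sw_lt {x : ℕ × Bool} {m : ℕ} (h : x.1 + 1 < m) (q : ℕ) : sw x q < m ↔ q < m := by
  unfold sw; split_ifs <;> omega

theorem Bij.swE {n : ℕ} {l : ι ↪ ℕ} (h : Bij n l) {x : ℕ × Bool} (hx : x.1 + 1 < n) :
    Bij n (swE x l) := fun q => by
  rw [← sw_lt hx, h]
  refine exists_congr fun i => ⟨fun e => ?_, fun e => ?_⟩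
  · rw [swE_apply, e, sw_sw]
  · rw [← e, swE_apply, sw_sw]

theorem Rng.nil (n : ℕ) : Rng n [] := fun _ h => absurd h List.not_mem_nil

theorem rng_cons {n : ℕ} {x : ℕ × Bool} {w : Word} : Rng n (x :: w) ↔ x.1 + 1 < n ∧ Rng n w :=
  List.forall_mem_cons

theorem rng_append {n : ℕ} {u v : Word} : Rng n (u ++ v) ↔ Rng n u ∧ Rng n v :=
  List.forall_mem_append

theorem Rng.inverse {n : ℕ} {w : Word} (h : Rng n w) : Rng n (inverse w) := fun x hx => by
  simp only [P258.Braid.inverse, List.mem_reverse, List.mem_map] at hx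
  obtain ⟨y, hy, rfl⟩ := hx
  exact h y hy

theorem Bij.fin {n : ℕ} {w : Word} (hw : Rng n w) : ∀ {l : ι ↪ ℕ}, Bij n l → Bij n (fin l w) := by
  induction w with
  | nil => exact fun h => h
  | cons x w ih => exact fun h => ih (rng_cons.1 hw).2 (h.swE (rng_cons.1 hw).1)

theorem Bij.lt {n : ℕ} {l : ι ↪ ℕ} (h : Bij n l) (i : ι) : l i < n := (h _).2 ⟨i, rfl⟩

/-- adjacent positions form a perfect matching -/
theorem Bij.two {b : ℕ} {l : ι ↪ ℕ} (h : Bij (2 * b) l) : Two fun i => l i / 2 := fun i => by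
  have h1 := h.lt i
  obtain ⟨j, hj⟩ := (h (if l i % 2 = 0 then l i + 1 else l i - 1)).1 (by split_ifs <;> omega)
  refine ⟨j, fun e => ?_, ?_, fun j' hj' => ?_⟩
  · subst e; split_ifs at hj <;> omega
  · beta_reduce; split_ifs at hj <;> omega
  · beta_reduce at hj'
    by_cases e : l j' = l i
    · exact Or.inl (l.injective e)
    · exact Or.inr (l.injective (by split_ifs at hj <;> omega))

theorem Two.congr {μ μ' : ι → ℕ} (e : ∀ a a', μ a = μ a' ↔ μ' a = μ' a') (h : Two μ) : Two μ' :=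
  fun i => by
    obtain ⟨j, h1, h2, h3⟩ := h i
    exact ⟨j, h1, (e _ _).1 h2, fun j' hj' => h3 j' ((e _ _).2 hj')⟩

theorem SC.congr {μ μ' : ι → ℕ} (e : ∀ a a', μ a = μ a' ↔ μ' a = μ' a') {y : X ι} (h : SC μ y) :
    SC μ' y := fun i j i' j' h1 h2 h3 =>
  h i j i' j' ((e _ _).2 h1) ((e _ _).2 h2) fun h4 => h3 ((e _ _).1 h4)

theorem plat_congr {μb μb' μt μt' : ι → ℕ} (e : ∀ a a', μb a = μb a' ↔ μb' a = μb' a')
    (e' : ∀ a a', μt a = μt a' ↔ μt' a = μt' a') {x y : X ι} (γ : Path x y) :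
    plat μb μt γ = plat μb' μt' γ := by
  simp only [plat, e, e']

/-- segments over disjoint intervals -/
theorem SC.of_re {μ : ι → ℕ} {y : X ι} (a b : ℕ → ℝ)
    (h : ∀ i, a (μ i) ≤ (y.1 i).re ∧ (y.1 i).re ≤ b (μ i)) (h' : ∀ m n, m < n → b m < a n) :
    SC μ y := by
  have key : ∀ i j, μ i = μ j → ∀ z ∈ segment ℝ (y.1 i) (y.1 j),
      a (μ i) ≤ z.re ∧ z.re ≤ b (μ i) := by
    rintro i j e _ ⟨s, t, hs, ht, hst, rfl⟩
    have h1 := h i
    have h2 := h j
    rw [← e] at h2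
    simp only [add_re, real_smul, mul_re, ofReal_re, ofReal_im, zero_mul, sub_zero]
    constructor
    · calc a (μ i) = s * a (μ i) + t * a (μ i) := by rw [← add_mul, hst, one_mul]
        _ ≤ _ := by gcongr; exacts [h1.1, h2.1]
    · calc _ ≤ s * b (μ i) + t * b (μ i) := by gcongr; exacts [h1.2, h2.2]
        _ = _ := by rw [← add_mul, hst, one_mul]
  intro i j i' j' h1 h2 h3
  refine disjoint_left.2 fun z hz hz' => ?_
  have k1 := key i j h1 z hz
  have k2 := key i' j' h2 z hz'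
  rcases lt_or_gt_of_ne h3 with h4 | h4
  · linarith [h' _ _ h4]
  · linarith [h' _ _ h4]

theorem SC.cfg (l : ι ↪ ℕ) : SC (fun i => l i / 2) (cfg l) := by
  refine SC.of_re (fun m => 2 * m) (fun m => 2 * m + 1) (fun i => ?_) fun m n h => ?_
  · rw [cfg_apply, natCast_re]
    constructor
    · exact_mod_cast (by omega : 2 * (l i / 2) ≤ l i)
    · exact_mod_cast (by omega : l i ≤ 2 * (l i / 2) + 1)
  · exact_mod_cast (by omega : 2 * m + 1 < 2 * n)

theorem IsW.homotopic {l l' : ι ↪ ℕ} {w : Word} {γ γ' : Path (cfg l) (cfg l')} (h : IsW l l' w γ)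
    (e : γ'.Homotopic γ) : IsW l l' w γ' := by
  cases h with
  | nil _ _ h => exact IsW.nil _ _ (e.trans h)
  | cons _ _ x w δ _ h1 h2 => exact IsW.cons _ _ x w δ _ h1 (e.trans h2)

theorem IsW.fin {l l' : ι ↪ ℕ} {w : Word} {γ : Path (cfg l) (cfg l')} (h : IsW l l' w γ) :
    l' = fin l w := by
  induction h with
  | nil => rfl
  | cons _ _ _ _ _ _ _ _ ih => exact ih

theorem IsW.exists (w : Word) : ∀ l : ι ↪ ℕ, ∃ γ, IsW l (Q258U.fin l w) w γ := by
  induction w with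
  | nil => exact fun l => ⟨Path.refl _, IsW.nil _ _ (Path.Homotopic.refl _)⟩
  | cons x w ih =>
    intro l
    obtain ⟨δ, h⟩ := ih (swE x l)
    exact ⟨(lp l x).trans δ, IsW.cons _ _ x w δ _ h (Path.Homotopic.refl _)⟩

theorem IsW.exists' {l l' : ι ↪ ℕ} {w : Word} (e : l' = Q258U.fin l w) : ∃ γ, IsW l l' w γ :=
  e ▸ IsW.exists w l

theorem IsW.unique {w : Word} : ∀ {l l' : ι ↪ ℕ} {γ γ' : Path (cfg l) (cfg l')},
    IsW l l' w γ → IsW l l' w γ' → γ.Homotopic γ' := by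
  induction w with
  | nil =>
    intro l l' γ γ' h h'
    cases h with
    | nil _ _ h => cases h' with
      | nil _ _ h' => exact h.trans h'.symm
  | cons x w ih =>
    intro l l' γ γ' h h'
    cases h with
    | cons _ _ _ _ δ _ h1 h2 => cases h' with
      | cons _ _ _ _ δ' _ h1' h2' =>
        exact h2.trans (((Path.Homotopic.refl _).hcomp (ih h1 h1')).trans h2'.symm)

theorem IsW.append {l l' l'' : ι ↪ ℕ} {u v : Word} {γ : Path (cfg l) (cfg l')}
    {δ : Path (cfg l') (cfg l'')} (h : IsW l l' u γ) (h' : IsW l' l'' v δ) :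
    IsW l l'' (u ++ v) (γ.trans δ) := by
  induction h with
  | nil l γ h =>
    exact h'.homotopic ((h.hcomp (Path.Homotopic.refl _)).trans ⟨Path.Homotopy.reflTrans _⟩)
  | cons l l' x w ε γ _ h2 ih =>
    exact IsW.cons _ _ x _ _ _ (ih h')
      ((h2.hcomp (Path.Homotopic.refl _)).trans ⟨Path.Homotopy.transAssoc _ _ _⟩)

theorem IsW.single (l : ι ↪ ℕ) (x : ℕ × Bool) : IsW l (swE x l) [x] (lp l x) :=
  IsW.cons _ _ x [] (Path.refl _) _ (IsW.nil _ _ (Path.Homotopic.refl _))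
    ⟨(Path.Homotopy.transRefl _).symm⟩

/-- a path of the word `u ++ v` splits -/
theorem IsW.split {l l'' : ι ↪ ℕ} {u v : Word} {γ : Path (cfg l) (cfg l'')}
    (h : IsW l l'' (u ++ v) γ) : ∃ (α : Path (cfg l) (cfg (Q258U.fin l u)))
      (β : Path (cfg (Q258U.fin l u)) (cfg l'')), IsW l _ u α ∧ IsW _ l'' v β ∧
        γ.Homotopic (α.trans β) := by
  obtain ⟨α, hα⟩ := IsW.exists u l
  obtain ⟨β, hβ⟩ := IsW.exists' (l := Q258U.fin l u) (w := v) (h.fin.trans (fin_append _ _ _))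
  exact ⟨α, β, hα, hβ, h.unique (hα.append hβ)⟩

theorem resp_append (la : ι → ℝ) (u v : Word) : ∀ l : ι ↪ ℕ,
    Resp la l (u ++ v) ↔ Resp la l u ∧ Resp la (fin l u) v := by
  induction u with
  | nil => intro l; simp [Resp, fin_nil]
  | cons x u ih => intro l; simp only [List.cons_append, Resp, ih, fin_cons, and_assoc]

/-- the identity embedding of `Fin n` -/
def idE (n : ℕ) : Fin n ↪ ℕ := ⟨Fin.val, Fin.val_injective⟩

theorem bij_idE (n : ℕ) : Bij n (idE n) := fun q =>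
  ⟨fun h => ⟨⟨q, h⟩, rfl⟩, fun ⟨i, h⟩ => h ▸ i.2⟩

end Vale.Agent.Q258U
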