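import Vale.Agent.Q258U.Core
import Mathlib.AlgebraicTopology.FundamentalGroupoid.SimplyConnected
import Mathlib.Analysis.Convex.Contractible

/-!
# Paths of bands are cables with twists
-/

set_option linter.all false

namespace Vale.Agent.Q258U

open Vale.Agent.P258.Braid Vale.Agent.N258B Vale.Agent.Q258D Set Complex

namespace D

section tools

variable {Y Z : Type} [TopologicalSpace Y] [TopologicalSpace Z]

/-- the path `α` is the image of the path `a` -/
def Fac (F : C(Z, Y)) {p q : Z} {x y : Y} (a : Path p q) (α : Path x y) : Prop :=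
  ∀ t, α t = F (a t)

theorem Fac.trans {F : C(Z, Y)} {p q r : Z} {x y z : Y} {a : Path p q} {b : Path q r}
    {α : Path x y} {β : Path y z} (h : Fac F a α) (h' : Fac F b β) :
    Fac F (a.trans b) (α.trans β) := fun t => by
  rw [Path.trans_apply, Path.trans_apply]
  split_ifs
  exacts [h _, h' _]

theorem Fac.hom {F : C(Z, Y)} {p q : Z} {x y : Y} {a b : Path p q} {α β : Path x y}
    (h : Fac F a α) (h' : Fac F b β) (e : a.Homotopic b) : α.Homotopic β := by
  have hx : x = F p := by simpa using h 0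
  have hy : y = F q := by simpa using h 1
  subst hx hy
  have e1 : α = a.map F.continuous := Path.ext (funext h)
  have e2 : β = b.map F.continuous := Path.ext (funext h')
  rw [e1, e2]
  exact e.map F

theorem exists_fac (F : C(Z, Y)) {p q : Z} {x y : Y} (a : Path p q) (hx : x = F p)
    (hy : y = F q) : ∃ α : Path x y, Fac F a α := by
  subst hx hy
  exact ⟨a.map F.continuous, fun _ => rfl⟩

theorem sq_hom {p q : unitInterval × unitInterval} (a b : Path p q) : a.Homotopic b := by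
  haveI : ContractibleSpace unitInterval :=
    (convex_Icc (0 : ℝ) 1).contractibleSpace ⟨0, left_mem_Icc.2 zero_le_one⟩
  exact SimplyConnectedSpace.paths_homotopic a b

/-- horizontal paths in the square -/
def hor (t : unitInterval) : Path ((0, t) : unitInterval × unitInterval) (1, t) :=
  ⟨⟨fun s => (s, t), by fun_prop⟩, rfl, rfl⟩

/-- vertical paths in the square -/
def ver (s : unitInterval) : Path ((s, 0) : unitInterval × unitInterval) (s, 1) :=
  ⟨⟨fun t => (s, t), by fun_prop⟩, rfl, rfl⟩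

/-- the diagonal of the square -/
def dia : Path ((0, 0) : unitInterval × unitInterval) (1, 1) :=
  ⟨⟨fun t => (t, t), by fun_prop⟩, rfl, rfl⟩

theorem diag (F : C(unitInterval × unitInterval, Y)) {x y z : Y} {γ : Path x z} {α : Path x y}
    {β : Path y z} (h : Fac F dia γ) (h1 : Fac F (hor 0) α) (h2 : Fac F (ver 1) β) :
    γ.Homotopic (α.trans β) :=
  h.hom (h1.trans h2) (sq_hom _ _)

theorem square (F : C(unitInterval × unitInterval, Y)) {x y z w : Y} {α : Path x y}
    {β : Path y z} {γ : Path x w} {δ : Path w z} (h1 : Fac F (hor 0) α) (h2 : Fac F (ver 1) β)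
    (h3 : Fac F (ver 0) γ) (h4 : Fac F (hor 1) δ) : (γ.trans δ).Homotopic (α.trans β) :=
  (h3.trans h4).hom (h1.trans h2) (sq_hom _ _)

theorem book {x x' y y' : Y} {γ : Path x y} {σ : Path x x'} {σ' : Path y y'} {Δ Γ : Path x' y'}
    {Λ : Path y' y'} {Θ : Path y y} (h1 : (γ.trans σ').Homotopic (σ.trans Δ))
    (h2 : Δ.Homotopic (Γ.trans Λ)) (h3 : (Θ.trans σ').Homotopic (σ'.trans Λ)) :
    γ.Homotopic ((σ.trans (Γ.trans σ'.symm)).trans Θ) := by
  rw [← Path.Homotopic.Quotient.eq] at h1 h2 h3 ⊢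
  simp only [Path.Homotopic.Quotient.mk_trans, Path.Homotopic.Quotient.mk_symm] at h1 h2 h3 ⊢
  generalize Path.Homotopic.Quotient.mk γ = g at *
  generalize Path.Homotopic.Quotient.mk σ = s at *
  generalize Path.Homotopic.Quotient.mk σ' = s' at *
  generalize Path.Homotopic.Quotient.mk Δ = d at *
  generalize Path.Homotopic.Quotient.mk Γ = G at *
  generalize Path.Homotopic.Quotient.mk Λ = L at *
  generalize Path.Homotopic.Quotient.mk Θ = T at *
  have e1 : g = (g.trans s').trans s'.symm := by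
    rw [Path.Homotopic.Quotient.trans_assoc, Path.Homotopic.Quotient.trans_symm,
      Path.Homotopic.Quotient.trans_refl]
  have e2 : T = (T.trans s').trans s'.symm := by
    rw [Path.Homotopic.Quotient.trans_assoc, Path.Homotopic.Quotient.trans_symm,
      Path.Homotopic.Quotient.trans_refl]
  rw [e1, e2, h1, h2, h3]
  simp only [Path.Homotopic.Quotient.trans_assoc]
  rw [← Path.Homotopic.Quotient.trans_assoc s'.symm s', Path.Homotopic.Quotient.symm_trans,
    Path.Homotopic.Quotient.refl_trans]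

end tools

variable {ι : Type}

theorem sg_true : sg true = 1 := rfl

theorem sg_false : sg false = -1 := rfl

theorem abs_sg (e : Bool) : |sg e| = 1 := by cases e <;> simp [sg]

/-- the two ends of the bands -/
noncomputable def bc (c v : ι → ℂ) (a : ι × Bool) : ℂ := 2 * c a.1 + 1 / 2 + sg a.2 * v a.1

/-- disjoint nondegenerate bands -/
def Gd (c v : ι → ℂ) : Prop :=
  (∀ i, v i ≠ 0) ∧ ∀ i j, i ≠ j → ∀ s t : ℝ, |s| ≤ 1 → |t| ≤ 1 →
    2 * c i + s * v i ≠ 2 * c j + t * v j

theorem Gd.inj {c v : ι → ℂ} (h : Gd c v) : Function.Injective (bc c v) := by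
  rintro ⟨i, e⟩ ⟨j, e'⟩ k
  simp only [bc] at k
  by_cases hij : i = j
  · subst hij
    have k1 : ((sg e : ℂ) - sg e') * v i = 0 := by linear_combination k
    have k2 := (mul_eq_zero.1 k1).resolve_right (h.1 i)
    cases e <;> cases e' <;> simp [sg] at k2 ⊢ <;> norm_num at k2
  · exact absurd (by linear_combination k) (h.2 i j hij _ _ (abs_sg e).le (abs_sg e').le)

theorem Gd.cinj {c v : ι → ℂ} (h : Gd c v) : Function.Injective c := fun i j k => by
  by_contra hij
  exact h.2 i j hij 0 0 (by simp) (by simp) (by simp [k])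

theorem Gd.small {c v : ι → ℂ} (h : ∀ i, v i ≠ 0)
    (h' : ∀ i j, i ≠ j → ‖v i‖ + ‖v j‖ < 2 * ‖c i - c j‖) : Gd c v := by
  refine ⟨h, fun i j hij s t hs ht k => ?_⟩
  have e : 2 * (c i - c j) = t * v j - s * v i := by linear_combination k
  have e1 := congrArg norm e
  rw [norm_mul, Complex.norm_two] at e1
  have e2 := norm_sub_le (t * v j) (s * v i)
  rw [norm_mul, norm_mul, norm_real, norm_real, Real.norm_eq_abs, Real.norm_eq_abs] at e2
  have := h' i j hij
  nlinarith [norm_nonneg (v i), norm_nonneg (v j)]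

theorem Gd.scale {c v : ι → ℂ} (h : Gd c v) {r : ℝ} (r0 : 0 < r) (r1 : r ≤ 1) :
    Gd c fun i => r * v i := by
  refine ⟨fun i => mul_ne_zero (ofReal_ne_zero.2 r0.ne') (h.1 i), fun i j hij s t hs ht k => ?_⟩
  have key : ∀ s : ℝ, |s| ≤ 1 → |s * r| ≤ 1 := fun s hs => by
    rw [abs_mul, abs_of_pos r0]
    exact mul_le_one₀ hs r0.le r1
  refine h.2 i j hij (s * r) (t * r) (key s hs) (key t ht) ?_
  push_cast
  linear_combination k

theorem Gd.std (l : ι ↪ ℕ) {v : ι → ℂ} (h : ∀ i, v i ≠ 0) (h' : ∀ i, ‖v i‖ ≤ 1 / 2) :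
    Gd (fun i => (l i : ℂ)) v := by
  refine Gd.small h fun i j hij => ?_
  have h1 : (1 : ℝ) ≤ ‖(l i : ℂ) - l j‖ := by
    have : (l i : ℂ) - l j = (((l i : ℤ) - l j : ℤ) : ℂ) := by push_cast; rfl
    rw [this, norm_intCast]
    have : (l i : ℤ) - l j ≠ 0 := fun e => hij (l.injective (by omega))
    exact_mod_cast Int.one_le_abs this
  linarith [h' i, h' j]

/-- the centres -/
noncomputable def cen (y : X (ι × Bool)) (i : ι) : ℂ :=
  ((y.1 (i, false) + y.1 (i, true)) / 2 - 1 / 2) / 2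

/-- the vectors -/
noncomputable def vec (y : X (ι × Bool)) (i : ι) : ℂ := (y.1 (i, true) - y.1 (i, false)) / 2

theorem cont_ap (a : ι) : Continuous fun y : X ι => y.1 a :=
  (continuous_apply a).comp continuous_subtype_val

theorem cont_cen : Continuous (cen : X (ι × Bool) → ι → ℂ) :=
  continuous_pi fun _ =>
    ((((cont_ap _).add (cont_ap _)).div_const _).sub continuous_const).div_const _

theorem cont_vec : Continuous (vec : X (ι × Bool) → ι → ℂ) :=
  continuous_pi fun _ => ((cont_ap _).sub (cont_ap _)).div_const _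

theorem bc_cen (y : X (ι × Bool)) : bc (cen y) (vec y) = y.1 := by
  funext ⟨i, e⟩
  cases e <;> simp only [bc, cen, vec, sg_true, sg_false] <;> push_cast <;> ring

theorem cen_cfg (l : ι ↪ ℕ) : cen (cfg (dbl l)) = fun i => (l i : ℂ) := by
  funext i
  simp only [cen, cfg_apply, dbl_apply, Bool.toNat_false, Bool.toNat_true]
  push_cast
  ring

theorem vec_cfg (l : ι ↪ ℕ) : vec (cfg (dbl l)) = fun _ => 1 / 2 := by
  funext i
  simp only [vec, cfg_apply, dbl_apply, Bool.toNat_false, Bool.toNat_true]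
  push_cast
  ring

theorem Gd.of_SC {l : ι ↪ ℕ} {y : X (ι × Bool)} (h : SC (fun a => l a.1) y) :
    Gd (cen y) (vec y) := by
  refine ⟨fun i k => ?_, fun i j hij s t hs ht k => ?_⟩
  · have : y.1 (i, true) = y.1 (i, false) := by
      simp only [vec] at k
      linear_combination 2 * k
    simpa using y.2 this
  · have key : ∀ (i : ι) (s : ℝ), |s| ≤ 1 →
        2 * cen y i + 1 / 2 + s * vec y i ∈ segment ℝ (y.1 (i, false)) (y.1 (i, true)) := by
      intro i s hs
      have := abs_le.1 hs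
      refine ⟨(1 - s) / 2, (1 + s) / 2, by linarith, by linarith, by ring, ?_⟩
      simp only [real_smul, cen, vec]
      push_cast
      ring
    refine disjoint_left.1 (h (i, false) (i, true) (j, false) (j, true) rfl rfl
      fun e => hij (l.injective e)) (key i s hs) ?_
    rw [show 2 * cen y i + 1 / 2 + s * vec y i = 2 * cen y j + 1 / 2 + t * vec y j by
      linear_combination k]
    exact key j t ht

/-- a continuous family of bands -/
noncomputable def mkF {Z : Type} [TopologicalSpace Z] (c v : Z → ι → ℂ) (hc : Continuous c)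
    (hv : Continuous v) (h : ∀ p, Gd (c p) (v p)) : C(Z, X (ι × Bool)) :=
  ⟨fun p => ⟨bc (c p) (v p), (h p).inj⟩, Continuous.subtype_mk (by unfold bc; fun_prop) _⟩

theorem cfg_dbl (l : ι ↪ ℕ) : (cfg (dbl l)).1 = bc (fun i => (l i : ℂ)) fun _ => 1 / 2 := by
  rw [← bc_cen, cen_cfg, vec_cfg]

theorem cfg_inj {l l' : ι ↪ ℕ} (h : cfg l = cfg l') : l = l' := by
  ext i
  have := congrFun (congrArg Subtype.val h) i
  simp only [cfg_apply] at this
  exact_mod_cast this

theorem lay_bc (l : ι ↪ ℕ) {w : ι → ℂ} (hw : ∀ i, ‖w i‖ ≤ 1 / 2) (r : ℝ)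
    (h : ∀ i, (w i).re = 0 → 0 < r * (w i).im) {y : X (ι × Bool)}
    (hy : y.1 = bc (fun i => (l i : ℂ)) w) : y ∈ Lay fun p : ι × Bool => sg p.2 * r := by
  rintro ⟨i, e⟩ ⟨j, e'⟩ hne k
  have hre : ∀ (i : ι) (e : Bool), (y.1 (i, e)).re = 2 * l i + 1 / 2 + sg e * (w i).re := by
    intro i e
    simp [hy, bc]
  have him : ∀ (i : ι) (e : Bool), (y.1 (i, e)).im = sg e * (w i).im := by
    intro i e
    simp [hy, bc]
  have hb : ∀ (i : ι) (e : Bool), |sg e * (w i).re| ≤ 1 / 2 := fun i e => by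
    rw [abs_mul, abs_sg, one_mul]
    exact (abs_re_le_norm _).trans (hw i)
  rw [hre, hre] at k
  rw [him, him]
  have hij : i = j := by
    have h1 := abs_le.1 (hb i e)
    have h2 := abs_le.1 (hb j e')
    have h3 : (l i : ℝ) < l j + 1 := by linarith
    have h4 : (l j : ℝ) < l i + 1 := by linarith
    have h5 : l i < l j + 1 := by exact_mod_cast h3
    have h6 : l j < l i + 1 := by exact_mod_cast h4
    exact l.injective (by omega)
  subst hij
  cases e <;> cases e'
  · exact absurd rfl hne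
  · simp only [sg_true, sg_false] at k ⊢
    have := h i (by linarith)
    refine ⟨fun e => ?_, fun e => ?_⟩
    · rw [show r = 0 by linarith] at this
      simp at this
    · nlinarith
  · simp only [sg_true, sg_false] at k ⊢
    have := h i (by linarith)
    refine ⟨fun e => ?_, fun e => ?_⟩
    · rw [show r = 0 by linarith] at this
      simp at this
    · nlinarith
  · exact absurd rfl hne

/-- the vector of length one half -/
noncomputable def nrm (z : ℂ) : ℂ := ((2 * ‖z‖)⁻¹ : ℝ) * z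

theorem norm_nrm {z : ℂ} (h : z ≠ 0) : ‖nrm z‖ = 1 / 2 := by
  have := norm_ne_zero_iff.2 h
  rw [nrm, norm_mul, norm_real, norm_inv, Real.norm_eq_abs, abs_of_nonneg (by positivity)]
  field_simp

theorem cont_nrm {Z : Type} [TopologicalSpace Z] {f : Z → ℂ} (hf : Continuous f)
    (h : ∀ p, f p ≠ 0) : Continuous fun p => nrm (f p) :=
  (continuous_ofReal.comp ((continuous_const.mul hf.norm).inv₀ fun p =>
    mul_ne_zero two_ne_zero (norm_ne_zero_iff.2 (h p)))).mul hf

theorem ne_of_half {z : ℂ} (h : ‖z‖ = 1 / 2) : z ≠ 0 := fun e => by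
  rw [e, norm_zero] at h
  norm_num at h

theorem norm_half : ‖(1 / 2 : ℂ)‖ = 1 / 2 := by simp

/-- the positions of two points -/
def mB (b : Bool) : Bool ↪ ℕ :=
  ⟨fun e => (xor e b).toNat, by intro e e'; cases e <;> cases e' <;> cases b <;> simp⟩

theorem mB_apply (b e : Bool) : mB b e = (xor e b).toNat := rfl

theorem swE_mB (b e : Bool) : swE (0, e) (mB b) = mB (!b) := by
  ext e'
  cases b <;> cases e' <;> rfl

open Classical in
/-- the positions, with the two edges of the band `a` exchanged if `b` -/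
noncomputable def Dm (l : ι ↪ ℕ) (a : ι) (b : Bool) : ι × Bool ↪ ℕ :=
  Function.Embedding.trans ⟨fun p => (p.1, if p.1 = a then xor p.2 b else p.2), by
    rintro ⟨i, e⟩ ⟨j, e'⟩ h
    obtain ⟨h1, h2⟩ := Prod.mk.inj h
    simp only at h1 h2
    subst h1
    split_ifs at h2
    · rw [Bool.xor_left_inj.1 h2]
    · rw [h2]⟩ (dbl l)

open Classical in
theorem Dm_apply (l : ι ↪ ℕ) (a : ι) (b : Bool) (p : ι × Bool) :
    Dm l a b p = 2 * l p.1 + (if p.1 = a then xor p.2 b else p.2).toNat := rfl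

theorem Dm_false (l : ι ↪ ℕ) (a : ι) : Dm l a false = dbl l := by
  ext p
  simp [Dm_apply, dbl_apply]

theorem swE_Dm (l : ι ↪ ℕ) (a : ι) (b e : Bool) :
    swE (2 * l a, e) (Dm l a b) = Dm l a (!b) := by
  ext ⟨i, e'⟩
  rw [swE_apply, Dm_apply, Dm_apply]
  by_cases h : i = a
  · subst h
    cases b <;> cases e' <;> simp [sw]
  · have : l i ≠ l a := fun k => h (l.injective k)
    cases e' <;> simp only [h, if_false, sw, Bool.toNat_false, Bool.toNat_true] <;>
      split_ifs <;> omega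

open Classical in
theorem resp_Dm (l : ι ↪ ℕ) (a : ι) (b e : Bool) :
    Resp (fun p : ι × Bool => sg p.2 * (sg b * sg e)) (Dm l a b) [(2 * l a, e)] := by
  refine ⟨?_, trivial⟩
  rintro ⟨i, x⟩ ⟨j, y⟩ h1 h2
  rw [Dm_apply] at h1 h2
  simp only at h1 h2
  have k1 : i = a := l.injective (by have := Bool.toNat_le (if i = a then xor x b else x); omega)
  have k2 : j = a := l.injective (by have := Bool.toNat_le (if j = a then xor y b else y); omega)
  subst k1 k2
  cases b <;> cases e <;> cases x <;> cases y <;> simp [sg] at h1 h2 ⊢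

open Classical in
/-- the vectors, all standard but one -/
noncomputable def one (a : ι) (z : ℂ) (i : ι) : ℂ := if i = a then z else 1 / 2

theorem one_self (a : ι) (z : ℂ) : one a z a = z := if_pos rfl

theorem one_ne {a i : ι} (h : i ≠ a) (z : ℂ) : one a z i = 1 / 2 := if_neg h

theorem norm_one' (a : ι) {z : ℂ} (h : ‖z‖ = 1 / 2) (i : ι) : ‖one a z i‖ = 1 / 2 := by
  by_cases e : i = a
  · subst e
    rwa [one_self]
  · rw [one_ne e, norm_half]

theorem cont_one {Z : Type} [TopologicalSpace Z] (a : ι) {f : Z → ℂ} (hf : Continuous f) :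
    Continuous fun p => one a (f p) :=
  continuous_pi fun i => by
    by_cases e : i = a
    · subst e
      simpa only [one_self] using hf
    · simpa only [one_ne e] using continuous_const

theorem diff_ne (y : X Bool) : y.1 true - y.1 false ≠ 0 := fun h => by
  simpa using y.2 (sub_eq_zero.1 h)

/-- two points give a band -/
noncomputable def PP (l : ι ↪ ℕ) (a : ι) : C(X Bool, X (ι × Bool)) :=
  mkF (fun _ i => (l i : ℂ)) (fun y => one a (nrm (y.1 true - y.1 false))) continuous_const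
    (cont_one a (cont_nrm ((cont_ap true).sub (cont_ap false)) diff_ne))
    fun y => Gd.std l (fun i => ne_of_half (norm_one' a (norm_nrm (diff_ne y)) i))
      fun i => (norm_one' a (norm_nrm (diff_ne y)) i).le

theorem PP_val (l : ι ↪ ℕ) (a : ι) (y : X Bool) :
    (PP l a y).1 = bc (fun i => (l i : ℂ)) (one a (nrm (y.1 true - y.1 false))) := rfl

theorem PP_cfg (l : ι ↪ ℕ) (a : ι) (b : Bool) : cfg (Dm l a b) = PP l a (cfg (mB b)) := by
  refine Subtype.ext (funext fun ⟨i, e⟩ => ?_)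
  rw [PP_val, cfg_apply, Dm_apply, cfg_apply, cfg_apply, mB_apply, mB_apply]
  unfold bc
  by_cases h : i = a
  · subst h
    cases b <;> cases e <;> simp [one_self, nrm, sg] <;> ring
  · cases e <;> simp [h, one_ne h, sg] <;> ring

theorem PP_lay (l : ι ↪ ℕ) (a : ι) (b e : Bool) (t : unitInterval) :
    PP l a (lp (mB b) (0, e) t) ∈ Lay fun p : ι × Bool => sg p.2 * (sg b * sg e) := by
  refine lay_bc l (fun i => (norm_one' a (norm_nrm (diff_ne _)) i).le) _ (fun i => ?_)
    (PP_val l a _)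
  by_cases h : i = a
  · subst h
    rw [one_self]
    have h0 := norm_pos_iff.2 (diff_ne (lp (mB b) (0, e) t))
    have key : ∀ z : ℂ, 0 < ‖z‖ → (z.re = 0 → 0 < sg b * sg e * z.im) →
        (nrm z).re = 0 → 0 < sg b * sg e * (nrm z).im := by
      intro z hz h1 h2
      have hp : 0 < (2 * ‖z‖)⁻¹ := by positivity
      rw [nrm, re_ofReal_mul] at h2
      rw [nrm, im_ofReal_mul]
      have := mul_pos hp (h1 ((mul_eq_zero.1 h2).resolve_left hp.ne'))
      linarith
    refine key _ h0 ?_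
    rw [lp_apply, lp_apply, mB_apply, mB_apply]
    cases b <;> cases e <;> simp [mv, sg] <;> intro h <;>
      rw [show (t : ℝ) = 1 / 2 by linarith] <;> norm_num
  · rw [one_ne h]
    intro k
    norm_num at k

/-- the word is a product of pairs of half twists, up to one letter if `c` -/
def Par (q : ℕ) (c : Bool) (u : Word) : Prop :=
  ∃ T : List (ℕ × Bool × Bool), (∀ x ∈ T, x.1 = q) ∧
    if c then ∃ e, u = (2 * q, e) :: twists T else u = twists T

theorem Par.cons {q : ℕ} {c : Bool} {u : Word} (h : Par q (!c) u) (e : Bool) :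
    Par q c ((2 * q, e) :: u) := by
  obtain ⟨T, h1, h2⟩ := h
  cases c
  · obtain ⟨e', rfl⟩ := h2
    exact ⟨(q, e, e') :: T, List.forall_mem_cons.2 ⟨rfl, h1⟩, rfl⟩
  · exact ⟨T, h1, e, congrArg _ h2⟩

theorem push [Finite ι] (hW : RowW) (l : ι ↪ ℕ) (a : ι) {m m' : Bool ↪ ℕ} {ω : Word}
    {ρ : Path (cfg m) (cfg m')} (h : IsW m m' ω ρ) : Rng 2 ω → ∀ b b', m = mB b → m' = mB b' →
      ∀ Θ : Path (cfg (Dm l a b)) (cfg (Dm l a b')), Fac (PP l a) ρ Θ →
        ∃ u, Par (l a) (xor b b') u ∧ IsW _ _ u Θ := by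
  induction h with
  | nil m ρ h =>
    intro _ b b' h1 h2 Θ hΘ
    have e : b = b' := by
      have := congrArg (fun m : Bool ↪ ℕ => m false) (h1.symm.trans h2)
      cases b <;> cases b' <;> simp [mB_apply] at this ⊢
    subst e h1
    refine ⟨[], ⟨[], by simp, by simp [twists]⟩, IsW.nil _ _ (hΘ.hom (fun t => ?_) h)⟩
    exact PP_cfg l a b
  | cons m m' x w δ ρ _ h2 ih =>
    intro hr b b' h3 h4 Θ hΘ
    obtain ⟨x, e⟩ := x
    obtain ⟨r1, r2⟩ := rng_cons.1 hr
    obtain rfl : x = 0 := by simp only at r1; omega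
    subst h3 h4
    have k : cfg (Dm l a (!b)) = PP l a (cfg (swE (0, e) (mB b))) := by rw [swE_mB, PP_cfg]
    obtain ⟨Θ1, k1⟩ := exists_fac (PP l a) (lp (mB b) (0, e)) (PP_cfg l a b) k
    obtain ⟨Θ2, k2⟩ := exists_fac (PP l a) δ k (PP_cfg l a b')
    obtain ⟨u, k3, k4⟩ := ih r2 (!b) b' (swE_mB b e) rfl Θ2 k2
    have k5 : IsW _ _ [(2 * l a, e)] Θ1 :=
      (hW _ _).2 _ _ _ (resp_Dm l a b e) (swE_Dm l a b e).symm Θ1 fun t => by
        rw [k1]
        exact PP_lay l a b e t
    refine ⟨(2 * l a, e) :: u, Par.cons ?_ e, (k5.append k4).homotopic (hΘ.hom (k1.trans k2) h2)⟩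
    rwa [← Bool.not_xor]

theorem bij_mB : Bij 2 (mB false) := fun q => by
  constructor
  · intro h
    obtain rfl | rfl : q = 0 ∨ q = 1 := by omega
    exacts [⟨false, rfl⟩, ⟨true, rfl⟩]
  · rintro ⟨e, rfl⟩
    cases e <;> simp [mB_apply]

theorem single [Finite ι] (hW : RowW) (hG : RowG) (l : ι ↪ ℕ) (a : ι) {w : unitInterval → ℂ}
    (hw : Continuous w) (hn : ∀ t, ‖w t‖ = 1 / 2) (h0 : w 0 = 1 / 2) (h1 : w 1 = 1 / 2)
    (Θ : Path (cfg (dbl l)) (cfg (dbl l)))
    (hΘ : ∀ t, (Θ t).1 = bc (fun i => (l i : ℂ)) (one a (w t))) :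
    ∃ T, (∀ x ∈ T, x.1 = l a) ∧ IsW _ _ (twists T) Θ := by
  have inj : ∀ t, Function.Injective fun e : Bool => (1 / 2 + sg e * w t : ℂ) := by
    intro t e e' k
    have k1 : ((sg e : ℂ) - sg e') * w t = 0 := by linear_combination k
    have k2 := (mul_eq_zero.1 k1).resolve_right (ne_of_half (hn t))
    cases e <;> cases e' <;> simp [sg] at k2 ⊢ <;> norm_num at k2
  have ends : ∀ t, w t = 1 / 2 → (⟨_, inj t⟩ : X Bool) = cfg (mB false) := fun t ht =>
    Subtype.ext (funext fun e => by cases e <;> simp [ht, cfg_apply, mB_apply, sg] <;> norm_num)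
  let ρ : Path (cfg (mB false)) (cfg (mB false)) :=
    ⟨⟨fun t => ⟨_, inj t⟩, Continuous.subtype_mk (by fun_prop) _⟩, ends 0 h0, ends 1 h1⟩
  obtain ⟨ω, k1, k2⟩ := hG Bool 2 _ _ bij_mB bij_mB ρ
  have key := push hW l a k2 k1 false false rfl rfl
  rw [Dm_false] at key
  obtain ⟨u, ⟨T, k3, k4⟩, k5⟩ := key Θ fun t => Subtype.ext (by
    rw [hΘ, PP_val]
    congr 2
    have e : (ρ t).1 true - (ρ t).1 false = 2 * w t := by
      show (1 / 2 + sg true * w t : ℂ) - (1 / 2 + sg false * w t) = _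
      simp only [sg_true, sg_false]
      push_cast
      ring
    rw [e, nrm, norm_mul, hn, Complex.norm_two]
    push_cast
    ring)
  exact ⟨T, k3, (show u = twists T from k4) ▸ k5⟩

theorem twist [Finite ι] (hW : RowW) (hG : RowG) (l : ι ↪ ℕ) (S : Finset ι) :
    ∀ {w : unitInterval → ι → ℂ}, Continuous w → (∀ t i, ‖w t i‖ = 1 / 2) →
      (∀ i, w 0 i = 1 / 2) → (∀ i, w 1 i = 1 / 2) → (∀ t, ∀ i ∉ S, w t i = 1 / 2) →
      ∀ Θ : Path (cfg (dbl l)) (cfg (dbl l)), (∀ t, (Θ t).1 = bc (fun i => (l i : ℂ)) (w t)) →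
        ∃ T, (∀ x ∈ T, ∃ a, x.1 = l a) ∧ IsW _ _ (twists T) Θ := by
  classical
  induction S using Finset.induction_on with
  | empty =>
    intro w _ _ _ _ h Θ hΘ
    refine ⟨[], by simp, IsW.nil _ _ ?_⟩
    have : Θ = Path.refl _ := Path.ext (funext fun t => Subtype.ext (by
      rw [hΘ, Path.refl_apply, cfg_dbl]
      congr 1
      exact funext fun i => h t i (by simp)))
    rw [this]
  | insert a S _ ih =>
    intro w hw hn h0 h1 hS Θ hΘ
    let u : unitInterval × unitInterval → ι → ℂ := fun p i => if i = a then w p.2 i else w p.1 i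
    have hu : Continuous u := continuous_pi fun i => by
      have : Continuous fun t => w t i := (continuous_apply i).comp hw
      simp only [u]
      split_ifs <;> fun_prop
    have un : ∀ p i, ‖u p i‖ = 1 / 2 := fun p i => by
      simp only [u]
      split_ifs <;> exact hn _ _
    let F := mkF (fun _ i => (l i : ℂ)) u continuous_const hu
      fun p => Gd.std l (fun i => ne_of_half (un p i)) fun i => (un p i).le
    have hF : ∀ p, (F p).1 = bc (fun i => (l i : ℂ)) (u p) := fun _ => rfl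
    have ends : ∀ s t, (∀ i, w s i = 1 / 2) → (∀ i, w t i = 1 / 2) → cfg (dbl l) = F (s, t) :=
      fun s t hs ht => Subtype.ext (by
        rw [hF, cfg_dbl]
        congr 1
        funext i
        simp only [u]
        split_ifs
        exacts [(ht i).symm, (hs i).symm])
    obtain ⟨α, k1⟩ := exists_fac F (hor 0) (ends 0 0 h0 h0) (ends 1 0 h1 h0)
    obtain ⟨β, k2⟩ := exists_fac F (ver 1) (ends 1 0 h1 h0) (ends 1 1 h1 h1)
    have k3 : Fac F dia Θ := fun t => Subtype.ext (by
      rw [hF, hΘ]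
      congr 1
      funext i
      exact (ite_self _).symm)
    obtain ⟨T, k4, k5⟩ := ih (w := fun s => u (s, 0)) (by fun_prop) (fun t => un _)
      (fun i => by simp only [u]; split_ifs <;> exact h0 _)
      (fun i => by simp only [u]; split_ifs; exacts [h0 _, h1 _])
      (fun t i hi => by
        simp only [u]
        split_ifs with e
        exacts [h0 _, hS t i (by simp [e, hi])]) α fun t => by rw [k1, hF]; rfl
    obtain ⟨T', k6, k7⟩ := single hW hG l a (w := fun t => w t a) (by fun_prop) (fun t => hn _ _)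
      (h0 _) (h1 _) β fun t => by
        rw [k2, hF]
        congr 1
        funext i
        by_cases e : i = a
        · subst e
          rw [one_self]
          exact if_pos rfl
        · rw [one_ne e]
          exact (if_neg e).trans (h1 i)
    refine ⟨T ++ T', fun x hx => ?_, ?_⟩
    · rcases List.mem_append.1 hx with h | h
      exacts [k4 x h, ⟨a, k6 x h⟩]
    · rw [twists, List.flatMap_append]
      exact (k5.append k7).homotopic (diag F k3 k1 k2)

theorem exists_small [Finite ι] {c v : unitInterval → ι → ℂ} (hc : Continuous c)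
    (hv : Continuous v) (inj : ∀ t, Function.Injective (c t)) {δ : ℝ} (hδ : 0 < δ) :
    ∃ κ : ℝ, 0 < κ ∧ κ ≤ 1 ∧ κ ≤ δ ∧ (∀ t i, κ * ‖v t i‖ ≤ 1 / 2) ∧
      ∀ s t i j, i ≠ j → κ * ‖v t i‖ + κ * ‖v t j‖ < 2 * ‖c s i - c s j‖ := by
  cases nonempty_fintype ι
  obtain ⟨M, hM⟩ := (isCompact_range hv).isBounded.exists_norm_le
  have hM' : ∀ t i, ‖v t i‖ ≤ M := fun t i => (norm_le_pi_norm _ i).trans (hM _ ⟨t, rfl⟩)
  have ev : ∀ m : ℝ, 0 < m → ∀ᶠ κ in nhdsWithin (0 : ℝ) (Ioi 0), κ * M < m := fun m hm =>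
    nhdsWithin_le_nhds (ContinuousAt.eventually_lt (f := fun κ : ℝ => κ * M) (g := fun _ => m)
      (by fun_prop) continuousAt_const (by simpa using hm))
  have ev' : ∀ᶠ κ in nhdsWithin (0 : ℝ) (Ioi 0), ∀ i j, i ≠ j → ∀ s, κ * M < ‖c s i - c s j‖ := by
    refine Filter.eventually_all.2 fun i => Filter.eventually_all.2 fun j =>
      Filter.eventually_all.2 fun hij => ?_
    obtain ⟨m, h1, h2⟩ := isCompact_univ.exists_forall_le' (f := fun s => ‖c s i - c s j‖)
      (by fun_prop) fun s _ => norm_pos_iff.2 (sub_ne_zero.2 fun e => hij (inj s e))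
    exact (ev m h1).mono fun κ hκ s => hκ.trans_le (h2 s trivial)
  obtain ⟨κ, ⟨⟨k1, k2⟩, k3⟩, k4⟩ := ((ev'.and (ev (1 / 2) one_half_pos)).and
    (Ioc_mem_nhdsGT (lt_min one_pos hδ))).and self_mem_nhdsWithin |>.exists
  have k5 : ∀ t i, κ * ‖v t i‖ ≤ κ * M := fun t i => mul_le_mul_of_nonneg_left (hM' t i) k3.1.le
  refine ⟨κ, k3.1, k3.2.trans (min_le_left _ _), k3.2.trans (min_le_right _ _),
    fun t i => (k5 t i).trans k2.le, fun s t i j hij => ?_⟩
  linarith [k1 i j hij s, k5 t i, k5 t j]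

end D

open D in
theorem rowD (hW : RowW) (hG : RowG) (h1 : RowD1) : RowD := by
  intro ι _ n l l' hl hl' γ hγ
  have gd : ∀ t, Gd (cen (γ t)) (vec (γ t)) := fun t => Gd.of_SC (hγ t)
  obtain ⟨c, hc⟩ : ∃ c : unitInterval → ι → ℂ, ∀ t, c t = cen (γ t) := ⟨_, fun _ => rfl⟩
  obtain ⟨v, hv⟩ : ∃ v : unitInterval → ι → ℂ, ∀ t, v t = vec (γ t) := ⟨_, fun _ => rfl⟩
  have cc : Continuous c := (funext hc : c = _) ▸ cont_cen.comp γ.continuous
  have cv : Continuous v := (funext hv : v = _) ▸ cont_vec.comp γ.continuous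
  have cv' : ∀ i, Continuous fun t => v t i := fun i => (continuous_apply i).comp cv
  have hγ' : ∀ t, (γ t).1 = bc (c t) (v t) := fun t => by rw [hc, hv, bc_cen]
  have c0 : c 0 = fun i => (l i : ℂ) := by rw [hc, γ.source, cen_cfg]
  have c1 : c 1 = fun i => (l' i : ℂ) := by rw [hc, γ.target, cen_cfg]
  have v0 : v 0 = fun _ => 1 / 2 := by rw [hv, γ.source, vec_cfg]
  have v1 : v 1 = fun _ => 1 / 2 := by rw [hv, γ.target, vec_cfg]
  simp only [← hc, ← hv] at gd
  clear hc hv hγ
  let gc : Path (cfg l) (cfg l') :=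
    ⟨⟨fun t => ⟨c t, (gd t).cinj⟩, cc.subtype_mk _⟩, Subtype.ext c0, Subtype.ext c1⟩
  obtain ⟨W, w1, w2⟩ := hG ι n l l' hl hl' gc
  obtain ⟨δ, hδ, w3⟩ := h1 ι n l l' W gc hl w1 w2
  obtain ⟨κ, k0, k1, k2, k3, k4⟩ := exists_small cc cv (fun t => (gd t).cinj) hδ
  have nv : ∀ t i, 0 < ‖v t i‖ := fun t i => norm_pos_iff.2 ((gd t).1 i)
  let F1 := mkF (Z := unitInterval × unitInterval) (fun p => c p.2)
    (fun p i => ((1 - p.1 * (1 - κ) : ℝ) : ℂ) * v p.2 i) (by fun_prop) (by fun_prop)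
    fun p => (gd p.2).scale (by nlinarith [p.1.2.1, p.1.2.2]) (by nlinarith [p.1.2.1, p.1.2.2])
  have f1 : ∀ p, (F1 p).1 = bc (c p.2) fun i => ((1 - p.1 * (1 - κ) : ℝ) : ℂ) * v p.2 i :=
    fun _ => rfl
  let F2 := mkF (Z := unitInterval × unitInterval) (fun p => c p.1)
    (fun p i => (κ : ℂ) * v p.2 i) (by fun_prop) (by fun_prop)
    fun p => Gd.small (fun i => mul_ne_zero (ofReal_ne_zero.2 k0.ne') ((gd p.2).1 i))
      fun i j hij => by
        rw [norm_mul, norm_mul, norm_real, Real.norm_eq_abs, abs_of_pos k0]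
        exact k4 _ _ i j hij
  have f2 : ∀ p, (F2 p).1 = bc (c p.1) fun i => (κ : ℂ) * v p.2 i := fun _ => rfl
  have r3 : ∀ (p : unitInterval × unitInterval) i,
      0 < (1 - p.1 : ℝ) * (2 * ‖v p.2 i‖)⁻¹ + p.1 * κ := fun p i => by
    have h1 : 0 < (2 * ‖v p.2 i‖)⁻¹ := by have := nv p.2 i; positivity
    rcases p.1.2.1.eq_or_lt with h | h
    · rw [← h]
      simpa using h1
    · exact add_pos_of_nonneg_of_pos (mul_nonneg (sub_nonneg.2 p.1.2.2) h1.le) (mul_pos h k0)
  let F3 := mkF (Z := unitInterval × unitInterval) (fun p i => (l' i : ℂ))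
    (fun p i => (((1 - p.1) * (2 * ‖v p.2 i‖)⁻¹ + p.1 * κ : ℝ) : ℂ) * v p.2 i) continuous_const
    (continuous_pi fun i => by
      have h1 : Continuous fun p : unitInterval × unitInterval => v p.2 i :=
        (cv' i).comp continuous_snd
      have h2 : Continuous fun p : unitInterval × unitInterval => (2 * ‖v p.2 i‖)⁻¹ :=
        (continuous_const.mul h1.norm).inv₀ fun p => mul_ne_zero two_ne_zero (nv p.2 i).ne'
      have h3 : Continuous fun p : unitInterval × unitInterval => (p.1 : ℝ) := by fun_prop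
      exact (continuous_ofReal.comp (((continuous_const.sub h3).mul h2).add
        (h3.mul continuous_const))).mul h1)
    fun p => Gd.std l' (fun i => mul_ne_zero (ofReal_ne_zero.2 (r3 p i).ne') ((gd p.2).1 i))
      fun i => by
        rw [norm_mul, norm_real, Real.norm_eq_abs, abs_of_pos (r3 p i), add_mul, mul_assoc,
          mul_assoc, show (2 * ‖v p.2 i‖)⁻¹ * ‖v p.2 i‖ = 1 / 2 by
            have := (nv p.2 i).ne'; field_simp]
        nlinarith [k3 p.2 i, p.1.2.1, p.1.2.2]
  have f3 : ∀ p, (F3 p).1 = bc (fun i => (l' i : ℂ))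
      fun i => (((1 - p.1) * (2 * ‖v p.2 i‖)⁻¹ + p.1 * κ : ℝ) : ℂ) * v p.2 i := fun _ => rfl
  have a0 : ∀ t, γ t = F1 (0, t) := fun t => Subtype.ext (by rw [f1, hγ']; simp)
  have a1 : ∀ t, F1 (1, t) = F2 (t, t) := fun t => Subtype.ext (by rw [f1, f2]; simp)
  have a2 : ∀ t, F2 (1, t) = F3 (1, t) := fun t => Subtype.ext (by rw [f2, f3, c1]; simp)
  have a3 : ∀ s, F1 (s, 1) = F3 (s, 1) := fun s => Subtype.ext (by
    rw [f1, f3, c1, v1]
    congr 1
    funext i
    simp only [norm_half]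
    push_cast
    ring)
  have a4 : ∀ s, F3 (s, 0) = F3 (s, 1) := fun s => Subtype.ext (by rw [f3, f3, v0, v1])
  have a5 : F2 (1, 0) = F2 (1, 1) := Subtype.ext (by rw [f2, f2, v0, v1])
  have b0 : cfg (dbl l) = F1 (0, 0) := γ.source.symm.trans (a0 0)
  have b1 : cfg (dbl l') = F1 (0, 1) := γ.target.symm.trans (a0 1)
  obtain ⟨σ, hσ⟩ := exists_fac F1 (hor 0) b0 rfl
  obtain ⟨σ', hσ'⟩ := exists_fac F1 (hor 1) b1 rfl
  obtain ⟨Δ, hΔ⟩ := exists_fac F1 (ver 1) rfl rfl
  obtain ⟨Γ, hΓ⟩ := exists_fac F2 (hor 0) (a1 0) ((a1 1).trans a5.symm)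
  obtain ⟨Λ, hΛ⟩ := exists_fac F2 (ver 1) ((a1 1).trans a5.symm) (a1 1)
  obtain ⟨Θ, hΘ⟩ := exists_fac F3 (ver 0) (b1.trans ((a3 0).trans (a4 0).symm)) (b1.trans (a3 0))
  have e1 := square F1 hσ hΔ a0 hσ'
  have e2 := diag F2 (fun t => (hΔ t).trans (a1 t)) hΓ hΛ
  have e3 := square F3 (α := σ') (β := Λ) (fun s => (hσ' s).trans ((a3 s).trans (a4 s).symm))
    (fun t => (hΛ t).trans (a2 t)) hΘ fun s => (hσ' s).trans (a3 s)
  have thin : ∀ (m : ι ↪ ℕ) (t : unitInterval) (τ : unitInterval → X (ι × Bool)),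
      (c t = fun i => (m i : ℂ)) → (v t = fun _ => 1 / 2) → (∀ s, τ s = F1 (s, t)) →
      Thin m (κ / 2) τ := fun m t τ e1 e2 e3 s i => by
    rw [e3, f1, e1, e2]
    simp only [bc, sg_true, sg_false]
    push_cast
    constructor <;> ring
  have w4 := w3 (κ / 2) ⟨half_pos k0, by linarith⟩ _ _ σ Γ σ' (thin l 0 σ c0 v0 hσ)
    (fun t i => by
      rw [show Γ t = F2 (t, 0) from hΓ t, f2, v0]
      simp only [bc, sg_true, sg_false, show (gc t).1 = c t from rfl]
      push_cast
      constructor <;> ring) (thin l' 1 σ' c1 v1 hσ')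
  cases nonempty_fintype ι
  have n2 : nrm (1 / 2) = 1 / 2 := by
    rw [nrm, norm_half]
    norm_num
  obtain ⟨T, t1, t2⟩ := twist hW hG l' Finset.univ (w := fun t i => nrm (v t i))
    (continuous_pi fun i => cont_nrm (cv' i) fun t => (gd t).1 i)
    (fun t i => norm_nrm ((gd t).1 i)) (fun i => by rw [v0]; exact n2)
    (fun i => by rw [v1]; exact n2) (fun t i hi => absurd (Finset.mem_univ i) hi) Θ fun t => by
      rw [show Θ t = F3 (0, t) from hΘ t, f3]
      simp [nrm]
  refine ⟨W, T, w1, w2.fin.symm, fun x hx => ?_, (w4.append t2).homotopic (book e1 e2 e3)⟩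
  obtain ⟨a, ha⟩ := t1 x hx
  rw [ha]
  exact hl'.lt a

end Vale.Agent.Q258U
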