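import Vale.Agent.Q258U.Core
import Mathlib.AlgebraicTopology.FundamentalGroupoid.Basic

/-!
# Parallel copies of a braid give the cable
-/

set_option linter.all false

namespace Vale.Agent.Q258U

open Vale.Agent.P258.Braid Vale.Agent.N258B Vale.Agent.Q258D Set Complex Filter Topology

namespace D1

variable {ι : Type}

/-- the shift of the two edges of a band -/
noncomputable def off (δ : ℝ) (e : Bool) : ℝ := if e then 1 / 2 + δ else 1 / 2 - δ

/-- the parallel copies of the points -/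
noncomputable def pf (δ : ℝ) (y : ι → ℂ) (a : ι × Bool) : ℂ := 2 * y a.1 + (off δ a.2 : ℝ)

theorem parP_iff {γ : unitInterval → X ι} {δ : ℝ} {Γ : unitInterval → X (ι × Bool)} :
    ParP γ δ Γ ↔ ∀ t, (Γ t).1 = pf δ (γ t).1 :=
  ⟨fun h t => funext fun ⟨i, e⟩ => by cases e; exacts [(h t i).1, (h t i).2],
    fun h t i => by rw [h t]; exact ⟨rfl, rfl⟩⟩

theorem off_le {δ : ℝ} (h : 0 < δ) (e e' : Bool) : |off δ e - off δ e'| ≤ 2 * δ := by
  rw [abs_le]; cases e <;> cases e' <;> simp [off] <;> (try constructor) <;> linarith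

theorem off_inj {δ : ℝ} (h : 0 < δ) {e e' : Bool} (h' : off δ e = off δ e') : e = e' := by
  cases e <;> cases e' <;> simp [off] at h' ⊢ <;> linarith

/-- the parallel copies of a compact family of configurations are configurations -/
theorem small [Finite ι] {K : Type} [TopologicalSpace K] [CompactSpace K] {F : K → X ι}
    (hF : Continuous F) : ∀ᶠ δ : ℝ in 𝓝[>] 0, ∀ k, Function.Injective (pf δ (F k).1) := by
  have h1 : ∀ p : ι × ι, ∀ᶠ δ : ℝ in 𝓝[>] 0, p.1 ≠ p.2 → ∀ k, δ < ‖(F k).1 p.1 - (F k).1 p.2‖ := by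
    rintro ⟨i, j⟩
    by_cases e : i = j
    · exact Eventually.of_forall fun _ h => absurd e h
    have hc : ∀ i, Continuous fun k => (F k).1 i := fun i =>
      (continuous_apply i).comp (continuous_subtype_val.comp hF)
    obtain ⟨c, hc0, hc⟩ := isCompact_univ.exists_forall_le'
      (f := fun k => ‖(F k).1 i - (F k).1 j‖) ((hc i).sub (hc j)).norm.continuousOn (a := 0)
      fun k _ => norm_pos_iff.2 (sub_ne_zero.2 fun h => e ((F k).2 h))
    filter_upwards [Ioo_mem_nhdsGT hc0] with δ hδ _ k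
    exact hδ.2.trans_le (hc k (mem_univ k))
  filter_upwards [eventually_all.2 h1, self_mem_nhdsWithin] with δ H hδ k
  rintro ⟨i, e⟩ ⟨j, e'⟩ h
  have h2 : 2 * ((F k).1 i - (F k).1 j) = ((off δ e' - off δ e : ℝ) : ℂ) := by
    simp only [pf] at h
    push_cast
    linear_combination h
  by_cases hij : i = j
  · subst hij
    rw [sub_self, mul_zero, eq_comm, ofReal_eq_zero, sub_eq_zero] at h2
    rw [off_inj hδ h2]
  · have h3 := congrArg norm h2
    rw [norm_mul, Complex.norm_real, Real.norm_eq_abs, Complex.norm_ofNat] at h3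
    have h4 := off_le hδ e' e
    have h5 := H (i, j) hij k
    linarith

theorem cont_pf (δ : ℝ) {K : Type} [TopologicalSpace K] {F : K → X ι} (hF : Continuous F) :
    Continuous fun k => pf δ (F k).1 :=
  continuous_pi fun a => (continuous_const.mul
    ((continuous_apply a.1).comp (continuous_subtype_val.comp hF))).add continuous_const

theorem par_exists [Finite ι] {x0 y0 : X ι} (γ : Path x0 y0) :
    ∀ᶠ δ : ℝ in 𝓝[>] 0, ∀ x y : X (ι × Bool), x.1 = pf δ x0.1 → y.1 = pf δ y0.1 →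
      ∃ Γ : Path x y, ParP γ δ Γ := by
  filter_upwards [small γ.continuous] with δ H x y hx hy
  exact ⟨⟨⟨fun t => ⟨pf δ (γ t).1, H t⟩, (cont_pf δ γ.continuous).subtype_mk _⟩,
    Subtype.ext (by simp [hx]), Subtype.ext (by simp [hy])⟩, parP_iff.2 fun _ => rfl⟩

theorem par_hom [Finite ι] {x0 y0 : X ι} {γ γ' : Path x0 y0} (h : γ.Homotopic γ') :
    ∀ᶠ δ : ℝ in 𝓝[>] 0, ∀ (x y : X (ι × Bool)) (Γ Γ' : Path x y), ParP γ δ Γ → ParP γ' δ Γ' →
      Γ.Homotopic Γ' := by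
  obtain ⟨F⟩ := h
  filter_upwards [small F.continuous] with δ H x y Γ Γ' h1 h2
  rw [parP_iff] at h1 h2
  refine ⟨⟨⟨⟨fun k => ⟨pf δ (F k).1, H k⟩, (cont_pf δ F.continuous).subtype_mk _⟩,
    fun t => Subtype.ext ?_, fun t => Subtype.ext ?_⟩, fun s t ht => Subtype.ext ?_⟩⟩
  · simp [h1]
  · simp [h2]
  · have := F.eq_fst s ht
    simp only [ContinuousMap.coe_mk, ContinuousMap.toFun_eq_coe, Path.coe_toContinuousMap, h1]
    rw [this]
    rfl

theorem par_trans {x0 y0 z0 : X ι} {γ : Path x0 y0} {γ' : Path y0 z0} {δ : ℝ}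
    {x y z : X (ι × Bool)} {Γ : Path x y} {Γ' : Path y z} (h : ParP γ δ Γ) (h' : ParP γ' δ Γ') :
    ParP (γ.trans γ') δ (Γ.trans Γ') := by
  rw [parP_iff] at *
  intro t
  rw [Path.trans_apply, Path.trans_apply]
  split_ifs
  exacts [h _, h' _]

/-- the real part of a point of the path that makes the bands thin -/
noncomputable def th (l : ι ↪ ℕ) (δ t : ℝ) (a : ι × Bool) : ℝ :=
  if a.2 then 2 * l a.1 + 1 - t * (1 / 2 - δ) else 2 * l a.1 + t * (1 / 2 - δ)

theorem thin_iff {l : ι ↪ ℕ} {δ : ℝ} {σ : unitInterval → X (ι × Bool)} :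
    Thin l δ σ ↔ ∀ t a, (σ t).1 a = (th l δ t a : ℝ) :=
  ⟨fun h t ⟨i, e⟩ => by cases e; exacts [(h t i).1, (h t i).2],
    fun h t i => ⟨h t _, h t _⟩⟩

theorem th_inj (l : ι ↪ ℕ) {δ : ℝ} (h : δ ∈ Ioo (0 : ℝ) (1 / 2)) (t : unitInterval) :
    Function.Injective (th l δ t) := by
  rintro ⟨i, e⟩ ⟨j, e'⟩ h1
  have h2 : 0 ≤ (t : ℝ) * (1 / 2 - δ) := mul_nonneg t.2.1 (by linarith [h.2])
  have h3 : (t : ℝ) * (1 / 2 - δ) < 1 / 2 := by nlinarith [h.1, h.2, t.2.1, t.2.2]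
  have h4 : l i = l j := by
    have a : (l i : ℝ) < l j + 1 ∧ (l j : ℝ) < l i + 1 := by
      cases e <;> cases e' <;> simp only [th, if_true, Bool.false_eq_true, if_false] at h1 <;>
        constructor <;> linarith
    have b1 : l i < l j + 1 := by exact_mod_cast a.1
    have b2 : l j < l i + 1 := by exact_mod_cast a.2
    omega
  obtain rfl := l.injective h4
  cases e <;> cases e' <;> simp only [th] at h1 <;> simp at h1 ⊢ <;> linarith

theorem thin_exists (l : ι ↪ ℕ) {δ : ℝ} (h : δ ∈ Ioo (0 : ℝ) (1 / 2)) :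
    ∃ x, ∃ σ : Path (cfg (dbl l)) x, Thin l δ σ := by
  let f : unitInterval → X (ι × Bool) := fun t =>
    ⟨fun a => (th l δ t a : ℝ), fun _ _ e => th_inj l h t (ofReal_injective e)⟩
  refine ⟨f 1, ⟨⟨f, Continuous.subtype_mk (continuous_pi fun a => continuous_ofReal.comp ?_) _⟩,
    Subtype.ext (funext fun ⟨i, e⟩ => ?_), rfl⟩, thin_iff.2 fun _ _ => rfl⟩
  · unfold th; split_ifs <;> fun_prop
  · cases e <;> simp [f, th, cfg_apply, dbl_apply]

theorem thin_end {l : ι ↪ ℕ} {δ : ℝ} {x : X (ι × Bool)} {σ : Path (cfg (dbl l)) x}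
    (h : Thin l δ σ) : x.1 = pf δ (cfg l).1 := by
  funext ⟨i, e⟩
  have := thin_iff.1 h 1 (i, e)
  rw [σ.target] at this
  rw [this]
  cases e <;> simp [th, pf, off, cfg_apply] <;> ring

theorem thin_lay {l : ι ↪ ℕ} {δ : ℝ} (hδ : δ ∈ Ioo (0 : ℝ) (1 / 2)) {σ : unitInterval → X (ι × Bool)}
    (h : Thin l δ σ) (la : ι × Bool → ℝ) (t : unitInterval) : σ t ∈ Lay la := fun a b hab e => by
  rw [thin_iff.1 h, thin_iff.1 h, ofReal_re, ofReal_re] at e
  exact absurd (th_inj l hδ t e) hab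

/-- the layers during a crossing of two bands -/
def lay (l : ι ↪ ℕ) (x : ℕ × Bool) (a : ι × Bool) : ℝ := if l a.1 = x.1 then sg x.2 else 0

theorem mv_cases (l : ι ↪ ℕ) (x : ℕ × Bool) (s : ℝ) (i : ι) (e : Bool) :
    (l i = x.1 ∧ (mv x (l i) s).re = x.1 + s ∧ (mv x (l i) s).im = sg x.2 * (s * (1 - s)) ∧
      lay l x (i, e) = sg x.2) ∨
    (l i = x.1 + 1 ∧ (mv x (l i) s).re = x.1 + 1 - s ∧
      (mv x (l i) s).im = -(sg x.2 * (s * (1 - s))) ∧ lay l x (i, e) = 0) ∨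
    (l i ≠ x.1 ∧ l i ≠ x.1 + 1 ∧ (mv x (l i) s).re = l i) := by
  unfold mv lay
  split_ifs with h1 h2
  · left; simp [h1]
  · right; left; simp [h2]
  · right; right; simp [h1, h2]

theorem par_lay {l : ι ↪ ℕ} {x : ℕ × Bool} {δ : ℝ} (hδ : δ ∈ Ioo (0 : ℝ) (1 / 2))
    {Γ : unitInterval → X (ι × Bool)} (h : ParP (lp l x) δ Γ) (t : unitInterval) :
    Γ t ∈ Lay (lay l x) := by
  rintro ⟨i, e⟩ ⟨j, e'⟩ hab h1
  rw [parP_iff.1 h] at h1 ⊢
  have hre : ∀ (z : ℂ) (r : ℝ), (2 * z + (r : ℂ)).re = 2 * z.re + r := by intros; simp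
  have him : ∀ (z : ℂ) (r : ℝ), (2 * z + (r : ℂ)).im = 2 * z.im := by intros; simp
  simp only [pf, lp_apply, hre, him] at h1 ⊢
  have h2 := abs_le.1 (off_le hδ.1 e e')
  have hij : l i ≠ l j := fun h3 => by
    obtain rfl := l.injective h3
    exact hab (by rw [off_inj hδ.1 (add_left_cancel h1)])
  have t0 := t.2.1
  have t1 := t.2.2
  have hs : sg x.2 = 1 ∨ sg x.2 = -1 := by unfold sg; split_ifs <;> simp
  have hδ2 := hδ.2
  have far : ∀ a b : ℕ, a ≠ b → (a : ℝ) + 1 ≤ b ∨ (b : ℝ) + 1 ≤ a := fun a b h => by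
    rcases lt_or_gt_of_ne h with h | h
    · left; exact_mod_cast h
    · right; exact_mod_cast h
  have far2 : ∀ a : ℕ, a ≠ x.1 → a ≠ x.1 + 1 → (a : ℝ) + 1 ≤ x.1 ∨ (x.1 : ℝ) + 2 ≤ a :=
    fun a h h' => by
      rcases (by omega : a + 1 ≤ x.1 ∨ x.1 + 2 ≤ a) with h | h
      · left; exact_mod_cast h
      · right; exact_mod_cast h
  have pos : |2 * (t : ℝ) - 1| < 1 → 0 < (t : ℝ) * (1 - t) := fun h =>
    mul_pos (by linarith [(abs_lt.1 h).1]) (by linarith [(abs_lt.1 h).2])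
  rcases mv_cases l x t i e with ⟨a1, a2, a3, a4⟩ | ⟨a1, a2, a3, a4⟩ | ⟨a1, a2, a3⟩ <;>
    rcases mv_cases l x t j e' with ⟨b1, b2, b3, b4⟩ | ⟨b1, b2, b3, b4⟩ | ⟨b1, b2, b3⟩
  · omega
  · have := pos (abs_lt.2 ⟨by linarith, by linarith⟩)
    rw [a3, a4, b3, b4]
    rcases hs with hs | hs <;> rw [hs] <;> exact ⟨by norm_num, fun _ => by linarith⟩
  · rcases far2 _ b1 b2 with h | h <;> exfalso <;> linarith
  · have := pos (abs_lt.2 ⟨by linarith, by linarith⟩)
    rw [a3, a4, b3, b4]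
    rcases hs with hs | hs <;> rw [hs] <;> exact ⟨by norm_num, fun _ => by linarith⟩
  · omega
  · rcases far2 _ b1 b2 with h | h <;> exfalso <;> linarith
  · rcases far2 _ a1 a2 with h | h <;> exfalso <;> linarith
  · rcases far2 _ a1 a2 with h | h <;> exfalso <;> linarith
  · rcases far _ _ hij with h | h <;> exfalso <;> linarith

theorem sw_spec (q : ℕ) (e : Bool) (p : ℕ) : (p = q ∧ sw (q, e) p = p + 1) ∨
    (p = q + 1 ∧ sw (q, e) p = q) ∨ (p ≠ q ∧ p ≠ q + 1 ∧ sw (q, e) p = p) := by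
  unfold sw; split_ifs <;> omega

theorem resp_cable (l : ι ↪ ℕ) (x : ℕ × Bool) : Resp (lay l x) (dbl l) (cable [x]) := by
  obtain ⟨q, e⟩ := x
  have key : ∀ a b : ι × Bool, l a.1 = q → l b.1 = q + 1 →
      if e then lay l (q, e) b < lay l (q, e) a else lay l (q, e) a < lay l (q, e) b :=
    fun a b ha hb => by
      have : l b.1 ≠ q := by omega
      simp only [lay, ha, this, if_true, if_false, sg]
      split_ifs <;> norm_num
  refine ⟨fun a b ha hb => ?_, fun a b ha hb => ?_, fun a b ha hb => ?_, fun a b ha hb => ?_,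
    trivial⟩
  all_goals
    have := Bool.toNat_le a.2
    have := Bool.toNat_le b.2
    have a1 := sw_spec (2 * q + 1) e (dbl l a)
    have a2 := sw_spec (2 * q) e (sw (2 * q + 1, e) (dbl l a))
    have a3 := sw_spec (2 * q + 2) e (sw (2 * q, e) (sw (2 * q + 1, e) (dbl l a)))
    have b1 := sw_spec (2 * q + 1) e (dbl l b)
    have b2 := sw_spec (2 * q) e (sw (2 * q + 1, e) (dbl l b))
    have b3 := sw_spec (2 * q + 2) e (sw (2 * q, e) (sw (2 * q + 1, e) (dbl l b)))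
    have a0 := dbl_apply l a
    have b0 := dbl_apply l b
    simp only [swE_apply] at ha hb
    refine key a b ?_ ?_
    · clear hb b1 b2 b3; omega
    · clear ha a1 a2 a3; omega

theorem fin_cable (l : ι ↪ ℕ) (x : ℕ × Bool) : dbl (swE x l) = fin (dbl l) (cable [x]) := by
  obtain ⟨q, e⟩ := x
  ext a
  have := Bool.toNat_le a.2
  have a1 := sw_spec (2 * q + 1) e (dbl l a)
  have a2 := sw_spec (2 * q) e (sw (2 * q + 1, e) (dbl l a))
  have a3 := sw_spec (2 * q + 2) e (sw (2 * q, e) (sw (2 * q + 1, e) (dbl l a)))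
  have a4 := sw_spec (2 * q + 1) e (sw (2 * q + 2, e) (sw (2 * q, e) (sw (2 * q + 1, e) (dbl l a))))
  have a5 := sw_spec q e (l a.1)
  have a0 := dbl_apply l a
  rw [fin_apply, dbl_apply, swE_apply]
  simp only [cable, List.flatMap_cons, List.flatMap_nil, List.append_nil, List.foldl_cons,
    List.foldl_nil]
  omega

theorem lay_trans {la : ι → ℝ} {x y z : X ι} {γ : Path x y} {γ' : Path y z}
    (h : ∀ t, γ t ∈ Lay la) (h' : ∀ t, γ' t ∈ Lay la) (t : unitInterval) :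
    γ.trans γ' t ∈ Lay la := by
  rw [Path.trans_apply]
  split_ifs
  exacts [h _, h' _]

theorem main (hW : RowW) [Finite ι] {l l' : ι ↪ ℕ} {w : Word} {γ : Path (cfg l) (cfg l')}
    (h : IsW l l' w γ) : ∀ᶠ δ : ℝ in 𝓝[>] 0,
      ∀ (x y : X (ι × Bool)) (σ : Path (cfg (dbl l)) x) (Γ : Path x y) (σ' : Path (cfg (dbl l')) y),
        Thin l δ σ → ParP γ δ Γ → Thin l' δ σ' →
          IsW (dbl l) (dbl l') (cable w) (σ.trans (Γ.trans σ'.symm)) := by
  induction h with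
  | nil l γ h =>
    filter_upwards [par_hom h] with δ H x y σ Γ σ' h1 h2 h3
    obtain rfl : x = y := Subtype.ext ((thin_end h1).trans (thin_end h3).symm)
    obtain rfl : σ = σ' := Path.ext (funext fun t => Subtype.ext (funext fun a =>
      (thin_iff.1 h1 t a).trans (thin_iff.1 h3 t a).symm))
    have e := Path.Homotopic.Quotient.eq.2
      (H x x Γ (Path.refl x) h2 (parP_iff.2 fun _ => thin_end h1))
    refine IsW.nil _ _ (Path.Homotopic.Quotient.eq.1 ?_)
    simp [e]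
  | cons l l' x w β γ _ h ih =>
    filter_upwards [par_hom h, ih, par_exists (lp l x), par_exists β,
      Ioo_mem_nhdsGT (by norm_num : (0 : ℝ) < 1 / 2)] with δ H ih E1 E2 hδ y z σ Γ σ' h1 h2 h3
    obtain ⟨u, τ, h4⟩ := thin_exists (swE x l) hδ
    obtain ⟨Γ1, g1⟩ := E1 y u (thin_end h1) (thin_end h4)
    obtain ⟨Γ2, g2⟩ := E2 u z (thin_end h4) (thin_end h3)
    have e := Path.Homotopic.Quotient.eq.2 (H y z Γ _ h2 (par_trans g1 g2))
    have k := (hW _ (lay l x)).2 _ _ _ (resp_cable l x) (fin_cable l x)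
      (σ.trans (Γ1.trans τ.symm)) (lay_trans (thin_lay hδ h1 _)
        (lay_trans (par_lay hδ g1) fun t => thin_lay hδ h4 _ _))
    refine (k.append (ih _ _ τ Γ2 σ' h4 g2 h3)).homotopic (Path.Homotopic.Quotient.eq.1 ?_)
    simp only [Path.Homotopic.Quotient.mk_trans, Path.Homotopic.Quotient.mk_symm, e,
      Path.Homotopic.Quotient.trans_assoc]
    rw [← Path.Homotopic.Quotient.trans_assoc (Path.Homotopic.Quotient.mk τ).symm,
      Path.Homotopic.Quotient.symm_trans, Path.Homotopic.Quotient.refl_trans]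

end D1

theorem rowD1 (hW : RowW) : RowD1 := fun ι _ n l l' w γ _ _ h => by
  obtain ⟨δ0, h0, H⟩ := mem_nhdsGT_iff_exists_Ioc_subset.1 (D1.main hW h)
  exact ⟨δ0, h0, fun δ hδ => H hδ⟩

end Vale.Agent.Q258U
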