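import Vale.Agent.Q258E.Defs
import Mathlib.Analysis.Calculus.ContDiff.Defs

/-!
# Embedded surfaces of genus two with one boundary curve; words that keep the pairs of strands
-/

namespace Vale.Agent.Q258U

open Vale.Agent.P258.Braid Vale.Agent.N258B

/-- The places where the four bands start. -/
def pS : Fin 4 → ℝ := ![0, 4, 16, 20]

/-- The places where the four bands end. -/
def pE : Fin 4 → ℝ := ![8, 12, 24, 28]

/-- A triangle in the plane. -/
def tri : Set (ℝ × ℝ) := {x | x.2 ≤ 2 ∧ -x.2 ≤ x.1 ∧ x.1 ≤ 29 * x.2}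

/-- The middle part of a band. -/
def mid : Set (ℝ × ℝ) := Set.Icc (2, -1) (3, 1)

/-- An embedded surface of class `C¹` of genus two with one boundary curve: a disc (the image of a
triangle by `f`) and four bands `g j`, whose ends overlap with the disc; the ends of the first
two bands are interlaced, and so are those of the last two. -/
def Surface (f : ℝ × ℝ → ℂ × ℝ) (g : Fin 4 → ℝ × ℝ → ℂ × ℝ) : Prop :=
  ContDiff ℝ 1 f ∧ Set.InjOn f tri ∧ (∀ x ∈ tri, Function.Injective (fderiv ℝ f x)) ∧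
  ∀ j, ContDiff ℝ 1 (g j) ∧ (∀ x ∈ mid, Function.Injective (fderiv ℝ (g j) x)) ∧
    (∀ t ∈ Set.Icc (0 : ℝ) 2, ∀ s ∈ Set.Icc (-1 : ℝ) 1,
      g j (t, s) = f (t * (pS j + s), t) ∧ g j (5 - t, s) = f (t * (pE j - s), t)) ∧
    ∀ x ∈ mid, (g j x ∈ f '' tri → x.1 = 2 ∨ x.1 = 3) ∧
      ∀ i, ∀ y ∈ mid, g i y = g j x → i = j ∧ y = x

/-- The boundary of the surface that is made of the half `x.2 ≤ 1` of the disc and of the parts
`1 ≤ t ≤ 4` of the bands. -/
def rim (f : ℝ × ℝ → ℂ × ℝ) (g : Fin 4 → ℝ × ℝ → ℂ × ℝ) : Set (ℂ × ℝ) :=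
  {y | (∃ t ∈ Set.Icc (0 : ℝ) 1, y = f (-t, t) ∨ y = f (29 * t, t)) ∨
    (∃ p : Fin 7, ∃ x ∈ Set.Icc (4 * p + 1 : ℝ) (4 * p + 3), y = f (x, 1)) ∨
    ∃ j, ∃ t ∈ Set.Icc (1 : ℝ) 4, y = g j (t, 1) ∨ y = g j (t, -1)}

/-- The letters of `w` are in range, and its permutation keeps each pair `2 i`, `2 i + 1`. -/
def Prs (N : ℕ) (w : Word) : Prop :=
  (∀ x ∈ w, x.1 + 1 < N) ∧ ∀ s, w.foldl (fun q x => sw x q) s / 2 = s / 2

/-- The number of such words of length `n` with the property `P`. -/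
noncomputable def wordsP (N n : ℕ) (P : Word → Prop) : ℕ :=
  Nat.card {w : Word // w.length = n ∧ Prs N w ∧ P w}

end Vale.Agent.Q258U
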