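import Vale.Agent.Q258U.NDefs
import Vale.Agent.Q258D.E1

/-!
# Colourings of the knot and colourings of the surface, for words with curls
-/

set_option linter.all false

namespace Vale.Agent.Q258U

open Vale.Agent.P258.Braid Vale.Agent.N258B Vale.Agent.Q258D Vale.Agent.Q258D.E1

namespace E1N

variable {H : Type} [Group H] {n : ℕ} {w : Word}

/-- the word keeps the pairs of strands -/
def Pr (w : Word) : Prop :=
  ∀ i, (ps w (2 * i) = 2 * i ∧ ps w (2 * i + 1) = 2 * i + 1) ∨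
    (ps w (2 * i) = 2 * i + 1 ∧ ps w (2 * i + 1) = 2 * i)

theorem R0_symm (s t : St 8 H) (h : R0 s t) : R0 t s := by
  rw [R0] at h ⊢
  rw [h, inv_inv]

theorem R1_symm (s t : St 8 H) (h : R1 s t) : R1 t s := ⟨R0_symm s t h.1, h.2.symm⟩

theorem top_pair (hp : Pr w) (G g : ℕ → St 8 H) (h : ∀ s, (g s).col = bd G s)
    (R : St 8 H → St 8 H → Prop) (hR : ∀ s t, R s t → R t s) (i : ℕ) :
    (R (rn (cable w) G (4 * i)) (rn (cable w) G (4 * i + 3)) ∧
      R (rn (cable w) G (4 * i + 1)) (rn (cable w) G (4 * i + 2))) ↔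
    (R (E1.cj (G (2 * (2 * i))) (tau w g (2 * i)))
        (E1.cj (G (2 * (2 * i + 1) + 1)) (tau w g (2 * i + 1))) ∧
      R (E1.cj (G (2 * (2 * i) + 1)) (tau w g (2 * i)))
        (E1.cj (G (2 * (2 * i + 1))) (tau w g (2 * i + 1)))) := by
  have a0 := cab w G g h (2 * i) 0 (by omega)
  have a1 := cab w G g h (2 * i) 1 (by omega)
  have a2 := cab w G g h (2 * i + 1) 0 (by omega)
  have a3 := cab w G g h (2 * i + 1) 1 (by omega)
  rw [add_zero, add_zero] at a0 a2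
  rw [show 4 * i = 2 * (2 * i) by omega, show 2 * (2 * i) + 3 = 2 * (2 * i + 1) + 1 by omega,
    show 2 * (2 * i) + 2 = 2 * (2 * i + 1) by omega]
  rcases hp i with ⟨p, q⟩ | ⟨p, q⟩
  · rw [p] at a0 a1
    rw [q] at a2 a3
    rw [a0, a1, a2, a3]
  · rw [p] at a0 a1
    rw [q] at a2 a3
    rw [a0, a1, a2, a3]
    exact ⟨fun h => ⟨hR _ _ h.2, hR _ _ h.1⟩, fun h => ⟨hR _ _ h.2, hR _ _ h.1⟩⟩

theorem props' {c : Fin (2 * (8 * (n + 1))) → H} {m : Mk H} {F : ℕ → H}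
    (hw : ∀ x ∈ w, x.1 + 1 < 8 * (n + 1)) (hp : Pr w) (hc : Commute m.1 (lam m))
    (hs : E1.Sol n w m F) (h : E1.Rel n c m F) :
    Capd (8 * (n + 1)) (surf (n + 1) w) (Pc c) ∧ m.1 = (Pc c 1)⁻¹ ∧
      lam m = Raw (surf (n + 1) w) (Pc c) ∧
      ((∀ i j, Commute (c i) (c j)) → ∀ j, ym m j = 1) ∧
      ((∀ j, ym m j = 1) → ∀ i, c i ∈ Subgroup.zpowers m.1) := by
  obtain ⟨k0, k1, k2, k3, k4, k5, k6, k7⟩ := colr_ends n
  have x0 : E1.ex n m F (2 * 0) = E1.up m 1 := by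
    rw [ex0, k0, hs.1.1]; simp [aL]
  have x1 : E1.ex n m F (2 * (8 * n + 7) + 1) = dn m (lam m) := by
    rw [ex1, k7, hs.1.2.2.2.2.2.2.2.1]; simp [aL, bar, Q258D.em, lam, cm, mul_assoc]
  obtain ⟨b1, b2, b3, b4⟩ := bot_dn (cap1_ex hs.1) (by
    rw [x0, x1]
    simp only [E1.up, dn, zz]
    rw [mul_assoc, hc.eq]
    group)
  rw [x0] at b3
  rw [x1] at b4
  obtain ⟨t1, t2⟩ := top_up (m := 4 * (n + 1)) (G := rn (cable w) (E1.ex n m F)) fun i hi => by
    rw [top_pair hp _ _ (vf_col n m F) R1 R1_symm i, ex0, ex0, ex1, ex1,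
      colr_even hi, bar_bar, E1.cj_up, E1.cj_up, E1.cj_dn, E1.cj_dn]
    simp only [mul_assoc, hs.2 i hi]
    exact ⟨R1_ud rfl, R1_du rfl⟩
  have e : rn (surf (n + 1) w) (rn (inverse (B1 n)) (E1.ex n m F)) =
      rn (inverse (nest 0 (4 * (n + 1)))) (rn (cable w) (E1.ex n m F)) := by
    rw [surf_eq, rn_append, rn_append, rn_inv']
  rw [← e, show 2 * (4 * (n + 1)) = 8 * (n + 1) by omega] at t1 t2
  have hm : m.1 = c ⟨0, by omega⟩ := by
    rw [A_Pc_col c, ← h.col 0 (by omega), b3]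
    simp [E1.up, zz]
  have cc : ∀ i : Fin (2 * (8 * (n + 1))), c i = (rn (inverse (B1 n)) (E1.ex n m F) i).col :=
    fun i => by rw [h.col i i.2, ← A_Pc_col]
  refine ⟨(capd_iff (surf_rng hw) (Pc_zero c) h.col).2 ⟨b1, t1⟩, ?_, ?_, fun ha j => ?_,
    fun hy i => ?_⟩
  · rw [hm, A_Pc_col c, Pc_zero, mul_one]
  · rw [raw_eq (by omega) (surf_rng hw) h.col b2 t2, b3, b4]
    simp [E1.up, dn]
  · have h1 : ∀ q < 2 * (8 * (n + 1)), (E1.ex n m F q).col ∈ Subgroup.centralizer {m.1} := by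
      rw [← rn_inv' (B1 n) (E1.ex n m F)]
      refine (col_mem _ _ (B1_rng n) _ fun q hq => ?_).1
      rw [← cc ⟨q, hq⟩, Subgroup.mem_centralizer_singleton_iff, hm]
      exact ha _ _
    have h2 := (mem_of_sol hw hs (Subgroup.centralizer {m.1}) fun s hs => by
      rw [vf_col]
      exact Subgroup.mul_mem _ (h1 _ (by omega)) (h1 _ (by omega))).2
    have h3 : ∀ c, bs (ym m) c = 1 := fun c => by
      have z : ∀ c, zz m (aL m c) = m.1 := fun c => by
        rw [zz, mul_assoc, ← Subgroup.mem_centralizer_singleton_iff.1 (h2 c), inv_mul_cancel_left]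
      rw [bs_eq, z, z, inv_mul_cancel]
    fin_cases j
    exacts [h3 0, h3 2, h3 4, h3 6]
  · have h1 : ∀ c, bs (ym m) c = 1 := fun c => by
      fin_cases c <;> simp [bs, hy]
    obtain ⟨h2, h3⟩ := mem_of_sol hw hs ⊥ fun s _ => by simp [vf, mk, h1]
    simp only [Subgroup.mem_bot] at h2 h3
    rw [cc]
    refine (col_mem _ _ (inverse_rng (B1_rng n)) _ fun q hq => ?_).1 i i.2
    rw [E1.ex, h2 _ (by omega), h3, h3]
    split_ifs <;> simp [E1.up, dn, zz]

theorem exists_sol' {c : Fin (2 * (8 * (n + 1))) → H} (hw : ∀ x ∈ w, x.1 + 1 < 8 * (n + 1))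
    (hp : Pr w) (hc : Capd (8 * (n + 1)) (surf (n + 1) w) (Pc c)) :
    ∃ m F, Commute m.1 (lam m) ∧ E1.Sol n w m F ∧ E1.Rel n c m F := by
  classical
  obtain ⟨b0, t0⟩ := (capd_iff (g := gc c) (surf_rng hw) (Pc_zero c) fun _ _ => rfl).1 hc
  obtain ⟨⟨d1, d2, d3, d4, d5, d6, d7, di⟩, d0⟩ := bot_up b0
  rw [surf_eq, rn_append, rn_append] at t0
  have t1 := top_dn (t0.sub (i := 0) rfl (by omega))
  unfold E1.Rel
  generalize rn (B1 n) (gc c) = G at *
  clear b0 t0 hc c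
  obtain ⟨τ, hτ⟩ : ∃ τ, τ = tau w fun s => (⟨0, bd G s, 1⟩ : St 8 H) := ⟨_, rfl⟩
  have hcab := top_pair hp G (fun s => (⟨0, bd G s, 1⟩ : St 8 H)) (fun _ => rfl) R0 R0_symm
  rw [← hτ] at hcab
  obtain ⟨F, F0, Fs⟩ : ∃ F : ℕ → H, F 0 = 1 ∧ ∀ s, F (s + 1) =
      if s % 2 = 0 then F s * τ s * (τ (s + 1))⁻¹ else if In n s then F s else 1 :=
    ⟨fun s => Nat.rec 1 (fun s a => if s % 2 = 0 then a * τ s * (τ (s + 1))⁻¹ else
      if In n s then a else 1) s, rfl, fun _ => rfl⟩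
  have F1 : F (2 * n + 2) = 1 := by rw [Fs, if_neg (by omega), if_neg (by unfold In; omega)]
  have F2 : F (4 * n + 4) = 1 := by rw [Fs, if_neg (by omega), if_neg (by unfold In; omega)]
  have F3 : F (6 * n + 6) = 1 := by rw [Fs, if_neg (by omega), if_neg (by unfold In; omega)]
  have Fi : ∀ s, In n s → F s = F (s + 1) := fun s hs => by
    rw [Fs, if_neg (by unfold In at hs; omega), if_pos hs]
  have Fe : ∀ i, F (2 * i + 1) = F (2 * i) * τ (2 * i) * (τ (2 * i + 1))⁻¹ := fun i => by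
    rw [Fs, if_pos (by omega)]
  obtain ⟨k0, k1, k2, k3, k4, k5, k6, k7⟩ := colr_ends n
  obtain ⟨A, A0, A1, A2, A3, A4, A5, A6, A7⟩ : ∃ A : Fin 8 → H, A 0 = (G (2 * 0)).col ∧
      A 1 = (G (2 * 0 + 1)).col⁻¹ ∧ A 2 = (G (2 * (2 * n + 2))).col ∧
      A 3 = (G (2 * (2 * n + 2) + 1)).col⁻¹ ∧ A 4 = (G (2 * (4 * n + 4))).col ∧
      A 5 = (G (2 * (4 * n + 4) + 1)).col⁻¹ ∧ A 6 = (G (2 * (6 * n + 6))).col ∧
      A 7 = (G (2 * (6 * n + 6) + 1)).col⁻¹ :=
    ⟨![_, _, _, _, _, _, _, _], rfl, rfl, rfl, rfl, rfl, rfl, rfl, rfl⟩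
  obtain ⟨r0, r1, r2, r3, r4, r5, r6, r7⟩ : bar 0 = 1 ∧ bar 1 = 0 ∧ bar 2 = 3 ∧ bar 3 = 2 ∧
    bar 4 = 5 ∧ bar 5 = 4 ∧ bar 6 = 7 ∧ bar 7 = 6 := ⟨rfl, rfl, rfl, rfl, rfl, rfl, rfl, rfl⟩
  have hG : ∀ s < 8 * (n + 1), (G (2 * s)).col = (F s)⁻¹ * A (colr (n + 1) s) * F s ∧
      (G (2 * s + 1)).col = (F s)⁻¹ * (A (bar (colr (n + 1) s)))⁻¹ * F s := by
    refine band_ind _ ?_ ?_ ?_ ?_ (fun i hi h => ?_) fun s hs h => ?_
    · rw [F0, k0, r0, A0, A1]; simp
    · rw [F1, k2, r2, A2, A3]; simp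
    · rw [F2, k4, r4, A4, A5]; simp
    · rw [F3, k6, r6, A6, A7]; simp
    · obtain ⟨u1, u2⟩ := (hcab i).1 (t1 i hi)
      rw [R0, E1.cj_col, E1.cj_col, h.1] at u1
      rw [R0, E1.cj_col, E1.cj_col, h.2] at u2
      rw [colr_even hi, bar_bar, Fe]
      constructor
      · calc _ = τ (2 * i + 1) * ((τ (2 * i + 1))⁻¹ * (G (2 * (2 * i + 1))).col * τ (2 * i + 1)) *
              (τ (2 * i + 1))⁻¹ := by group
          _ = _ := by rw [u2]; group
      · calc _ = τ (2 * i + 1) * ((τ (2 * i + 1))⁻¹ * (G (2 * (2 * i + 1) + 1)).col *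
              τ (2 * i + 1)) * (τ (2 * i + 1))⁻¹ := by group
          _ = _ := by rw [u1]; group
    · obtain ⟨u1, u2⟩ := di s hs
      rw [R0] at u1 u2
      rw [colr_in hs, bar_bar, ← Fi s hs, u1, u2, h.1, h.2]
      constructor <;> group
  obtain ⟨g1, g1'⟩ := hG (2 * n + 1) (by omega)
  obtain ⟨g3, g3'⟩ := hG (4 * n + 3) (by omega)
  obtain ⟨g5, g5'⟩ := hG (6 * n + 5) (by omega)
  obtain ⟨g7, g7'⟩ := hG (8 * n + 7) (by omega)
  rw [k1] at g1 g1'
  rw [k3] at g3 g3'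
  rw [k5] at g5 g5'
  rw [k7] at g7 g7'
  simp only [R0, E1.cj_col, g1, g1', g3, g3', g5, g5', g7, g7', r1, r3, r5, r7, ← A0, ← A2, ← A4,
    ← A6] at d0 d1 d2 d3 d4 d5 d6 d7
  rw [← A1] at d1
  rw [← A3] at d2
  rw [← A5] at d5
  rw [← A7] at d6
  have y1 : bd G (2 * n + 2) = (A 3)⁻¹ * A 2 := by rw [bd, A2, A3, inv_inv]
  have y3 : bd G (6 * n + 6) = (A 7)⁻¹ * A 6 := by rw [bd, A6, A7, inv_inv]
  obtain ⟨m, m0, m1, m2, m3, m4⟩ : ∃ m : Mk H, m.1 = A 0 ∧
      m.2.1.1 = F (2 * n + 1) * (bd G (2 * n + 2))⁻¹ ∧ m.2.1.2 = F (4 * n + 3) ∧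
      m.2.2.1 = F (6 * n + 5) * (bd G (6 * n + 6))⁻¹ ∧ m.2.2.2 = F (8 * n + 7) :=
    ⟨⟨_, ⟨_, _⟩, _, _⟩, rfl, rfl, rfl, rfl, rfl⟩
  obtain ⟨p3, p1, p2⟩ := handle (t := m.1) (a := 1) (b := (A 1)⁻¹) (c := A 2) (d := (A 3)⁻¹)
    (l := m.2.1.1) (l' := m.2.1.2) (by rw [d1, inv_inv]) (by rw [m1, inv_inv, inv_inv, ← d2]; group)
    (by rw [m0, m1, m2, inv_inv, d3]; group)
  have p4 : A 4 = (cm m.2.1)⁻¹ * m.1 * cm m.2.1 := by rw [d4, p2, ← m2, cm]; group
  obtain ⟨p7, p5, p6⟩ := handle (t := m.1) (a := cm m.2.1) (b := (A 5)⁻¹) (c := A 6)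
    (d := (A 7)⁻¹) (l := m.2.2.1) (l' := m.2.2.2) (by rw [d5, inv_inv])
    (by rw [m3, inv_inv, inv_inv, ← d6]; group) (by rw [← p4, m3, m4, inv_inv, d7]; group)
  rw [inv_inv] at p1 p3 p5 p7
  rw [one_mul] at p1 p2 p3
  have hA : ∀ c, A c = zz m (aL m c) := fun c => by
    fin_cases c
    exacts [by simp [zz, aL, m0], p1, p2, p3, p4, p5, p6, p7]
  have hR : ∀ q < 2 * (8 * (n + 1)), (G q).col = (E1.ex n m F q).col := fun q hq => by
    obtain ⟨u1, u2⟩ := hG (q / 2) (by omega)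
    rw [E1.ex]
    split_ifs with c
    · rw [show 2 * (q / 2) = q by omega] at u1
      rw [u1, hA]
      simp only [E1.up, zz]
      group
    · rw [show 2 * (q / 2) + 1 = q by omega] at u2
      rw [u2, hA]
      simp only [dn, zz]
      group
  have z1 : ym m 1 = bd G (2 * n + 2) := by rw [y1, hA, hA]; exact bs_eq m 2
  have z3 : ym m 3 = bd G (6 * n + 6) := by rw [y3, hA, hA]; exact bs_eq m 6
  refine ⟨m, F, ?_, ⟨⟨F0, F1, F2, F3, ?_, m2.symm, ?_, m4.symm, Fi⟩, fun i hi => ?_⟩, hR⟩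
  · have e : (lam m)⁻¹ * m.1 * lam m = m.1 := by
      rw [p6, ← m0, ← m4] at d0
      calc _ = (m.2.2.2⁻¹ * ((cm m.2.1 * (m.2.2.1 * m.2.2.2⁻¹ * m.2.2.1⁻¹))⁻¹ * m.1 *
            (cm m.2.1 * (m.2.2.1 * m.2.2.2⁻¹ * m.2.2.1⁻¹)))⁻¹ * m.2.2.2)⁻¹ := by
            rw [lam, show cm m.2.2 = _ * m.2.2.2 from rfl]; group
        _ = _ := by rw [d0, inv_inv]
    calc m.1 * lam m = lam m * ((lam m)⁻¹ * m.1 * lam m) := by group
      _ = _ := by rw [e]
  · rw [Q258D.em, z1, m1, inv_mul_cancel_right]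
  · rw [Q258D.em, z3, m3, inv_mul_cancel_right]
  · have := (col_congr w hw (vf n m F) (fun s => (⟨0, bd G s, 1⟩ : St 8 H)) fun s hs => by
      rw [vf_col, bd, bd, hR _ (by omega), hR _ (by omega)]).2
    rw [this, this, ← hτ, Fe, inv_mul_cancel_right]

/-! ### Words with the same braid -/

theorem tau_append (u v : Word) : ∀ (g : ℕ → St 8 H) (q : ℕ),
    tau (u ++ v) g q = tau u g q * tau v (rn u g) (ps u q) := by
  induction u with
  | nil => intro g q; exact (one_mul _).symm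
  | cons x u ih => intro g q; rw [List.cons_append, tau, ih, tau, mul_assoc]; rfl

theorem ps_congr {N : ℕ} {u v : Word} (hu : ∀ x ∈ u, x.1 + 1 < N) (hv : ∀ x ∈ v, x.1 + 1 < N)
    (e : toBraid N u = toBraid N v) (s : ℕ) : ps u s = ps v s := by
  have h1 := ps_pure (app_rng hu (inverse_rng hv)) (by
    rw [toBraid_append, toBraid_inverse, e, mul_inv_cancel]; exact one_mem _) s
  have h2 := ps_pure (app_rng (inverse_rng hv) hv) (by
    rw [toBraid_append, toBraid_inverse, inv_mul_cancel]; exact one_mem _) (ps u s)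
  rw [ps_append] at h1 h2
  rw [← h2, h1]

theorem tau_congr {N : ℕ} {u v : Word} (hu : ∀ x ∈ u, x.1 + 1 < N) (hv : ∀ x ∈ v, x.1 + 1 < N)
    (e : toBraid N u = toBraid N v) (g : ℕ → St 8 H) {s : ℕ} (hs : s < N) :
    tau u g s = tau v g s := by
  have h1 := run_eq_bact u ((List.range N).map g)
  have h2 := run_eq_bact v ((List.range N).map g)
  rw [List.length_map, List.length_range] at h1 h2
  rw [e, ← h2, run_rn u hu, run_rn v hv] at h1
  have h3 := List.map_inj_left.1 h1 (ps u s) (List.mem_range.2 (ps_lt hu hs))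
  rw [rn_ps, ps_congr hu hv e, rn_ps] at h3
  have h4 := congrArg St.tr h3
  rwa [E1.cj_tr, E1.cj_tr, mul_right_inj] at h4

theorem kap_rng {k : ℕ} {I : List ℕ} (h : ∀ i ∈ I, i < 4 * k) : ∀ x ∈ N.kap I, x.1 + 1 < 8 * k :=
  fun x hx => by
    obtain ⟨i, hi, rfl⟩ := List.mem_map.1 hx
    have := h i hi
    simp only
    omega

theorem pr_kap (I : List ℕ) : Pr (N.kap I) := by
  induction I with
  | nil => exact fun i => Or.inl ⟨rfl, rfl⟩
  | cons j I ih =>
    intro i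
    have e : N.kap (j :: I) = (2 * j, true) :: N.kap I := rfl
    rw [e, ps_cons, ps_cons]
    by_cases c : i = j
    · subst c
      rw [show sw (2 * i, true) (2 * i) = 2 * i + 1 by simp [sw],
        show sw (2 * i, true) (2 * i + 1) = 2 * i by simp [sw]]
      rcases ih i with h | h
      exacts [Or.inr ⟨h.2, h.1⟩, Or.inl ⟨h.2, h.1⟩]
    · rw [show sw (2 * j, true) (2 * i) = 2 * i by simp only [sw]; split_ifs <;> omega,
        show sw (2 * j, true) (2 * i + 1) = 2 * i + 1 by simp only [sw]; split_ifs <;> omega]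
      exact ih i

theorem tau_kap (I : List ℕ) : I.Nodup → ∀ (g : ℕ → St 8 H) (i : ℕ),
    tau (N.kap I) g (2 * i) = 1 ∧
      tau (N.kap I) g (2 * i + 1) = if i ∈ I then (g (2 * i)).col else 1 := by
  induction I with
  | nil => exact fun _ g i => ⟨rfl, by simp [N.kap, tau]⟩
  | cons j I ih =>
    intro hI g i
    obtain ⟨h1, h2⟩ := List.nodup_cons.1 hI
    have e : N.kap (j :: I) = (2 * j, true) :: N.kap I := rfl
    obtain ⟨a1, a2⟩ := ih h2 (stp (2 * j, true) g) i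
    have u0 : und (2 * j, true) g (2 * i) = 1 := by
      simp only [und, if_true]
      rw [if_neg (by omega)]
    rw [e, tau, tau, u0, one_mul]
    by_cases c : i = j
    · subst c
      rw [show sw (2 * i, true) (2 * i) = 2 * i + 1 by simp [sw],
        show sw (2 * i, true) (2 * i + 1) = 2 * i by simp [sw], a1, a2, if_neg h1,
        if_pos List.mem_cons_self]
      simp [und]
    · have s0 : sw (2 * j, true) (2 * i) = 2 * i := by simp only [sw]; split_ifs <;> omega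
      have u1 : und (2 * j, true) g (2 * i + 1) = 1 := by
        simp only [und, if_true]
        rw [if_neg (by omega)]
      rw [s0, show sw (2 * j, true) (2 * i + 1) = 2 * i + 1 by
        simp only [sw]; split_ifs <;> omega, a1, a2, u1, one_mul, stp, s0, u0, E1.cj_one]
      simp [c]

/-! ### The change of the frames -/

open Classical in
/-- the number of curls of a long band below a position -/
noncomputable def nn (n : ℕ) (I : List ℕ) : ℕ → ℕ
  | 0 => 0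
  | s + 1 => if s % 2 = 0 then nn n I s + (if s / 2 ∈ I then 1 else 0)
      else if In n s then nn n I s else 0

/-- the framings -/
noncomputable abbrev fr (n : ℕ) (I : List ℕ) : N.Fr :=
  ⟨fun j => nn n I (2 * (n + 1) * j + 2 * n + 1)⟩

/-- the meridian of the long band at a position -/
def yb (n : ℕ) (m : Mk H) (s : ℕ) : H := N.yn m (s / (2 * (n + 1)))

/-- the new frames -/
noncomputable def gau (n : ℕ) (I : List ℕ) (m : Mk H) (F : ℕ → H) (s : ℕ) : H :=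
  yb n m s ^ nn n I s * F s

theorem bs_colr (m : Mk H) {s : ℕ} (hs : s < 8 * (n + 1)) :
    bs (ym m) (colr (n + 1) s) = if s % 2 = 0 then yb n m s else (yb n m s)⁻¹ := by
  obtain ⟨j, hj, h1, h2⟩ := blk hs
  have h3 := colr_val hj h1 h2
  rw [yb, (dm h1 h2).1]
  generalize colr (n + 1) s = c at h3
  rcases (by omega : s % 2 = 0 ∨ s % 2 = 1) with p | p
  · rw [if_pos p]
    rw [p] at h3
    obtain rfl | rfl | rfl | rfl : j = 0 ∨ j = 1 ∨ j = 2 ∨ j = 3 := by omega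
    exacts [by rw [show c = 0 from Fin.ext h3]; rfl, by rw [show c = 2 from Fin.ext h3]; rfl,
      by rw [show c = 4 from Fin.ext h3]; rfl, by rw [show c = 6 from Fin.ext h3]; rfl]
  · rw [if_neg (by omega)]
    rw [p] at h3
    obtain rfl | rfl | rfl | rfl : j = 0 ∨ j = 1 ∨ j = 2 ∨ j = 3 := by omega
    exacts [by rw [show c = 1 from Fin.ext h3]; rfl, by rw [show c = 3 from Fin.ext h3]; rfl,
      by rw [show c = 5 from Fin.ext h3]; rfl, by rw [show c = 7 from Fin.ext h3]; rfl]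

theorem vf_gau (I : List ℕ) (m : Mk H) (F : ℕ → H) {s : ℕ} (hs : s < 8 * (n + 1)) :
    (vf n m (gau n I m F) s).col = (vf n m F s).col := by
  simp only [vf, mk, gau, bs_colr m hs]
  split_ifs <;> group

theorem yb_succ (m : Mk H) {s : ℕ} (hs : s < 8 * (n + 1)) (h : s % 2 = 0 ∨ In n s) :
    yb n m (s + 1) = yb n m s := by
  obtain ⟨j, hj, h1, h2⟩ := blk hs
  have h3 : s + 1 < 2 * (n + 1) * j + 2 * (n + 1) := by
    unfold In at h
    obtain rfl | rfl | rfl | rfl : j = 0 ∨ j = 1 ∨ j = 2 ∨ j = 3 := by omega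
    all_goals omega
  rw [yb, yb, (dm h1 h2).1, (dm (by omega) h3).1]

theorem cb_gau (I : List ℕ) (m : Mk H) (F : ℕ → H) :
    CB n (@N.em H _ (fr n I) m) (gau n I m F) ↔ CB n (Q258D.em m) F := by
  have z : ∀ s, s % 2 = 1 → ¬ In n s → gau n I m F (s + 1) = F (s + 1) := fun s h1 h2 => by
    rw [gau, nn, if_neg (by omega), if_neg h2, pow_zero, one_mul]
  have z0 : gau n I m F 0 = F 0 := by rw [gau, nn, pow_zero, one_mul]
  have z1 : gau n I m F (2 * n + 2) = F (2 * n + 2) := z _ (by omega) (by unfold In; omega)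
  have z2 : gau n I m F (4 * n + 4) = F (4 * n + 4) := z _ (by omega) (by unfold In; omega)
  have z3 : gau n I m F (6 * n + 6) = F (6 * n + 6) := z _ (by omega) (by unfold In; omega)
  have t : ∀ j s, s = 2 * (n + 1) * j + 2 * n + 1 →
      (gau n I m F s = @N.em H _ (fr n I) m j ↔ F s = Q258D.em m j) := fun j s hs => by
    have e : @N.em H _ (fr n I) m j = N.yn m j ^ nn n I s * Q258D.em m j := by
      rw [hs, ← zpow_natCast]; rfl
    rw [e, gau, yb, (dm (j := j) (by omega) (by omega)).1, mul_right_inj]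
  have u : ∀ s, In n s → (gau n I m F s = gau n I m F (s + 1) ↔ F s = F (s + 1)) :=
    fun s hs => by
      rw [gau, gau, yb_succ m (by unfold In at hs; omega) (Or.inr hs), nn,
        if_neg (by unfold In at hs; omega), if_pos hs, mul_right_inj]
  unfold CB
  rw [z0, z1, z2, z3, t 0 _ (by omega), t 1 _ (by omega), t 2 _ (by omega), t 3 _ (by omega),
    forall₂_congr u]

theorem isSol_gen (hw : ∀ x ∈ w, x.1 + 1 < 8 * (n + 1)) (hp : ∀ s, ps w s = s) (m : Mk H)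
    (e : ℕ → H) (u : List (St 8 H)) : InT (n + 1) (bs (ym m)) u ∧ InB (n + 1) (bs (ym m)) e
      (bact H (8 * (n + 1)) (toBraid (8 * (n + 1)) w) u) ↔
      ∃ F, bact H (8 * (n + 1)) (toBraid (8 * (n + 1)) w) u = row (n + 1) (bs (ym m)) F ∧
        CB n e F ∧ ∀ i < 4 * (n + 1), F (2 * i) * tau w (vf n m F) (2 * i) =
          F (2 * i + 1) * tau w (vf n m F) (2 * i + 1) := by
  have key : ∀ F, bact H (8 * (n + 1)) (toBraid (8 * (n + 1)) w) u = row (n + 1) (bs (ym m)) F →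
      u = row (n + 1) (bs (ym m)) fun s => F s * tau w (vf n m F) s := fun F h => by
    have hl : u.length = 8 * (n + 1) := by rw [← bact_length (toBraid _ w) u, h, row_length]
    rw [bact_toBraid w hl] at h
    have h2 := run_inverse (inverse w) u
    rw [inverse_inverse, h] at h2
    rw [← h2]
    refine (run_rn w hw (vf n m F)).trans (List.map_congr_left fun s _ => ?_)
    have := rn_ps w (vf n m F) s
    rw [hp] at this
    rw [this, vf, E1.cj_mk]
  rw [inB_iff]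
  constructor
  · rintro ⟨h1, F, h2, h3⟩
    rw [key F h2, inT_iff] at h1
    exact ⟨F, h2, h3, h1⟩
  · rintro ⟨F, h2, h3, h1⟩
    refine ⟨?_, F, h2, h3⟩
    rw [key F h2, inT_iff]
    exact h1

theorem top_gau {I : List ℕ} (hI : I.Nodup) (hI' : ∀ i ∈ I, i < 4 * (n + 1)) {v : Word}
    (hw : ∀ x ∈ w, x.1 + 1 < 8 * (n + 1)) (hv : ∀ x ∈ v, x.1 + 1 < 8 * (n + 1))
    (hp : ∀ s, ps v s = s) (e : toBraid (8 * (n + 1)) w = toBraid (8 * (n + 1)) (v ++ N.kap I))
    (m : Mk H) (F : ℕ → H) {i : ℕ} (hi : i < 4 * (n + 1)) :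
    gau n I m F (2 * i) * tau v (vf n m (gau n I m F)) (2 * i) =
      gau n I m F (2 * i + 1) * tau v (vf n m (gau n I m F)) (2 * i + 1) ↔
    F (2 * i) * tau w (vf n m F) (2 * i) = F (2 * i + 1) * tau w (vf n m F) (2 * i + 1) := by
  have h1 := (col_congr v hv _ _ fun s hs => vf_gau I m F hs).2
  have h2 := app_rng hv (kap_rng hI')
  obtain ⟨a1, a2⟩ := tau_kap I hI (rn v (vf n m F)) i
  have a3 := rn_ps v (vf n m F) (2 * i)
  rw [hp, vf, E1.cj_mk] at a3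
  rw [h1, h1, tau_congr hw h2 e _ (by omega), tau_congr hw h2 e _ (by omega), tau_append,
    tau_append, hp, hp, a1, a2, a3, gau, gau, yb_succ m (by omega) (Or.inl (by omega)), nn,
    if_pos (by omega), show 2 * i / 2 = i by omega, mul_one]
  simp only [mk, bs_colr m (show 2 * i < 8 * (n + 1) by omega), if_pos (show 2 * i % 2 = 0 by omega)]
  generalize tau v (vf n m F) (2 * i) = a
  generalize tau v (vf n m F) (2 * i + 1) = b
  generalize yb n m (2 * i) = y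
  split_ifs
  · rw [pow_succ, mul_assoc, mul_assoc, mul_assoc, mul_right_inj]
    constructor
    · intro h
      rw [h]
      group
    · intro h
      calc _ = y * (F (2 * i + 1) * (b * ((F (2 * i) * a)⁻¹ * y * (F (2 * i) * a)))) *
            ((F (2 * i) * a)⁻¹ * y * (F (2 * i) * a))⁻¹ * (y * (F (2 * i) * a) *
              ((F (2 * i) * a)⁻¹ * y * (F (2 * i) * a))⁻¹)⁻¹ * (F (2 * i) * a) := by
            rw [← h]; group
        _ = _ := by group
  · rw [add_zero, mul_assoc, mul_assoc, mul_right_inj, mul_one]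

theorem isSol_iff' {I : List ℕ} (hI : I.Nodup) (hI' : ∀ i ∈ I, i < 4 * (n + 1)) {v : Word}
    (hw : ∀ x ∈ w, x.1 + 1 < 8 * (n + 1)) (hv : ∀ x ∈ v, x.1 + 1 < 8 * (n + 1))
    (hp : ∀ s, ps v s = s) (e : toBraid (8 * (n + 1)) w = toBraid (8 * (n + 1)) (v ++ N.kap I))
    (m : Mk H) (u : List (St 8 H)) :
    @N.IsSol H _ (fr n I) (n + 1) (toBraid (8 * (n + 1)) v) m u ↔
      ∃ F, bact H (8 * (n + 1)) (toBraid (8 * (n + 1)) v) u =
        row (n + 1) (bs (ym m)) (gau n I m F) ∧ E1.Sol n w m F := by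
  refine (isSol_gen hv hp m _ u).trans ⟨?_, ?_⟩
  · rintro ⟨F', h1, h2, h3⟩
    obtain ⟨F, rfl⟩ : ∃ F, F' = gau n I m F :=
      ⟨fun s => (yb n m s ^ nn n I s)⁻¹ * F' s, funext fun s => by rw [gau, mul_inv_cancel_left]⟩
    exact ⟨F, h1, (cb_gau I m F).1 h2, fun i hi => (top_gau hI hI' hw hv hp e m F hi).1 (h3 i hi)⟩
  · rintro ⟨F, h1, h2, h3⟩
    exact ⟨_, h1, (cb_gau I m F).2 h2, fun i hi => (top_gau hI hI' hw hv hp e m F hi).2 (h3 i hi)⟩

end E1N

open E1N in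
theorem N.rowE1N : N.RowE1N := by
  intro k hk I hI hI'
  obtain ⟨n, rfl⟩ : ∃ n, k = n + 1 := ⟨k - 1, by omega⟩
  refine ⟨fr n I, fun w hw β hβ e => ⟨surf_rng hw, fun H _ => ?_⟩⟩
  obtain ⟨v, hv, rfl⟩ := exists_word β
  have hq := ps_pure hv hβ
  rw [← toBraid_append] at e
  have hp : Pr w := fun i => by
    rw [ps_congr hw (app_rng hv (kap_rng hI')) e, ps_congr hw (app_rng hv (kap_rng hI')) e,
      ps_append, ps_append, hq, hq]
    exact pr_kap I i
  have ex1 : ∀ c : {c : Fin (2 * (8 * (n + 1))) → H // Capd (8 * (n + 1)) (surf (n + 1) w) (Pc c)},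
      ∃ x : {x : Mk H × List (St 8 H) // Commute x.1.1 (lam x.1) ∧
        @N.IsSol H _ (fr n I) (n + 1) (toBraid (8 * (n + 1)) v) x.1 x.2},
        ∃ F, bact H (8 * (n + 1)) (toBraid (8 * (n + 1)) v) x.1.2 =
          row (n + 1) (bs (ym x.1.1)) (gau n I x.1.1 F) ∧
          E1.Sol n w x.1.1 F ∧ E1.Rel n c.1 x.1.1 F := fun c => by
    obtain ⟨m, F, h1, h2, h3⟩ := exists_sol' hw hp c.2
    have e' := (bact H (8 * (n + 1)) (toBraid (8 * (n + 1)) v)).apply_symm_apply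
      (row (n + 1) (bs (ym m)) (gau n I m F))
    exact ⟨⟨(m, _), h1, (isSol_iff' hI hI' hw hv hq e m _).2 ⟨F, e', h2⟩⟩, F, e', h2, h3⟩
  choose Φ F h1 h2 h3 using ex1
  refine ⟨Equiv.ofBijective Φ ⟨fun c c' e => ?_, fun x => ?_⟩, fun c =>
    (props' hw hp (Φ c).2.1 (h2 c) (h3 c)).2⟩
  · have a1 := h1 c
    have a3 := h3 c
    rw [e] at a1 a3
    refine Subtype.ext (a3.inj (h3 c') fun s hs => ?_)
    have a4 : gau n I (Φ c').1.1 (F c) s = gau n I (Φ c').1.1 (F c') s := by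
      rw [← frm_row _ (gau n I _ (F c)) hs, ← a1, h1 c', frm_row _ _ hs]
    rwa [gau, gau, mul_right_inj] at a4
  · obtain ⟨F', a1, a2⟩ := (isSol_iff' hI hI' hw hv hq e _ _).1 x.2.2
    obtain ⟨c, a3⟩ := exists_rel n x.1.1 F'
    have hc := (props' hw hp x.2.1 a2 a3).1
    obtain ⟨e1, e2⟩ := uniq hw (h2 ⟨c, hc⟩) a2 (h3 ⟨c, hc⟩) a3
    refine ⟨⟨c, hc⟩, Subtype.ext (Prod.ext e1 ?_)⟩
    apply (bact H (8 * (n + 1)) (toBraid (8 * (n + 1)) v)).injective
    rw [h1, a1, e1]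
    exact row_congr _ fun s hs => by rw [gau, gau, e2 s hs]

end Vale.Agent.Q258U
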