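import Vale.Agent.Q258U.Core
import Mathlib.Analysis.Calculus.FDeriv.Extend
import Mathlib.Analysis.Calculus.ContDiff.Deriv
import Mathlib.Analysis.Calculus.ContDiff.Operations
import Mathlib.Analysis.Calculus.Deriv.Pow
import Mathlib.Analysis.Calculus.Deriv.Comp
import Mathlib.Analysis.Calculus.Deriv.Mul

/-!
# An explicit surface
-/

set_option linter.all false

namespace Vale.Agent.Q258U

open Set Complex

namespace Ex

/-- the square of the positive part -/
noncomputable def Q (u : ℝ) : ℝ := (max u 0) ^ 2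

theorem Q_of_nonpos {u : ℝ} (h : u ≤ 0) : Q u = 0 := by simp [Q, max_eq_right h]

theorem Q_of_nonneg {u : ℝ} (h : 0 ≤ u) : Q u = u ^ 2 := by simp [Q, max_eq_left h]

theorem dQ (u : ℝ) : HasDerivAt Q (2 * max u 0) u := by
  refine hasDerivAt_of_hasDerivAt_of_ne' (f := Q) (g := fun u => 2 * max u 0) (x := 0)
    (fun y hy => ?_) ?_ ?_ u
  · rcases lt_or_gt_of_ne hy with h | h
    · have e : Q =ᶠ[nhds y] fun _ => 0 := by
        filter_upwards [Iio_mem_nhds h] with z hz using Q_of_nonpos (le_of_lt hz)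
      rw [max_eq_right h.le, mul_zero]
      exact (hasDerivAt_const y (0 : ℝ)).congr_of_eventuallyEq e
    · have e : Q =ᶠ[nhds y] fun z => z ^ 2 := by
        filter_upwards [Ioi_mem_nhds h] with z hz using Q_of_nonneg (le_of_lt hz)
      rw [max_eq_left h.le]
      have := (hasDerivAt_pow 2 y).congr_of_eventuallyEq e
      simpa using this
  · unfold Q; fun_prop
  · fun_prop

theorem cQ : ContDiff ℝ 1 Q := by
  refine contDiff_one_iff_deriv.2 ⟨fun u => (dQ u).differentiableAt, ?_⟩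
  have : deriv Q = fun u => 2 * max u 0 := funext fun u => (dQ u).deriv
  rw [this]; fun_prop

/-- the level -/
noncomputable def ps (t : ℝ) : ℝ := t - Q (t - 2) + Q (t - 3)

/-- the side -/
noncomputable def sg (t : ℝ) : ℝ := -1 + Q (t - 2) * (14 - 4 * t) + Q (t - 3) * (4 * t - 6)

/-- the height -/
noncomputable def bb (t : ℝ) : ℝ := Q ((t - 2) * (3 - t))

theorem cps : ContDiff ℝ 1 ps :=
  (contDiff_id.sub (cQ.comp (contDiff_id.sub contDiff_const))).add
    (cQ.comp (contDiff_id.sub contDiff_const))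

theorem csg : ContDiff ℝ 1 sg :=
  (contDiff_const.add ((cQ.comp (contDiff_id.sub contDiff_const)).mul
    (contDiff_const.sub (contDiff_const.mul contDiff_id)))).add
    ((cQ.comp (contDiff_id.sub contDiff_const)).mul
      ((contDiff_const.mul contDiff_id).sub contDiff_const))

theorem cbb : ContDiff ℝ 1 bb :=
  cQ.comp ((contDiff_id.sub contDiff_const).mul (contDiff_const.sub contDiff_id))

theorem low {t : ℝ} (h : t ≤ 2) : ps t = t ∧ sg t = -1 ∧ bb t = 0 := by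
  have h1 : Q (t - 2) = 0 := Q_of_nonpos (by linarith)
  have h2 : Q (t - 3) = 0 := Q_of_nonpos (by linarith)
  refine ⟨by simp [ps, h1, h2], by simp [sg, h1, h2], Q_of_nonpos (by nlinarith)⟩

theorem high {t : ℝ} (h : 3 ≤ t) : ps t = 5 - t ∧ sg t = 1 ∧ bb t = 0 := by
  have h1 : Q (t - 2) = (t - 2) ^ 2 := Q_of_nonneg (by linarith)
  have h2 : Q (t - 3) = (t - 3) ^ 2 := Q_of_nonneg (by linarith)
  refine ⟨by rw [ps, h1, h2]; ring, by rw [sg, h1, h2]; ring, Q_of_nonpos (by nlinarith)⟩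

theorem val {t : ℝ} (h : 2 ≤ t) (h' : t ≤ 3) : ps t = 2 + (t - 2) * (3 - t) ∧
    sg t = (2 * t - 5) * (1 + 2 * ((t - 2) * (3 - t))) ∧ bb t = ((t - 2) * (3 - t)) ^ 2 := by
  have h1 : Q (t - 2) = (t - 2) ^ 2 := Q_of_nonneg (by linarith)
  have h2 : Q (t - 3) = 0 := Q_of_nonpos (by linarith)
  refine ⟨by rw [ps, h1, h2]; ring, by rw [sg, h1, h2]; ring, Q_of_nonneg (by nlinarith)⟩

theorem dQs (c t : ℝ) : HasDerivAt (fun t => Q (t - c)) (2 * max (t - c) 0) t := by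
  exact ((dQ (t - c)).comp t ((hasDerivAt_id t).sub_const c)).congr_deriv (mul_one _)

theorem der {t : ℝ} (h : 2 ≤ t) (h' : t ≤ 3) : HasDerivAt ps (5 - 2 * t) t ∧
    HasDerivAt sg (12 * ((t - 2) * (3 - t))) t ∧
    HasDerivAt bb (2 * ((t - 2) * (3 - t)) * (5 - 2 * t)) t := by
  have h1 : Q (t - 2) = (t - 2) ^ 2 := Q_of_nonneg (by linarith)
  have h2 : Q (t - 3) = 0 := Q_of_nonpos (by linarith)
  have d1 := dQs 2 t
  have d2 := dQs 3 t
  rw [max_eq_left (by linarith)] at d1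
  rw [max_eq_right (by linarith)] at d2
  refine ⟨?_, ?_, ?_⟩
  · exact (((hasDerivAt_id' t).fun_sub d1).fun_add d2).congr_deriv (by ring)
  · exact (((d1.fun_mul (((hasDerivAt_id' t).const_mul 4).const_sub 14)).const_add (-1)).fun_add
      (d2.fun_mul (((hasDerivAt_id' t).const_mul 4).sub_const 6))).congr_deriv
      (by rw [h1, h2]; ring)
  · have := (dQ ((t - 2) * (3 - t))).comp t
      (((hasDerivAt_id' t).sub_const 2).fun_mul ((hasDerivAt_id' t).const_sub 3))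
    rw [max_eq_left (by nlinarith)] at this
    exact this.congr_deriv (by ring)

/-- coordinates -/
noncomputable def emb : (ℝ × ℝ × ℝ) →L[ℝ] ℂ × ℝ :=
  LinearMap.toContinuousLinearMap
    { toFun := fun p => ((p.1 : ℂ) + (p.2.1 : ℂ) * I, p.2.2)
      map_add' := fun p q => by
        refine Prod.ext ?_ rfl
        simp only [Prod.fst_add, Prod.snd_add, ofReal_add]; ring
      map_smul' := fun c p => by
        refine Prod.ext ?_ rfl
        simp only [Prod.smul_fst, Prod.smul_snd, smul_eq_mul, ofReal_mul, RingHom.id_apply,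
          real_smul]
        ring }

theorem emb_apply (p : ℝ × ℝ × ℝ) : emb p = ((p.1 : ℂ) + (p.2.1 : ℂ) * I, p.2.2) := rfl

theorem emb_inj : Function.Injective emb := by
  rintro ⟨a, b, c⟩ ⟨a', b', c'⟩ h
  simp only [emb_apply, Prod.mk.injEq] at h
  have h1 := congrArg re h.1
  have h2 := congrArg im h.1
  simp at h1 h2
  rw [h1, h2, h.2]

theorem inj_fderiv {G : ℝ × ℝ → ℝ × ℝ × ℝ} {D : ℝ × ℝ →L[ℝ] ℝ × ℝ × ℝ} {x : ℝ × ℝ}
    (h : HasFDerivAt G D x) (hD : ∀ v, D v = 0 → v = 0) :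
    Function.Injective (fderiv ℝ (fun x => emb (G x)) x) := by
  have := (emb.hasFDerivAt.comp x h).fderiv
  rw [show (fun x => emb (G x)) = emb ∘ G from rfl, this]
  exact emb_inj.comp ((injective_iff_map_eq_zero D).2 hD)

/-- the signs of the heights -/
def hh : Fin 4 → ℝ := ![1, -1, 1, -1]

/-- the disc -/
def F0 (x : ℝ × ℝ) : ℝ × ℝ × ℝ := (x.1, x.2, 0)

/-- the bands -/
noncomputable def G0 (j : Fin 4) (x : ℝ × ℝ) : ℝ × ℝ × ℝ :=
  (ps x.1 * (pS j + 4 + (4 - x.2) * sg x.1), ps x.1 + (4 - x.2) * bb x.1, hh j * bb x.1)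

theorem cG (j : Fin 4) : ContDiff ℝ 1 (G0 j) := by
  have h1 : ContDiff ℝ 1 fun x : ℝ × ℝ => ps x.1 := cps.comp contDiff_fst
  have h2 : ContDiff ℝ 1 fun x : ℝ × ℝ => sg x.1 := csg.comp contDiff_fst
  have h3 : ContDiff ℝ 1 fun x : ℝ × ℝ => bb x.1 := cbb.comp contDiff_fst
  have h4 : ContDiff ℝ 1 fun x : ℝ × ℝ => 4 - x.2 := contDiff_const.sub contDiff_snd
  exact (h1.mul (contDiff_const.add (h4.mul h2))).prodMk
    ((h1.add (h4.mul h3)).prodMk (contDiff_const.mul h3))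

theorem hh_ne (j : Fin 4) : hh j ≠ 0 := by
  fin_cases j <;> simp [hh]

theorem mem_mid {x : ℝ × ℝ} (h : x ∈ mid) : 2 ≤ x.1 ∧ x.1 ≤ 3 ∧ -1 ≤ x.2 ∧ x.2 ≤ 1 :=
  ⟨h.1.1, h.2.1, h.1.2, h.2.2⟩

theorem imm (j : Fin 4) {x : ℝ × ℝ} (hx : x ∈ mid) :
    Function.Injective (fderiv ℝ (fun x => emb (G0 j x)) x) := by
  obtain ⟨a1, a2, a3, a4⟩ := mem_mid hx
  obtain ⟨d1, d2, d3⟩ := der a1 a2
  obtain ⟨v1, v2, v3⟩ := val a1 a2
  have h1 : HasFDerivAt (fun x : ℝ × ℝ => ps x.1) _ x :=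
    d1.comp_hasFDerivAt x (hasFDerivAt_fst (𝕜 := ℝ))
  have h2 : HasFDerivAt (fun x : ℝ × ℝ => sg x.1) _ x :=
    d2.comp_hasFDerivAt x (hasFDerivAt_fst (𝕜 := ℝ))
  have h3 : HasFDerivAt (fun x : ℝ × ℝ => bb x.1) _ x :=
    d3.comp_hasFDerivAt x (hasFDerivAt_fst (𝕜 := ℝ))
  have h4 : HasFDerivAt (fun x : ℝ × ℝ => 4 - x.2) _ x :=
    (hasFDerivAt_snd (𝕜 := ℝ)).const_sub 4
  refine inj_fderiv (G := G0 j) ((h1.fun_mul ((h4.fun_mul h2).const_add (pS j + 4))).prodMk
    ((h1.fun_add (h4.fun_mul h3)).prodMk (h3.const_mul (hh j)))) ?_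
  rintro ⟨α, β⟩ hv
  simp only [ContinuousLinearMap.prod_apply, ContinuousLinearMap.add_apply,
    ContinuousLinearMap.smul_apply, ContinuousLinearMap.neg_apply, ContinuousLinearMap.coe_fst',
    ContinuousLinearMap.coe_snd', smul_eq_mul, Prod.mk_eq_zero, v1, v2, v3] at hv ⊢
  obtain ⟨e1, e2, e3⟩ := hv
  have e4 := (mul_eq_zero.1 e3).resolve_left (hh_ne j)
  generalize x.1 = t at *
  generalize x.2 = s at *
  have hs : 4 - s ≠ 0 := by linarith
  by_cases w0 : (t - 2) * (3 - t) = 0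
  · have t5 : 5 - 2 * t ≠ 0 := by
      rcases mul_eq_zero.1 w0 with h | h <;> intro h' <;> linarith
    rw [w0] at e1 e2
    have hα : α = 0 := by
      have : (5 - 2 * t) * α = 0 := by linarith
      exact (mul_eq_zero.1 this).resolve_left t5
    refine ⟨hα, ?_⟩
    rw [hα] at e1
    have : (5 - 2 * t) * β = 0 := by linarith
    exact (mul_eq_zero.1 this).resolve_left t5
  · have hβ : β = 0 := by
      have k1 : (5 - 2 * t) * α = 0 := by
        have : ((t - 2) * (3 - t)) * ((5 - 2 * t) * α) = 0 := by linarith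
        exact (mul_eq_zero.1 this).resolve_left w0
      rw [k1, e4] at e2
      have : ((t - 2) * (3 - t)) ^ 2 * β = 0 := by linarith
      exact (mul_eq_zero.1 this).resolve_left (pow_ne_zero 2 w0)
    refine ⟨?_, hβ⟩
    have k1 : (5 - 2 * t) * α = 0 := by
      have : ((t - 2) * (3 - t)) * ((5 - 2 * t) * α) = 0 := by linarith
      exact (mul_eq_zero.1 this).resolve_left w0
    rw [k1, hβ] at e1
    have p1 : 2 + (t - 2) * (3 - t) ≠ 0 := by nlinarith
    have : (2 + (t - 2) * (3 - t)) * ((4 - s) * (((t - 2) * (3 - t)) * α)) = 0 := by linarith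
    exact (mul_eq_zero.1 ((mul_eq_zero.1 ((mul_eq_zero.1 this).resolve_left p1)).resolve_left
      hs)).resolve_left w0

theorem bd {t : ℝ} (h : 2 ≤ t) (h' : t ≤ 3) : -1 ≤ sg t ∧ sg t ≤ 1 := by
  rw [(val h h').2.1]
  constructor
  · nlinarith [mul_nonneg (sq_nonneg (t - 2)) (show 0 ≤ 7 - 2 * t by linarith)]
  · nlinarith [mul_nonneg (sq_nonneg (3 - t)) (show 0 ≤ 2 * t - 3 by linarith)]

theorem sep {i j : Fin 4} {s A B : ℝ} (h1 : -1 ≤ s) (h2 : s ≤ 1) (k1 : -1 ≤ A ∧ A ≤ 1)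
    (k2 : -1 ≤ B ∧ B ≤ 1) (hH : hh i = hh j)
    (e : pS i + 4 + (4 - s) * B = pS j + 4 + (4 - s) * A) : i = j := by
  have k3 : pS i - pS j ≤ 10 := by nlinarith [k1.1, k1.2, k2.1, k2.2]
  have k4 : pS j - pS i ≤ 10 := by nlinarith [k1.1, k1.2, k2.1, k2.2]
  clear e
  fin_cases i <;> fin_cases j <;> simp [pS, hh] at k3 k4 hH ⊢ <;> linarith

theorem feet {i j : Fin 4} {t s t' s' : ℝ} (h1 : -1 ≤ s) (h2 : s ≤ 1) (h3 : -1 ≤ s') (h4 : s' ≤ 1)
    (c1 : t = 2 ∨ t = 3) (c2 : t' = 2 ∨ t' = 3)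
    (e : pS i + 4 + (4 - s') * (2 * t' - 5) = pS j + 4 + (4 - s) * (2 * t - 5)) :
    i = j ∧ t' = t ∧ s' = s := by
  rcases c1 with rfl | rfl <;> rcases c2 with rfl | rfl <;> fin_cases i <;> fin_cases j <;>
    norm_num [pS] at e ⊢ <;> linarith

theorem injG {i j : Fin 4} {x y : ℝ × ℝ} (hx : x ∈ mid) (hy : y ∈ mid) (h : G0 i y = G0 j x) :
    i = j ∧ y = x := by
  obtain ⟨a1, a2, a3, a4⟩ := mem_mid hx
  obtain ⟨b1, b2, b3, b4⟩ := mem_mid hy
  obtain ⟨v1, v2, v3⟩ := val a1 a2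
  obtain ⟨u1, u2, u3⟩ := val b1 b2
  obtain ⟨t, s⟩ := x
  obtain ⟨t', s'⟩ := y
  simp only [G0, Prod.mk.injEq] at *
  rw [v1, v2, v3, u1, u2, u3] at h
  obtain ⟨e1, e2, e3⟩ := h
  have w1 : 0 ≤ (t - 2) * (3 - t) := by nlinarith
  have w2 : 0 ≤ (t' - 2) * (3 - t') := by nlinarith
  have hw : (t' - 2) * (3 - t') = (t - 2) * (3 - t) := by
    have k : ∀ j, hh j ^ 2 = 1 := fun j => by fin_cases j <;> simp [hh]
    have k1 : (((t' - 2) * (3 - t')) ^ 2) ^ 2 = (((t - 2) * (3 - t)) ^ 2) ^ 2 := by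
      have := congrArg (· ^ 2) e3
      simpa only [mul_pow (hh _), k, one_mul] using this
    exact (pow_left_inj₀ w2 w1 two_ne_zero).1
      ((pow_left_inj₀ (sq_nonneg _) (sq_nonneg _) two_ne_zero).1 k1)
  have ht : t' = t ∨ t' = 5 - t := by
    have : (t' - t) * (t' - (5 - t)) = 0 := by linarith
    rcases mul_eq_zero.1 this with h | h
    · left; linarith
    · right; linarith
  rw [hw] at e1 e2 e3
  have p1 : 2 + (t - 2) * (3 - t) ≠ 0 := by linarith
  have e1' := mul_left_cancel₀ p1 e1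
  by_cases w0 : (t - 2) * (3 - t) = 0
  · rw [w0] at e1' hw
    have c1 : t = 2 ∨ t = 3 := by
      rcases mul_eq_zero.1 w0 with h | h
      · left; linarith
      · right; linarith
    have c2 : t' = 2 ∨ t' = 3 := by
      rcases mul_eq_zero.1 hw with h | h
      · left; linarith
      · right; linarith
    exact feet a3 a4 b3 b4 c1 c2 (by linarith)
  · have w3 : ((t - 2) * (3 - t)) ^ 2 ≠ 0 := pow_ne_zero 2 w0
    have hs : s' = s := by
      have := mul_right_cancel₀ w3 (add_left_cancel e2)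
      linarith
    have hH := mul_right_cancel₀ w3 e3
    subst hs
    have k1 := bd a1 a2
    have k2 := bd b1 b2
    rw [v2] at k1
    rw [u2, hw] at k2
    have hij : i = j := sep a3 a4 k1 k2 hH e1'
    subst hij
    refine ⟨rfl, ?_, rfl⟩
    have hs : 4 - s' ≠ 0 := by linarith
    have p2 : 1 + 2 * ((t - 2) * (3 - t)) ≠ 0 := by linarith
    have := mul_right_cancel₀ p2 (mul_left_cancel₀ hs (add_left_cancel e1'))
    linarith

end Ex

open Ex in
theorem rowEx : RowEx := by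
  have dF : ∀ x, HasFDerivAt F0 _ x := fun x =>
    (hasFDerivAt_fst (𝕜 := ℝ)).prodMk
      ((hasFDerivAt_snd (𝕜 := ℝ)).prodMk (hasFDerivAt_const (0 : ℝ) x))
  refine ⟨fun x => emb (F0 x), fun j x => emb (G0 j x),
    emb.contDiff.comp (contDiff_fst.prodMk (contDiff_snd.prodMk contDiff_const)),
    fun x _ y _ h => ?_, fun x _ => inj_fderiv (dF x) ?_, fun j => ⟨emb.contDiff.comp (cG j),
      fun x hx => imm j hx, fun t ht s hs => ⟨congrArg emb ?_, congrArg emb ?_⟩,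
      fun x hx => ⟨?_, fun i y hy h => injG hx hy (emb_inj h)⟩⟩⟩
  · have := emb_inj h
    simp only [F0, Prod.mk.injEq] at this
    exact Prod.ext this.1 this.2.1
  · rintro ⟨a, b⟩ h
    simpa using h
  · obtain ⟨h1, h2, h3⟩ := low ht.2
    simp only [G0, F0, h1, h2, h3, Prod.mk.injEq]
    refine ⟨by ring, by ring, by ring⟩
  · obtain ⟨h1, h2, h3⟩ := high (t := 5 - t) (by linarith [ht.2])
    have : pE j = pS j + 8 := by fin_cases j <;> simp [pS, pE] <;> norm_num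
    simp only [G0, F0, h1, h2, h3, Prod.mk.injEq, this]
    refine ⟨by ring, by ring, by ring⟩
  · rintro ⟨y, -, h⟩
    obtain ⟨a1, a2, -, -⟩ := mem_mid hx
    have h1 := emb_inj h
    simp only [G0, F0, Prod.mk.injEq] at h1
    have h2 := (mul_eq_zero.1 h1.2.2.symm).resolve_left (hh_ne j)
    rw [(val a1 a2).2.2] at h2
    rcases mul_eq_zero.1 (pow_eq_zero_iff two_ne_zero |>.1 h2) with h | h
    · left; linarith
    · right; linarith

end Vale.Agent.Q258U
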