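import Vale.Agent.Q258U.Core
import Mathlib.Analysis.Calculus.InverseFunctionTheorem.ApproximatesLinearOn
import Mathlib.Topology.UrysohnsLemma
import Mathlib.Topology.MetricSpace.HausdorffDistance
import Mathlib.Analysis.Convex.Topology

/-!
# Pulling back a finger
-/

set_option linter.all false

namespace Vale.Agent.Q258U

open Set Complex Filter Topology
open scoped NNReal

namespace F0

/-- a small horizontal displacement -/
theorem step (ψ : ℂ → ℝ) (L : ℝ) (hψ : ∀ z z', |ψ z - ψ z'| ≤ L * ‖z - z'‖)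
    (h1 : ∀ z, |ψ z| ≤ 1) (w : ℝ → ℂ) (hw : Continuous w) (hL : ∀ t, L * ‖w t‖ ≤ 1 / 2) :
    ∃ h : E3 ≃ₜ E3, ∀ z t, h (z, t) = (z + ψ z • w t, t) := by
  have key : ∀ t z z', ‖ψ z • w t - ψ z' • w t‖ ≤ 1 / 2 * ‖z - z'‖ := fun t z z' => by
    rw [← sub_smul, norm_smul, Real.norm_eq_abs]
    calc _ ≤ L * ‖z - z'‖ * ‖w t‖ := by gcongr; exact hψ z z'
      _ = L * ‖w t‖ * ‖z - z'‖ := by ring
      _ ≤ _ := by gcongr; exact hL t
  have ha : ∀ t, ApproximatesLinearOn (fun z => z + ψ z • w t)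
      (ContinuousLinearEquiv.refl ℝ ℂ : ℂ →L[ℝ] ℂ) univ (1 / 2 : ℝ≥0) := by
    intro t p _ q _
    have e : p + ψ p • w t - (q + ψ q • w t) -
        (ContinuousLinearEquiv.refl ℝ ℂ : ℂ →L[ℝ] ℂ) (p - q) = ψ p • w t - ψ q • w t := by
      show p + ψ p • w t - (q + ψ q • w t) - (p - q) = _
      abel
    rw [e]
    simpa using key t p q
  have hc : Subsingleton ℂ ∨ (1 / 2 : ℝ≥0) <
      ‖((ContinuousLinearEquiv.refl ℝ ℂ).symm : ℂ →L[ℝ] ℂ)‖₊⁻¹ := by
    right
    have : ‖((ContinuousLinearEquiv.refl ℝ ℂ).symm : ℂ →L[ℝ] ℂ)‖₊ = 1 :=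
      ContinuousLinearMap.nnnorm_id
    rw [this, inv_one]
    norm_num
  let e : ℝ → ℂ ≃ₜ ℂ := fun t => (ha t).toHomeomorph _ hc
  have he : ∀ t z, e t z = z + ψ z • w t := fun t z => rfl
  have cψ : Continuous ψ := by
    refine continuous_iff_continuousAt.2 fun z => tendsto_iff_norm_sub_tendsto_zero.2 ?_
    refine squeeze_zero (fun _ => norm_nonneg _) (fun z' => hψ z' z) ?_
    have : Continuous fun z' : ℂ => L * ‖z' - z‖ := by fun_prop
    simpa using this.tendsto z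
  have est : ∀ p q : E3, ‖(e p.2).symm p.1 - (e q.2).symm q.1‖ ≤
      2 * ‖p.1 - q.1‖ + 2 * ‖w p.2 - w q.2‖ := by
    rintro ⟨z, t⟩ ⟨z', t'⟩
    obtain ⟨a, rfl⟩ := (e t).surjective z
    obtain ⟨a', rfl⟩ := (e t').surjective z'
    simp only [Homeomorph.symm_apply_apply]
    rw [he, he]
    have k1 := key t a a'
    have k2 : ‖ψ a' • (w t - w t')‖ ≤ ‖w t - w t'‖ := by
      rw [norm_smul, Real.norm_eq_abs]
      exact mul_le_of_le_one_left (norm_nonneg _) (h1 a')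
    have k3 : a - a' = (a + ψ a • w t - (a' + ψ a' • w t')) - (ψ a • w t - ψ a' • w t) -
        ψ a' • (w t - w t') := by
      rw [smul_sub]; abel
    have k4 := norm_sub_le ((a + ψ a • w t - (a' + ψ a' • w t')) - (ψ a • w t - ψ a' • w t))
      (ψ a' • (w t - w t'))
    have k5 := norm_sub_le (a + ψ a • w t - (a' + ψ a' • w t')) (ψ a • w t - ψ a' • w t)
    rw [← k3] at k4
    linarith
  refine ⟨⟨⟨fun p => (e p.2 p.1, p.2), fun p => ((e p.2).symm p.1, p.2), fun p => by simp,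
    fun p => by simp⟩, ?_, ?_⟩, fun z t => rfl⟩
  · show Continuous fun p : E3 => (p.1 + ψ p.1 • w p.2, p.2)
    fun_prop
  · refine Continuous.prodMk ?_ continuous_snd
    refine continuous_iff_continuousAt.2 fun q => tendsto_iff_norm_sub_tendsto_zero.2 ?_
    refine squeeze_zero (fun _ => norm_nonneg _) (fun p => est p q) ?_
    have : Continuous fun p : E3 => 2 * ‖p.1 - q.1‖ + 2 * ‖w p.2 - w q.2‖ := by fun_prop
    simpa using this.tendsto q

/-- one point moves inside a convex set -/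
theorem drag (R P : Set ℂ) (hR : Convex ℝ R) (cR : IsCompact R) (hP : P.Finite)
    (hd : ∀ z ∈ P, z ∉ R) (p : ℂ) (hp : p ∈ R) (w : ℝ → ℂ) (hw : Continuous w)
    (hm : ∀ t, p + w t ∈ R) :
    ∃ h : E3 ≃ₜ E3, (∀ t, h (p, t) = (p + w t, t)) ∧
      ∀ z t, w t = 0 ∨ z ∈ P → h (z, t) = (z, t) := by
  obtain ⟨r, r0, hr⟩ : ∃ r : ℝ, 0 < r ∧ ∀ z ∈ P, r ≤ Metric.infDist z R := by
    have : ∀ᶠ r in 𝓝[>] (0 : ℝ), ∀ z ∈ P, r ≤ Metric.infDist z R := by
      refine (eventually_all_finite hP).2 fun z hz => ?_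
      have := (cR.isClosed.notMem_iff_infDist_pos ⟨p, hp⟩).1 (hd z hz)
      exact mem_nhdsWithin_of_mem_nhds (Iic_mem_nhds this)
    obtain ⟨r, h1, h2⟩ := (this.and self_mem_nhdsWithin).exists
    exact ⟨r, h2, h1⟩
  obtain ⟨M, hM⟩ : ∃ M : ℝ, ∀ t, ‖w t‖ ≤ M := by
    obtain ⟨C, hC⟩ := Metric.isBounded_iff.1 cR.isBounded
    exact ⟨C, fun t => by simpa [dist_eq_norm] using hC (hm t) hp⟩
  obtain ⟨N, hN⟩ := exists_nat_gt (max 0 (2 * M / r))
  have N0 : (0 : ℝ) < N := (le_max_left _ _).trans_lt hN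
  have N1 : 2 * M / r < N := (le_max_right _ _).trans_lt hN
  let ψ : ℂ → ℝ := fun z => max (1 - Metric.infDist z R / r) 0
  obtain ⟨h, hh⟩ := step ψ r⁻¹ (fun z z' => by
      refine (abs_max_sub_max_le_abs _ _ _).trans ?_
      have := (Metric.lipschitz_infDist_pt R).dist_le_mul z' z
      rw [Real.dist_eq, dist_comm, dist_eq_norm, NNReal.coe_one, one_mul] at this
      have e : 1 - Metric.infDist z R / r - (1 - Metric.infDist z' R / r) =
          r⁻¹ * (Metric.infDist z' R - Metric.infDist z R) := by ring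
      rw [e, abs_mul, abs_of_pos (inv_pos.2 r0)]
      gcongr)
    (fun z => by
      rw [abs_of_nonneg (le_max_right _ _)]
      exact max_le (sub_le_self _ (div_nonneg Metric.infDist_nonneg r0.le)) zero_le_one)
    (fun t => (N : ℝ)⁻¹ • w t) (by fun_prop) (fun t => by
      rw [norm_smul, Real.norm_eq_abs, abs_of_pos (inv_pos.2 N0)]
      rw [div_lt_iff₀ r0] at N1
      have := hM t
      rw [← mul_assoc, ← mul_inv, inv_mul_le_iff₀ (mul_pos r0 N0)]
      linarith)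
  have it : ∀ k : ℕ, k ≤ N → ∃ g : E3 ≃ₜ E3, (∀ t, g (p, t) = (p + (k / N : ℝ) • w t, t)) ∧
      ∀ z t, w t = 0 ∨ z ∈ P → g (z, t) = (z, t) := by
    intro k
    induction k with
    | zero => exact fun _ => ⟨Homeomorph.refl _, fun t => by simp, fun _ _ _ => rfl⟩
    | succ k ih =>
      intro hk
      obtain ⟨g, g1, g2⟩ := ih (by omega)
      refine ⟨g.trans h, fun t => ?_, fun z t hz => ?_⟩
      · have hk' : (k : ℝ) ≤ N := by exact_mod_cast (by omega : k ≤ N)
        have m : p + (k / N : ℝ) • w t ∈ R :=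
          hR.add_smul_mem hp (hm t) ⟨by positivity, (div_le_one N0).2 hk'⟩
        rw [Homeomorph.trans_apply, g1, hh]
        have e : ψ (p + (k / N : ℝ) • w t) = 1 := by
          simp only [ψ, Metric.infDist_zero_of_mem m]
          simp
        rw [e, one_smul, add_assoc, ← add_smul]
        congr 3
        push_cast
        field_simp
      · rw [Homeomorph.trans_apply, g2 z t hz, hh]
        rcases hz with hz | hz
        · simp [hz]
        · have e : ψ z = 0 := max_eq_right (sub_nonpos.2 ((one_le_div r0).2 (hr z hz)))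
          simp [e]
  obtain ⟨g, g1, g2⟩ := it N le_rfl
  exact ⟨g, fun t => by rw [g1, div_self N0.ne', one_smul], g2⟩

/-- a vertical stretch -/
theorem vert (c : ℂ → ℝ) (hc : Continuous c) (c0 : ∀ z, 0 < c z) :
    ∃ h : E3 ≃ₜ E3, ∀ z t, h (z, t) = (z, min t (1 / 4) + c z * max (t - 1 / 4) 0) := by
  have key : ∀ a b t : ℝ, 0 < a → b * a = 1 →
      min (min t (1 / 4) + a * max (t - 1 / 4) 0) (1 / 4) +
        b * max (min t (1 / 4) + a * max (t - 1 / 4) 0 - 1 / 4) 0 = t := fun a b t ha e => by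
    rcases le_total t (1 / 4) with h | h
    · rw [min_eq_left h, max_eq_right (sub_nonpos.2 h), mul_zero, add_zero, min_eq_left h,
        max_eq_right (sub_nonpos.2 h), mul_zero, add_zero]
    · have k : 0 ≤ a * (t - 1 / 4) := mul_nonneg ha.le (sub_nonneg.2 h)
      rw [min_eq_right h, max_eq_left (sub_nonneg.2 h), min_eq_right (by linarith),
        add_sub_cancel_left, max_eq_left k, ← mul_assoc, e]
      ring
  have hc' : Continuous fun z => (c z)⁻¹ := hc.inv₀ fun z => (c0 z).ne'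
  refine ⟨⟨⟨fun p => (p.1, min p.2 (1 / 4) + c p.1 * max (p.2 - 1 / 4) 0),
    fun p => (p.1, min p.2 (1 / 4) + (c p.1)⁻¹ * max (p.2 - 1 / 4) 0), fun p => ?_,
    fun p => ?_⟩, by fun_prop, continuous_fst.prodMk ((continuous_snd.min continuous_const).add
      ((hc'.comp continuous_fst).mul (by fun_prop)))⟩, fun z t => rfl⟩
  · exact Prod.ext rfl (key _ _ _ (c0 _) (inv_mul_cancel₀ (c0 _).ne'))
  · exact Prod.ext rfl (key _ _ _ (inv_pos.2 (c0 _)) (mul_inv_cancel₀ (c0 _).ne'))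

/-- the finger over `S` is pulled down, the point `p` moves, the finger is pushed back -/
theorem move (R P S F : Set ℂ) (hR : Convex ℝ R) (cR : IsCompact R) (hP : P.Finite)
    (hd : ∀ z ∈ P, z ∉ R) (p : ℂ) (hp : p ∈ R) (w : ℝ → ℂ) (hw : Continuous w)
    (hm : ∀ t, p + w t ∈ R) (hS : IsClosed S) (hF : IsClosed F) (hSF : Disjoint S F)
    (w0 : ∀ t, t ≤ 1 / 2 → w t = 0) (pF : p ∈ F) (wF : ∀ t, p + w t ∈ F) :
    ∃ h : E3 ≃ₜ E3, (∀ t, h (p, t) = (p + w t, t)) ∧
      ∀ z t, t ≤ 1 / 2 ∨ (z ∈ S ∧ t ≤ 2) ∨ (z ∈ F ∧ (w t = 0 ∨ z ∈ P)) → h (z, t) = (z, t) := by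
  obtain ⟨H, H1, H2⟩ := drag R P hR cR hP hd p hp w hw hm
  obtain ⟨f, f0, f1, hf⟩ := exists_continuous_zero_one_of_isClosed hS hF hSF
  obtain ⟨V, hV⟩ := vert (fun z => 1 / 8 + 7 / 8 * f z) (by fun_prop) fun z => by
    linarith [(hf z).1]
  have VF : ∀ z ∈ F, ∀ t, V (z, t) = (z, t) := fun z hz t => by
    rw [hV, f1 hz, Pi.one_apply]
    congr 1
    rcases le_total t (1 / 4) with h | h
    · rw [min_eq_left h, max_eq_right (sub_nonpos.2 h)]; ring
    · rw [min_eq_right h, max_eq_left (sub_nonneg.2 h)]; ring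
  have low : ∀ z t, (V (z, t)).2 ≤ 1 / 2 → ((V.trans H).trans V.symm) (z, t) = (z, t) := by
    intro z t h
    rw [Homeomorph.trans_apply, Homeomorph.trans_apply, Homeomorph.symm_apply_eq]
    exact H2 _ _ (Or.inl (w0 _ h))
  refine ⟨(V.trans H).trans V.symm, fun t => ?_, fun z t h => ?_⟩
  · rw [Homeomorph.trans_apply, Homeomorph.trans_apply, Homeomorph.symm_apply_eq, VF p pF, H1,
      VF _ (wF t)]
  · rcases h with h | ⟨h, h'⟩ | ⟨h, h'⟩
    · refine low z t ?_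
      rw [hV]
      have k1 := min_le_right t (1 / 4)
      have k2 : max (t - 1 / 4) 0 ≤ 1 / 4 := max_le (by linarith) (by norm_num)
      have k3 := le_max_right (t - 1 / 4) 0
      have k4 := (hf z).2
      show min t (1 / 4) + (1 / 8 + 7 / 8 * f z) * max (t - 1 / 4) 0 ≤ 1 / 2
      nlinarith
    · refine low z t ?_
      rw [hV, f0 h, Pi.zero_apply]
      have k1 := min_le_right t (1 / 4)
      have k2 : max (t - 1 / 4) 0 ≤ 7 / 4 := max_le (by linarith) (by norm_num)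
      show min t (1 / 4) + (1 / 8 + 7 / 8 * 0) * max (t - 1 / 4) 0 ≤ 1 / 2
      linarith
    · rw [Homeomorph.trans_apply, Homeomorph.trans_apply, Homeomorph.symm_apply_eq, VF z h,
        H2 z t h']

/-- a homeomorphism that carries strands to strands and fixes the caps -/
theorem eqv_plat {ι : Type} (μb μt : ι → ℕ) {x y : X ι} (γ γ' : Path x y) (h : E3 ≃ₜ E3)
    (h1 : ∀ i (t : unitInterval), h ((γ t).1 i, (t : ℝ)) = ((γ' t).1 i, (t : ℝ)))
    (h2 : ∀ z t, t ≤ 0 → h (z, t) = (z, t))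
    (h3 : ∀ i j, μt i = μt j → ∀ z ∈ segment ℝ (y.1 i) (y.1 j), ∀ t ∈ Icc (1 : ℝ) 2,
      h (z, t) = (z, t)) : Eqv (plat μb μt γ) (plat μb μt γ') := by
  have h4 : ∀ i j, μt i = μt j → ∀ s ∈ Icc (0 : ℝ) 1,
      h (y.1 i + (s / 2 : ℝ) * (y.1 j - y.1 i), 1 + s) =
        (y.1 i + (s / 2 : ℝ) * (y.1 j - y.1 i), 1 + s) := fun i j e s hs => by
    refine h3 i j e _ ?_ _ ⟨by linarith [hs.1], by linarith [hs.2]⟩
    rw [segment_eq_image']
    exact ⟨s / 2, ⟨by linarith [hs.1], by linarith [hs.2]⟩, rfl⟩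
  refine ⟨h, Subset.antisymm ?_ ?_⟩
  · rintro _ ⟨p, (⟨i, t, rfl⟩ | ⟨i, j, n, e, s, hs, rfl⟩ | ⟨i, j, n, e, s, hs, rfl⟩), rfl⟩
    · exact Or.inl ⟨i, t, h1 i t⟩
    · exact Or.inr (Or.inl ⟨i, j, n, e, s, hs, h2 _ _ (neg_nonpos.2 hs.1)⟩)
    · exact Or.inr (Or.inr ⟨i, j, n, e, s, hs, h4 i j e s hs⟩)
  · rintro _ (⟨i, t, rfl⟩ | ⟨i, j, n, e, s, hs, rfl⟩ | ⟨i, j, n, e, s, hs, rfl⟩)
    · exact ⟨_, Or.inl ⟨i, t, rfl⟩, h1 i t⟩
    · exact ⟨_, Or.inr (Or.inl ⟨i, j, n, e, s, hs, rfl⟩), h2 _ _ (neg_nonpos.2 hs.1)⟩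
    · exact ⟨_, Or.inr (Or.inr ⟨i, j, n, e, s, hs, rfl⟩), h4 i j e s hs⟩

end F0

theorem rowF0 (h1 : RowC1) (h3 : RowC3) : RowF0 := by
  intro ι _ μb μt tb tt x y γ δ a b b' R sx sy e n ea hR cR hfix hin hout honly
  obtain ⟨ca, -, cc⟩ := h3 ι μb μt tb tt
  let S := segment ℝ (y.1 b) (y.1 b')
  let F := (⋃ i, ⋃ j, ⋃ _ : μt i = μt j ∧ μt i ≠ μt b, segment ℝ (y.1 i) (y.1 j)) ∪
    range fun t => (δ t).1 a
  have cδ : Continuous fun t => (δ t).1 a :=
    (continuous_apply a).comp (continuous_subtype_val.comp δ.continuous)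
  have cseg : ∀ u v : ℂ, IsClosed (segment ℝ u v) := fun u v => by
    rw [segment_eq_image']
    exact (isCompact_Icc.image (by fun_prop)).isClosed
  have hF : IsClosed F :=
    (isClosed_iUnion_of_finite fun i => isClosed_iUnion_of_finite fun j =>
      isClosed_iUnion_of_finite fun _ => cseg _ _).union (isCompact_range cδ).isClosed
  have hSF : Disjoint S F := by
    refine disjoint_union_right.2 ⟨disjoint_iUnion_right.2 fun i => disjoint_iUnion_right.2
      fun j => disjoint_iUnion_right.2 fun h => sy b b' i j e h.1 h.2.symm, ?_⟩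
    refine disjoint_right.2 ?_
    rintro _ ⟨t, rfl⟩
    exact hout t
  have inF : ∀ i j, μt i = μt j → μt i ≠ μt b → ∀ z ∈ segment ℝ (y.1 i) (y.1 j), z ∈ F :=
    fun i j h h' z hz => Or.inl (mem_iUnion.2 ⟨i, mem_iUnion.2 ⟨j, mem_iUnion.2 ⟨⟨h, h'⟩, hz⟩⟩⟩)
  have inS : ∀ i, μt i = μt b → y.1 i ∈ S := fun i h => by
    obtain ⟨j, -, -, hj⟩ := tt b
    rcases hj i h with rfl | rfl
    · exact left_mem_segment _ _ _
    · rcases hj b' e.symm with h' | rfl
      · exact absurd h'.symm n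
      · exact right_mem_segment _ _ _
  have hδ : ∀ t : ℝ, ∃ s, δ.extend t = δ s := fun t => ⟨_, rfl⟩
  have hp : ∀ t : ℝ, y.1 a + ((δ.extend (2 * t - 1)).1 a - y.1 a) = (δ.extend (2 * t - 1)).1 a :=
    fun t => add_sub_cancel _ _
  obtain ⟨h, k1, k2⟩ := F0.move R (y.1 '' {i | i ≠ a ∧ μt i ≠ μt b}) S F hR cR
    ((toFinite _).image _) (by
      rintro _ ⟨i, ⟨i1, i2⟩, rfl⟩ hi
      rcases honly i hi with h | rfl | rfl
      · exact i1 h
      · exact i2 rfl
      · exact i2 e.symm) (y.1 a) (by simpa using hin 0)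
    (fun t => (δ.extend (2 * t - 1)).1 a - y.1 a)
    (((continuous_apply a).comp (continuous_subtype_val.comp
      (δ.continuous_extend.comp (by fun_prop)))).sub continuous_const)
    (fun t => by
      obtain ⟨s, hs⟩ := hδ (2 * t - 1)
      rw [hp, hs]
      exact hin s) (cseg _ _) hF hSF
    (fun t ht => by rw [δ.extend_of_le_zero (by linarith), sub_self])
    (inF a a rfl ea _ (left_mem_segment _ _ _))
    (fun t => by
      obtain ⟨s, hs⟩ := hδ (2 * t - 1)
      rw [hp, hs]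
      exact Or.inr ⟨s, rfl⟩)
  have main : Eqv (plat μb μt ((γ.trans (Path.refl y)).trans (Path.refl y)))
      (plat μb μt ((γ.trans (Path.refl y)).trans δ)) := by
    refine F0.eqv_plat μb μt _ _ h (fun i t => ?_) (fun z t ht => k2 z t (Or.inl (by linarith)))
      fun i j eij z hz t ht => ?_
    · rw [← ((γ.trans (Path.refl y)).trans (Path.refl y)).extend_extends' t,
        ← ((γ.trans (Path.refl y)).trans δ).extend_extends' t]
      rcases le_total (t : ℝ) (1 / 2) with ht | ht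
      · rw [Path.extend_trans_of_le_half _ _ ht, Path.extend_trans_of_le_half _ _ ht]
        exact k2 _ _ (Or.inl ht)
      · rw [Path.extend_trans_of_half_le _ _ ht, Path.extend_trans_of_half_le _ _ ht]
        have r : (Path.refl y).extend (2 * (t : ℝ) - 1) = y := rfl
        rw [r]
        by_cases ia : i = a
        · rw [ia, k1, hp]
        · obtain ⟨s, hs⟩ := hδ (2 * t - 1)
          rw [hs, hfix s i ia]
          by_cases ib : μt i = μt b
          · exact k2 _ _ (Or.inr (Or.inl ⟨inS i ib, by linarith [t.2.2]⟩))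
          · exact k2 _ _ (Or.inr (Or.inr ⟨inF i i rfl ib _ (left_mem_segment _ _ _),
              Or.inr ⟨i, ⟨ia, ib⟩, rfl⟩⟩))
    · by_cases ib : μt i = μt b
      · exact k2 _ _ (Or.inr (Or.inl ⟨(convex_segment _ _).segment_subset (inS i ib)
          (inS j (eij.symm.trans ib)) hz, ht.2⟩))
      · refine k2 _ _ (Or.inr (Or.inr ⟨inF i j eij ib z hz, Or.inl ?_⟩))
        rw [δ.extend_of_one_le (by linarith [ht.1]), sub_self]
  have r1 : (γ.trans (Path.refl y)).Homotopic γ := ⟨Path.Homotopy.transRefl _⟩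
  exact (ca x y _ _ sx sy (r1.hcomp (Path.Homotopic.refl δ))).symm.trans (main.symm.trans
    (ca x y _ _ sx sy (Path.Homotopic.trans ⟨Path.Homotopy.transRefl _⟩ r1)))

end Vale.Agent.Q258U
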