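import Vale.Agent.Q258U.Core

/-!
# A cap is turned, two caps are exchanged
-/

set_option linter.all false

namespace Vale.Agent.Q258U

open Vale.Agent.P258.Braid Vale.Agent.N258B Vale.Agent.Q258D Set Complex

namespace F1

/-- a word whose path keeps the caps disjoint does not change the knot -/
theorem key (h2 : RowC2) (h3 : RowC3) {b : ℕ} {u v : Word} (hu : Rng (2 * b) u) (hne : u ≠ [])
    (hv : Rng (2 * b) v) {l l' : Fin (2 * b) ↪ ℕ} (hl : l = fin (idE (2 * b)) u)
    (σ : Path (cfg l) (cfg l')) (hσ : IsW l l' v σ) (hs : ∀ t, SC (fun i => l i / 2) (σ t))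
    (hk : ∀ a a', l' a / 2 = l' a' / 2 ↔ l a / 2 = l a' / 2) :
    Eqv (knot b (u ++ v)) (knot b u) := by
  obtain ⟨α, hα⟩ := IsW.exists' hl
  have b0 := bij_idE (2 * b)
  have b1 : Bij (2 * b) l := hl ▸ Bij.fin hu b0
  have e1 := h2 _ b _ _ _ _ b0 (rng_append.2 ⟨hu, hv⟩) (by simp [hne]) (hα.append hσ)
  have e2 := h2 _ b _ _ _ _ b0 hu hne hα
  have e3 := (h3 _ _ _ b0.two b1.two).2.2 _ _ _ α σ (SC.cfg _) hs
  rw [plat_congr (fun _ _ => Iff.rfl) hk] at e1
  exact e1.symm.trans (e3.trans e2)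

theorem sc_lp {ι : Type} (l : ι ↪ ℕ) {q : ℕ} (e : Bool) (hq : q % 2 = 0) (t : unitInterval) :
    SC (fun i => l i / 2) (lp l (q, e) t) := by
  refine SC.of_re (fun m => 2 * m) (fun m => 2 * m + 1) (fun i => ?_) fun m n h => ?_
  · have t0 := t.2.1
    have t1 := t.2.2
    rw [lp_apply]
    unfold mv
    split_ifs with c1 c2
    · have : ((l i / 2 : ℕ) : ℝ) * 2 = l i := by exact_mod_cast (by simp only at c1; omega)
      constructor <;> simp only <;> linarith
    · have : ((l i / 2 : ℕ) : ℝ) * 2 + 1 = l i := by exact_mod_cast (by simp only at c2; omega)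
      constructor <;> simp only <;> linarith
    · rw [natCast_re]
      constructor
      · exact_mod_cast (by omega : 2 * (l i / 2) ≤ l i)
      · exact_mod_cast (by omega : l i ≤ 2 * (l i / 2) + 1)
  · exact_mod_cast (by omega : 2 * m + 1 < 2 * n)

/-- the horizontal displacement of the pair `m` -/
def sh (k m : ℕ) (t : ℝ) : ℝ := if m = k then 2 * t else if m = k + 1 then -(2 * t) else 0

/-- the vertical displacement of the pair `m` -/
def ht (k : ℕ) (e : Bool) (m : ℕ) (t : ℝ) : ℝ := if m = k then sg e * (t * (1 - t)) else 0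

/-- the motion of the point `p` -/
def mo (k : ℕ) (e : Bool) (p : ℕ) (t : ℝ) : ℂ := ⟨p + sh k (p / 2) t, ht k e (p / 2) t⟩

theorem cont_mo (k : ℕ) (e : Bool) (p : ℕ) : Continuous (mo k e p) := by
  have h : ∀ a b : ℝ → ℝ, Continuous a → Continuous b →
      Continuous fun s => (⟨a s, b s⟩ : ℂ) := fun a b ha hb =>
    equivRealProdCLM.symm.continuous.comp (ha.prodMk hb)
  refine h _ _ ?_ ?_
  · unfold sh; split_ifs <;> fun_prop
  · unfold ht; split_ifs <;> fun_prop

/-- the intervals of two pairs meet only for the two moving pairs, at an inner time -/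
theorem meet {k m n : ℕ} {t x : ℝ} (t0 : 0 ≤ t) (t1 : t ≤ 1) (h : m ≠ n)
    (h1 : 2 * m + sh k m t ≤ x) (h2 : x ≤ 2 * m + 1 + sh k m t)
    (h3 : 2 * n + sh k n t ≤ x) (h4 : x ≤ 2 * n + 1 + sh k n t) :
    (m = k ∨ n = k) ∧ 0 < t * (1 - t) := by
  have c : ∀ a b : ℕ, (a : ℝ) < b + 1 → a ≤ b := fun a b h => by
    have : a < b + 1 := by exact_mod_cast h
    omega
  unfold sh at h1 h2 h3 h4
  split_ifs at h1 h2 h3 h4 with c1 c2 c3 c4 c5 c6 c7 c8
  · omega
  · subst c1 c3
    push_cast at h3 h4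
    exact ⟨Or.inl rfl, mul_pos (by linarith) (by linarith)⟩
  · subst c1
    have a1 := c m n (by linarith)
    have a2 := c n (m + 1) (by push_cast; linarith)
    omega
  · subst c5 c4
    push_cast at h1 h2
    exact ⟨Or.inr rfl, mul_pos (by linarith) (by linarith)⟩
  · omega
  · subst c4
    push_cast at h1 h2
    have a1 := c k n (by linarith)
    have a2 := c n (k + 1) (by push_cast; linarith)
    omega
  · subst c7
    have a1 := c n m (by linarith)
    have a2 := c m (n + 1) (by push_cast; linarith)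
    omega
  · subst c8
    push_cast at h3 h4
    have a1 := c k m (by linarith)
    have a2 := c m (k + 1) (by push_cast; linarith)
    omega
  · have a1 := c n m (by linarith)
    have a2 := c m n (by linarith)
    omega

theorem re_mo (k : ℕ) (e : Bool) (p : ℕ) (t : ℝ) :
    2 * ((p / 2 : ℕ) : ℝ) + sh k (p / 2) t ≤ (mo k e p t).re ∧
      (mo k e p t).re ≤ 2 * ((p / 2 : ℕ) : ℝ) + 1 + sh k (p / 2) t := by
  have a1 : 2 * ((p / 2 : ℕ) : ℝ) ≤ p := by exact_mod_cast (by omega : 2 * (p / 2) ≤ p)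
  have a2 : (p : ℝ) ≤ 2 * ((p / 2 : ℕ) : ℝ) + 1 := by
    exact_mod_cast (by omega : p ≤ 2 * (p / 2) + 1)
  constructor <;> simp only [mo] <;> linarith

theorem sg_cases (e : Bool) : sg e = 1 ∨ sg e = -1 := by cases e <;> simp [sg]

/-- points with the same real part -/
theorem same_re {k : ℕ} {e : Bool} {p p' : ℕ} {t : ℝ} (t0 : 0 ≤ t) (t1 : t ≤ 1) (h : p ≠ p')
    (hr : (mo k e p t).re = (mo k e p' t).re) :
    p / 2 ≠ p' / 2 ∧ (p / 2 = k ∨ p' / 2 = k) ∧ 0 < t * (1 - t) := by
  have h0 : p / 2 ≠ p' / 2 := fun h0 => by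
    simp only [mo, h0, add_left_inj, Nat.cast_inj] at hr
    exact h hr
  have a := re_mo k e p t
  have a' := re_mo k e p' t
  rw [← hr] at a'
  exact ⟨h0, meet t0 t1 h0 a.1 a.2 a'.1 a'.2⟩

theorem ht_ne {k : ℕ} (e : Bool) {m n : ℕ} {t : ℝ} (h : m ≠ n) (h1 : m = k ∨ n = k)
    (h2 : 0 < t * (1 - t)) : ht k e m t ≠ ht k e n t := by
  unfold ht
  rcases sg_cases e with s | s <;> rw [s] <;> split_ifs <;> first | omega | (intro _; linarith)

variable {ι : Type}

/-- the configuration at the time `t` -/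
def cf (k : ℕ) (e : Bool) (l : ι ↪ ℕ) (t : unitInterval) : X ι :=
  ⟨fun i => mo k e (l i) t, fun i j h => by
    by_contra hij
    have a := same_re t.2.1 t.2.2 (fun h' => hij (l.injective h')) (congrArg Complex.re h)
    exact ht_ne e a.1 a.2.1 a.2.2 (congrArg Complex.im h)⟩

/-- the word of the exchange -/
def wd (k : ℕ) (e : Bool) : Word := [(2 * k + 1, e), (2 * k + 2, e), (2 * k, e), (2 * k + 1, e)]

theorem fin_wd (k : ℕ) (e : Bool) (l : ι ↪ ℕ) (i : ι) : fin l (wd k e) i =
    if l i / 2 = k then l i + 2 else if l i / 2 = k + 1 then l i - 2 else l i := by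
  rw [fin_apply]
  simp only [wd, List.foldl_cons, List.foldl_nil, sw]
  generalize l i = p
  split_ifs <;> omega

/-- the path of the exchange -/
def ex (k : ℕ) (e : Bool) (l : ι ↪ ℕ) : Path (cfg l) (cfg (fin l (wd k e))) where
  toFun := cf k e l
  continuous_toFun :=
    (continuous_pi fun i => (cont_mo k e (l i)).comp continuous_subtype_val).subtype_mk _
  source' := Subtype.ext (funext fun i => by
    apply Complex.ext <;> simp [cf, mo, sh, ht, cfg])
  target' := Subtype.ext (funext fun i => by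
    rw [cfg_apply, fin_wd]
    apply Complex.ext
    · simp only [cf, mo, sh, Set.Icc.coe_one, natCast_re]
      split_ifs with c1 c2
      · push_cast; ring
      · rw [Nat.cast_sub (by omega)]; push_cast; ring
      · ring
    · rw [natCast_im]
      simp [cf, mo, ht])

theorem sc_ex (k : ℕ) (e : Bool) (l : ι ↪ ℕ) (t : unitInterval) :
    SC (fun i => l i / 2) (cf k e l t) := by
  have key : ∀ i j, l i / 2 = l j / 2 → ∀ z ∈ segment ℝ (mo k e (l i) t) (mo k e (l j) t),
      (2 * ((l i / 2 : ℕ) : ℝ) + sh k (l i / 2) t ≤ z.re ∧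
        z.re ≤ 2 * ((l i / 2 : ℕ) : ℝ) + 1 + sh k (l i / 2) t) ∧ z.im = ht k e (l i / 2) t := by
    rintro i j h _ ⟨s, r, hs, hr, hsr, rfl⟩
    have h1 := re_mo k e (l i) t
    have h2 := re_mo k e (l j) t
    rw [← h] at h2
    have h3 : (mo k e (l i) t).im = ht k e (l i / 2) t := rfl
    have h4 : (mo k e (l j) t).im = ht k e (l i / 2) t := by rw [h]; rfl
    simp only [add_re, add_im, real_smul, mul_re, mul_im, ofReal_re, ofReal_im, zero_mul, sub_zero,
      add_zero, h3, h4]
    obtain rfl : r = 1 - s := by linarith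
    refine ⟨⟨?_, ?_⟩, by ring⟩
    · nlinarith [mul_nonneg hs (sub_nonneg.2 h1.1), mul_nonneg hr (sub_nonneg.2 h2.1)]
    · nlinarith [mul_nonneg hs (sub_nonneg.2 h1.2), mul_nonneg hr (sub_nonneg.2 h2.2)]
  intro i j i' j' h1 h2 h3
  refine disjoint_left.2 fun z hz hz' => ?_
  have k1 := key i j h1 z hz
  have k2 := key i' j' h2 z hz'
  have a := meet t.2.1 t.2.2 h3 k1.1.1 k1.1.2 k2.1.1 k2.1.2
  exact ht_ne e h3 a.1 a.2 (k1.2.symm.trans k2.2)

/-- the layers -/
def lay (k : ℕ) (e : Bool) (l : ι ↪ ℕ) (i : ι) : ℝ := if l i / 2 = k then sg e else 0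

theorem lay_ex (k : ℕ) (e : Bool) (l : ι ↪ ℕ) (t : unitInterval) :
    cf k e l t ∈ Lay (lay k e l) := by
  intro i j hij hr
  obtain ⟨a1, a2, a3⟩ := same_re t.2.1 t.2.2 (fun h' => hij (l.injective h')) hr
  show _ ∧ (_ → ht k e (l i / 2) t < ht k e (l j / 2) t)
  unfold lay ht
  rcases sg_cases e with s | s <;> rw [s] <;> split_ifs <;>
    first | omega | exact ⟨by norm_num, fun _ => by linarith⟩

theorem sw_eq {x : ℕ × Bool} {p q : ℕ} (h : sw x p = q) : p = sw x q := by rw [← h, sw_sw]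

theorem resp_wd (k : ℕ) (e : Bool) (l : ι ↪ ℕ) : Resp (lay k e l) l (wd k e) := by
  have key : ∀ i j, l i / 2 = k → l j / 2 ≠ k →
      if e then lay k e l j < lay k e l i else lay k e l i < lay k e l j := by
    intro i j h1 h2
    simp only [lay, h1, h2, if_true, if_false]
    cases e <;> simp [sg]
  refine ⟨fun i j h1 h2 => ?_, fun i j h1 h2 => ?_, fun i j h1 h2 => ?_, fun i j h1 h2 => ?_,
    trivial⟩
  · exact key i j (by simp only at h1; omega) (by simp only at h2; omega)
  · have h3 := sw_eq h1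
    have h4 := sw_eq h2
    simp only [sw] at h3 h4
    exact key i j (by split_ifs at h3 <;> omega) (by split_ifs at h4 <;> omega)
  · have h3 := sw_eq (sw_eq h1)
    have h4 := sw_eq (sw_eq h2)
    simp only [sw] at h3 h4
    exact key i j (by split_ifs at h3 <;> omega) (by split_ifs at h4 <;> omega)
  · have h3 := sw_eq (sw_eq (sw_eq h1))
    have h4 := sw_eq (sw_eq (sw_eq h2))
    simp only [sw] at h3 h4
    exact key i j (by split_ifs at h3 <;> omega) (by split_ifs at h4 <;> omega)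

end F1

open F1 in
theorem rowF1 (hW : RowW) (h2 : RowC2) (h3 : RowC3) : RowF1 := by
  intro b u q e hu hne hq
  refine ⟨fun h => ?_, fun h => ?_⟩
  · refine key h2 h3 hu hne (rng_cons.2 ⟨h, Rng.nil _⟩) rfl _ (IsW.single _ (q, e))
      (sc_lp _ e hq) fun a a' => ?_
    simp only [swE_apply, sw]
    split_ifs <;> omega
  · obtain ⟨k, rfl⟩ : ∃ k, q = 2 * k := ⟨q / 2, by omega⟩
    refine key (v := wd k e) h2 h3 hu hne ?_ rfl (ex k e _)
      ((hW _ (lay k e _)).2 _ _ _ (resp_wd k e _) rfl _ (lay_ex k e _)) (sc_ex k e _)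
      fun a a' => ?_
    · simp only [wd, rng_cons]
      exact ⟨by omega, by omega, by omega, by omega, Rng.nil _⟩
    · rw [fin_wd, fin_wd]
      split_ifs <;> omega

end Vale.Agent.Q258U
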