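import Vale.Agent.Q258U.Core
import Mathlib.Tactic.Linarith

/-!
# A strand turns around a cap
-/

namespace Vale.Agent.Q258U

open Vale.Agent.P258.Braid Vale.Agent.N258B Set Complex

namespace F2

variable {ι : Type}

theorem inj_of {la : ι → ℝ} {z : ι → ℂ}
    (h : ∀ i j, i ≠ j → (z i).re = (z j).re → la i ≠ la j ∧ (la i < la j → (z i).im < (z j).im)) :
    Function.Injective z := fun i j e => by
  by_contra n
  have h1 := h i j n (by rw [e])
  have h2 := h j i (Ne.symm n) (by rw [e])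
  rcases h1.1.lt_or_gt with k | k
  · exact (h1.2 k).ne (by rw [e])
  · exact (h2.2 k).ne (by rw [e])

theorem all_trans {Y : Type} [TopologicalSpace Y] {x y z : Y} {γ : Path x y} {δ : Path y z}
    {S : Y → Prop} (h : ∀ t, S (γ t)) (h' : ∀ t, S (δ t)) (t : unitInterval) :
    S (γ.trans δ t) := by
  rw [Path.trans_apply]
  split_ifs
  exacts [h _, h' _]

/-- the point `q + 1` jumps over the next two points -/
noncomputable def ar (q : ℕ) (s t : ℝ) (n : ℕ) : ℂ :=
  if n = q + 1 then ⟨q + 1 + 5 / 2 * t, s * (t * (1 - t))⟩ else n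

/-- the layers -/
def la (l : ι ↪ ℕ) (q : ℕ) (s : ℝ) (i : ι) : ℝ := if l i = q + 1 then s else 0

theorem half (q n : ℕ) : (q : ℝ) + 1 + 5 / 2 ≠ n := fun h => by
  have : (2 * q + 7 : ℕ) = 2 * n := by
    have : (2 * q + 7 : ℝ) = 2 * n := by linarith
    exact_mod_cast this
  omega

theorem pos_of {q n : ℕ} {t : ℝ} (ht : t ∈ Icc (0 : ℝ) 1) (hn : n ≠ q + 1)
    (e : (q : ℝ) + 1 + 5 / 2 * t = n) : 0 < t * (1 - t) := by
  refine mul_pos (lt_of_le_of_ne ht.1 ?_) (sub_pos.2 (lt_of_le_of_ne ht.2 ?_))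
  · rintro rfl
    exact hn (by exact_mod_cast (by linarith : (n : ℝ) = q + 1))
  · rintro rfl
    exact half q n (by linarith)

theorem ar_lay (l : ι ↪ ℕ) (q : ℕ) {s t : ℝ} (hs : s ≠ 0) (ht : t ∈ Icc (0 : ℝ) 1) (i j : ι)
    (n : i ≠ j) (e : (ar q s t (l i)).re = (ar q s t (l j)).re) :
    la l q s i ≠ la l q s j ∧
      (la l q s i < la l q s j → (ar q s t (l i)).im < (ar q s t (l j)).im) := by
  unfold ar at e ⊢
  unfold la
  split_ifs at e ⊢ with h1 h2 h2
  · exact absurd (l.injective (h1.trans h2.symm)) n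
  · exact ⟨hs, fun k => by simpa using mul_neg_of_neg_of_pos k (pos_of ht h2 e)⟩
  · exact ⟨hs.symm, fun k => by simpa using mul_pos k (pos_of ht h1 e.symm)⟩
  · exact absurd (l.injective (by exact_mod_cast e)) n

/-- after the jump -/
noncomputable def yy (l : ι ↪ ℕ) (q : ℕ) : X ι :=
  ⟨fun i => ar q 1 1 (l i), inj_of (ar_lay l q one_ne_zero ⟨zero_le_one, le_rfl⟩)⟩

theorem cont_mk {a b : ℝ → ℝ} (ha : Continuous a) (hb : Continuous b) :
    Continuous fun s => (⟨a s, b s⟩ : ℂ) :=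
  equivRealProdCLM.symm.continuous.comp (ha.prodMk hb)

/-- the jump -/
noncomputable def arc (l : ι ↪ ℕ) (q : ℕ) {s : ℝ} (hs : s ≠ 0) : Path (cfg l) (yy l q) where
  toFun t := ⟨fun i => ar q s t (l i), inj_of (ar_lay l q hs t.2)⟩
  continuous_toFun := by
    refine (continuous_pi fun i => ?_).subtype_mk _
    unfold ar
    split_ifs
    · exact (cont_mk (a := fun t => q + 1 + 5 / 2 * t) (b := fun t => s * (t * (1 - t)))
        (by fun_prop) (by fun_prop)).comp continuous_subtype_val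
    · exact continuous_const
  source' := Subtype.ext (funext fun i => by
    show ar q s ((0 : unitInterval) : ℝ) (l i) = (l i : ℂ)
    unfold ar
    split_ifs with h
    · apply Complex.ext <;> simp [h]
    · rfl)
  target' := Subtype.ext (funext fun i => by
    show ar q s ((1 : unitInterval) : ℝ) (l i) = ar q 1 1 (l i)
    unfold ar
    split_ifs with h
    · apply Complex.ext <;> simp
    · rfl)

theorem arc_lay (l : ι ↪ ℕ) (q : ℕ) {s : ℝ} (hs : s ≠ 0) (t : unitInterval) :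
    arc l q hs t ∈ Lay (la l q s) := ar_lay l q hs t.2

theorem st_ne {x y : X ι} (h : ∀ i j, i ≠ j → ((x.1 i).re < (x.1 j).re ∧ (y.1 i).re < (y.1 j).re) ∨
      ((x.1 j).re < (x.1 i).re ∧ (y.1 j).re < (y.1 i).re)) {t : ℝ} (ht : t ∈ Icc (0 : ℝ) 1)
    (i j : ι) (n : i ≠ j) :
    ((1 - t) • x.1 i + t • y.1 i).re ≠ ((1 - t) • x.1 j + t • y.1 j).re := by
  have key : ∀ a b c d : ℝ, a < b → c < d → (1 - t) * a + t * c < (1 - t) * b + t * d := by
    intro a b c d h1 h2
    rcases ht.1.eq_or_lt with rfl | h0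
    · simpa using h1
    · nlinarith [mul_pos h0 (sub_pos.2 h2), mul_nonneg (sub_nonneg.2 ht.2) (sub_pos.2 h1).le]
  simp only [add_re, smul_re, smul_eq_mul]
  rcases h i j n with ⟨h1, h2⟩ | ⟨h1, h2⟩
  exacts [(key _ _ _ _ h1 h2).ne, (key _ _ _ _ h1 h2).ne']

/-- a straight path that keeps the order of the real parts -/
theorem exists_st {x y : X ι}
    (h : ∀ i j, i ≠ j → ((x.1 i).re < (x.1 j).re ∧ (y.1 i).re < (y.1 j).re) ∨
      ((x.1 j).re < (x.1 i).re ∧ (y.1 j).re < (y.1 i).re)) :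
    ∃ τ : Path x y, ∀ (f : ι → ℝ) t, τ t ∈ Lay f :=
  ⟨{ toFun := fun t => ⟨fun i => (1 - (t : ℝ)) • x.1 i + (t : ℝ) • y.1 i, fun i j e => by
        by_contra n
        exact st_ne h t.2 i j n (congrArg re e)⟩
     continuous_toFun := (continuous_pi fun i => by fun_prop).subtype_mk _
     source' := Subtype.ext (funext fun i => by simp)
     target' := Subtype.ext (funext fun i => by simp) },
    fun _ t i j n e => absurd e (st_ne h t.2 i j n)⟩

theorem ord (q : ℕ) (e : Bool) {m n : ℕ} (h : sw (q + 2, e) (sw (q + 1, e) m) <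
    sw (q + 2, e) (sw (q + 1, e) n)) : (ar q 1 1 m).re < (ar q 1 1 n).re := by
  unfold ar
  split_ifs with h1 h2 h2
  · rw [h1, h2] at h
    exact absurd h (lt_irrefl _)
  · have : q + 4 ≤ n := by
      simp only [sw] at h
      split_ifs at h <;> omega
    have : (q : ℝ) + 4 ≤ n := by exact_mod_cast this
    simp only [natCast_re]
    linarith
  · have : m ≤ q + 3 := by
      simp only [sw] at h
      split_ifs at h <;> omega
    have : (m : ℝ) ≤ q + 3 := by exact_mod_cast this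
    simp only [natCast_re]
    linarith
  · have : m < n := by
      simp only [sw] at h
      split_ifs at h <;> omega
    simpa using this

theorem sg_ne (e : Bool) : sg e ≠ 0 := by
  unfold sg
  split_ifs <;> norm_num

theorem resp1 (l : ι ↪ ℕ) (q : ℕ) (e : Bool) :
    Resp (la l q (sg e)) l [(q + 1, e), (q + 2, e)] := by
  refine ⟨fun i j hi hj => ?_, fun i j hi hj => ?_, trivial⟩
  · have h1 : l i = q + 1 := hi
    have h2 : l j ≠ q + 1 := by simp only at hj; omega
    cases e <;> simp [la, h1, h2, sg]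
  · simp only [swE_apply, sw] at hi hj
    have h1 : l i = q + 1 := by split_ifs at hi <;> omega
    have h2 : l j ≠ q + 1 := by split_ifs at hj <;> omega
    cases e <;> simp [la, h1, h2, sg]

theorem resp2 (l : ι ↪ ℕ) (q : ℕ) (e : Bool) :
    Resp (la l q (-sg e)) (fin l [(q + 1, e), (q + 2, e)]) [(q + 2, e), (q + 1, e)] := by
  refine ⟨fun i j hi hj => ?_, fun i j hi hj => ?_, trivial⟩
  · simp only [fin_apply, List.foldl, sw] at hi hj
    have h1 : l i ≠ q + 1 := by split_ifs at hi <;> omega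
    have h2 : l j = q + 1 := by split_ifs at hj <;> omega
    cases e <;> simp [la, h1, h2, sg]
  · simp only [swE_apply, fin_apply, List.foldl, sw] at hi hj
    have h1 : l i ≠ q + 1 := by split_ifs at hi <;> omega
    have h2 : l j = q + 1 := by split_ifs at hj <;> omega
    cases e <;> simp [la, h1, h2, sg]

theorem loop_isW (hW : RowW) [Finite ι] (l : ι ↪ ℕ) (q : ℕ) (e : Bool) :
    IsW l l [(q + 1, e), (q + 2, e), (q + 2, e), (q + 1, e)]
      ((arc l q (sg_ne e)).trans (arc l q (neg_ne_zero.2 (sg_ne e))).symm) := by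
  obtain ⟨τ, hτ⟩ := exists_st (x := yy l q) (y := cfg (fin l [(q + 1, e), (q + 2, e)]))
    fun i j n => by
      have := (fin l [(q + 1, e), (q + 2, e)]).injective.ne n
      rcases this.lt_or_gt with k | k
      · exact Or.inl ⟨ord q e k, by simpa [cfg_apply] using k⟩
      · exact Or.inr ⟨ord q e k, by simpa [cfg_apply] using k⟩
  have h1 := (hW ι _).2 l _ _ (resp1 l q e) rfl ((arc l q (sg_ne e)).trans τ)
    (all_trans (S := (· ∈ Lay _)) (arc_lay l q _) (hτ _))
  have h2 := (hW ι _).2 _ l _ (resp2 l q e) (by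
      ext i
      simp only [fin_apply, List.foldl, sw_sw])
    (τ.symm.trans (arc l q (neg_ne_zero.2 (sg_ne e))).symm)
    (all_trans (S := (· ∈ Lay _)) (fun _ => hτ _ _)
      fun _ => arc_lay l q (neg_ne_zero.2 (sg_ne e)) _)
  refine (h1.append h2).homotopic (Path.Homotopic.Quotient.exact ?_)
  simp only [Path.Homotopic.Quotient.mk_trans, Path.Homotopic.Quotient.mk_symm]
  rw [Path.Homotopic.Quotient.trans_assoc, ← Path.Homotopic.Quotient.trans_assoc (.mk τ),
    Path.Homotopic.Quotient.trans_symm, Path.Homotopic.Quotient.refl_trans]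

theorem ar_mem (q : ℕ) {s t : ℝ} (hs : s = 1 ∨ s = -1) (ht : t ∈ Icc (0 : ℝ) 1) :
    ar q s t (q + 1) ∈ Icc (q + 1 : ℝ) (q + 7 / 2) ×ℂ Icc (-1 : ℝ) 1 := by
  have h0 := ht.1
  have h1 := ht.2
  have h2 := mul_nonneg h0 (sub_nonneg.2 h1)
  have h3 : t * (1 - t) ≤ 1 := by nlinarith
  rw [ar, if_pos rfl]
  refine ⟨⟨?_, ?_⟩, ?_, ?_⟩
  · show _ ≤ (q : ℝ) + 1 + 5 / 2 * t
    linarith
  · show (q : ℝ) + 1 + 5 / 2 * t ≤ _
    linarith
  · show _ ≤ s * (t * (1 - t))
    rcases hs with rfl | rfl <;> linarith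
  · show s * (t * (1 - t)) ≤ _
    rcases hs with rfl | rfl <;> linarith

theorem ar_not (q : ℕ) {s t : ℝ} (hs : s ≠ 0) :
    ar q s t (q + 1) ∉ segment ℝ ((q + 2 : ℕ) : ℂ) ((q + 3 : ℕ) : ℂ) := by
  rintro ⟨a, b, ha, hb, hab, e⟩
  rw [ar, if_pos rfl] at e
  have h1 := congrArg re e
  have h2 := congrArg im e
  simp only [add_re, add_im, smul_re, smul_im, natCast_re, natCast_im, smul_eq_mul, mul_zero,
    add_zero] at h1 h2
  push_cast at h1
  have h3 : (a + b) * q = q := by rw [hab, one_mul]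
  rcases mul_eq_zero.1 ((mul_eq_zero.1 h2.symm).resolve_left hs) with h | h
  · nlinarith
  · nlinarith

end F2

open F2 in
theorem rowF2 (hW : RowW) (h2 : RowC2) (h0 : RowF0) : RowF2 := fun b u q e hu hne hq hb => by
  have B0 := bij_idE (2 * b)
  obtain ⟨l, hl⟩ : ∃ l, l = fin (idE (2 * b)) u := ⟨_, rfl⟩
  have B : Bij (2 * b) l := hl ▸ B0.fin hu
  obtain ⟨γ, hγ⟩ := IsW.exists' hl
  obtain ⟨a, ha⟩ := (B (q + 1)).1 (by omega)
  obtain ⟨c, hc⟩ := (B (q + 2)).1 (by omega)
  obtain ⟨c', hc'⟩ := (B (q + 3)).1 hb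
  have s1 : sg e = 1 ∨ sg e = -1 := by cases e <;> simp [sg]
  have s2 : -sg e = 1 ∨ -sg e = -1 := by cases e <;> simp [sg]
  refine (h2 _ b _ l _ _ B0 (rng_append.2 ⟨hu, ?_⟩) (by simp [hne])
    (hγ.append (loop_isW hW l q e))).symm.trans (Eqv.trans ?_ (h2 _ b _ l _ γ B0 hu hne hγ))
  · intro x hx
    simp only [List.mem_cons, List.not_mem_nil, or_false] at hx
    rcases hx with rfl | rfl | rfl | rfl <;> simp only <;> omega
  have fx : ∀ (s t : ℝ) i, i ≠ a → ar q s t (l i) = l i := fun s t i n =>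
    if_neg fun k => n (l.injective (k.trans ha.symm))
  refine h0 _ _ _ B0.two B.two _ _ γ _ a c c' (Icc (q + 1 : ℝ) (q + 7 / 2) ×ℂ Icc (-1 : ℝ) 1)
    (SC.cfg _) (SC.cfg _) (by omega) (fun k => by subst k; omega)
    (by omega)
    (((convex_Icc _ _).linear_preimage reLm).inter ((convex_Icc _ _).linear_preimage imLm))
    (isCompact_Icc.reProdIm isCompact_Icc) ?_ ?_ ?_ fun i hi => ?_
  · exact all_trans (S := fun y : X _ => ∀ i, i ≠ a → y.1 i = (cfg l).1 i) (fun t => fx _ _)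
      fun t => fx _ _
  · refine all_trans (S := fun y : X _ => y.1 a ∈ _) (fun t => ?_) fun t => ?_
    · show ar q _ _ (l a) ∈ _
      rw [ha]
      exact ar_mem q s1 t.2
    · show ar q _ _ (l a) ∈ _
      rw [ha]
      exact ar_mem q s2 (unitInterval.symm t).2
  · rw [cfg_apply, cfg_apply, hc, hc']
    refine all_trans (S := fun y : X _ => y.1 a ∉ _) (fun t => ?_) fun t => ?_
    · show ar q _ _ (l a) ∉ _
      rw [ha]
      exact ar_not q (sg_ne e)
    · show ar q _ _ (l a) ∉ _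
      rw [ha]
      exact ar_not q (neg_ne_zero.2 (sg_ne e))
  · have k1 : (q + 1 : ℝ) ≤ l i := hi.1.1
    have k2 : (l i : ℝ) ≤ q + 7 / 2 := hi.1.2
    have k3 : q + 1 ≤ l i := by exact_mod_cast k1
    have k4 : l i < q + 4 := by exact_mod_cast (by linarith : (l i : ℝ) < q + 4)
    rcases (by omega : l i = q + 1 ∨ l i = q + 2 ∨ l i = q + 3) with k | k | k
    · exact Or.inl (l.injective (k.trans ha.symm))
    · exact Or.inr (Or.inl (l.injective (k.trans hc.symm)))
    · exact Or.inr (Or.inr (l.injective (k.trans hc'.symm)))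

end Vale.Agent.Q258U
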