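import Vale.Agent.Q258U.Core
import Mathlib.Topology.Subpath
import Mathlib.Data.Fin.Tuple.Sort
import Mathlib.GroupTheory.Perm.Sign
import Mathlib.AlgebraicTopology.FundamentalGroupoid.Basic

/-!
# Every path of configurations is the path of a word
-/

set_option linter.all false

namespace Vale.Agent.Q258U

open Vale.Agent.P258.Braid Vale.Agent.N258B Vale.Agent.Q258D Set Complex Filter Topology

namespace G

variable {ι : Type}

/-- induction on paths -/
theorem path_ind {Y : Type} [TopologicalSpace Y] (Q : ∀ x y : Y, Path x y → Prop)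
    (hh : ∀ x y (γ γ' : Path x y), γ'.Homotopic γ → Q x y γ → Q x y γ')
    (ht : ∀ x y z (γ : Path x y) (δ : Path y z), Q x y γ → Q y z δ → Q x z (γ.trans δ))
    (hl : ∀ p : Y, ∃ U ∈ 𝓝 p, ∀ x y (γ : Path x y), (∀ t, γ t ∈ U) → Q x y γ)
    (x y : Y) (γ : Path x y) : Q x y γ := by
  have key := PreconnectedSpace.induction₂' (fun s t : unitInterval => Q _ _ (γ.subpath s t))
    (fun s => by
      obtain ⟨U, hU, h⟩ := hl (γ s)
      obtain ⟨ε, hε, hb⟩ := Metric.mem_nhds_iff.1 (γ.continuous.continuousAt hU)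
      filter_upwards [Metric.ball_mem_nhds s hε] with t ht
      have hm : ∀ u ∈ uIcc s t, γ u ∈ U := fun u hu =>
        hb (lt_of_le_of_lt (by
          rw [dist_comm u s, dist_comm t s]
          exact Real.dist_left_le_of_mem_uIcc hu) (Metric.mem_ball.1 ht))
      constructor
      · refine h _ _ _ fun r => ?_
        have : γ.subpath s t r ∈ range (γ.subpath s t) := mem_range_self r
        rw [Path.range_subpath] at this
        obtain ⟨u, hu, e⟩ := this
        exact e ▸ hm u hu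
      · refine h _ _ _ fun r => ?_
        have : γ.subpath t s r ∈ range (γ.subpath t s) := mem_range_self r
        rw [Path.range_subpath, uIcc_comm] at this
        obtain ⟨u, hu, e⟩ := this
        exact e ▸ hm u hu)
    ⟨fun s t u h1 h2 => hh _ _ _ _ ⟨(Path.Homotopy.subpathTransSubpath γ s t u).symm⟩
      (ht _ _ _ _ _ h1 h2)⟩ 0 1
  have gen : ∀ x' y' (e1 : x' = x) (e2 : y' = y), Q x' y' (γ.cast e1 e2) → Q x y γ := by
    intro x' y' e1 e2 h
    subst e1 e2
    exact h
  rw [Path.subpath_zero_one] at key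
  exact gen _ _ _ _ key

/-- the numbering as an equivalence -/
noncomputable def eqv {n : ℕ} {l : ι ↪ ℕ} (h : Bij n l) : ι ≃ Fin n :=
  Equiv.ofBijective (fun i => ⟨l i, h.lt i⟩)
    ⟨fun _ _ e => l.injective (congrArg Fin.val e), fun q => by
      obtain ⟨i, hi⟩ := (h q).1 q.2
      exact ⟨i, Fin.ext hi⟩⟩

theorem eqv_val {n : ℕ} {l : ι ↪ ℕ} (h : Bij n l) (i : ι) : (eqv h i : ℕ) = l i := rfl

/-- every permutation is the permutation of a word -/
theorem perm_word (m : ℕ) (σ : Equiv.Perm (Fin (m + 1))) :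
    ∃ w, Rng (m + 1) w ∧ ∀ q : Fin (m + 1), w.foldl (fun q x => sw x q) q = σ q := by
  have hσ : σ ∈ Submonoid.closure
      (Set.range fun i : Fin m => Equiv.swap i.castSucc i.succ) := by
    rw [Equiv.Perm.mclosure_swap_castSucc_succ]; trivial
  induction hσ using Submonoid.closure_induction with
  | mem x hx =>
    obtain ⟨i, rfl⟩ := hx
    refine ⟨[(i, true)], rng_cons.2 ⟨by have := i.2; simp only; omega, Rng.nil _⟩, fun q => ?_⟩
    simp only [List.foldl_cons, List.foldl_nil, sw, Equiv.swap_apply_def]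
    split_ifs with h1 h2 h3 h4 h5 h6 h7 h8 <;>
      simp only [Fin.ext_iff, Fin.val_castSucc, Fin.val_succ] at * <;> omega
  | one => exact ⟨[], Rng.nil _, fun q => rfl⟩
  | mul a b _ _ ha hb =>
    obtain ⟨u, hu, eu⟩ := ha
    obtain ⟨v, hv, ev⟩ := hb
    refine ⟨v ++ u, rng_append.2 ⟨hv, hu⟩, fun q => ?_⟩
    rw [List.foldl_append, ev, eu]; rfl

theorem exists_word {n : ℕ} {l l' : ι ↪ ℕ} (h : Bij n l) (h' : Bij n l') :
    ∃ w, Rng n w ∧ l' = fin l w := by
  cases n with
  | zero => exact ⟨[], Rng.nil _, by ext i; exact absurd (h.lt i) (by omega)⟩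
  | succ m =>
    obtain ⟨w, hw, e⟩ := perm_word m ((eqv h).symm.trans (eqv h'))
    refine ⟨w, hw, ?_⟩
    ext i
    rw [fin_apply, ← eqv_val h, e]
    simp [eqv_val]

/-- the signs of the letters can be chosen according to the layers -/
theorem resign {n : ℕ} {la : ι → ℝ} (hla : Function.Injective la) (w : Word) :
    ∀ l : ι ↪ ℕ, Rng n w → ∃ w', Rng n w' ∧ fin l w' = fin l w ∧ Resp la l w' := by
  classical
  induction w with
  | nil => exact fun l h => ⟨[], h, rfl, trivial⟩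
  | cons x w ih =>
    intro l h
    obtain ⟨w', h1, h2, h3⟩ := ih (swE x l) (rng_cons.1 h).2
    refine ⟨(x.1, decide (∃ i j, l i = x.1 ∧ l j = x.1 + 1 ∧ la j < la i)) :: w',
      rng_cons.2 ⟨(rng_cons.1 h).1, h1⟩, h2, fun i j hi hj => ?_, h3⟩
    simp only at hi hj ⊢
    split_ifs with c
    · obtain ⟨i', j', hi', hj', c⟩ := of_decide_eq_true c
      rwa [l.injective (hi'.trans hi.symm), l.injective (hj'.trans hj.symm)] at c
    · have c' : ¬ la j < la i := fun c' => c (decide_eq_true ⟨i, j, hi, hj, c'⟩)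
      refine lt_of_le_of_ne (not_lt.1 c') fun e => ?_
      rw [hla e] at hi
      omega

/-- a numbering that is compatible with a given real function -/
theorem exists_rank {n : ℕ} {l : ι ↪ ℕ} (h : Bij n l) (f : ι → ℝ) :
    ∃ l0 : ι ↪ ℕ, Bij n l0 ∧ ∀ i j, l0 i < l0 j → f i ≤ f j := by
  let e := (eqv h).trans (Tuple.sort (f ∘ (eqv h).symm)).symm
  refine ⟨⟨fun i => e i, fun i j hij => e.injective (Fin.ext hij)⟩, fun q => ⟨fun hq => ?_, ?_⟩,
    fun i j hij => ?_⟩
  · exact ⟨e.symm ⟨q, hq⟩, congrArg Fin.val (e.apply_symm_apply ⟨q, hq⟩)⟩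
  · rintro ⟨i, rfl⟩
    exact (e i).2
  · have := Tuple.monotone_sort (f ∘ (eqv h).symm) (show e i ≤ e j from le_of_lt hij)
    simpa [e] using this

theorem lay_of_re {la : ι → ℝ} {y : X ι} (h : ∀ i j, i ≠ j → (y.1 i).re ≠ (y.1 j).re) :
    y ∈ Lay la := fun i j hij e => absurd e (h i j hij)

theorem cfg_lay (la : ι → ℝ) (l : ι ↪ ℕ) : cfg l ∈ Lay la := lay_of_re fun i j hij e => by
  rw [cfg_apply, cfg_apply, natCast_re, natCast_re] at e
  exact hij (l.injective (by exact_mod_cast e))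

/-- the straight path to a standard configuration -/
theorem exists_tail {n : ℕ} {l : ι ↪ ℕ} (h : Bij n l) (y : X ι) :
    ∃ l0 : ι ↪ ℕ, Bij n l0 ∧ ∃ ρ : Path y (cfg l0), ∀ la, y ∈ Lay la → ∀ t, ρ t ∈ Lay la := by
  obtain ⟨l0, h0, hm⟩ := exists_rank h fun i => (y.1 i).re
  let z : unitInterval → ι → ℂ := fun t i => ((1 - (t : ℝ) : ℝ) : ℂ) * y.1 i + ((t : ℝ) : ℂ) * (l0 i : ℕ)
  have z0 : z 0 = y.1 := by funext i; simp [z]
  have zre : ∀ t : unitInterval, t ≠ 0 → ∀ i j, l0 i < l0 j → (z t i).re < (z t j).re := by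
    intro t ht i j hij
    have t0 : 0 < (t : ℝ) := lt_of_le_of_ne t.2.1 fun e => ht (Subtype.ext e.symm)
    have t1 : 0 ≤ 1 - (t : ℝ) := sub_nonneg.2 t.2.2
    have h1 := mul_le_mul_of_nonneg_left (hm i j hij) t1
    have h2 : (t : ℝ) * l0 i < t * l0 j := mul_lt_mul_of_pos_left (by exact_mod_cast hij) t0
    simp only [z, add_re, re_ofReal_mul, natCast_re]
    linarith
  have zne : ∀ t : unitInterval, t ≠ 0 → ∀ i j, i ≠ j → (z t i).re ≠ (z t j).re := by
    intro t ht i j hij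
    rcases lt_or_gt_of_ne (fun e => hij (l0.injective e)) with c | c
    · exact (zre t ht i j c).ne
    · exact (zre t ht j i c).ne'
  have zi : ∀ t, Function.Injective (z t) := by
    intro t
    by_cases ht : t = 0
    · rw [ht, z0]; exact y.2
    · exact fun i j e => by_contra fun hij => zne t ht i j hij (congrArg re e)
  refine ⟨l0, h0, ⟨⟨fun t => ⟨z t, zi t⟩, Continuous.subtype_mk (continuous_pi fun i => ?_) _⟩,
    Subtype.ext z0, Subtype.ext (funext fun i => by simp [z, cfg_apply])⟩, fun la hy t => ?_⟩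
  · simp only [z]; fun_prop
  · by_cases ht : t = 0
    · have : (⟨z t, zi t⟩ : X ι) = y := Subtype.ext (by rw [ht]; exact z0)
      show (⟨z t, zi t⟩ : X ι) ∈ Lay la
      rwa [this]
    · exact lay_of_re (zne t ht)

theorem isOpen_lay [Finite ι] (la : ι → ℝ) : IsOpen (Lay la : Set (X ι)) := by
  have e : (Lay la : Set (X ι)) = ⋂ i, ⋂ j, ({_y | i = j} ∪ {y | (y.1 i).re ≠ (y.1 j).re} ∪
      ({_y | la i ≠ la j} ∩ ({_y | ¬ la i < la j} ∪ {y | (y.1 i).im < (y.1 j).im}))) := by
    ext y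
    simp only [Lay, mem_setOf_eq, mem_iInter, mem_union, mem_inter_iff]
    refine forall_congr' fun i => forall_congr' fun j => ?_
    tauto
  have c : ∀ i, Continuous fun y : X ι => y.1 i := fun i =>
    (continuous_apply i).comp continuous_subtype_val
  rw [e]
  refine isOpen_iInter_of_finite fun i => isOpen_iInter_of_finite fun j =>
    (isOpen_const.union (isOpen_ne_fun ?_ ?_)).union
      (isOpen_const.inter (isOpen_const.union (isOpen_lt ?_ ?_)))
  exacts [continuous_re.comp (c i), continuous_re.comp (c j), continuous_im.comp (c i),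
    continuous_im.comp (c j)]

theorem exists_lay {n : ℕ} {l : ι ↪ ℕ} (h : Bij n l) (y : X ι) :
    ∃ la : ι → ℝ, Function.Injective la ∧ y ∈ Lay la := by
  obtain ⟨l1, -, hm⟩ := exists_rank h fun i => (y.1 i).im
  have hi : Function.Injective fun i => (l1 i : ℝ) := fun i j e =>
    l1.injective (Nat.cast_injective (R := ℝ) e)
  refine ⟨_, hi, fun i j hij e => ⟨fun c => hij (hi c), fun c => ?_⟩⟩
  exact lt_of_le_of_ne (hm i j (by exact_mod_cast c)) fun e' => hij (y.2 (Complex.ext e e'))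

theorem mem_trans {Y : Type} [TopologicalSpace Y] {x y z : Y} {U : Set Y} {γ : Path x y}
    {δ : Path y z} (h : ∀ t, γ t ∈ U) (h' : ∀ t, δ t ∈ U) (t : unitInterval) :
    γ.trans δ t ∈ U := by
  rw [Path.trans_apply]
  split_ifs
  exacts [h _, h' _]

/-- layered paths are paths of words -/
theorem lay_word (hW : RowW) [Finite ι] {n : ℕ} {la : ι → ℝ} (hla : Function.Injective la)
    {l l' : ι ↪ ℕ} (h : Bij n l) (h' : Bij n l') (γ : Path (cfg l) (cfg l'))
    (hγ : ∀ t, γ t ∈ Lay la) : ∃ w, Rng n w ∧ IsW l l' w γ := by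
  obtain ⟨w, hw, e⟩ := exists_word h h'
  obtain ⟨w', h1, h2, h3⟩ := resign hla w l hw
  exact ⟨w', h1, (hW ι la).2 l l' w' h3 (e.trans h2.symm) γ hγ⟩

end G

open G Path.Homotopic.Quotient in
theorem rowG (hW : RowW) : RowG := by
  intro ι _ n l l' h h' γ
  choose L hL ρ hρ using exists_tail h
  have key : ∀ (x y : X ι) (γ : Path x y),
      ∃ w, Rng n w ∧ IsW (L x) (L y) w ((ρ x).symm.trans (γ.trans (ρ y))) := by
    refine path_ind _ (fun x y γ γ' e ⟨w, h1, h2⟩ => ⟨w, h1, h2.homotopic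
      ((Path.Homotopic.refl _).hcomp (e.hcomp (Path.Homotopic.refl _)))⟩)
      (fun x y z γ δ ⟨u, hu, h1⟩ ⟨v, hv, h2⟩ => ⟨u ++ v, rng_append.2 ⟨hu, hv⟩,
        (h1.append h2).homotopic ?_⟩) fun p => ?_
    · rw [← Path.Homotopic.Quotient.eq]
      simp only [mk_trans, mk_symm, trans_assoc]
      rw [← trans_assoc (Path.Homotopic.Quotient.mk (ρ y)), trans_symm, refl_trans]
    · obtain ⟨la, hla, hp⟩ := exists_lay h p
      refine ⟨Lay la, (isOpen_lay la).mem_nhds hp, fun x y γ hγ => ?_⟩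
      have hx : x ∈ Lay la := γ.source ▸ hγ 0
      have hy : y ∈ Lay la := γ.target ▸ hγ 1
      exact lay_word hW hla (hL x) (hL y) _
        (mem_trans (fun t => hρ x la hx _) (mem_trans hγ (hρ y la hy)))
  obtain ⟨la, hla, -⟩ := exists_lay h (cfg l)
  obtain ⟨u, hu, h1⟩ := lay_word hW hla h (hL _) (ρ (cfg l)) (hρ _ la (cfg_lay la l))
  obtain ⟨v, hv, h2⟩ := key _ _ γ
  obtain ⟨w, hw, h3⟩ := lay_word hW hla (hL _) h' (ρ (cfg l')).symm
    fun t => hρ _ la (cfg_lay la l') _
  refine ⟨u ++ (v ++ w), rng_append.2 ⟨hu, rng_append.2 ⟨hv, hw⟩⟩,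
    (h1.append (h2.append h3)).homotopic ?_⟩
  rw [← Path.Homotopic.Quotient.eq]
  simp only [mk_trans, mk_symm, trans_assoc, trans_symm,
    trans_refl]
  rw [← trans_assoc, trans_symm, refl_trans]

end Vale.Agent.Q258U
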