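import Vale.Agent.Q258U.Core

/-!
# Generic polygons are dense

The movable vertices are moved along the moment curve; every bad condition is a nonzero
polynomial in the parameter.
-/

set_option linter.all false

namespace Vale.Agent.Q258U.Gen

open Vale.Agent.P258.Braid Vale.Agent.N258B Vale.Agent.Q258D Set Complex Filter Topology

/-- labels of the vertices: zero for the fixed ones, distinct for the movable ones -/
def lab (N : ℕ) (j : Fin 4) (i : ℕ) : ℕ := if 2 ≤ i ∧ i + 2 ≤ N then 4 * i + j.val else 0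

/-- the direction of the motion -/
def dir (k : ℕ) : E3 := (⟨k, k ^ 2⟩, k)

/-- the moved polygon -/
noncomputable def pert (P : FP) (τ : ℝ) : FP :=
  ⟨P.N, fun j i => P.a j i + τ • dir (lab P.N j i), P.v⟩

theorem dir_zero : dir 0 = 0 := by
  ext <;> simp [dir, Complex.ext_iff]

theorem lin {b : ℝ} (c : ℝ) (h : b ≠ 0) : ∀ᶠ τ in 𝓝[≠] (0 : ℝ), b * τ + c ≠ 0 := by
  by_cases hc : c = 0
  · filter_upwards [self_mem_nhdsWithin] with τ hτ
    rw [hc, add_zero]
    exact mul_ne_zero h hτ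
  · have : ContinuousAt (fun τ : ℝ => b * τ + c) 0 := by fun_prop
    exact (this.eventually_ne (by simpa using hc)).filter_mono nhdsWithin_le_nhds

theorem quad {a : ℝ} (b c : ℝ) (h : a ≠ 0) :
    ∀ᶠ τ in 𝓝[≠] (0 : ℝ), a * τ ^ 2 + b * τ + c ≠ 0 := by
  by_cases hc : c = 0
  · filter_upwards [self_mem_nhdsWithin, lin b h] with τ hτ h'
    rw [hc, add_zero, show a * τ ^ 2 + b * τ = (a * τ + b) * τ by ring]
    exact mul_ne_zero h' hτ
  · have : ContinuousAt (fun τ : ℝ => a * τ ^ 2 + b * τ + c) 0 := by fun_prop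
    exact (this.eventually_ne (by simpa using hc)).filter_mono nhdsWithin_le_nhds

/-- three points with distinct labels are not collinear -/
theorem three (p q r : E3) {k l m : ℕ} (h1 : k ≠ l) (h2 : l ≠ m) (h3 : k ≠ m) :
    ∀ᶠ τ in 𝓝[≠] (0 : ℝ), det ((q + τ • dir l) - (p + τ • dir k)).1
      ((r + τ • dir m) - (q + τ • dir l)).1 ≠ 0 := by
  have hne : ((l : ℝ) - k) * (m - l) * (m - k) ≠ 0 :=
    mul_ne_zero (mul_ne_zero (sub_ne_zero.2 (by exact_mod_cast h1.symm))
      (sub_ne_zero.2 (by exact_mod_cast h2.symm))) (sub_ne_zero.2 (by exact_mod_cast h3.symm))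
  filter_upwards [quad (det (dir l - dir k).1 (r - q).1 + det (q - p).1 (dir m - dir l).1)
    (det (q - p).1 (r - q).1) hne] with τ h e
  apply h
  rw [← e]
  simp [det, dir]
  ring

theorem lab_fix {N : ℕ} (j : Fin 4) {i : ℕ} (h : i < 2 ∨ N < i + 2) : lab N j i = 0 :=
  if_neg (by omega)

theorem pert_fix (P : FP) (τ : ℝ) (j : Fin 4) {i : ℕ} (h : i < 2 ∨ P.N < i + 2) :
    (pert P τ).a j i = P.a j i := by
  simp [pert, lab_fix j h, dir_zero]

theorem lab_ne {N : ℕ} {j j' : Fin 4} {i i' : ℕ} (h : (2 ≤ i ∧ i + 2 ≤ N) ∨ (2 ≤ i' ∧ i' + 2 ≤ N))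
    (h' : j ≠ j' ∨ i ≠ i') : lab N j i ≠ lab N j' i' := by
  have := j.2
  have := j'.2
  have : j.val ≠ j'.val ∨ i ≠ i' := h'.imp_left fun h e => h (Fin.ext e)
  unfold lab
  split_ifs <;> omega

theorem tend (P : FP) (j : Fin 4) (i : ℕ) :
    Tendsto (fun τ => (pert P τ).a j i) (𝓝[≠] 0) (𝓝 (P.a j i)) := by
  have : ContinuousAt (fun τ : ℝ => P.a j i + τ • dir (lab P.N j i)) 0 := by fun_prop
  simpa [pert] using this.tendsto.mono_left nhdsWithin_le_nhds

theorem ev_close (P : FP) {ρ : ℝ} (hρ : 0 < ρ) : ∀ᶠ τ in 𝓝[≠] (0 : ℝ), Close ρ P (pert P τ) := by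
  have : ∀ᶠ τ in 𝓝[≠] (0 : ℝ), ∀ j, ∀ i ∈ Iic P.N, ‖(pert P τ).a j i - P.a j i‖ ≤ ρ := by
    refine eventually_all.2 fun j => (eventually_all_finite (finite_Iic _)).2 fun i _ => ?_
    exact ((tendsto_iff_norm_sub_tendsto_zero.1 (tend P j i)).eventually
      (ge_mem_nhds hρ))
  filter_upwards [this] with τ h
  exact ⟨rfl, fun j => ⟨h j, fun i _ μ _ => by simp [pert, hρ.le]⟩⟩

theorem ev_std {P : FP} (h : Std P) : ∀ᶠ τ in 𝓝[≠] (0 : ℝ), Std (pert P τ) := by
  have N4 := h.N4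
  have k1 : ∀ j i c, c < (P.a j i).2 → ∀ᶠ τ in 𝓝[≠] (0 : ℝ), c < ((pert P τ).a j i).2 :=
    fun j i c hc => ((continuous_snd.tendsto _).comp (tend P j i)).eventually (lt_mem_nhds hc)
  have k2 : ∀ j i, 2 < (P.a j i).1.im → ∀ᶠ τ in 𝓝[≠] (0 : ℝ), 2 < ((pert P τ).a j i).1.im :=
    fun j i hc => (((continuous_im.comp continuous_fst).tendsto _).comp (tend P j i)).eventually
      (lt_mem_nhds hc)
  filter_upwards [eventually_all.2 fun j => k1 j _ _ (h.s2h j),
    eventually_all.2 fun j => k2 j _ (h.s2i j), eventually_all.2 fun j => k1 j _ _ (h.e2h j),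
    eventually_all.2 fun j => k2 j _ (h.e2i j)] with τ h1 h2 h3 h4
  have f0 := fun j => pert_fix P τ j (i := 0) (by omega)
  have f1 := fun j => pert_fix P τ j (i := 1) (by omega)
  have f2 := fun j => pert_fix P τ j (i := P.N - 1) (by omega)
  have f3 := fun j => pert_fix P τ j (i := P.N) (by omega)
  exact ⟨N4, fun j => (f0 j).trans (h.s0 j), fun j => f1 j ▸ h.s1 j, fun j => f1 j ▸ h.s1h j,
    fun j => f1 j ▸ h1 j, h2, fun j => (f3 j).trans (h.e0 j), fun j => f2 j ▸ h.e1 j,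
    fun j => f2 j ▸ h.e1h j, fun j => f2 j ▸ h3 j, h4, h.vs, h.ve, h.glue, h.lip⟩

theorem ev_nh {P : FP} (h : Std P) : ∀ᶠ τ in 𝓝[≠] (0 : ℝ), NH (pert P τ) := by
  have N4 := h.N4
  refine eventually_all.2 fun j => (eventually_all_finite (finite_lt_nat P.N)).2 fun i hi => ?_
  have hi' : i < P.N := hi
  by_cases h0 : i = 0
  · refine Eventually.of_forall fun τ => ?_
    subst h0
    rw [FP.ed, pert_fix P τ j (by omega), pert_fix P τ j (by omega), h.s0]
    exact sub_ne_zero.2 (h.s1h j).ne'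
  by_cases h1 : i + 1 = P.N
  · refine Eventually.of_forall fun τ => ?_
    rw [FP.ed, pert_fix P τ j (by omega), pert_fix P τ j (by omega), h1, h.e0,
      show i = P.N - 1 by omega]
    exact sub_ne_zero.2 (h.e1h j).ne
  have hne : ((lab P.N j (i + 1) : ℝ) - lab P.N j i) ≠ 0 :=
    sub_ne_zero.2 (by exact_mod_cast lab_ne (by omega) (Or.inr (by omega)))
  filter_upwards [lin (P.ed j i).2 hne] with τ hτ e
  apply hτ
  rw [← e]
  simp [FP.ed, pert, dir]
  ring

theorem pS_ne (j : Fin 4) : pS j ≠ pE j := by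
  rw [pS_eq, pE_eq]
  fin_cases j <;> simp [fS, fE]

theorem ev_gen {P : FP} (h : Std P) : ∀ᶠ τ in 𝓝[≠] (0 : ℝ), GenP (pert P τ) := by
  have N4 := h.N4
  have A : ∀ᶠ τ in 𝓝[≠] (0 : ℝ), ∀ j, ∀ i ∈ Iic P.N, 1 ≤ i → i + 3 ≤ P.N →
      det ((pert P τ).ed j i).1 ((pert P τ).ed j (i + 1)).1 ≠ 0 := by
    refine eventually_all.2 fun j => (eventually_all_finite (finite_Iic _)).2 fun i _ => ?_
    refine eventually_imp_distrib_left.2 fun h1 => eventually_imp_distrib_left.2 fun h2 => ?_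
    by_cases h4 : P.N = 4
    · obtain rfl : i = 1 := by omega
      filter_upwards [ev_std h] with τ hs
      have a1 := hs.s1 j
      have a2 := hs.s2i j
      have a3 := hs.e1 j
      rw [show (pert P τ).N - 1 = 3 from by rw [show (pert P τ).N = P.N from rfl, h4]] at a3
      have : det ((pert P τ).ed j 1).1 ((pert P τ).ed j (1 + 1)).1 =
          2 * (pS j - pE j) * (((pert P τ).a j 2).1.im - 2) := by
        simp [FP.ed, det, a1, a3]
        ring
      rw [this]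
      exact mul_ne_zero (mul_ne_zero two_ne_zero (sub_ne_zero.2 (pS_ne j))) (sub_ne_zero.2 a2.ne')
    · exact three _ _ _ (lab_ne (by omega) (Or.inr (by omega)))
        (lab_ne (by omega) (Or.inr (by omega))) (lab_ne (by omega) (Or.inr (by omega)))
  have B : ∀ᶠ τ in 𝓝[≠] (0 : ℝ), ∀ j, ∀ i ∈ Iic P.N, 1 ≤ i → i + 3 ≤ P.N →
      ∀ j', ∀ i' ∈ Iic P.N, 1 ≤ i' → i' + 2 ≤ P.N → (j' ≠ j ∨ (i' ≠ i ∧ i' ≠ i + 1)) →
        det ((pert P τ).ed j' i').1 ((pert P τ).a j (i + 1) - (pert P τ).a j' (i' + 1)).1 ≠ 0 := by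
    refine eventually_all.2 fun j => (eventually_all_finite (finite_Iic _)).2 fun i _ => ?_
    refine eventually_imp_distrib_left.2 fun h1 => eventually_imp_distrib_left.2 fun h2 => ?_
    refine eventually_all.2 fun j' => (eventually_all_finite (finite_Iic _)).2 fun i' _ => ?_
    refine eventually_imp_distrib_left.2 fun h3 => eventually_imp_distrib_left.2 fun h4 =>
      eventually_imp_distrib_left.2 fun h5 => ?_
    exact three _ _ _ (lab_ne (by omega) (Or.inr (by omega)))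
      (lab_ne (by omega) (h5.imp_right fun h => by omega))
      (lab_ne (by omega) (h5.imp_right fun h => by omega))
  filter_upwards [A, B] with τ hA hB j i h1 h2
  have h2' : i + 3 ≤ P.N := h2
  refine ⟨hA j i (mem_Iic.2 (by omega)) h1 h2, fun j' i' h3 h4 h5 μ _ e => ?_⟩
  have h4' : i' + 2 ≤ P.N := h4
  apply hB j i (mem_Iic.2 (by omega)) h1 h2 j' i' (mem_Iic.2 (by omega)) h3 h4 h5
  rw [Prod.fst_sub, ← e]
  simp [FP.pt, FP.ed, det]
  ring

end Vale.Agent.Q258U.Gen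

open Filter Topology Vale.Agent.Q258U.Gen in
theorem Vale.Agent.Q258U.rowGen : Vale.Agent.Q258U.RowGen := fun P h ρ hρ => by
  obtain ⟨τ, h1, h2, h3, h4⟩ :=
    ((ev_close P hρ).and ((ev_std h).and ((ev_nh h).and (ev_gen h)))).exists
  exact ⟨_, h1, h2, h3, h4⟩
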