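import Vale.Agent.Q258U.Core
import Vale.Agent.Q258D.Core

/-!
# From surfaces to words
-/

set_option linter.all false

namespace Vale.Agent.Q258U

open Vale.Agent.P258.Braid Vale.Agent.N258B Vale.Agent.Q258D Set Topology

/-- the knot of the thin bands of `P` -/
def FE (K : Set E3) (P : FP) : Prop := ∃ ε0 : ℝ, 0 < ε0 ∧ ∀ ε ∈ Ioc (0 : ℝ) ε0, Eqv K (Kn P ε)

theorem FE.sim {K : Set E3} {P P' : FP} (h : FE K P) (h' : Sim P P') : FE K P' := by
  obtain ⟨e, he, h⟩ := h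
  obtain ⟨e', he', h'⟩ := h'
  exact ⟨min e e', lt_min he he', fun ε hε => (h ε ⟨hε.1, hε.2.trans (min_le_left _ _)⟩).trans
    (h' ε ⟨hε.1, hε.2.trans (min_le_right _ _)⟩)⟩

theorem to_poly (s1 : RowS1) (s2 : RowS2) (s3a : RowS3a) (s3b : RowS3b) (s4 : RowS4) {f g}
    (h : Surface f g) : ∃ P, Emb P ∧ FE (rim f g) P := by
  obtain ⟨f', g', h1, h2, h3⟩ := s2 f g h
  obtain ⟨N0, a⟩ := s3a f' g' h1 h2
  obtain ⟨N1, b⟩ := s3b f' g' h1 h2
  have a := a (N0 + N1 + 3) (by omega)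
  obtain ⟨e, he, b⟩ := b (N0 + N1 + 3) (by omega)
  obtain ⟨e', he', c⟩ := s4 _ a
  have hm : msh (N0 + N1 + 3) ∈ Ioc (0 : ℝ) 1 := by
    unfold msh
    have : (0 : ℝ) ≤ N0 := Nat.cast_nonneg _
    have : (0 : ℝ) ≤ N1 := Nat.cast_nonneg _
    push_cast
    exact ⟨by positivity, (div_le_one (by positivity)).2 (by linarith)⟩
  refine ⟨_, a, min 1 (min e e'), by positivity, fun ε hε => ?_⟩
  have h4 := hε.2
  simp only [le_min_iff] at h4
  exact h3.trans ((s1 f' g' h1 _ hm ε ⟨hε.1, h4.1⟩).trans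
    ((b ε ⟨hε.1, h4.2.1⟩).trans (c ε ⟨hε.1, h4.2.2⟩)))

theorem generic (hL : RowL) (hO : RowO) (hG : RowGen) {P : FP} (h : Emb P) {ρ : ℝ} (hρ : 0 < ρ) :
    ∃ P', Close ρ P P' ∧ Emb P' ∧ Sim P P' ∧ NH P' ∧ GenP P' := by
  obtain ⟨r1, p1, a⟩ := hL P h
  obtain ⟨r2, p2, b⟩ := hO P h
  obtain ⟨P', c, d, e, f⟩ := hG P h.std (min ρ (min r1 r2)) (by positivity)
  have mono : ∀ r, min ρ (min r1 r2) ≤ r → Close r P P' := fun r hr =>
    ⟨c.1, fun j => ⟨fun i hi => ((c.2 j).1 i hi).trans hr,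
      fun i hi μ hμ => ((c.2 j).2 i hi μ hμ).trans hr⟩⟩
  exact ⟨P', mono _ (min_le_left _ _), b P' d (mono _ ((min_le_right _ _).trans (min_le_right _ _))),
    a P' d (mono _ ((min_le_right _ _).trans (min_le_left _ _))), e, f⟩

theorem zigzags (hZ : RowZ) (j0 : Fin 4) (n : ℕ) : ∀ P, Emb P → NH P → ∃ P', Emb P' ∧ NH P' ∧
    Sim P P' ∧ ∀ j, cnt P' j = cnt P j + if j = j0 then 2 * n else 0 := by
  induction n with
  | zero => exact fun P a b => ⟨P, a, b, Sim.refl _, fun j => by simp⟩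
  | succ n ih =>
    intro P a b
    obtain ⟨P1, a1, b1, c1, d1⟩ := ih P a b
    obtain ⟨P2, a2, b2, c2, d2⟩ := hZ P1 a1 b1 j0
    refine ⟨P2, a2, b2, c1.trans c2, fun j => ?_⟩
    rw [d2, d1]
    split_ifs <;> omega

theorem to_pieces (hL : RowL) (hO : RowO) (hG : RowGen) (hT : RowT) (hZ : RowZ) (hV : RowV)
    (hR : RowR) (hP : RowPu) (hX : RowX1) {P : FP} (h : Emb P) : ∃ k0, ∀ k ≥ k0,
      ∃ P' T c u, Sim P P' ∧ SD k T c u ∧ ∀ ε, Bd P' ε = BS k T c u ε := by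
  obtain ⟨P0, -, a0, s0, b0, -⟩ := generic hL hO hG h one_pos
  refine ⟨cnt P0 0 + cnt P0 1 + cnt P0 2 + cnt P0 3, fun k hk => ?_⟩
  have od := hT.2.1 P0 a0.std b0
  obtain ⟨n0, e0⟩ := od 0
  obtain ⟨n1, e1⟩ := od 1
  obtain ⟨n2, e2⟩ := od 2
  obtain ⟨n3, e3⟩ := od 3
  obtain ⟨P1, a1, b1, s1, d1⟩ := zigzags hZ 0 (k - n0 - 1) P0 a0 b0
  obtain ⟨P2, a2, b2, s2, d2⟩ := zigzags hZ 1 (k - n1 - 1) P1 a1 b1
  obtain ⟨P3, a3, b3, s3, d3⟩ := zigzags hZ 2 (k - n2 - 1) P2 a2 b2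
  obtain ⟨P4, a4, b4, s4, d4⟩ := zigzags hZ 3 (k - n3 - 1) P3 a3 b3
  have hc : ∀ j, cnt P4 j + 1 = 2 * k := fun j => by
    rw [d4, d3, d2, d1]
    fin_cases j <;> simp <;> omega
  obtain ⟨ρ, hρ, st⟩ := hT.2.2 P4 b4
  obtain ⟨P5, c5, a5, s5, b5, g5⟩ := generic hL hO hG a4 hρ
  obtain ⟨v, a6, s6, h6, g6, c6⟩ := hV P5 a5 b5 g5
  obtain ⟨P7, a7, e7, b7, d7, h7, g7, c7, f7⟩ := hR ⟨P5.N, P5.a, v⟩ a6 b5 g5 h6 g6 c6
  obtain ⟨P8, T, a8, s8, b8, d8, h8, g8, c8, l8⟩ := hP P7 a7 b7 h7 g7 c7 f7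
  obtain ⟨c, u, x1, x2⟩ := hX P8 T k a8 b8 h8 g8 c8 l8 fun j => by
    rw [d8, d7, ← hc j, ← (st P5 c5).2 j]
    rfl
  exact ⟨P8, T, c, u, s0.trans (s1.trans (s2.trans (s3.trans (s4.trans (s5.trans (s6.trans
    ((Sim.of_bd e7).trans s8))))))), x1, x2⟩

theorem cable_append (u v : Word) : cable (u ++ v) = cable u ++ cable v := List.flatMap_append

open Path.Homotopic.Quotient in
theorem q1 {Z : Type} [TopologicalSpace Z] {a b c : Z} (p : Path.Homotopic.Quotient a b)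
    (q : Path.Homotopic.Quotient b c) : p.symm.trans (p.trans q) = q := by
  rw [← trans_assoc, symm_trans, refl_trans]

open Path.Homotopic.Quotient in
theorem q2 {Z : Type} [TopologicalSpace Z] {a b c : Z} (p : Path.Homotopic.Quotient a b)
    (q : Path.Homotopic.Quotient a c) : p.trans (p.symm.trans q) = q := by
  rw [← trans_assoc, trans_symm, refl_trans]

theorem to_word (c2 : RowC2) (c3 : RowC3) (hD : RowD) (hB : RowBr) (hK : RowK) (tb : RowTB)
    (top : RowTop) (bot : RowBot) (w4 : RowW4) {k : ℕ} (hk : 0 < k) {x y : X (Lb k)}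
    (γ : Path x y) (hγ : ∀ t, SC (fun a => lT k a.1) (γ t)) (hx : Bot k x) (hy : Top k y) :
    ∃ w, Prs (8 * k) w ∧ Eqv (plat (mB k) (mT k) γ) (knot (8 * k) (surf k w)) := by
  obtain ⟨l0, σ, δ, b0, k0, σ0, δ0, w0⟩ := bot k hk x hx
  obtain ⟨l1, σ', δ', b1, k1, σ1, δ1, w1⟩ := top k hk y hy
  obtain ⟨t1, t2, -, -, r1, r2, -⟩ := tb k hk
  have e16 : 16 * k = 2 * (8 * k) := by ring
  rw [e16] at b0 b1 r1 r2
  have tB : Two (mB k) := b0.two.congr k0
  have tT : Two (mT k) := b1.two.congr k1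
  obtain ⟨W, T, rW, fW, rT, hW⟩ := hD (Bn k) (8 * k) (lB k) (lT k) t2 t1 (δ.trans (γ.trans δ'))
    fun t => by
      refine SC.congr (μ := fun a => lT k a.1) (fun a a' => ?_) ?_
      · rw [(lT k).injective.eq_iff, (lB k).injective.eq_iff]
      · have hr : (δ.trans (γ.trans δ')) t ∈ range (δ.trans (γ.trans δ')) := mem_range_self t
        rw [Path.trans_range, Path.trans_range] at hr
        rcases hr with ⟨s, hs⟩ | ⟨s, hs⟩ | ⟨s, hs⟩
        exacts [hs ▸ δ0 s, hs ▸ hγ s, hs ▸ δ1 s]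
  have sx : SC (mB k) x := σ.target ▸ σ0 1
  have sy : SC (mT k) y := σ'.source ▸ σ1 0
  have s0 : SC (mB k) (cfg l0) := σ.source ▸ σ0 0
  have s1 : SC (mT k) (cfg l1) := σ'.target ▸ σ1 1
  obtain ⟨ca, cb, cc⟩ := c3 (Lb k) (mB k) (mT k) tB tT
  have hall := w0.append (hW.append w1)
  have hom : (σ.trans (γ.trans σ')).Homotopic ((σ.trans δ.symm).trans
      ((δ.trans (γ.trans δ')).trans (δ'.symm.trans σ'))) := by
    rw [← Path.Homotopic.Quotient.eq]
    simp [q1, q2]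
  have rtw : Rng (2 * (8 * k)) (twists T) := fun z hz => by
    obtain ⟨a, ha, hz⟩ := List.mem_flatMap.1 hz
    have := rT a ha
    simp only [List.mem_cons, List.not_mem_nil, or_false] at hz
    rcases hz with rfl | rfl <;> simp only <;> omega
  have ne : ∀ v : Word, bottom k ++ v ≠ [] := fun v h => by
    have := congrArg List.length (List.append_eq_nil_iff.1 (List.append_eq_nil_iff.1 h).1).1
    simp [slide] at this
    omega
  have rc := fun w hw => (w4.2 (8 * k) w hw).1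
  have E1 := c2 (Lb k) (8 * k) l0 l1 _ _ b0
    (rng_append.2 ⟨r1, rng_append.2 ⟨rng_append.2 ⟨rc W rW, rtw⟩, r2⟩⟩) (ne _) (hall.homotopic hom)
  rw [plat_congr k0 k1] at E1
  obtain ⟨κ, rκ, hκ⟩ := hK (4 * k) T (by omega) fun z hz => by have := rT z hz; omega
  have E2 := hκ (bottom k ++ cable W) (by
    rw [show 4 * (4 * k) = 2 * (8 * k) by ring]
    exact rng_append.2 ⟨r1, rc W rW⟩)
  rw [show 2 * (4 * k) = 8 * k by ring] at E2 rκ
  have rκ' : Rng (8 * k) κ := fun z hz => (rκ z hz).2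
  let u : Word := [(2 * k - 1, true), (6 * k - 1, true)]
  have ru : Rng (8 * k) u := fun z hz => by
    simp only [u, List.mem_cons, List.not_mem_nil, or_false] at hz
    rcases hz with rfl | rfl <;> simp only <;> omega
  have rw' : Rng (8 * k) (inverse u ++ (W ++ κ)) :=
    rng_append.2 ⟨ru.inverse, rng_append.2 ⟨rW, rκ'⟩⟩
  refine ⟨inverse u ++ (W ++ κ), ⟨rw', fun s => ?_⟩, ?_⟩
  · have hκ' : ∀ (κ : Word), (∀ z ∈ κ, z.1 % 2 = 0) → ∀ s,
        κ.foldl (fun q x => sw x q) s / 2 = s / 2 := fun κ => by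
      induction κ with
      | nil => exact fun _ _ => rfl
      | cons z κ ih =>
        intro h s
        rw [List.foldl_cons, ih fun z hz => h z (List.mem_cons_of_mem _ hz)]
        have := h z List.mem_cons_self
        unfold sw
        split_ifs <;> omega
    rw [← List.append_assoc, List.foldl_append, hκ' κ fun z hz => (rκ z hz).1]
    congr 1
    by_cases hs : s < 8 * k
    · obtain ⟨b, rfl⟩ := (t1 s).1 hs
      rw [← fin_apply, fin_append]
      exact congrArg (fun l : Bn k ↪ ℕ => l b) fW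
    · have : ∀ w : Word, Rng (8 * k) w → w.foldl (fun q x => sw x q) s = s := fun w => by
        induction w with
        | nil => exact fun _ => rfl
        | cons z w ih =>
          intro h
          have h1 := (rng_cons.1 h).1
          have h2 : sw z s = s := by unfold sw; split_ifs <;> omega
          rw [List.foldl_cons, h2, ih (rng_cons.1 h).2]
      exact this _ (rng_append.2 ⟨ru.inverse, rW⟩)
  · refine ((cb _ _ _ σ (γ.trans σ') σ0 s1).trans (cc _ _ _ γ σ' sx σ1)).symm.trans (E1.trans ?_)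
    simp only [List.append_assoc] at E2 ⊢
    refine E2.trans (hB _ _ _
      (rng_append.2 ⟨r1, rng_append.2 ⟨rc W rW, rng_append.2 ⟨rc κ rκ', r2⟩⟩⟩)
      (rng_append.2 ⟨r1, rng_append.2 ⟨rc _ (rng_append.2 ⟨ru, rw'⟩), r2⟩⟩) (ne _) (ne _) ?_)
    change _ = toBraid _ (bottom k ++ (cable (u ++ (inverse u ++ (W ++ κ))) ++ _))
    simp only [cable_append, toBraid_append, (w4.2 _ u ru).2]
    group

/-- the chart is changed -/
theorem framed_of {K : Set E3} {b : ℕ} {w : Word} (h : Eqv K (knot b w)) {e : E3 → S3}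
    {ν : Circle × ℂ → S3} (he : IsOpenEmbedding e) (hν : IsOpenEmbedding ν) (hc : core ν = e '' K)
    (hp : Preferred ν) : ∃ e', Framed b 0 w e' ν := by
  obtain ⟨h, hK⟩ := h
  have hu : ∀ y, y ∈ pattern b 0 w := fun y p h1 h2 => by omega
  have ho : IsOpen (pattern b 0 w) := by rw [eq_univ_of_forall hu]; exact isOpen_univ
  refine ⟨(e ∘ h.symm) ∘ Subtype.val,
    (he.comp h.symm.isOpenEmbedding).comp ho.isOpenEmbedding_subtypeVal, hν, ?_, hp⟩
  rw [image_comp, Subtype.image_preimage_coe, eq_univ_of_forall hu, univ_inter, ← hK, hc,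
    ← image_comp]
  simp

end Vale.Agent.Q258U
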