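import Vale.Agent.Q258U.Core
import Vale.Agent.Q258D.Core

/-!
# Row K: full twists of the bands become curls
-/

set_option linter.all false

namespace Vale.Agent.Q258U

open Vale.Agent.P258.Braid Vale.Agent.N258B Vale.Agent.Q258D

namespace K

section
variable {G : Type} [Group G] {a m b : G}

theorem ca (h1 : a * m * a = m * a * m) (h2 : m * b * m = b * m * b) (h3 : a * b = b * a) :
    m * a * b * m * a = b * (m * a * b * m) :=
  calc m * a * b * m * a = m * (a * b) * m * a := by simp only [mul_assoc]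
    _ = m * b * (a * m * a) := by rw [h3]; simp only [mul_assoc]
    _ = m * b * m * a * m := by rw [h1]; simp only [mul_assoc]
    _ = b * m * (b * a) * m := by rw [h2]; simp only [mul_assoc]
    _ = _ := by rw [← h3]; simp only [mul_assoc]

theorem cb (h1 : a * m * a = m * a * m) (h2 : m * b * m = b * m * b) :
    m * a * b * m * b = a * (m * a * b * m) :=
  calc m * a * b * m * b = m * a * (b * m * b) := by simp only [mul_assoc]
    _ = m * a * m * b * m := by rw [← h2]; simp only [mul_assoc]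
    _ = _ := by rw [← h1]; simp only [mul_assoc]

/-- the four kinds of full twists -/
theorem four (H : Subgroup G) (h1 : a * m * a = m * a * m) (h2 : m * b * m = b * m * b)
    (h3 : a * b = b * a) (ha : a ∈ H) (hb : b ∈ H) (hc : m * a * b * m ∈ H)
    (hr : m * b * b * m ∈ H) :
    (∃ h ∈ H, a * a * (b * m) = (m * a * b * m)⁻¹ * (b * m) * h) ∧
    (∃ h ∈ H, b * b * (b * m) = (m * a * b * m)⁻¹ * (b * m) * h) ∧
    (∃ h ∈ H, a⁻¹ * a⁻¹ * (b * m) = m * a * b * m * (b * m) * h) ∧
    ∃ h ∈ H, b⁻¹ * b⁻¹ * (b * m) = m * a * b * m * (b * m) * h := by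
  have k1 := ca h1 h2 h3
  have k2 := cb h1 h2
  have k3 : m * a * b * m * a * a * (b * m) = b * m * (a * b * (m * a * b * m)) := by
    rw [k1]; simp only [mul_assoc]
  have k4 : m * a * b * m * b * b * (b * m) =
      b * m * (a * b * (m * b * b * m * (m * a * b * m)⁻¹ * (m * b * b * m))) := by
    have e : b * a⁻¹ = a⁻¹ * b := by
      rw [mul_inv_eq_iff_eq_mul, mul_assoc, ← h3, inv_mul_cancel_left]
    calc _ = m * a * b * m * a * (a⁻¹ * b) * b * b * m := by group
      _ = _ := by rw [k1, ← e]; group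
  have m3 := H.mul_mem (H.mul_mem ha hb) hc
  have m4 := H.mul_mem (H.mul_mem ha hb) (H.mul_mem (H.mul_mem hr (H.inv_mem hc)) hr)
  clear h1 h2 h3
  generalize m * b * b * m = r at *
  generalize m * a * b * m = c at *
  generalize b * m = B at *
  generalize a * b * c = x at *
  generalize a * b * (r * c⁻¹ * r) = y at *
  have hx : x = B⁻¹ * (c * a * a * B) := by rw [k3]; group
  have hy : y = B⁻¹ * (c * b * b * B) := by rw [k4]; group
  refine ⟨⟨x, m3, by rw [hx]; group⟩, ⟨y, m4, by rw [hy]; group⟩, ⟨y⁻¹, H.inv_mem m4, ?_⟩,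
    ⟨x⁻¹, H.inv_mem m3, ?_⟩⟩
  · have e : c * b * b = a * a * c := by rw [k2, mul_assoc, k2, mul_assoc]
    rw [hy, e]; group
  · have e : c * a * a = b * b * c := by rw [k1, mul_assoc, k1, mul_assoc]
    rw [hx, e]; group

end

/-- the generators -/
def s (N i : ℕ) : BraidGroup N := letter N (i, true)

theorem s_of {N : ℕ} (i : Fin (N - 1)) : s N i.val = PresentedGroup.of i := by
  simp [s, letter, i.2]

theorem s_comm (N : ℕ) {i j : ℕ} (h : i + 2 ≤ j) : s N i * s N j = s N j * s N i := by
  by_cases hj : j < N - 1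
  · have hi : i < N - 1 := by omega
    have := PresentedGroup.one_of_mem (rels := braidRels N)
      (Or.inr ⟨⟨i, hi⟩, ⟨j, hj⟩, h, rfl⟩)
    rw [map_mul, map_inv, mul_inv_eq_one, map_mul, map_mul] at this
    rw [s_of ⟨i, hi⟩, s_of ⟨j, hj⟩]
    exact this
  · have : s N j = 1 := by simp [s, letter, hj]
    rw [this, mul_one, one_mul]

theorem s_braid {N i : ℕ} (h : i + 2 < N) :
    s N i * s N (i + 1) * s N i = s N (i + 1) * s N i * s N (i + 1) := by
  have hi : i < N - 1 := by omega
  have hj : i + 1 < N - 1 := by omega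
  have := PresentedGroup.one_of_mem (rels := braidRels N)
    (Or.inl ⟨⟨i, hi⟩, ⟨i + 1, hj⟩, rfl, rfl⟩)
  rw [map_mul, map_inv, mul_inv_eq_one, map_mul, map_mul, map_mul, map_mul] at this
  rw [s_of ⟨i, hi⟩, s_of ⟨i + 1, hj⟩]
  exact this

theorem far (N : ℕ) {i j : ℕ} (h : i + 2 ≤ j ∨ j + 2 ≤ i) : Commute (s N i) (s N j) :=
  h.elim (s_comm N) fun h => (s_comm N h).symm

theorem l_true (N i : ℕ) : letter N (i, true) = s N i := rfl

theorem l_false (N i : ℕ) : letter N (i, false) = (s N i)⁻¹ := letter_not N (i, true)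

theorem tb_nil (N : ℕ) : toBraid N [] = 1 := rfl

theorem tb_cons (N : ℕ) (x : ℕ × Bool) (w : Word) :
    toBraid N (x :: w) = letter N x * toBraid N w := by simp [toBraid]

/-- the exchange of two bands -/
def c (N q : ℕ) : BraidGroup N := s N (q + 1) * s N q * s N (q + 2) * s N (q + 1)

theorem cable_cons (y : ℕ × Bool) (w : Word) : cable (y :: w) = cable [y] ++ cable w := by
  simp [cable]

theorem cable_append (u w : Word) : cable (u ++ w) = cable u ++ cable w := by
  simp [cable]

theorem cable_true (N j : ℕ) : toBraid N (cable [(j, true)]) = c N (2 * j) := by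
  simp [cable, tb_cons, tb_nil, l_true, c, mul_assoc]

theorem cable_false (N j : ℕ) : toBraid N (cable [(j, false)]) = (c N (2 * j))⁻¹ := by
  have e := (far N (i := 2 * j) (j := 2 * j + 2) (Or.inl le_rfl)).inv_inv.eq
  simp only [cable, List.flatMap_cons, List.flatMap_nil, List.append_nil, tb_cons, tb_nil, l_false,
    c, mul_inv_rev, mul_one]
  rw [← mul_assoc (s N (2 * j))⁻¹, e, mul_assoc]

theorem c_far (N : ℕ) {q k : ℕ} (h : k + 2 ≤ q ∨ q + 4 ≤ k) : Commute (s N k) (c N q) :=
  (((far N (by omega)).mul_right (far N (by omega))).mul_right (far N (by omega))).mul_right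
    (far N (by omega))

/-- a half twist of a band passes the exchange of two bands -/
theorem pass1 {n i j : ℕ} (hi : i % 2 = 0) (hi' : i + 1 < 2 * n) (hj : j < 2 * n) :
    ∃ j' < 2 * n, s (4 * n) (2 * j) * c (4 * n) (2 * i) = c (4 * n) (2 * i) * s (4 * n) (2 * j') ∧
      s (4 * n) (2 * j') * c (4 * n) (2 * i) = c (4 * n) (2 * i) * s (4 * n) (2 * j) := by
  have h1 := s_braid (N := 4 * n) (i := 2 * i) (by omega)
  have h2 := s_braid (N := 4 * n) (i := 2 * i + 1) (by omega)
  have h3 := s_comm (4 * n) (i := 2 * i) (j := 2 * i + 2) le_rfl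
  by_cases e1 : j = i
  · subst e1
    exact ⟨j + 1, hi', (cb h1 h2).symm, (ca h1 h2 h3).symm⟩
  by_cases e2 : j = i + 1
  · subst e2
    exact ⟨i, by omega, (ca h1 h2 h3).symm, (cb h1 h2).symm⟩
  · have := (c_far (4 * n) (q := 2 * i) (k := 2 * j) (by omega)).eq
    exact ⟨j, hj, this, this⟩

/-- words of curls -/
def Ok (n : ℕ) (κ : Word) : Prop := ∀ x ∈ κ, x.1 % 2 = 0 ∧ x.1 + 1 < 2 * n

theorem pass {n : ℕ} (κ : Word) : Ok n κ → ∀ j < 2 * n, ∃ j' < 2 * n,
    s (4 * n) (2 * j) * toBraid (4 * n) (cable κ) = toBraid (4 * n) (cable κ) * s (4 * n) (2 * j') := by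
  induction κ with
  | nil => exact fun _ j hj => ⟨j, hj, by simp [cable, tb_nil]⟩
  | cons y κ ih =>
    intro h j hj
    obtain ⟨i, e⟩ := y
    have h0 := h (i, e) List.mem_cons_self
    obtain ⟨j1, l1, e1, e2⟩ := pass1 h0.1 h0.2 hj
    obtain ⟨j2, l2, e3⟩ := ih (fun x hx => h x (List.mem_cons_of_mem _ hx)) j1 l1
    refine ⟨j2, l2, ?_⟩
    have e4 : s (4 * n) (2 * j) * toBraid (4 * n) (cable [(i, e)]) =
        toBraid (4 * n) (cable [(i, e)]) * s (4 * n) (2 * j1) := by
      cases e
      · rw [cable_false, mul_inv_eq_iff_eq_mul, mul_assoc, e2, inv_mul_cancel_left]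
      · rw [cable_true, e1]
    rw [cable_cons, toBraid_append, ← mul_assoc, e4, mul_assoc, e3, mul_assoc]

/-- the block of the word at the top -/
def B (N q : ℕ) : BraidGroup N := s N (q + 2) * s N (q + 1)

theorem nest_succ (N n : ℕ) : toBraid N (inverse (nest 0 (n + 1))) =
    B N (4 * n) * toBraid N (inverse (nest 0 n)) := by
  have : nest 0 (n + 1) = nest 0 n ++ [(4 * n + 1, false), (4 * n + 2, false)] := by
    simp [nest, slide, List.range_succ]
  rw [toBraid_inverse, toBraid_inverse, this, toBraid_append, mul_inv_rev]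
  simp [tb_cons, tb_nil, l_false, B]

theorem nest_far (N k : ℕ) : ∀ n, 4 * n ≤ k → Commute (s N k) (toBraid N (inverse (nest 0 n)))
  | 0, _ => Commute.one_right _
  | n + 1, h => by
    rw [nest_succ]
    exact ((far N (by omega)).mul_right (far N (by omega))).mul_right (nest_far N k n (by omega))

theorem nest_split (N i : ℕ) : ∀ n, i < n → ∃ D, toBraid N (inverse (nest 0 n)) = D * B N (4 * i) ∧
    ∀ k, 4 * i ≤ k → k ≤ 4 * i + 2 → Commute (s N k) D
  | 0, h => absurd h (Nat.not_lt_zero _)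
  | n + 1, h => by
    rw [nest_succ]
    by_cases e : i = n
    · subst e
      exact ⟨_, ((nest_far N _ i (by omega)).mul_left (nest_far N _ i (by omega))).eq,
        fun k h1 _ => nest_far N k i h1⟩
    · obtain ⟨D, e1, e2⟩ := nest_split N i n (by omega)
      exact ⟨B N (4 * n) * D, by rw [e1, mul_assoc], fun k h1 h2 =>
        ((far N (by omega)).mul_right (far N (by omega))).mul_right (e2 k h1 h2)⟩

theorem rng_nest (n : ℕ) : Rng (4 * n) (inverse (nest 0 n)) := by
  refine Rng.inverse fun x hx => ?_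
  simp only [nest, slide, List.mem_flatMap, List.mem_range, List.mem_map] at hx
  obtain ⟨i, hi, a, ha, rfl⟩ := hx
  simp only
  omega

theorem nest_ne {n : ℕ} (hn : 0 < n) : inverse (nest 0 n) ≠ [] := by
  obtain ⟨n, rfl⟩ : ∃ k, n = k + 1 := ⟨n - 1, by omega⟩
  simp [inverse, nest, slide, List.range_succ]

/-- the algebraic form of the row -/
theorem alg {n : ℕ} (H : Subgroup (BraidGroup (4 * n)))
    (h1 : ∀ j < 2 * n, s (4 * n) (2 * j) ∈ H) (h2 : ∀ i < n, c (4 * n) (4 * i) ∈ H)
    (h3 : ∀ i < n, s (4 * n) (4 * i + 1) * s (4 * n) (4 * i + 2) * s (4 * n) (4 * i + 2) *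
      s (4 * n) (4 * i + 1) ∈ H) (T : List (ℕ × Bool × Bool)) :
    (∀ x ∈ T, x.1 < 2 * n) → ∃ κ, Ok n κ ∧ ∃ h ∈ H,
      toBraid (4 * n) (twists T) * toBraid (4 * n) (inverse (nest 0 n)) =
        toBraid (4 * n) (cable κ) * toBraid (4 * n) (inverse (nest 0 n)) * h := by
  have one : ∀ j < 2 * n, ∀ e : Bool, ∃ κ, Ok n κ ∧ ∃ h ∈ H,
      letter (4 * n) (2 * j, e) * letter (4 * n) (2 * j, e) * toBraid (4 * n) (inverse (nest 0 n)) =
        toBraid (4 * n) (cable κ) * toBraid (4 * n) (inverse (nest 0 n)) * h := by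
    intro j hj e
    have hi : j / 2 < n := by omega
    obtain ⟨D, e1, e2⟩ := nest_split (4 * n) (j / 2) n hi
    have ha := h1 (2 * (j / 2)) (by omega)
    have hb := h1 (2 * (j / 2) + 1) (by omega)
    rw [show 2 * (2 * (j / 2)) = 4 * (j / 2) by omega] at ha
    rw [show 2 * (2 * (j / 2) + 1) = 4 * (j / 2) + 2 by omega] at hb
    obtain ⟨f1, f2, f3, f4⟩ := four H (s_braid (N := 4 * n) (i := 4 * (j / 2)) (by omega))
      (s_braid (N := 4 * n) (i := 4 * (j / 2) + 1) (by omega))
      (s_comm (4 * n) (i := 4 * (j / 2)) (j := 4 * (j / 2) + 2) le_rfl) ha hb (h2 _ hi) (h3 _ hi)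
    have hc : Commute (c (4 * n) (4 * (j / 2))) D :=
      (((e2 _ (by omega) (by omega)).mul_left (e2 _ le_rfl (by omega))).mul_left
        (e2 _ (by omega) le_rfl)).mul_left (e2 _ (by omega) (by omega))
    have hs : Commute (s (4 * n) (2 * j)) D := e2 _ (by omega) (by omega)
    refine ⟨[(2 * (j / 2), !e)], fun x hx => ?_, ?_⟩
    · obtain rfl := List.mem_singleton.1 hx
      simp only
      omega
    have key : ∀ {t C h : BraidGroup (4 * n)}, Commute t D → Commute C D →
        t * t * B (4 * n) (4 * (j / 2)) = C * B (4 * n) (4 * (j / 2)) * h →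
        t * t * (D * B (4 * n) (4 * (j / 2))) = C * (D * B (4 * n) (4 * (j / 2))) * h := by
      intro t C h a1 a2 a3
      rw [← mul_assoc, (a1.mul_left a1).eq, mul_assoc, a3, ← mul_assoc C D, a2.eq]
      simp only [mul_assoc]
    rw [e1]
    rcases Nat.mod_two_eq_zero_or_one j with hp | hp <;> cases e
    · obtain ⟨h, hh, f⟩ := f3
      refine ⟨h, hh, ?_⟩
      rw [Bool.not_false, cable_true, l_false, show 2 * (2 * (j / 2)) = 4 * (j / 2) by omega]
      refine key hs.inv_left hc ?_
      rw [show 2 * j = 4 * (j / 2) by omega]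
      exact f
    · obtain ⟨h, hh, f⟩ := f1
      refine ⟨h, hh, ?_⟩
      rw [Bool.not_true, cable_false, l_true, show 2 * (2 * (j / 2)) = 4 * (j / 2) by omega]
      refine key hs hc.inv_left ?_
      rw [show 2 * j = 4 * (j / 2) by omega]
      exact f
    · obtain ⟨h, hh, f⟩ := f4
      refine ⟨h, hh, ?_⟩
      rw [Bool.not_false, cable_true, l_false, show 2 * (2 * (j / 2)) = 4 * (j / 2) by omega]
      refine key hs.inv_left hc ?_
      rw [show 2 * j = 4 * (j / 2) + 2 by omega]
      exact f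
    · obtain ⟨h, hh, f⟩ := f2
      refine ⟨h, hh, ?_⟩
      rw [Bool.not_true, cable_false, l_true, show 2 * (2 * (j / 2)) = 4 * (j / 2) by omega]
      refine key hs hc.inv_left ?_
      rw [show 2 * j = 4 * (j / 2) + 2 by omega]
      exact f
  induction T with
  | nil => exact fun _ => ⟨[], fun _ h => absurd h List.not_mem_nil, 1, H.one_mem, by
      rw [mul_one]; rfl⟩
  | cons x T ih =>
    intro hT
    obtain ⟨κ, o1, h, hh, e1⟩ := ih fun y hy => hT y (List.mem_cons_of_mem _ hy)
    obtain ⟨j, e, e'⟩ := x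
    have e0 : toBraid (4 * n) (twists ((j, e, e') :: T)) =
        letter (4 * n) (2 * j, e) * letter (4 * n) (2 * j, e') * toBraid (4 * n) (twists T) := by
      simp [twists, tb_cons, mul_assoc]
    by_cases he : e' = e
    · subst he
      obtain ⟨j', l1, e2⟩ := pass κ o1 j (hT _ List.mem_cons_self)
      have e3 : letter (4 * n) (2 * j, e') * toBraid (4 * n) (cable κ) =
          toBraid (4 * n) (cable κ) * letter (4 * n) (2 * j', e') := by
        cases e'
        · rw [l_false, l_false, inv_mul_eq_iff_eq_mul, ← mul_assoc, e2, mul_inv_cancel_right]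
        · exact e2
      obtain ⟨κ', o2, h', hh', e4⟩ := one j' l1 e'
      refine ⟨κ ++ κ', fun y hy => (List.mem_append.1 hy).elim (o1 y) (o2 y), h' * h,
        H.mul_mem hh' hh, ?_⟩
      rw [e0, mul_assoc, e1, cable_append, toBraid_append]
      calc _ = letter (4 * n) (2 * j, e') * (letter (4 * n) (2 * j, e') *
            toBraid (4 * n) (cable κ)) * toBraid (4 * n) (inverse (nest 0 n)) * h := by
            simp only [mul_assoc]
        _ = toBraid (4 * n) (cable κ) * (letter (4 * n) (2 * j', e') * letter (4 * n) (2 * j', e') *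
            toBraid (4 * n) (inverse (nest 0 n))) * h := by
            rw [e3, ← mul_assoc, e3]; simp only [mul_assoc]
        _ = _ := by rw [e4]; simp only [mul_assoc]
    · refine ⟨κ, o1, h, hh, ?_⟩
      have e5 : letter (4 * n) (2 * j, e) * letter (4 * n) (2 * j, e') = 1 := by
        cases e <;> cases e' <;> simp_all [l_true, l_false]
      rw [e0, e5, one_mul, e1]

theorem exists_rep {N : ℕ} (hN : 1 < N) (β : BraidGroup N) :
    ∃ w : Word, Rng N w ∧ w ≠ [] ∧ toBraid N w = β := by
  obtain ⟨w, h1, h2⟩ := exists_word β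
  refine ⟨(0, true) :: (0, false) :: w, rng_cons.2 ⟨hN, rng_cons.2 ⟨hN, h1⟩⟩, by simp, ?_⟩
  rw [tb_cons, tb_cons, l_true, l_false, mul_inv_cancel_left, h2]

/-- braids that do not change the knot when they are added at the top -/
def Hs (hB : RowBr) {b : ℕ} (hb : 0 < b) : Subgroup (BraidGroup (2 * b)) where
  carrier := {h | ∀ w w', Rng (2 * b) w → Rng (2 * b) w' → w ≠ [] → w' ≠ [] →
    toBraid (2 * b) w' = toBraid (2 * b) w * h → Eqv (knot b w') (knot b w)}
  one_mem' := fun w w' h1 h2 h3 h4 e => hB b w' w h2 h1 h4 h3 (by rw [e, mul_one])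
  mul_mem' := fun {x y} hx hy w w' h1 h2 h3 h4 e => by
    obtain ⟨v, v1, v2, v3⟩ := exists_rep (N := 2 * b) (by omega) (toBraid (2 * b) w * x)
    exact (hy v w' v1 h2 v2 h4 (by rw [e, v3, mul_assoc])).trans (hx w v h1 v1 h3 v2 v3)
  inv_mem' := fun {x} hx w w' h1 h2 h3 h4 e =>
    (hx w' w h2 h1 h4 h3 (by rw [e, inv_mul_cancel_right])).symm

theorem mem_Hs (hB : RowBr) {b : ℕ} (hb : 0 < b) {v : Word} (hv : Rng (2 * b) v)
    (h : ∀ u, Rng (2 * b) u → u ≠ [] → Eqv (knot b (u ++ v)) (knot b u)) :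
    toBraid (2 * b) v ∈ Hs hB hb := fun w w' h1 h2 h3 h4 e =>
  (hB b w' (w ++ v) h2 (rng_append.2 ⟨h1, hv⟩) h4 (by simp [h3])
    (by rw [e, toBraid_append])).trans (h w h1 h3)

end K

open K in
theorem rowK (hB : RowBr) (h1 : RowF1) (h2 : RowF2) : RowK := by
  intro n T hn hT
  have hb : 0 < 2 * n := by omega
  have e4 : 4 * n = 2 * (2 * n) := by omega
  have main := @alg n
  have rn := rng_nest n
  rw [e4] at main rn ⊢
  obtain ⟨κ, o1, h, hh, e1⟩ := main (Hs hB hb) (fun j hj => by
      have := mem_Hs hB hb (v := [(2 * j, true)]) (rng_cons.2 ⟨by simp only; omega, Rng.nil _⟩)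
        fun u u1 u2 => (h1 _ u (2 * j) true u1 u2 (by omega)).1 (by omega)
      rwa [tb_cons, tb_nil, mul_one] at this)
    (fun i hi => by
      have := mem_Hs hB hb
        (v := [(4 * i + 1, true), (4 * i + 2, true), (4 * i, true), (4 * i + 1, true)])
        (fun x hx => by simp at hx; rcases hx with rfl | rfl | rfl | rfl <;> simp only <;> omega)
        fun u u1 u2 => (h1 _ u (4 * i) true u1 u2 (by omega)).2 (by omega)
      simp only [tb_cons, tb_nil, mul_one, l_true] at this
      rw [← mul_assoc (s _ (4 * i + 2)), ← s_comm _ (i := 4 * i) (j := 4 * i + 2) le_rfl] at this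
      simpa only [c, mul_assoc] using this)
    (fun i hi => by
      have := mem_Hs hB hb
        (v := [(4 * i + 1, true), (4 * i + 2, true), (4 * i + 2, true), (4 * i + 1, true)])
        (fun x hx => by simp at hx; rcases hx with rfl | rfl | rfl <;> simp only <;> omega)
        fun u u1 u2 => h2 _ u (4 * i) true u1 u2 (by omega) (by omega)
      simpa only [tb_cons, tb_nil, mul_one, l_true, mul_assoc] using this) T hT
  refine ⟨κ, o1, fun u hu => hh _ _ (rng_append.2 ⟨hu, rng_append.2 ⟨fun x hx => ?_, rn⟩⟩)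
    (rng_append.2 ⟨hu, rng_append.2 ⟨fun x hx => ?_, rn⟩⟩) (by simp [nest_ne hn])
    (by simp [nest_ne hn]) ?_⟩
  · simp only [cable, List.mem_flatMap, List.mem_cons, List.not_mem_nil, or_false] at hx
    obtain ⟨y, hy, hx⟩ := hx
    have := o1 y hy
    rcases hx with rfl | rfl | rfl | rfl <;> simp only <;> omega
  · simp only [twists, List.mem_flatMap, List.mem_cons, List.not_mem_nil, or_false] at hx
    obtain ⟨y, hy, hx⟩ := hx
    have := hT y hy
    rcases hx with rfl | rfl <;> simp only <;> omega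
  · simp only [toBraid_append]
    rw [e1]
    simp only [mul_assoc]

end Vale.Agent.Q258U
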