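import Vale.Agent.Q258U.Core
import Mathlib.Topology.Order.Compact
import Mathlib.Topology.MetricSpace.Lipschitz

/-!
# The knot of an embedded framed polygon is locally constant
-/

set_option linter.all false

namespace Vale.Agent.Q258U.L

open Vale.Agent.P258.Braid Vale.Agent.N258B Vale.Agent.Q258D Set Complex

/-- a common constant for finitely many conditions -/
theorem unifN (N : ℕ) (p : Fin 4 → ℕ → ℝ → Prop)
    (h : ∀ j, ∀ i < N, ∃ c, 0 < c ∧ ∀ c', c' ≤ c → p j i c') :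
    ∃ c, 0 < c ∧ ∀ c', c' ≤ c → ∀ j, ∀ i < N, p j i c' := by
  choose f hf hp using fun q : Fin 4 × Fin N => h q.1 q.2 q.2.2
  obtain ⟨c, hc, hle⟩ := (finite_range f).isCompact.exists_forall_le' continuousOn_id
    (a := 0) (by rintro _ ⟨i, rfl⟩; exact hf i)
  exact ⟨c, hc, fun c' h' j i hi => hp (j, ⟨i, hi⟩) c' (h'.trans (hle _ ⟨_, rfl⟩))⟩

/-- a lower bound on a cone -/
theorem cone (e1 e2 : E3) (V : ℝ → E3) (hV : ContinuousOn V (Icc 0 1))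
    (h : ∀ μ ∈ Icc (0 : ℝ) 1, Ind e1 e2 (V μ)) :
    ∃ c, 0 < c ∧ ∀ c', c' ≤ c → ∀ μ ∈ Icc (0 : ℝ) 1, ∀ a b g : ℝ, 0 ≤ a → 0 ≤ b →
      c' * (a + b + |g|) ≤ ‖a • e1 + b • e2 + g • V μ‖ := by
  have hS : IsCompact ((Icc (0 : ℝ) 1 ×ˢ Icc (0 : ℝ) 1 ×ˢ Icc (0 : ℝ) 1 ×ˢ Icc (-1 : ℝ) 1) ∩
      {q : ℝ × ℝ × ℝ × ℝ | q.2.1 + q.2.2.1 + |q.2.2.2| = 1}) :=
    (isCompact_Icc.prod (isCompact_Icc.prod (isCompact_Icc.prod isCompact_Icc))).inter_right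
      (isClosed_eq (by fun_prop) continuous_const)
  have hW : ContinuousOn (fun q : ℝ × ℝ × ℝ × ℝ => V q.1)
      ((Icc (0 : ℝ) 1 ×ˢ Icc (0 : ℝ) 1 ×ˢ Icc (0 : ℝ) 1 ×ˢ Icc (-1 : ℝ) 1) ∩
      {q : ℝ × ℝ × ℝ × ℝ | q.2.1 + q.2.2.1 + |q.2.2.2| = 1}) :=
    hV.comp continuousOn_fst fun q hq => hq.1.1
  obtain ⟨c, hc, hle⟩ := hS.exists_forall_le' (a := 0)
    (f := fun q => ‖q.2.1 • e1 + q.2.2.1 • e2 + q.2.2.2 • V q.1‖)
    (ContinuousOn.norm (ContinuousOn.add (by fun_prop)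
      ((by fun_prop : ContinuousOn (fun q : ℝ × ℝ × ℝ × ℝ => q.2.2.2) _).smul hW))) (by
      rintro ⟨μ, a, b, g⟩ ⟨⟨hμ, ha, hb, -⟩, hs⟩
      refine norm_pos_iff.2 fun e => ?_
      obtain ⟨h1, h2, h3⟩ := h μ hμ a b g ha.1 hb.1 e
      have hs' : a + b + |g| = 1 := hs
      rw [h1, h2, h3] at hs'
      norm_num at hs')
  refine ⟨c, hc, fun c' h' μ hμ a b g ha hb => ?_⟩
  have hg := abs_nonneg g
  rcases (by positivity : 0 ≤ a + b + |g|).eq_or_lt with h0 | h0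
  · rw [← h0, mul_zero]; exact norm_nonneg _
  · set t := a + b + |g| with ht
    have k := hle (μ, a / t, b / t, g / t) ⟨⟨hμ, ⟨by positivity, (div_le_one h0).2 (by linarith)⟩,
      ⟨by positivity, (div_le_one h0).2 (by linarith)⟩, abs_le.1 (by
        rw [abs_div, abs_of_pos h0]; exact (div_le_one h0).2 (by linarith))⟩, by
      show a / t + b / t + |g / t| = 1
      rw [abs_div, abs_of_pos h0, ← add_div, ← add_div, ← ht, div_self h0.ne']⟩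
    have e : a • e1 + b • e2 + g • V μ = t • ((a / t) • e1 + (b / t) • e2 + (g / t) • V μ) := by
      simp only [smul_add, smul_smul, mul_div_cancel₀ _ h0.ne']
    rw [e, norm_smul, Real.norm_eq_abs, abs_of_pos h0, mul_comm]
    exact mul_le_mul_of_nonneg_left (h'.trans k) h0.le

theorem cont_v {P : FP} (h : Std P) (j : Fin 4) {i : ℕ} (hi : i < P.N) :
    ContinuousOn (P.v j i) (Icc 0 1) := by
  obtain ⟨L, hL⟩ := h.lip
  refine (LipschitzOnWith.of_dist_le' (K := L) fun x hx y hy => ?_).continuousOn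
  rw [dist_eq_norm, Real.dist_eq]
  exact hL j i hi x hx y hy

theorem pt_re (P : FP) (j : Fin 4) (i : ℕ) (μ : ℝ) :
    (P.pt j i μ).1.re = (1 - μ) * (P.a j i).1.re + μ * (P.a j (i + 1)).1.re := by
  simp [FP.pt, FP.ed]; ring

theorem pt_im (P : FP) (j : Fin 4) (i : ℕ) (μ : ℝ) :
    (P.pt j i μ).1.im = (1 - μ) * (P.a j i).1.im + μ * (P.a j (i + 1)).1.im := by
  simp [FP.pt, FP.ed]; ring

theorem pt_ht (P : FP) (j : Fin 4) (i : ℕ) (μ : ℝ) :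
    (P.pt j i μ).2 = (1 - μ) * (P.a j i).2 + μ * (P.a j (i + 1)).2 := by
  simp [FP.pt, FP.ed]; ring

theorem pt_eq (P : FP) (j : Fin 4) (i : ℕ) (μ : ℝ) :
    P.pt j i μ = (1 - μ) • P.a j i + μ • P.a j (i + 1) := by
  simp only [FP.pt, FP.ed]; module

/-- the shadows of the first and of the last edge -/
theorem endpt {P : FP} (h : Std P) (j : Fin 4) {i : ℕ} (hi : i = 0 ∨ i + 1 = P.N) {μ : ℝ}
    (hμ : μ ∈ Icc (0 : ℝ) 1) : ∃ t ∈ Icc (1 : ℝ) 2, ∃ p : ℝ,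
      ((i = 0 ∧ p = pS j) ∨ (i + 1 = P.N ∧ p = pE j)) ∧
        (P.pt j i μ).1.re = t * p ∧ (P.pt j i μ).1.im = t := by
  rcases hi with rfl | hi
  · refine ⟨1 + μ, ⟨by linarith [hμ.1], by linarith [hμ.2]⟩, _, Or.inl ⟨rfl, rfl⟩, ?_, ?_⟩
    · rw [pt_re, zero_add, h.s0, h.s1]; simp; ring
    · rw [pt_im, zero_add, h.s0, h.s1]; simp; ring
  · have e : i = P.N - 1 := by omega
    refine ⟨2 - μ, ⟨by linarith [hμ.2], by linarith [hμ.1]⟩, _, Or.inr ⟨hi, rfl⟩, ?_, ?_⟩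
    · rw [pt_re, hi, e, h.e0, h.e1]; simp; ring
    · rw [pt_im, hi, e, h.e0, h.e1]; simp; ring

/-- the shadows of the inner edges -/
theorem inner {P : FP} (h : Emb P) (j : Fin 4) {i : ℕ} (h1 : 1 ≤ i) (h2 : i + 2 ≤ P.N) {μ : ℝ}
    (hμ : μ ∈ Icc (0 : ℝ) 1) : (P.pt j i μ).1 ∉ Box ∨ (2 ≤ (P.pt j i μ).1.im ∧
      ((P.pt j i μ).1.im ≤ 2 → (i = 1 ∧ (P.pt j i μ).1.re = 2 * pS j) ∨
        (i + 2 = P.N ∧ (P.pt j i μ).1.re = 2 * pE j))) := by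
  by_cases c1 : i = 1
  · subst c1
    have k := h.std.s2i j
    have e : (P.pt j 1 μ).1.im = 2 + μ * ((P.a j 2).1.im - 2) := by
      rw [pt_im, h.std.s1]; simp; ring
    refine Or.inr ⟨by rw [e]; nlinarith [hμ.1], fun k' => Or.inl ⟨rfl, ?_⟩⟩
    have m : μ = 0 := by
      rw [e] at k'
      by_contra m
      nlinarith [mul_pos (lt_of_le_of_ne hμ.1 (Ne.symm m)) (sub_pos.2 k)]
    rw [pt_re, h.std.s1, m]; simp
  by_cases c2 : i + 2 = P.N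
  · have k := h.std.e2i j
    have a1 : i + 1 = P.N - 1 := by omega
    have a2 : P.N - 2 = i := by omega
    rw [a2] at k
    have e : (P.pt j i μ).1.im = 2 + (1 - μ) * ((P.a j i).1.im - 2) := by
      rw [pt_im, a1, h.std.e1]; simp; ring
    refine Or.inr ⟨by rw [e]; nlinarith [hμ.2], fun k' => Or.inr ⟨c2, ?_⟩⟩
    have m : μ = 1 := by
      rw [e] at k'
      by_contra m
      nlinarith [mul_pos (sub_pos.2 (lt_of_le_of_ne hμ.2 m)) (sub_pos.2 k)]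
    rw [pt_re, a1, h.std.e1, m]; simp
  · exact Or.inl (h.box j i (by omega) (by omega) μ hμ)

theorem pS_bd (j : Fin 4) : 0 ≤ pS j ∧ pS j ≤ 28 := by
  fin_cases j <;> simp [pS] <;> norm_num

theorem pE_bd (j : Fin 4) : 0 ≤ pE j ∧ pE j ≤ 28 := by
  fin_cases j <;> simp [pE] <;> norm_num

theorem pS_inj {j j' : Fin 4} (h : pS j = pS j') : j = j' := by
  fin_cases j <;> fin_cases j' <;> simp [pS] at h ⊢ <;> norm_num at h

theorem pE_inj {j j' : Fin 4} (h : pE j = pE j') : j = j' := by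
  fin_cases j <;> fin_cases j' <;> simp [pE] at h ⊢ <;> norm_num at h

theorem pS_ne (j j' : Fin 4) : pS j ≠ pE j' := fun h => by
  fin_cases j <;> fin_cases j' <;> simp [pS, pE] at h <;> norm_num at h

/-- the edges that meet a ray in the box -/
theorem foot {P : FP} (h : Emb P) (j : Fin 4) {i : ℕ} (hi : i < P.N) {μ : ℝ}
    (hμ : μ ∈ Icc (0 : ℝ) 1) {t p : ℝ} (ht : t ∈ Icc (1 : ℝ) 2) (hp : 0 ≤ p ∧ p ≤ 28)
    (e1 : (P.pt j i μ).1.re = t * p) (e2 : (P.pt j i μ).1.im = t) :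
    (i ≤ 1 ∧ p = pS j) ∨ (P.N ≤ i + 2 ∧ p = pE j) := by
  by_cases c : i = 0 ∨ i + 1 = P.N
  · obtain ⟨t', -, p', k, k1, k2⟩ := endpt h.std j c hμ
    have m : p = p' := by
      rw [k1, ← k2, e2] at e1
      exact (mul_left_cancel₀ (by linarith [ht.1]) e1).symm
    rcases k with ⟨k, k'⟩ | ⟨k, k'⟩
    · exact Or.inl ⟨by omega, m.trans k'⟩
    · exact Or.inr ⟨by omega, m.trans k'⟩
  · rcases inner h j (i := i) (by omega) (by omega) hμ with k | ⟨k, k'⟩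
    · refine absurd ⟨?_, ?_, ?_, ?_⟩ k
      · rw [e1]; nlinarith [ht.1, hp.1]
      · rw [e1]; nlinarith [ht.1, ht.2, hp.1, hp.2]
      · rw [e2]; linarith [ht.1]
      · rw [e2]; exact ht.2
    · rw [e2, e1] at k'
      rw [e2] at k
      have m : t = 2 := le_antisymm ht.2 k
      subst m
      rcases k' le_rfl with ⟨k1, k2⟩ | ⟨k1, k2⟩
      · exact Or.inl ⟨by omega, by linarith⟩
      · exact Or.inr ⟨by omega, by linarith⟩

theorem end_near {P : FP} (h : Emb P) {j j' : Fin 4} {i i' : ℕ} (hi : i = 0 ∨ i + 1 = P.N)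
    (hi' : i' < P.N) {μ μ' : ℝ} (hμ : μ ∈ Icc (0 : ℝ) 1) (hμ' : μ' ∈ Icc (0 : ℝ) 1)
    (e : P.pt j i μ = P.pt j' i' μ') : j = j' ∧ i ≤ i' + 1 ∧ i' ≤ i + 1 := by
  obtain ⟨t, ht, p, k, k1, k2⟩ := endpt h.std j hi hμ
  rw [e] at k1 k2
  rcases k with ⟨k, rfl⟩ | ⟨k, rfl⟩
  · rcases foot h j' hi' hμ' ht (pS_bd j) k1 k2 with ⟨m, m'⟩ | ⟨m, m'⟩
    · exact ⟨pS_inj m', by omega, by omega⟩
    · exact absurd m' (pS_ne _ _)
  · rcases foot h j' hi' hμ' ht (pE_bd j) k1 k2 with ⟨m, m'⟩ | ⟨m, m'⟩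
    · exact absurd m'.symm (pS_ne _ _)
    · exact ⟨pE_inj m', by omega, by omega⟩

/-- edges that are not adjacent are disjoint -/
theorem ne_far {P : FP} (h : Emb P) {j j' : Fin 4} {i i' : ℕ} (hi : i < P.N) (hi' : i' < P.N)
    (hf : j ≠ j' ∨ i + 2 ≤ i') {μ μ' : ℝ} (hμ : μ ∈ Icc (0 : ℝ) 1) (hμ' : μ' ∈ Icc (0 : ℝ) 1) :
    P.pt j i μ ≠ P.pt j' i' μ' := fun e => by
  by_cases c : i = 0 ∨ i + 1 = P.N
  · obtain ⟨k1, k2, k3⟩ := end_near h c hi' hμ hμ' e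
    rcases hf with hf | hf
    · exact hf k1
    · omega
  by_cases c' : i' = 0 ∨ i' + 1 = P.N
  · obtain ⟨k1, k2, k3⟩ := end_near h c' hi hμ' hμ e.symm
    rcases hf with hf | hf
    · exact hf k1.symm
    · omega
  exact h.disj j i j' i' (by omega) (by omega) (by omega) (by omega) hf μ hμ μ' hμ' e

/-- lower bounds for an embedded polygon -/
structure Cs (P : FP) (c : ℝ) : Prop where
  pos : 0 < c
  le1 : c ≤ 1
  edge : ∀ j, ∀ i < P.N, ∀ μ ∈ Icc (0 : ℝ) 1, ∀ a b g : ℝ, 0 ≤ a → 0 ≤ b →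
    c * (a + b + |g|) ≤ ‖a • P.ed j i + b • P.ed j i + g • P.v j i μ‖
  vert : ∀ j, ∀ i < P.N - 1, ∀ a b g : ℝ, 0 ≤ a → 0 ≤ b →
    c * (a + b + |g|) ≤ ‖a • P.ed j i + b • P.ed j (i + 1) + g • P.v j i 1‖
  far : ∀ j, ∀ i < P.N, ∀ j', ∀ i' < P.N, (j ≠ j' ∨ i + 2 ≤ i') → ∀ μ ∈ Icc (0 : ℝ) 1,
    ∀ μ' ∈ Icc (0 : ℝ) 1, c ≤ ‖P.pt j i μ - P.pt j' i' μ'‖
  ht : ∀ j, c ≤ (P.a j 1).2 - 1 ∧ c ≤ (P.a j (P.N - 1)).2 - 1
  bd : ∀ j, ∀ i < P.N, ∀ μ ∈ Icc (0 : ℝ) 1, c * ‖P.v j i μ‖ ≤ 1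

theorem exists_cs {P : FP} (h : Emb P) : ∃ c, Cs P c := by
  obtain ⟨c1, p1, h1⟩ := unifN P.N _ fun j i hi =>
    cone (P.ed j i) (P.ed j i) (P.v j i) (cont_v h.std j hi) (h.edge j i hi)
  obtain ⟨c2, p2, h2⟩ := unifN (P.N - 1) _ fun j i hi =>
    cone (P.ed j i) (P.ed j (i + 1)) (fun _ => P.v j i 1) continuousOn_const
      fun _ _ => h.vert j i (by omega)
  obtain ⟨c3, p3, h3⟩ := unifN P.N (fun j i c => ∀ j', ∀ i' < P.N, (j ≠ j' ∨ i + 2 ≤ i') →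
      ∀ μ ∈ Icc (0 : ℝ) 1, ∀ μ' ∈ Icc (0 : ℝ) 1, c ≤ ‖P.pt j i μ - P.pt j' i' μ'‖) fun j i hi =>
    unifN P.N _ fun j' i' hi' => by
      by_cases hf : j ≠ j' ∨ i + 2 ≤ i'
      · obtain ⟨c, hc, k⟩ := (isCompact_Icc (a := (0 : ℝ)) (b := 1)).prod
          (isCompact_Icc (a := (0 : ℝ)) (b := 1)) |>.exists_forall_le' (a := 0)
          (f := fun q => ‖P.pt j i q.1 - P.pt j' i' q.2‖) (by unfold FP.pt; fun_prop)
          fun q hq => norm_pos_iff.2 (sub_ne_zero.2 (ne_far h hi hi' hf hq.1 hq.2))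
        exact ⟨c, hc, fun c' h' _ μ hμ μ' hμ' => h'.trans (k (μ, μ') ⟨hμ, hμ'⟩)⟩
      · exact ⟨1, one_pos, fun _ _ k => absurd k hf⟩
  obtain ⟨c4, p4, h4⟩ := unifN 1 (fun j _ c => c ≤ (P.a j 1).2 - 1 ∧ c ≤ (P.a j (P.N - 1)).2 - 1)
    fun j _ _ => ⟨min ((P.a j 1).2 - 1) ((P.a j (P.N - 1)).2 - 1),
      lt_min (sub_pos.2 (h.std.s1h j)) (sub_pos.2 (h.std.e1h j)),
      fun c' h' => ⟨h'.trans (min_le_left _ _), h'.trans (min_le_right _ _)⟩⟩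
  obtain ⟨c5, p5, h5⟩ := unifN P.N (fun j i c => ∀ μ ∈ Icc (0 : ℝ) 1, c * ‖P.v j i μ‖ ≤ 1)
    fun j i hi => by
      obtain ⟨M, hM⟩ := isCompact_Icc.exists_bound_of_continuousOn (cont_v h.std j hi)
      have m : 0 < |M| + 1 := by positivity
      refine ⟨(|M| + 1)⁻¹, inv_pos.2 m, fun c' h' μ hμ => ?_⟩
      refine (mul_le_mul_of_nonneg_right h' (norm_nonneg _)).trans ?_
      rw [inv_mul_le_iff₀ m]
      linarith [hM μ hμ, le_abs_self M]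
  obtain ⟨c, hc, k0, k1, k2, k3, k4, k5⟩ : ∃ c : ℝ, 0 < c ∧ c ≤ 1 ∧ c ≤ c1 ∧ c ≤ c2 ∧ c ≤ c3 ∧
      c ≤ c4 ∧ c ≤ c5 := ⟨min 1 (min c1 (min c2 (min c3 (min c4 c5)))), by positivity,
    by simpa only [← le_min_iff] using le_rfl⟩
  exact ⟨c, hc, k0, h1 c k1, fun j i hi => h2 c k2 j i hi 0 ⟨le_rfl, zero_le_one⟩, h3 c k3,
    fun j => h4 c k4 j 0 one_pos, h5 c k5⟩

/-- the displacement is small with respect to the distance -/
def Rl (x x' y y' : E3) : Prop := ‖(x' - x) - (y' - y)‖ ≤ 1 / 4 * ‖x - y‖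

theorem Rl.symm {x x' y y' : E3} (h : Rl x x' y y') : Rl y y' x x' := by
  unfold Rl at h ⊢
  rwa [norm_sub_rev, norm_sub_rev y x]

/-- a point on the boundary of a thin band -/
noncomputable def bp (P : FP) (j : Fin 4) (i : ℕ) (μ s : ℝ) : E3 := P.pt j i μ + s • P.v j i μ

/-- the estimate near an edge or a vertex -/
theorem key {x x' y y' e1 e2 V e1' e2' V' r r' : E3} {a b g c : ℝ} (hc : 0 < c) (ha : 0 ≤ a)
    (hb : 0 ≤ b) (e : x - y = a • e1 + b • e2 + g • V + r)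
    (e' : x' - y' = a • e1' + b • e2' + g • V' + r')
    (lb : c * (a + b + |g|) ≤ ‖a • e1 + b • e2 + g • V‖) (h1 : ‖e1' - e1‖ ≤ c / 16)
    (h2 : ‖e2' - e2‖ ≤ c / 16) (h3 : ‖V' - V‖ ≤ c / 32) (hr : ‖r‖ ≤ c / 32 * (a + b))
    (hr' : ‖r'‖ ≤ c / 32 * (a + b)) : Rl x x' y y' := by
  have k : (x' - x) - (y' - y) = a • (e1' - e1) + b • (e2' - e2) + g • (V' - V) + r' - r := by
    rw [show (x' - x) - (y' - y) = (x' - y') - (x - y) by abel, e, e']; module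
  have k1 : ‖a • (e1' - e1)‖ ≤ a * (c / 16) := by
    rw [norm_smul, Real.norm_eq_abs, abs_of_nonneg ha]; gcongr
  have k2 : ‖b • (e2' - e2)‖ ≤ b * (c / 16) := by
    rw [norm_smul, Real.norm_eq_abs, abs_of_nonneg hb]; gcongr
  have k3 : ‖g • (V' - V)‖ ≤ |g| * (c / 32) := by
    rw [norm_smul, Real.norm_eq_abs]; gcongr
  have k4 := norm_sub_le (a • (e1' - e1) + b • (e2' - e2) + g • (V' - V) + r') r
  have k5 := norm_add_le (a • (e1' - e1) + b • (e2' - e2) + g • (V' - V)) r'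
  have k6 := norm_add₃_le (a := a • (e1' - e1)) (b := b • (e2' - e2)) (c := g • (V' - V))
  have k7 := norm_sub_le (a • e1 + b • e2 + g • V + r) r
  rw [add_sub_cancel_right] at k7
  unfold Rl
  rw [k, e]
  nlinarith [mul_nonneg hc.le ha, mul_nonneg hc.le hb, mul_nonneg hc.le (abs_nonneg g)]

/-- the data of the estimates -/
structure Dt (P P' : FP) (c ε : ℝ) : Prop where
  emb : Emb P
  std : Std P'
  cs : Cs P c
  cl : Close (c / 32) P P'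
  e0 : 0 < ε
  e1 : ε ≤ c ^ 2 / 4
  l1 : ∀ j, ∀ i < P.N, ∀ μ ∈ Icc (0 : ℝ) 1, ∀ μ' ∈ Icc (0 : ℝ) 1,
    ε * ‖P.v j i μ - P.v j i μ'‖ ≤ c / 32 * |μ - μ'|
  l2 : ∀ j, ∀ i < P.N, ∀ μ ∈ Icc (0 : ℝ) 1, ∀ μ' ∈ Icc (0 : ℝ) 1,
    ε * ‖P'.v j i μ - P'.v j i μ'‖ ≤ c / 32 * |μ - μ'|

variable {P P' : FP} {c ε : ℝ}

theorem Dt.ed (h : Dt P P' c ε) (j : Fin 4) {i : ℕ} (hi : i < P.N) :
    ‖P'.ed j i - P.ed j i‖ ≤ c / 16 := by
  have k1 := (h.cl.2 j).1 i hi.le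
  have k2 := (h.cl.2 j).1 (i + 1) hi
  have k := norm_sub_le (P'.a j (i + 1) - P.a j (i + 1)) (P'.a j i - P.a j i)
  rw [show P'.ed j i - P.ed j i = (P'.a j (i + 1) - P.a j (i + 1)) - (P'.a j i - P.a j i) by
    unfold FP.ed; abel]
  linarith

theorem Dt.le1 (h : Dt P P' c ε) : ε ≤ 1 := by
  nlinarith [h.e1, h.cs.pos, h.cs.le1]

theorem Dt.sv (h : Dt P P' c ε) (j : Fin 4) {i : ℕ} (hi : i < P.N) {μ s : ℝ}
    (hμ : μ ∈ Icc (0 : ℝ) 1) (hs : |s| = ε) : ‖s • P.v j i μ‖ ≤ c / 4 := by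
  rw [norm_smul, Real.norm_eq_abs, hs]
  have k := h.cs.bd j i hi μ hμ
  have k' := mul_le_mul_of_nonneg_right h.e1 (norm_nonneg (P.v j i μ))
  nlinarith [h.cs.pos]

theorem Dt.dis (h : Dt P P' c ε) (j : Fin 4) {i : ℕ} (hi : i < P.N) {μ s : ℝ}
    (hμ : μ ∈ Icc (0 : ℝ) 1) (hs : |s| = ε) : ‖bp P' j i μ s - bp P j i μ s‖ ≤ c / 16 := by
  have k1 := (h.cl.2 j).1 i hi.le
  have k2 := (h.cl.2 j).1 (i + 1) hi
  have k3 := (h.cl.2 j).2 i hi μ hμ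
  have m : 0 ≤ 1 - μ := sub_nonneg.2 hμ.2
  have e : bp P' j i μ s - bp P j i μ s = (1 - μ) • (P'.a j i - P.a j i) +
      μ • (P'.a j (i + 1) - P.a j (i + 1)) + s • (P'.v j i μ - P.v j i μ) := by
    simp only [bp, pt_eq]; module
  rw [e]
  refine norm_add₃_le.trans ?_
  rw [norm_smul, norm_smul, norm_smul, Real.norm_eq_abs, Real.norm_eq_abs, Real.norm_eq_abs,
    abs_of_nonneg m, abs_of_nonneg hμ.1, hs]
  have a1 := mul_le_mul_of_nonneg_left k1 m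
  have a2 := mul_le_mul_of_nonneg_left k2 hμ.1
  have a3 := mul_le_mul h.le1 k3 (norm_nonneg _) zero_le_one
  nlinarith

theorem Dt.same (h : Dt P P' c ε) (j : Fin 4) {i : ℕ} (hi : i < P.N) {μ s μ' s' : ℝ}
    (hμ : μ ∈ Icc (0 : ℝ) 1) (hμ' : μ' ∈ Icc (0 : ℝ) 1) (hs' : |s'| = ε) (le : μ' ≤ μ) :
    Rl (bp P j i μ s) (bp P' j i μ s) (bp P j i μ' s') (bp P' j i μ' s') := by
  have m : 0 ≤ μ - μ' := sub_nonneg.2 le
  refine key (a := μ - μ') (b := 0) (g := s - s') (r := s' • (P.v j i μ - P.v j i μ'))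
    (r' := s' • (P'.v j i μ - P'.v j i μ')) h.cs.pos m le_rfl ?_ ?_
    (h.cs.edge j i hi μ hμ _ _ _ m le_rfl) (h.ed j hi) (h.ed j hi) ((h.cl.2 j).2 i hi μ hμ) ?_ ?_
  · simp only [bp, FP.pt]; module
  · simp only [bp, FP.pt]; module
  · rw [norm_smul, Real.norm_eq_abs, hs', add_zero, ← abs_of_nonneg m]
    exact h.l1 j i hi μ hμ μ' hμ'
  · rw [norm_smul, Real.norm_eq_abs, hs', add_zero, ← abs_of_nonneg m]
    exact h.l2 j i hi μ hμ μ' hμ'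

theorem rem_le {u u' w w' : E3} {μ μ' s s' : ℝ} (hμ : μ ∈ Icc (0 : ℝ) 1)
    (hμ' : μ' ∈ Icc (0 : ℝ) 1) (hs : |s| = ε) (hs' : |s'| = ε)
    (h1 : ε * ‖u - u'‖ ≤ c / 32 * |μ - 0|) (h2 : ε * ‖w - w'‖ ≤ c / 32 * |μ' - 1|) :
    ‖s • (u - u') - s' • (w - w')‖ ≤ c / 32 * (1 - μ' + μ) := by
  refine (norm_sub_le _ _).trans ?_
  rw [norm_smul, norm_smul, Real.norm_eq_abs, Real.norm_eq_abs, hs, hs']
  rw [sub_zero, abs_of_nonneg hμ.1] at h1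
  rw [abs_of_nonpos (sub_nonpos.2 hμ'.2)] at h2
  linarith

theorem Dt.adj (h : Dt P P' c ε) (j : Fin 4) {i : ℕ} (hi : i + 1 < P.N) {μ s μ' s' : ℝ}
    (hμ : μ ∈ Icc (0 : ℝ) 1) (hμ' : μ' ∈ Icc (0 : ℝ) 1) (hs : |s| = ε) (hs' : |s'| = ε) :
    Rl (bp P j (i + 1) μ s) (bp P' j (i + 1) μ s) (bp P j i μ' s') (bp P' j i μ' s') := by
  have m : 0 ≤ 1 - μ' := sub_nonneg.2 hμ'.2
  have hi' : i < P.N := by omega
  have z : (0 : ℝ) ∈ Icc (0 : ℝ) 1 := ⟨le_rfl, zero_le_one⟩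
  have o : (1 : ℝ) ∈ Icc (0 : ℝ) 1 := ⟨zero_le_one, le_rfl⟩
  refine key (a := 1 - μ') (b := μ) (g := s - s')
    (r := s • (P.v j (i + 1) μ - P.v j (i + 1) 0) - s' • (P.v j i μ' - P.v j i 1))
    (r' := s • (P'.v j (i + 1) μ - P'.v j (i + 1) 0) - s' • (P'.v j i μ' - P'.v j i 1))
    h.cs.pos m hμ.1 ?_ ?_ (h.cs.vert j i (by omega) _ _ _ m hμ.1) (h.ed j hi') (h.ed j hi)
    ((h.cl.2 j).2 i hi' 1 o)
    (rem_le hμ hμ' hs hs' (h.l1 j _ hi μ hμ 0 z) (h.l1 j i hi' μ' hμ' 1 o))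
    (rem_le hμ hμ' hs hs' (h.l2 j _ hi μ hμ 0 z) (h.l2 j i hi' μ' hμ' 1 o))
  · rw [← h.emb.std.glue j i hi]; simp only [bp, FP.pt, FP.ed]; module
  · rw [← h.std.glue j i (h.cl.1 ▸ hi)]; simp only [bp, FP.pt, FP.ed]; module

theorem Dt.far (h : Dt P P' c ε) {j j' : Fin 4} {i i' : ℕ} (hi : i < P.N) (hi' : i' < P.N)
    (hf : j ≠ j' ∨ i + 2 ≤ i') {μ s μ' s' : ℝ} (hμ : μ ∈ Icc (0 : ℝ) 1)
    (hμ' : μ' ∈ Icc (0 : ℝ) 1) (hs : |s| = ε) (hs' : |s'| = ε) :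
    Rl (bp P j i μ s) (bp P' j i μ s) (bp P j' i' μ' s') (bp P' j' i' μ' s') := by
  have k1 := h.dis j hi hμ hs
  have k2 := h.dis j' hi' hμ' hs'
  have k3 := h.sv j hi hμ hs
  have k4 := h.sv j' hi' hμ' hs'
  have k5 := h.cs.far j i hi j' i' hi' hf μ hμ μ' hμ'
  have k6 := norm_add₃_le (a := bp P j i μ s - bp P j' i' μ' s') (b := -(s • P.v j i μ))
    (c := s' • P.v j' i' μ')
  rw [norm_neg, show bp P j i μ s - bp P j' i' μ' s' + -(s • P.v j i μ) + s' • P.v j' i' μ' =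
    P.pt j i μ - P.pt j' i' μ' by unfold bp; abel] at k6
  refine (norm_sub_le _ _).trans ?_
  linarith

theorem Dt.band (h : Dt P P' c ε) (j j' : Fin 4) {i i' : ℕ} (hi : i < P.N) (hi' : i' < P.N)
    {μ s μ' s' : ℝ} (hμ : μ ∈ Icc (0 : ℝ) 1) (hμ' : μ' ∈ Icc (0 : ℝ) 1) (hs : |s| = ε)
    (hs' : |s'| = ε) :
    Rl (bp P j i μ s) (bp P' j i μ s) (bp P j' i' μ' s') (bp P' j' i' μ' s') := by
  by_cases c1 : j ≠ j' ∨ i + 2 ≤ i'
  · exact h.far hi hi' c1 hμ hμ' hs hs'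
  by_cases c2 : i' + 2 ≤ i
  · exact (h.far hi' hi (Or.inr c2) hμ' hμ hs' hs).symm
  obtain rfl : j = j' := by
    by_contra k
    exact c1 (Or.inl k)
  rcases (by omega : i = i' ∨ i = i' + 1 ∨ i' = i + 1) with rfl | rfl | rfl
  · rcases le_total μ' μ with k | k
    · exact h.same j hi hμ hμ' hs' k
    · exact (h.same j hi hμ' hμ hs k).symm
  · exact h.adj j hi hμ hμ' hs hs'
  · exact (h.adj j hi' hμ' hμ hs' hs).symm

theorem disc_bd (h0 : 0 < ε) (h1 : ε ≤ 1) {y : E3} (hy : y ∈ sides ε ∪ wedge ε) :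
    -1 ≤ y.1.re ∧ y.1.re ≤ 29 ∧ 0 ≤ y.1.im ∧ y.1.im ≤ 1 ∧ y.2 ≤ 1 := by
  rcases hy with ⟨t, ⟨t0, t1⟩, rfl | rfl⟩ | ⟨p, t, ⟨t0, t1⟩, hy⟩
  · simp only [add_re, ofReal_re, mul_re, I_re, ofReal_im, I_im, add_im, mul_im]
    refine ⟨?_, ?_, ?_, ?_, t1⟩ <;> nlinarith
  · simp only [add_re, ofReal_re, mul_re, I_re, ofReal_im, I_im, add_im, mul_im]
    refine ⟨?_, ?_, ?_, ?_, t1⟩ <;> nlinarith
  · have p0 : (0 : ℝ) ≤ p := Nat.cast_nonneg _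
    have p1 : ((p : ℕ) : ℝ) ≤ 6 := by exact_mod_cast Nat.le_of_lt_succ p.2
    rcases hy with rfl | rfl
    · simp only [add_re, ofReal_re, I_re, ofReal_im, I_im, add_im]
      refine ⟨?_, ?_, ?_, ?_, t1⟩ <;> nlinarith
    · simp only [add_re, ofReal_re, I_re, ofReal_im, I_im, add_im]
      refine ⟨?_, ?_, ?_, ?_, t1⟩ <;> nlinarith

theorem Dt.disc (h : Dt P P' c ε) {y : E3} (hy : y ∈ sides ε ∪ wedge ε) (j : Fin 4) {i : ℕ}
    (hi : i < P.N) {μ s : ℝ} (hμ : μ ∈ Icc (0 : ℝ) 1) (hs : |s| = ε) :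
    Rl (bp P j i μ s) (bp P' j i μ s) y y := by
  obtain ⟨y1, y2, y3, y4, y5⟩ := disc_bd h.e0 h.le1 hy
  have hc := h.cs.pos
  have N4 := h.emb.std.N4
  have k : (bp P j i μ s).2 - y.2 ≤ ‖bp P j i μ s - y‖ :=
    (le_abs_self _).trans (norm_snd_le (bp P j i μ s - y))
  unfold Rl
  rw [sub_self, sub_zero]
  by_cases c1 : i = 0
  · subst c1
    have e : bp P' j 0 μ s - bp P j 0 μ s = μ • (P'.a j 1 - P.a j 1) := by
      simp only [bp, pt_eq, zero_add]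
      rw [h.std.s0, h.emb.std.s0, h.std.vs j μ hμ, h.emb.std.vs j μ hμ]; module
    have e' : (bp P j 0 μ s).2 = 1 + μ * ((P.a j 1).2 - 1) := by
      rw [bp, Prod.snd_add, pt_ht, h.emb.std.s0, h.emb.std.vs j μ hμ]; simp; ring
    rw [e, norm_smul, Real.norm_eq_abs, abs_of_nonneg hμ.1]
    have a1 := mul_le_mul_of_nonneg_left ((h.cl.2 j).1 1 (by omega)) hμ.1
    have a2 := mul_le_mul_of_nonneg_left (h.cs.ht j).1 hμ.1
    nlinarith [mul_nonneg hμ.1 hc.le]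
  by_cases c2 : i + 1 = P.N
  · obtain rfl : i = P.N - 1 := by omega
    have m : 0 ≤ 1 - μ := sub_nonneg.2 hμ.2
    have b1 := h.std.e0 j
    have b2 := h.std.ve j μ hμ
    rw [h.cl.1] at b1 b2
    have e : bp P' j (P.N - 1) μ s - bp P j (P.N - 1) μ s =
        (1 - μ) • (P'.a j (P.N - 1) - P.a j (P.N - 1)) := by
      simp only [bp, pt_eq, c2]
      rw [b1, h.emb.std.e0, b2, h.emb.std.ve j μ hμ]; module
    have e' : (bp P j (P.N - 1) μ s).2 = 1 + (1 - μ) * ((P.a j (P.N - 1)).2 - 1) := by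
      rw [bp, Prod.snd_add, pt_ht, c2, h.emb.std.e0, h.emb.std.ve j μ hμ]; simp; ring
    rw [e, norm_smul, Real.norm_eq_abs, abs_of_nonneg m]
    have a1 := mul_le_mul_of_nonneg_left ((h.cl.2 j).1 (P.N - 1) (by omega)) m
    have a2 := mul_le_mul_of_nonneg_left (h.cs.ht j).2 m
    nlinarith [mul_nonneg m hc.le]
  · have k1 := h.dis j hi hμ hs
    have k2 := h.sv j hi hμ hs
    have k3 := norm_sub_le (bp P j i μ s - y) (s • P.v j i μ)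
    rw [show bp P j i μ s - y - s • P.v j i μ = P.pt j i μ - y by unfold bp; abel] at k3
    have k4 := abs_le.1 ((abs_re_le_norm _).trans (norm_fst_le (P.pt j i μ - y)))
    have k5 := abs_le.1 ((abs_im_le_norm _).trans (norm_fst_le (P.pt j i μ - y)))
    rw [Prod.fst_sub, sub_re] at k4
    rw [Prod.fst_sub, sub_im] at k5
    have k6 : 1 ≤ ‖P.pt j i μ - y‖ := by
      by_contra k6
      rw [not_le] at k6
      rcases inner h.emb j (i := i) (by omega) (by omega) hμ with m | ⟨m, -⟩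
      · exact m ⟨by linarith [k4.1], by linarith [k4.2], by linarith [k5.1], by linarith [k5.2]⟩
      · linarith [k5.2]
    linarith [h.cs.le1]

/-- the parameters of the points of the knot -/
abbrev Par (N : ℕ) (ε : ℝ) : Type :=
  {y : E3 // y ∈ sides ε ∪ wedge ε} ⊕
    {q : Fin 4 × ℕ × ℝ × ℝ // q.2.1 < N ∧ q.2.2.1 ∈ Icc (0 : ℝ) 1 ∧ |q.2.2.2| = ε}

/-- the parametrisation of the knot -/
noncomputable def par (P : FP) (N : ℕ) (ε : ℝ) : Par N ε → E3 :=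
  Sum.elim Subtype.val fun q => bp P q.1.1 q.1.2.1 q.1.2.2.1 q.1.2.2.2

theorem range_par {N : ℕ} (hN : P.N = N) (h0 : 0 < ε) : range (par P N ε) = Kn P ε := by
  subst hN
  rw [par, Sum.elim_range, Subtype.range_coe, Kn]
  congr 1
  ext y
  constructor
  · rintro ⟨⟨⟨j, i, μ, s⟩, hi, hμ, hs⟩, rfl⟩
    refine ⟨j, i, hi, μ, hμ, ?_⟩
    rcases (abs_eq h0.le).1 hs with k | k
    · refine Or.inl ?_
      have k' : s = ε := k
      show bp P j i μ s = _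
      rw [k', bp]
    · refine Or.inr ?_
      have k' : s = -ε := k
      show bp P j i μ s = _
      rw [k', bp, neg_smul, sub_eq_add_neg]
  · rintro ⟨j, i, hi, μ, hμ, rfl | rfl⟩
    · exact ⟨⟨(j, i, μ, ε), hi, hμ, abs_of_pos h0⟩, rfl⟩
    · refine ⟨⟨(j, i, μ, -ε), hi, hμ, (abs_neg ε).trans (abs_of_pos h0)⟩, ?_⟩
      show bp P j i μ (-ε) = _
      rw [bp, neg_smul, sub_eq_add_neg]

theorem Dt.eqv (hM : RowM) (h : Dt P P' c ε) : Eqv (Kn P ε) (Kn P' ε) := by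
  obtain ⟨f, hf⟩ := hM (Par P.N ε) (par P P.N ε) (par P' P.N ε) (by
    rintro (x | ⟨x, x1, x2, x3⟩) (y | ⟨y, y1, y2, y3⟩)
    · simp only [par, Sum.elim_inl, sub_self, norm_zero]; positivity
    · exact (h.disc x.2 _ y1 y2 y3).symm
    · exact h.disc y.2 _ x1 x2 x3
    · exact h.band _ _ x1 y1 x2 y2 x3 y3)
  rw [← range_par rfl h.e0, ← range_par h.cl.1 h.e0]
  exact Eqv.of_param f hf

end Vale.Agent.Q258U.L

namespace Vale.Agent.Q258U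

open Set

/-- The knot of an embedded framed polygon does not change under small perturbations. -/
theorem rowL (hM : RowM) : RowL := by
  intro P hP
  obtain ⟨c, hc⟩ := L.exists_cs hP
  have c0 := hc.pos
  refine ⟨c / 32, by positivity, fun P' hP' cl => ?_⟩
  obtain ⟨A, hA⟩ := hP.std.lip
  obtain ⟨B, hB⟩ := hP'.lip
  have m : 0 < |A| + |B| + 1 := by positivity
  refine ⟨min (c ^ 2 / 4) (c / 32 / (|A| + |B| + 1)), by positivity, fun ε hε => ?_⟩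
  have k : ε * (|A| + |B| + 1) ≤ c / 32 := (le_div_iff₀ m).1 (hε.2.trans (min_le_right _ _))
  have w : ∀ x d D : ℝ, 0 ≤ d → D ≤ |A| + |B| + 1 → x ≤ D * d → ε * x ≤ c / 32 * d :=
    fun x d D hd hD hx => by
      have a1 := mul_le_mul_of_nonneg_left (hx.trans (mul_le_mul_of_nonneg_right hD hd)) hε.1.le
      have a2 := mul_le_mul_of_nonneg_right k hd
      nlinarith
  refine L.Dt.eqv hM ⟨hP, hP', hc, cl, hε.1, hε.2.trans (min_le_left _ _),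
    fun j i hi μ hμ μ' hμ' => w _ _ A (abs_nonneg _) ?_ (hA j i hi μ hμ μ' hμ'),
    fun j i hi μ hμ μ' hμ' => w _ _ B (abs_nonneg _) ?_ (hB j i (cl.1 ▸ hi) μ hμ μ' hμ')⟩
  · linarith [le_abs_self A, abs_nonneg B]
  · linarith [le_abs_self B, abs_nonneg A]

end Vale.Agent.Q258U
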