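import Vale.Agent.Q258U.Core
import Mathlib.Analysis.Calculus.InverseFunctionTheorem.ApproximatesLinearOn
import Mathlib.Topology.UniformSpace.HeineCantor
import Mathlib.Topology.Connected.Clopen

/-!
# Extension of small displacements; families of framed polygons
-/

set_option linter.all false

namespace Vale.Agent.Q258U

open Set Complex Filter Topology
open scoped NNReal

namespace M

/-- a real function on the range of `F` with a Lipschitz bound extends to the space -/
theorem ext {α : Type} (F : α → E3) (u : α → ℝ)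
    (h : ∀ x y, |u x - u y| ≤ 1 / 4 * ‖F x - F y‖) :
    ∃ g : E3 → ℝ, (∀ p q, |g p - g q| ≤ 1 / 4 * ‖p - q‖) ∧ ∀ x, g (F x) = u x := by
  classical
  let f : E3 → ℝ := fun p => if hp : p ∈ range F then u hp.choose else 0
  have hf : ∀ x, f (F x) = u x := fun x => by
    have hp : F x ∈ range F := mem_range_self x
    have e := h hp.choose x
    rw [hp.choose_spec, sub_self, norm_zero, mul_zero] at e
    have e' := abs_nonpos_iff.1 e
    simp only [f, dif_pos hp]
    linarith
  have hl : LipschitzOnWith (1 / 4 : ℝ≥0) f (range F) := by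
    refine LipschitzOnWith.of_dist_le_mul ?_
    rintro _ ⟨x, rfl⟩ _ ⟨y, rfl⟩
    rw [hf, hf, Real.dist_eq, dist_eq_norm]
    simpa using h x y
  obtain ⟨g, hg, e⟩ := hl.extend_real
  refine ⟨g, fun p q => ?_, fun x => (e (mem_range_self x)).symm.trans (hf x)⟩
  have := hg.dist_le_mul p q
  rw [Real.dist_eq, dist_eq_norm] at this
  simpa using this

end M

theorem rowM : RowM := by
  intro α F G h
  have h' : ∀ x y, ‖((G x - F x) - (G y - F y)).1‖ ≤ 1 / 4 * ‖F x - F y‖ := fun x y =>
    (norm_fst_le _).trans (h x y)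
  obtain ⟨g1, l1, e1⟩ := M.ext F (fun x => (G x - F x).1.re) fun x y => by
    have := (abs_re_le_norm _).trans (h' x y)
    simpa using this
  obtain ⟨g2, l2, e2⟩ := M.ext F (fun x => (G x - F x).1.im) fun x y => by
    have := (abs_im_le_norm _).trans (h' x y)
    simpa using this
  obtain ⟨g3, l3, e3⟩ := M.ext F (fun x => (G x - F x).2) fun x y => by
    have := (norm_snd_le _).trans (h x y)
    simpa using this
  let φ : E3 → E3 := fun p => (⟨g1 p, g2 p⟩, g3 p)
  have hφ : ∀ p q, ‖φ p - φ q‖ ≤ 1 / 2 * ‖p - q‖ := fun p q => by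
    have n := norm_nonneg (p - q)
    rw [Prod.norm_def]
    refine max_le ((norm_le_abs_re_add_abs_im _).trans ?_) ?_
    · have a := l1 p q
      have b := l2 p q
      show |g1 p - g1 q| + |g2 p - g2 q| ≤ _
      linarith
    · have a := l3 p q
      show |g3 p - g3 q| ≤ _
      linarith
  have ha : ApproximatesLinearOn (fun p => p + φ p)
      (ContinuousLinearEquiv.refl ℝ E3 : E3 →L[ℝ] E3) univ (1 / 2 : ℝ≥0) := by
    intro p _ q _
    have e : p + φ p - (q + φ q) - (ContinuousLinearEquiv.refl ℝ E3 : E3 →L[ℝ] E3) (p - q) =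
        φ p - φ q := by
      show p + φ p - (q + φ q) - (p - q) = _
      abel
    rw [e]
    simpa using hφ p q
  refine ⟨ha.toHomeomorph _ (Or.inr ?_), fun x => ?_⟩
  · have : ‖((ContinuousLinearEquiv.refl ℝ E3).symm : E3 →L[ℝ] E3)‖₊ = 1 :=
      ContinuousLinearMap.nnnorm_id
    rw [this, inv_one]
    norm_num
  · show F x + φ (F x) = G x
    have : φ (F x) = G x - F x := by
      show ((⟨g1 (F x), g2 (F x)⟩, g3 (F x)) : E3) = _
      rw [e1, e2, e3]
    rw [this]
    abel

theorem rowFam (hL : RowL) : RowFam := by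
  intro N a v hE ha hv
  refine isPreconnected_Icc.induction₂ (s := Icc (0 : ℝ) 1)
    (fun s s' => Sim ⟨N, a s, v s⟩ ⟨N, a s', v s'⟩) (fun s hs => ?_)
    (fun _ _ _ _ _ _ h h' => h.trans h') (fun _ _ _ _ h => h.symm)
    (left_mem_Icc.2 zero_le_one) (right_mem_Icc.2 zero_le_one)
  obtain ⟨ρ, hρ, H⟩ := hL _ (hE s hs)
  have h1 : ∀ᶠ s' in 𝓝[Icc (0 : ℝ) 1] s, ∀ j, ∀ i ∈ Finset.range (N + 1),
      ‖a s' j i - a s j i‖ ≤ ρ := by
    refine eventually_all.2 fun j => (eventually_all_finset _).2 fun i hi => ?_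
    have := Metric.tendsto_nhds.1 (ha j i (Nat.lt_succ_iff.1 (Finset.mem_range.1 hi)) s hs) ρ hρ
    filter_upwards [this] with s' h
    rw [dist_eq_norm] at h
    exact h.le
  have h2 : ∀ᶠ s' in 𝓝[Icc (0 : ℝ) 1] s, ∀ j, ∀ i ∈ Finset.range N, ∀ μ ∈ Icc (0 : ℝ) 1,
      ‖v s' j i μ - v s j i μ‖ ≤ ρ := by
    refine eventually_all.2 fun j => (eventually_all_finset _).2 fun i hi => ?_
    obtain ⟨δ, hδ, hu⟩ := Metric.uniformContinuousOn_iff.1
      ((isCompact_Icc.prod isCompact_Icc).uniformContinuousOn_of_continuous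
        (hv j i (Finset.mem_range.1 hi))) ρ hρ
    filter_upwards [self_mem_nhdsWithin, mem_nhdsWithin_of_mem_nhds (Metric.ball_mem_nhds s hδ)]
      with s' hs' hb μ hμ
    have := hu (s', μ) ⟨hs', hμ⟩ (s, μ) ⟨hs, hμ⟩ (by
      rw [Prod.dist_eq, dist_self]
      exact max_lt hb hδ)
    rw [dist_eq_norm] at this
    exact this.le
  filter_upwards [h1, h2, self_mem_nhdsWithin] with s' k1 k2 hs'
  exact H _ (hE s' hs').std ⟨rfl, fun j => ⟨fun i hi => k1 j i (Finset.mem_range.2
    (Nat.lt_succ_iff.2 hi)), fun i hi => k2 j i (Finset.mem_range.2 hi)⟩⟩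

end Vale.Agent.Q258U
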