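import Vale.Agent.Q258U.Core
import Mathlib.Topology.MetricSpace.Thickening

/-!
# Embedded framed polygons form an open set
-/

set_option linter.all false

namespace Vale.Agent.Q258U

open Set Filter Topology

namespace O

theorem near {X Y : Type} [PseudoMetricSpace X] [TopologicalSpace Y] {S : Set X} (hS : IsOpen S)
    {K : Set Y} (hK : IsCompact K) {f : Y → X} (hf : ContinuousOn f K) (h : ∀ y ∈ K, f y ∈ S) :
    ∀ᶠ ρ : ℝ in 𝓝[>] 0, ∀ y ∈ K, ∀ x, dist x (f y) ≤ 2 * ρ → x ∈ S := by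
  obtain ⟨δ, hδ, H⟩ := (hK.image_of_continuousOn hf).exists_cthickening_subset_open hS
    (image_subset_iff.2 h)
  filter_upwards [Ioo_mem_nhdsGT (half_pos hδ)] with ρ hρ y hy x hx
  exact H (Metric.mem_cthickening_of_dist_le x (f y) δ _ (mem_image_of_mem f hy)
    (by linarith [hρ.2]))

/-- the normalised coefficients -/
def T : Set (ℝ × ℝ × ℝ) := {w | 0 ≤ w.1 ∧ 0 ≤ w.2.1} ∩ Metric.sphere 0 1

theorem ind_iff (e1 e2 V : E3) :
    Ind e1 e2 V ↔ ∀ w ∈ T, w.1 • e1 + w.2.1 • e2 + w.2.2 • V ≠ 0 := by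
  constructor
  · rintro h ⟨a, b, c⟩ ⟨⟨ha, hb⟩, hw⟩ h0
    obtain ⟨rfl, rfl, rfl⟩ := h a b c ha hb h0
    have : ‖(0 : ℝ × ℝ × ℝ)‖ = 1 := mem_sphere_zero_iff_norm.1 hw
    simp at this
  · intro h a b c ha hb h0
    by_contra hn
    have h1 : 0 < ‖(a, b, c)‖ := norm_pos_iff.2 fun e => hn (by simpa [Prod.ext_iff] using e)
    refine h (‖(a, b, c)‖⁻¹ • (a, b, c)) ⟨⟨mul_nonneg (inv_pos.2 h1).le ha,
      mul_nonneg (inv_pos.2 h1).le hb⟩, ?_⟩ ?_
    · rw [mem_sphere_zero_iff_norm, norm_smul, norm_inv, norm_norm, inv_mul_cancel₀ h1.ne']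
    · simp only [Prod.smul_fst, Prod.smul_snd, smul_assoc, ← smul_add, h0, smul_zero]

theorem ind_open : IsOpen {x : E3 × E3 × E3 | Ind x.1 x.2.1 x.2.2} := by
  have hT : IsCompact T := (isCompact_sphere 0 1).inter_left
    ((isClosed_le continuous_const continuous_fst).inter
      (isClosed_le continuous_const continuous_snd.fst))
  simp only [ind_iff]
  refine isOpen_iff_mem_nhds.2 fun x hx => hT.eventually_forall_of_forall_eventually
    (P := fun (x : E3 × E3 × E3) w => w.1 • x.1 + w.2.1 • x.2.1 + w.2.2 • x.2.2 ≠ 0) fun w hw => ?_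
  exact (isOpen_ne_fun (by fun_prop) continuous_const).mem_nhds (hx w hw)

theorem box_open : IsOpen {x : E3 | x.1 ∉ Box} := by
  have : IsClosed Box := (isClosed_le continuous_const Complex.continuous_re).inter
    ((isClosed_le Complex.continuous_re continuous_const).inter
      ((isClosed_le continuous_const Complex.continuous_im).inter
        (isClosed_le Complex.continuous_im continuous_const)))
  exact this.isOpen_compl.preimage continuous_fst

theorem cont_v {P : FP} (h : Std P) (j : Fin 4) {i : ℕ} (hi : i < P.N) :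
    ContinuousOn (P.v j i) (Icc 0 1) := by
  obtain ⟨L, hL⟩ := h.lip
  refine (LipschitzOnWith.of_dist_le' (K := L) fun x hx y hy => ?_).continuousOn
  rw [dist_eq_norm, Real.dist_eq]
  exact hL j i hi x hx y hy

theorem cont_pt (P : FP) (j : Fin 4) (i : ℕ) : Continuous (P.pt j i) := by
  unfold FP.pt
  fun_prop

variable {ρ : ℝ} {P P' : FP}

theorem ed_le (h : Close ρ P P') (j : Fin 4) {i : ℕ} (hi : i < P.N) :
    dist (P'.ed j i) (P.ed j i) ≤ 2 * ρ := by
  rw [dist_eq_norm, FP.ed, FP.ed, sub_sub_sub_comm]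
  exact (norm_sub_le _ _).trans (by linarith [(h.2 j).1 i hi.le, (h.2 j).1 (i + 1) hi])

theorem pt_le (h : Close ρ P P') (j : Fin 4) {i : ℕ} (hi : i < P.N) {μ : ℝ}
    (hμ : μ ∈ Icc (0 : ℝ) 1) : ‖P'.pt j i μ - P.pt j i μ‖ ≤ ρ := by
  have e : P'.pt j i μ - P.pt j i μ =
      (1 - μ) • (P'.a j i - P.a j i) + μ • (P'.a j (i + 1) - P.a j (i + 1)) := by
    simp only [FP.pt, FP.ed]
    module
  rw [e]
  refine (norm_add_le _ _).trans ?_
  rw [norm_smul, norm_smul, Real.norm_of_nonneg hμ.1, Real.norm_of_nonneg (sub_nonneg.2 hμ.2)]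
  nlinarith [(h.2 j).1 i hi.le, (h.2 j).1 (i + 1) hi, hμ.1, hμ.2]

theorem all {N : ℕ} {l : Filter ℝ} {Q : Fin 4 → ℕ → ℝ → Prop}
    (h : ∀ j, ∀ i < N, ∀ᶠ ρ in l, Q j i ρ) : ∀ᶠ ρ in l, ∀ j, ∀ i < N, Q j i ρ :=
  eventually_all.2 fun j => (eventually_all_finite (finite_lt_nat N)).2 (h j)

theorem imp {l : Filter ℝ} {A : Prop} {Q : ℝ → Prop} (h : A → ∀ᶠ ρ in l, Q ρ) :
    ∀ᶠ ρ in l, A → Q ρ := by
  by_cases hA : A
  · exact (h hA).mono fun _ h _ => h
  · exact Eventually.of_forall fun _ h => (hA h).elim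

end O

open O in
theorem rowO : RowO := by
  intro P hP
  have h1 := all (N := P.N) fun j i hi => near ind_open isCompact_Icc
    (f := fun μ => (P.ed j i, P.ed j i, P.v j i μ))
    (continuousOn_const.prodMk (continuousOn_const.prodMk (cont_v hP.std j hi))) (hP.edge j i hi)
  have h2 := all (N := P.N) fun j i _ => imp fun hi : i + 1 < P.N => near ind_open
    (isCompact_singleton (x := ())) (f := fun _ => (P.ed j i, P.ed j (i + 1), P.v j i 1))
    continuousOn_const fun _ _ => hP.vert j i hi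
  have h3 := all (N := P.N) fun j i _ => all (N := P.N) fun j' i' _ =>
    imp fun hi : 1 ≤ i ∧ i + 2 ≤ P.N ∧ 1 ≤ i' ∧ i' + 2 ≤ P.N ∧ (j ≠ j' ∨ i + 2 ≤ i') =>
      near isOpen_ne (isCompact_Icc.prod isCompact_Icc)
        (f := fun m : ℝ × ℝ => P.pt j i m.1 - P.pt j' i' m.2)
        (((cont_pt P j i).comp continuous_fst).sub
          ((cont_pt P j' i').comp continuous_snd)).continuousOn
        fun m hm => sub_ne_zero.2 (hP.disj j i j' i' hi.1 hi.2.1 hi.2.2.1 hi.2.2.2.1 hi.2.2.2.2 _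
          hm.1 _ hm.2)
  have h4 := all (N := P.N) fun j i _ => imp fun hi : 2 ≤ i ∧ i + 3 ≤ P.N =>
    near box_open isCompact_Icc (cont_pt P j i).continuousOn (hP.box j i hi.1 hi.2)
  obtain ⟨ρ, ⟨⟨⟨k1, k2⟩, k3⟩, k4⟩, hρ⟩ :=
    ((((h1.and h2).and h3).and h4).and self_mem_nhdsWithin).exists
  replace hρ : 0 < ρ := hρ
  refine ⟨ρ, hρ, fun P' hs hc => ?_⟩
  have hv : ∀ j, ∀ i < P.N, ∀ μ ∈ Icc (0 : ℝ) 1, dist (P'.v j i μ) (P.v j i μ) ≤ 2 * ρ :=
    fun j i hi μ hμ => by rw [dist_eq_norm]; linarith [(hc.2 j).2 i hi μ hμ]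
  refine ⟨hs, fun j i hi μ hμ => ?_, fun j i hi => ?_,
    fun j i j' i' a1 a2 a3 a4 a5 μ hμ μ' hμ' => ?_, fun j i a1 a2 μ hμ => ?_⟩ <;> rw [hc.1] at *
  · exact k1 j i hi μ hμ (P'.ed j i, P'.ed j i, P'.v j i μ)
      (max_le (ed_le hc j hi) (max_le (ed_le hc j hi) (hv j i hi μ hμ)))
  · exact k2 j i (by omega) hi () rfl (P'.ed j i, P'.ed j (i + 1), P'.v j i 1)
      (max_le (ed_le hc j (by omega)) (max_le (ed_le hc j hi)
        (hv j i (by omega) 1 ⟨zero_le_one, le_rfl⟩)))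
  · refine sub_ne_zero.1 (k3 j i (by omega) j' i' (by omega) ⟨a1, a2, a3, a4, a5⟩ (μ, μ')
      ⟨hμ, hμ'⟩ _ ?_)
    rw [dist_eq_norm, sub_sub_sub_comm]
    exact (norm_sub_le _ _).trans
      (by linarith [pt_le hc j (show i < P.N by omega) hμ, pt_le hc j' (show i' < P.N by omega) hμ'])
  · refine k4 j i (by omega) ⟨a1, a2⟩ μ hμ _ ?_
    rw [dist_eq_norm]
    linarith [pt_le hc j (show i < P.N by omega) hμ]

end Vale.Agent.Q258U
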