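import Vale.Agent.Q258U.Core
import Mathlib.Tactic.Linarith
import Mathlib.Tactic.Positivity

/-!
# Maxima are pushed up, minima are pushed down
-/

namespace Vale.Agent.Q258U

open Set

namespace Pu

/-- the polygon with new heights of the vertices -/
def rh (P : FP) (h : Fin 4 → ℕ → ℝ) : FP := ⟨P.N, fun j i => ((P.a j i).1, h j i), P.v⟩

variable {P : FP} {h : Fin 4 → ℕ → ℝ}

theorem ed1 (j : Fin 4) (i : ℕ) : ((rh P h).ed j i).1 = (P.ed j i).1 := rfl

theorem ed2 (j : Fin 4) (i : ℕ) : ((rh P h).ed j i).2 = h j (i + 1) - h j i := rfl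

theorem pt1 (j : Fin 4) (i : ℕ) (μ : ℝ) : ((rh P h).pt j i μ).1 = (P.pt j i μ).1 := rfl

theorem pt2 (j : Fin 4) (i : ℕ) (μ : ℝ) :
    ((rh P h).pt j i μ).2 = h j i + μ * (h j (i + 1) - h j i) := rfl

theorem pt2' (j : Fin 4) (i : ℕ) (μ : ℝ) :
    (P.pt j i μ).2 = (P.a j i).2 + μ * ((P.a j (i + 1)).2 - (P.a j i).2) := rfl

theorem ed2' (j : Fin 4) (i : ℕ) : (P.ed j i).2 = (P.a j (i + 1)).2 - (P.a j i).2 := rfl

/-- the edges go up and down as before -/
def Sg (P : FP) (h : Fin 4 → ℕ → ℝ) : Prop :=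
  ∀ j, ∀ i < P.N, (0 < h j (i + 1) - h j i ∧ 0 < (P.ed j i).2) ∨
    (h j (i + 1) - h j i < 0 ∧ (P.ed j i).2 < 0)

theorem up0 (S : Std P) (j : Fin 4) : 0 < (P.ed j 0).2 := by
  have := S.s1h j
  rw [ed2', S.s0]
  simpa using this

theorem up1 (S : Std P) (j : Fin 4) : 0 < (P.ed j 1).2 := sub_pos.2 (S.s2h j)

theorem dn0 (S : Std P) (j : Fin 4) {i : ℕ} (e : i + 1 = P.N) : (P.ed j i).2 < 0 := by
  have := S.e1h j
  rw [ed2', e, S.e0, show i = P.N - 1 by omega]
  simpa using this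

theorem dn1 (S : Std P) (j : Fin 4) {i : ℕ} (e : i + 2 = P.N) : (P.ed j i).2 < 0 := by
  have := S.e2h j
  rw [ed2', show i + 1 = P.N - 1 by omega, show i = P.N - 2 by omega]
  exact sub_neg.2 this

theorem Sg.crit (H : Sg P h) (j : Fin 4) (i : ℕ) : Crit (rh P h) j i ↔ Crit P j i := by
  refine and_congr_right fun hi => ?_
  have hi' : i + 1 < P.N := hi
  rw [ed2, ed2, mul_neg_iff, mul_neg_iff]
  rcases H j i (by omega) with ⟨h1, h2⟩ | ⟨h1, h2⟩ <;>
    rcases H j (i + 1) hi' with ⟨h3, h4⟩ | ⟨h3, h4⟩ <;>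
    simp [h1, h2, h3, h4, not_lt_of_gt h1, not_lt_of_gt h2, not_lt_of_gt h3, not_lt_of_gt h4]

theorem Sg.nh (H : Sg P h) : NH (rh P h) := fun j i hi => by
  rw [ed2]
  rcases H j i hi with ⟨h1, _⟩ | ⟨h1, _⟩
  exacts [h1.ne', h1.ne]

theorem Sg.cnt (H : Sg P h) (j : Fin 4) : cnt (rh P h) j = cnt P j := by
  unfold Q258U.cnt
  congr 1
  ext i
  simp only [Finset.mem_filter, H.crit]
  rfl

theorem Sg.mul (H : Sg P h) {j : Fin 4} {i : ℕ} (hi : i < P.N) {d : ℝ}
    (k : 0 < (P.ed j i).2 * d) : 0 < (h j (i + 1) - h j i) * d := by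
  rcases H j i hi with ⟨h1, h2⟩ | ⟨h1, h2⟩
  · exact mul_pos h1 (pos_of_mul_pos_right k h2.le)
  · refine mul_pos_of_neg_of_neg h1 ?_
    by_contra c
    nlinarith [mul_nonneg (neg_nonneg.2 h2.le) (not_lt.1 c)]

theorem Sg.sgn (H : Sg P h) (G : Sgn P) : Sgn (rh P h) := fun j i c => by
  have c' := (H.crit j i).1 c
  have hi : i < P.N := by have := c'.1; omega
  exact ⟨H.mul hi (G j i c').1, H.mul hi (G j i c').2⟩

theorem Sg.cn (H : Sg P h) (G : CN P) : CN (rh P h) := fun j i c => G j i ((H.crit j i).1 c)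

theorem Sg.std (H : Sg P h) (S : Std P) (h0 : ∀ j, h j 0 = 1) (hN : ∀ j, h j P.N = 1) :
    Std (rh P h) where
  N4 := S.N4
  s0 j := Prod.ext (congrArg Prod.fst (S.s0 j) :) (h0 j)
  s1 := S.s1
  s1h j := by
    have := S.N4
    have u := up0 S j
    rcases H j 0 (by omega) with ⟨h1, _⟩ | ⟨_, h2⟩
    · have := h0 j
      show 1 < h j 1
      simp only [zero_add] at h1
      linarith
    · linarith
  s2h j := by
    have := S.N4
    have u := up1 S j
    rcases H j 1 (by omega) with ⟨h1, _⟩ | ⟨_, h2⟩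
    · exact sub_pos.1 h1
    · linarith
  s2i := S.s2i
  e0 j := Prod.ext (congrArg Prod.fst (S.e0 j) :) (hN j)
  e1 := S.e1
  e1h j := by
    have := S.N4
    have e : P.N - 1 + 1 = P.N := by omega
    have u := dn0 S j e
    rcases H j (P.N - 1) (by omega) with ⟨_, h2⟩ | ⟨h1, _⟩
    · linarith
    · rw [e, hN] at h1
      show 1 < h j (P.N - 1)
      linarith
  e2h j := by
    have := S.N4
    have u := dn1 S j (i := P.N - 2) (by omega)
    rcases H j (P.N - 2) (by omega) with ⟨_, h2⟩ | ⟨h1, _⟩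
    · linarith
    · rw [show P.N - 2 + 1 = P.N - 1 by omega] at h1
      exact sub_neg.1 h1
  e2i := S.e2i
  vs := S.vs
  ve := S.ve
  glue := S.glue
  lip := S.lip

theorem ne_of_ind {e e' V : E3} (k : Ind e e' V) : V ≠ 0 := fun z =>
  one_ne_zero (k 0 0 1 le_rfl le_rfl (by simp [z])).2.2

theorem ind_of {e e' V : E3} (hV : V ≠ 0) (k : ∀ a b c : ℝ, 0 ≤ a → 0 ≤ b →
    a • e + b • e' + c • V = 0 → a = 0 ∧ b = 0) : Ind e e' V := fun a b c ha hb z => by
  obtain ⟨rfl, rfl⟩ := k a b c ha hb z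
  refine ⟨rfl, rfl, ?_⟩
  simpa [hV] using z

theorem two {a b x y : ℝ} (ha : 0 ≤ a) (hb : 0 ≤ b) (hx : 0 < x) (hy : 0 < y)
    (z : a * x + b * y = 0) : a = 0 ∧ b = 0 := by
  have h1 := mul_nonneg ha hx.le
  have h2 := mul_nonneg hb hy.le
  exact ⟨(mul_eq_zero.1 (by linarith : a * x = 0)).resolve_right hx.ne',
    (mul_eq_zero.1 (by linarith : b * y = 0)).resolve_right hy.ne'⟩

theorem ind_same {e e' V : E3} (hV : V ≠ 0) (h0 : V.2 = 0) (h1 : e.2 ≠ 0) (k : 0 < e.2 * e'.2) :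
    Ind e e' V := ind_of hV fun a b c ha hb z => by
  have z2 : a * e.2 + b * e'.2 + c * V.2 = 0 := congrArg Prod.snd z
  refine two ha hb (mul_self_pos.2 h1) k ?_
  rw [h0] at z2
  linear_combination e.2 * z2

theorem ind_crit {e e' V : E3} (hV : V ≠ 0) {t : ℝ} (k : 0 < t * det e.1 V.1)
    (k' : 0 < t * det e'.1 V.1) : Ind e e' V := ind_of hV fun a b c ha hb z => by
  have z1 : a • e.1 + b • e'.1 + c • V.1 = 0 := congrArg Prod.fst z
  have zr := congrArg Complex.re z1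
  have zi := congrArg Complex.im z1
  simp only [Complex.add_re, Complex.add_im, Complex.smul_re, Complex.smul_im, smul_eq_mul,
    Complex.zero_re, Complex.zero_im] at zr zi
  refine two ha hb k k' ?_
  unfold det
  linear_combination t * V.1.im * zr - t * V.1.re * zi

theorem Sg.emb (H : Sg P h) (E : Emb P) (V : HV P) (G : Sgn P) (h0 : ∀ j, h j 0 = 1)
    (hN : ∀ j, h j P.N = 1)
    (D : ∀ j i j' i', 1 ≤ i → i + 2 ≤ P.N → 1 ≤ i' → i' + 2 ≤ P.N → (j ≠ j' ∨ i + 2 ≤ i') →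
      ∀ μ ∈ Icc (0 : ℝ) 1, ∀ μ' ∈ Icc (0 : ℝ) 1, (rh P h).pt j i μ ≠ (rh P h).pt j' i' μ') :
    Emb (rh P h) where
  std := H.std E.std h0 hN
  edge j i hi μ hμ := ind_same (ne_of_ind (E.edge j i hi μ hμ)) (V j i hi μ hμ) (H.nh j i hi)
    (mul_self_pos.2 (H.nh j i hi))
  vert j i hi := by
    have hi' : i + 1 < P.N := hi
    have hi0 : i < P.N := by omega
    have n := ne_of_ind (E.vert j i hi)
    by_cases c : Crit P j i
    · exact ind_crit n (G j i c).1 (G j i c).2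
    · refine ind_same n (V j i hi0 1 ⟨zero_le_one, le_rfl⟩) (H.nh j i hi0) ?_
      have c' : ¬ Crit (rh P h) j i := fun k => c ((H.crit j i).1 k)
      exact lt_of_le_of_ne (not_lt.1 fun k => c' ⟨hi, k⟩)
        (mul_ne_zero (H.nh j i hi0) (H.nh j (i + 1) hi)).symm
  disj := D
  box := E.box

open Classical in
/-- the final heights -/
noncomputable def tg (P : FP) (M : ℝ) (j : Fin 4) : ℕ → ℝ
  | 0 => 1
  | n + 1 => if Crit P j n then (if 0 < (P.ed j n).2 then 2 * M + 4 else 0)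
      else if n + 1 < P.N then (P.a j (n + 1)).2 + (M + 2) else 1

variable {M : ℝ} {j : Fin 4} {i : ℕ}

theorem tg_max (c : Crit P j i) (u : 0 < (P.ed j i).2) : tg P M j (i + 1) = 2 * M + 4 := by
  simp [tg, c, u]

theorem tg_min (c : Crit P j i) (u : (P.ed j i).2 < 0) : tg P M j (i + 1) = 0 := by
  simp [tg, c, u.le]

theorem tg_reg (c : ¬ Crit P j i) (hi : i + 1 < P.N) :
    tg P M j (i + 1) = (P.a j (i + 1)).2 + (M + 2) := by
  simp [tg, c, hi]

theorem tg_end (hi : i + 1 = P.N) : tg P M j (i + 1) = 1 := by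
  have c : ¬ Crit P j i := fun k => by have := k.1; omega
  simp [tg, c, hi]

theorem sg_tg (S : Std P) (hN : NH P) (hM : ∀ j, ∀ n ≤ P.N, |(P.a j n).2| ≤ M) :
    Sg P (tg P M) := fun j i hi => by
  have b0 := abs_le.1 (hM j i hi.le)
  have b1 := abs_le.1 (hM j (i + 1) hi)
  have e := ed2' (P := P) j i
  rcases (hN j i hi).lt_or_gt with d | u
  · refine Or.inr ⟨?_, d⟩
    obtain ⟨k, rfl⟩ : ∃ k, i = k + 1 := by
      cases i with
      | zero => exact absurd (up0 S j) (not_lt_of_gt d)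
      | succ k => exact ⟨k, rfl⟩
    have l : tg P M j (k + 1) = 2 * M + 4 ∨ tg P M j (k + 1) = (P.a j (k + 1)).2 + (M + 2) := by
      by_cases c : Crit P j k
      · refine Or.inl (tg_max c ?_)
        by_contra n
        nlinarith [c.2, mul_nonneg (neg_nonneg.2 (not_lt.1 n)) (neg_nonneg.2 d.le)]
      · exact Or.inr (tg_reg c hi)
    have r : tg P M j (k + 1 + 1) = 0 ∨ tg P M j (k + 1 + 1) = 1 ∨
        tg P M j (k + 1 + 1) = (P.a j (k + 1 + 1)).2 + (M + 2) := by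
      by_cases c : Crit P j (k + 1)
      · exact Or.inl (tg_min c d)
      · rcases (Nat.succ_le_of_lt hi).lt_or_eq with q | q
        · exact Or.inr (Or.inr (tg_reg c q))
        · exact Or.inr (Or.inl (tg_end q))
    rcases l with l | l <;> rcases r with r | r | r <;> rw [l, r] <;> linarith
  · refine Or.inl ⟨?_, u⟩
    have q : i + 1 < P.N := lt_of_le_of_ne hi fun q => absurd (dn0 S j q) (not_lt_of_gt u)
    have r : tg P M j (i + 1) = 2 * M + 4 ∨ tg P M j (i + 1) = (P.a j (i + 1)).2 + (M + 2) := by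
      by_cases c : Crit P j i
      · exact Or.inl (tg_max c u)
      · exact Or.inr (tg_reg c q)
    have l : tg P M j i = 0 ∨ tg P M j i = 1 ∨ tg P M j i = (P.a j i).2 + (M + 2) := by
      cases i with
      | zero => exact Or.inr (Or.inl rfl)
      | succ k =>
        by_cases c : Crit P j k
        · refine Or.inl (tg_min c ?_)
          by_contra n
          nlinarith [c.2, mul_nonneg (not_lt.1 n) u.le]
        · exact Or.inr (Or.inr (tg_reg c hi))
    rcases l with l | l | l <;> rcases r with r | r <;> rw [l, r] <;> linarith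

/-- the heights at the time `s` -/
noncomputable def fam (P : FP) (M s : ℝ) (j : Fin 4) (n : ℕ) : ℝ :=
  (1 - s) * (P.a j n).2 + s * tg P M j n

theorem sg_fam (H : Sg P (tg P M)) {s : ℝ} (hs : s ∈ Icc (0 : ℝ) 1) : Sg P (fam P M s) :=
  fun j i hi => by
    have e : fam P M s j (i + 1) - fam P M s j i =
        (1 - s) * (P.ed j i).2 + s * (tg P M j (i + 1) - tg P M j i) := by
      rw [ed2', fam, fam]; ring
    have h0 := hs.1
    have h1 := sub_nonneg.2 hs.2
    rw [e]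
    rcases H j i hi with ⟨k1, k2⟩ | ⟨k1, k2⟩
    · refine Or.inl ⟨?_, k2⟩
      rcases h0.eq_or_lt with rfl | h0
      · simpa using k2
      · nlinarith [mul_pos h0 k1, mul_nonneg h1 k2.le]
    · refine Or.inr ⟨?_, k2⟩
      rcases h0.eq_or_lt with rfl | h0
      · simpa using k2
      · nlinarith [mul_pos h0 (neg_pos.2 k1), mul_nonneg h1 (neg_pos.2 k2).le]

theorem pt_fam {k : ℕ} (c : ¬ Crit P j k) (c' : ¬ Crit P j (k + 1)) (hk : k + 1 + 2 ≤ P.N)
    (s μ : ℝ) : ((rh P (fam P M s)).pt j (k + 1) μ).2 = (P.pt j (k + 1) μ).2 + s * (M + 2) := by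
  rw [pt2, pt2', fam, fam, tg_reg c (by omega), tg_reg c' (by omega)]
  ring

theorem emb_fam (E : Emb P) (V : HV P) (G : Sgn P) (F : CF P)
    (H : Sg P (tg P M)) {s : ℝ} (hs : s ∈ Icc (0 : ℝ) 1) : Emb (rh P (fam P M s)) := by
  have N4 := E.std.N4
  refine (sg_fam H hs).emb E V G (fun j => ?_) (fun j => ?_) ?_
  · rw [fam, E.std.s0]
    show (1 - s) * 1 + s * 1 = 1
    ring
  · have e : P.N - 1 + 1 = P.N := by omega
    have := tg_end (M := M) (j := j) e
    rw [e] at this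
    rw [fam, E.std.e0, this]
    show (1 - s) * 1 + s * 1 = 1
    ring
  · intro j i j' i' h1 h2 h3 h4 h5 μ hμ μ' hμ' z
    have z1 : (P.pt j i μ).1 = (P.pt j' i' μ').1 := (congrArg Prod.fst z :)
    have z2 := congrArg Prod.snd z
    refine E.disj j i j' i' h1 h2 h3 h4 h5 μ hμ μ' hμ' ?_
    obtain ⟨k, rfl⟩ : ∃ k, i = k + 1 := ⟨i - 1, by omega⟩
    obtain ⟨k', rfl⟩ : ∃ k, i' = k + 1 := ⟨i' - 1, by omega⟩
    by_cases c1 : Crit P j k
    · exact (F j k c1).2 _ (Or.inr rfl) μ hμ j' _ h3 h4 μ' hμ' z1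
    by_cases c2 : Crit P j (k + 1)
    · exact (F j _ c2).2 _ (Or.inl rfl) μ hμ j' _ h3 h4 μ' hμ' z1
    by_cases c3 : Crit P j' k'
    · exact ((F j' k' c3).2 _ (Or.inr rfl) μ' hμ' j _ h1 h2 μ hμ z1.symm).symm
    by_cases c4 : Crit P j' (k' + 1)
    · exact ((F j' _ c4).2 _ (Or.inl rfl) μ' hμ' j _ h1 h2 μ hμ z1.symm).symm
    rw [pt_fam c1 c2 h2, pt_fam c3 c4 h4] at z2
    exact Prod.ext z1 (add_right_cancel z2)

theorem exists_bd (P : FP) : ∃ M : ℝ, 0 ≤ M ∧ ∀ j, ∀ n ≤ P.N, |(P.a j n).2| ≤ M := by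
  obtain ⟨M, hM⟩ := (Set.finite_range fun p : Fin 4 × Fin (P.N + 1) =>
    |(P.a p.1 p.2).2|).bddAbove
  have k : ∀ j, ∀ n ≤ P.N, |(P.a j n).2| ≤ M := fun j n hn =>
    hM ⟨(j, ⟨n, Nat.lt_succ_of_le hn⟩), rfl⟩
  exact ⟨M, (abs_nonneg _).trans (k 0 0 (Nat.zero_le _)), k⟩

end Pu

open Pu in
theorem rowPu (hF : RowFam) : RowPu := fun P E hN V G C F => by
  obtain ⟨M, M0, hM⟩ := exists_bd P
  have H := sg_tg E.std hN hM
  have o : (1 : ℝ) ∈ Icc (0 : ℝ) 1 := ⟨zero_le_one, le_rfl⟩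
  have H1 := sg_fam H o
  refine ⟨rh P (fam P M 1), 2 * M + 4, emb_fam E V G F H o, ?_, H1.nh, H1.cnt, V, H1.sgn G,
    H1.cn C, by linarith, fun j i hi => ?_⟩
  · have k := hF P.N (fun s => (rh P (fam P M s)).a) (fun _ => P.v)
      (fun s hs => emb_fam E V G F H hs) (fun j i _ => ?_) (fun j i hi => ?_)
    · have e : (rh P (fam P M 0)).a = P.a := by
        funext j n
        exact Prod.ext rfl (by simp [rh, fam])
      simp only [e] at k
      exact k
    · refine Continuous.continuousOn (continuous_const.prodMk ?_)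
      unfold fam
      fun_prop
    · obtain ⟨L, hL⟩ := E.std.lip
      have : ContinuousOn (P.v j i) (Icc 0 1) := by
        refine (LipschitzOnWith.of_dist_le' (K := L) fun x hx y hy => ?_).continuousOn
        rw [dist_eq_norm, Real.dist_eq]
        exact hL j i hi x hx y hy
      exact this.comp continuousOn_snd fun p hp => hp.2
  · have hi' : i + 1 < P.N := hi
    have e : ((rh P (fam P M 1)).a j (i + 1)).2 = tg P M j (i + 1) := by simp [rh, fam]
    have b := abs_le.1 (hM j (i + 1) hi'.le)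
    rw [H1.crit, e, ed2]
    refine ⟨fun c u => tg_max c ?_, fun c u => tg_min c ?_, fun c => ?_⟩
    · rcases H1 j i (by omega) with ⟨_, k⟩ | ⟨k, _⟩
      exacts [k, absurd u (not_lt_of_gt k)]
    · rcases H1 j i (by omega) with ⟨k, _⟩ | ⟨_, k⟩
      exacts [absurd u (not_lt_of_gt k), k]
    · rw [tg_reg c hi']
      constructor <;> linarith

end Vale.Agent.Q258U
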