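import Vale.Agent.Q258U.Core

/-!
# Short edges at the critical points
-/

set_option linter.all false

namespace Vale.Agent.Q258U.R

open Set Complex Filter Topology

theorem pt_zero (P : FP) (j : Fin 4) (i : ℕ) : P.pt j i 0 = P.a j i := by simp [FP.pt]

theorem pt_one (P : FP) (j : Fin 4) (i : ℕ) : P.pt j i 1 = P.a j (i + 1) := by
  simp [FP.pt, FP.ed]

theorem pt_end (P : FP) (j : Fin 4) (i : ℕ) (t : ℝ) :
    P.pt j i t = P.a j (i + 1) + (t - 1) • P.ed j i := by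
  rw [← pt_one, FP.pt, FP.pt, add_assoc, ← add_smul]; congr 2; ring

theorem a_lo (μ : ℝ) (P : FP) (j : Fin 4) {q r : ℕ} (hq : q + 2 ≤ P.N) (hr : r < 3)
    (h : 3 * q + 1 + r ≠ 3 * P.N - 4) :
    (tri3 μ P).a j (3 * q + 1 + r) = P.pt j (q + 1) (al μ r) := by
  have h1 : (3 * q + 1 + r - 1) / 3 = q := by omega
  have h2 : (3 * q + 1 + r - 1) % 3 = r := by omega
  simp only [tri3]
  rw [if_neg (by omega), if_neg h, h1, h2]

theorem a_hi (μ : ℝ) (P : FP) (j : Fin 4) {q r : ℕ} (hq : q + 3 ≤ P.N) (hr : r < 3) :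
    (tri3 μ P).a j (3 * q + 1 + r + 1) = P.pt j (q + 1) (al μ (r + 1)) := by
  by_cases h : r = 2
  · subst h
    have := a_lo μ P j (q := q + 1) (r := 0) (by omega) (by omega) (by omega)
    rw [show 3 * q + 1 + 2 + 1 = 3 * (q + 1) + 1 + 0 by ring, this]
    rw [show al μ 0 = 0 by simp [al], show al μ (2 + 1) = 1 by simp [al], pt_zero, pt_one]
  · exact a_lo μ P j (q := q) (r := r + 1) (by omega) (by omega) (by omega)

theorem ed_eq (μ : ℝ) (P : FP) (j : Fin 4) {q r : ℕ} (hq : q + 3 ≤ P.N) (hr : r < 3) :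
    (tri3 μ P).ed j (3 * q + 1 + r) = (al μ (r + 1) - al μ r) • P.ed j (q + 1) := by
  rw [FP.ed, a_hi μ P j hq hr, a_lo μ P j (by omega) hr (by omega), FP.pt, FP.pt, sub_smul]
  abel

theorem pt_eq (μ : ℝ) (P : FP) (j : Fin 4) {q r : ℕ} (hq : q + 3 ≤ P.N) (hr : r < 3) (ν : ℝ) :
    (tri3 μ P).pt j (3 * q + 1 + r) ν =
      P.pt j (q + 1) (al μ r + ν * (al μ (r + 1) - al μ r)) := by
  rw [FP.pt, ed_eq μ P j hq hr, a_lo μ P j (by omega) hr (by omega), FP.pt, FP.pt, smul_smul,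
    add_assoc, ← add_smul]

theorem v_eq (μ : ℝ) (P : FP) (j : Fin 4) {q r : ℕ} (hq : q + 3 ≤ P.N) (hr : r < 3) (ν : ℝ) :
    (tri3 μ P).v j (3 * q + 1 + r) ν =
      P.v j (q + 1) (al μ r + ν * (al μ (r + 1) - al μ r)) := by
  have h1 : (3 * q + 1 + r - 1) / 3 = q := by omega
  have h2 : (3 * q + 1 + r - 1) % 3 = r := by omega
  simp only [tri3]
  rw [if_neg (by omega), if_neg (by omega), h1, h2]

theorem par_mem {μ : ℝ} (h0 : 0 < μ) (h1 : μ < 1 / 2) {r : ℕ} (hr : r < 3) {ν : ℝ}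
    (hν : ν ∈ Icc (0 : ℝ) 1) : al μ r + ν * (al μ (r + 1) - al μ r) ∈ Icc (0 : ℝ) 1 := by
  obtain ⟨a, b⟩ := hν
  interval_cases r <;> simp [al] <;> constructor <;> nlinarith

theorem inner {N n : ℕ} (h1 : 1 ≤ n) (h2 : n + 2 ≤ 3 * N - 4) :
    ∃ q r, q + 3 ≤ N ∧ r < 3 ∧ n = 3 * q + 1 + r :=
  ⟨(n - 1) / 3, (n - 1) % 3, by omega, by omega, by omega⟩

theorem crit_rng {P : FP} (h : Std P) {j : Fin 4} {i : ℕ} (c : Crit P j i) :
    1 ≤ i ∧ i + 3 ≤ P.N := by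
  obtain ⟨c1, c2⟩ := c
  have N4 := h.N4
  constructor
  · by_contra h0
    obtain rfl : i = 0 := by omega
    have a := h.s1h j
    have b := h.s2h j
    simp only [FP.ed, Prod.snd_sub, h.s0 j, zero_add] at c2
    nlinarith
  · by_contra h0
    have e1 : i = P.N - 2 := by omega
    have e2 : i + 1 = P.N - 1 := by omega
    have e3 : i + 1 + 1 = P.N := by omega
    have a := h.e1h j
    have b := h.e2h j
    simp only [FP.ed, Prod.snd_sub] at c2
    rw [e3, e2, h.e0 j] at c2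
    rw [← e1] at b
    simp only at c2
    nlinarith

theorem det_smul (t : ℝ) (a b : ℂ) : det (t • a) b = t * det a b := by
  simp [det]; ring

/-- two multiples of independent vectors -/
theorem indep {a b : ℂ} (h : det a b ≠ 0) {s t : ℝ} (e : s • a = t • b) : s = 0 ∧ t = 0 := by
  have h1 := congrArg Complex.re e
  have h2 := congrArg Complex.im e
  simp only [real_smul, mul_re, ofReal_re, ofReal_im, zero_mul, sub_zero, mul_im, add_zero] at h1 h2
  unfold det at h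
  constructor
  · refine (mul_eq_zero.1 (?_ : s * (a.re * b.im - a.im * b.re) = 0)).resolve_right h
    linear_combination b.im * h1 - b.re * h2
  · refine (mul_eq_zero.1 (?_ : t * (a.re * b.im - a.im * b.re) = 0)).resolve_right h
    linear_combination a.im * h1 - a.re * h2

theorem same {a : ℂ} (h : a ≠ 0) {s t : ℝ} (e : s • a = t • a) : s = t :=
  smul_left_injective ℝ h e

theorem near (P : FP) (z e : ℂ) (j : Fin 4) (i : ℕ)
    (h : ∀ t ∈ Icc (0 : ℝ) 1, (P.pt j i t).1 ≠ z) :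
    ∀ᶠ s : ℝ in 𝓝 0, ∀ t ∈ Icc (0 : ℝ) 1, (P.pt j i t).1 ≠ z + s • e := by
  have hc : IsCompact ((fun t : ℝ => (P.pt j i t).1) '' Icc 0 1) :=
    isCompact_Icc.image (by unfold FP.pt; fun_prop)
  have h1 : Continuous fun s : ℝ => z + s • e := by fun_prop
  have h2 : ((fun s : ℝ => z + s • e) ⁻¹' ((fun t : ℝ => (P.pt j i t).1) '' Icc 0 1)ᶜ) ∈ 𝓝 (0 : ℝ) := by
    refine (hc.isClosed.isOpen_compl.preimage h1).mem_nhds ?_
    rintro ⟨t, ht, e⟩
    exact h t ht (by simpa using e)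
  filter_upwards [h2] with s hs t ht e
  exact hs ⟨t, ht, e⟩

theorem far {P : FP} (h : GenP P) : ∃ δ : ℝ, 0 < δ ∧ ∀ s : ℝ, |s| < δ → ∀ j i, 1 ≤ i →
    i + 3 ≤ P.N → ∀ j' i', 1 ≤ i' → i' + 2 ≤ P.N → (j' ≠ j ∨ (i' ≠ i ∧ i' ≠ i + 1)) →
      ∀ t ∈ Icc (0 : ℝ) 1, (P.pt j' i' t).1 ≠ (P.a j (i + 1)).1 + s • (P.ed j i).1 ∧
        (P.pt j' i' t).1 ≠ (P.a j (i + 1)).1 + s • (P.ed j (i + 1)).1 := by
  have key : ∀ᶠ s : ℝ in 𝓝 0, ∀ (j : Fin 4) (i : Fin P.N) (j' : Fin 4) (i' : Fin P.N),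
      1 ≤ i.val → i.val + 3 ≤ P.N → 1 ≤ i'.val → i'.val + 2 ≤ P.N →
      (j' ≠ j ∨ (i'.val ≠ i.val ∧ i'.val ≠ i.val + 1)) →
      ∀ t ∈ Icc (0 : ℝ) 1, (P.pt j' i' t).1 ≠ (P.a j (i + 1)).1 + s • (P.ed j i).1 ∧
        (P.pt j' i' t).1 ≠ (P.a j (i + 1)).1 + s • (P.ed j (i + 1)).1 := by
    simp only [eventually_all]
    intro j i j' i' h1 h2 h3 h4 h5
    have k := (h j i h1 h2).2 j' i' h3 h4 h5
    filter_upwards [near P _ (P.ed j i).1 j' i' k, near P _ (P.ed j (i + 1)).1 j' i' k] with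
      s a b t ht using ⟨a t ht, b t ht⟩
  obtain ⟨δ, hδ, H⟩ := Metric.eventually_nhds_iff.1 key
  refine ⟨δ, hδ, fun s hs j i h1 h2 j' i' h3 h4 h5 => ?_⟩
  exact H (by simpa [Real.dist_eq] using hs) j ⟨i, by omega⟩ j' ⟨i', by omega⟩ h1 h2 h3 h4 h5

end Vale.Agent.Q258U.R

namespace Vale.Agent.Q258U

open Set Complex R

theorem rowR (hT : RowT) : RowR := by
  intro P hE hN hG hH hS hC
  obtain ⟨δ, hδ, hfar⟩ := far hG
  obtain ⟨μ, m0, m3, mδ⟩ : ∃ μ : ℝ, 0 < μ ∧ μ ≤ 1 / 3 ∧ μ < δ :=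
    ⟨min (1 / 3) (δ / 2), lt_min (by norm_num) (by linarith), min_le_left _ _,
      (min_le_right _ _).trans_lt (by linarith)⟩
  have m2 : μ < 1 / 2 := by linarith
  obtain ⟨E', B', T'⟩ := hT.1 P hE μ m0 m2
  obtain ⟨N', C', K'⟩ := T' hN
  have N4 := hE.std.N4
  have hQ : (tri3 μ P).N = 3 * P.N - 4 := rfl
  -- the two edges at a critical point
  have crit : ∀ j n, Crit (tri3 μ P) j n → ∃ q, n = 3 * q + 1 + 2 ∧ Crit P j (q + 1) ∧
      q + 1 + 3 ≤ P.N := fun j n c => by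
    obtain ⟨i, rfl, ci⟩ := (K' j n).1 c
    obtain ⟨h1, h2⟩ := crit_rng hE.std ci
    obtain ⟨q, rfl⟩ : ∃ q, i = q + 1 := ⟨i - 1, by omega⟩
    exact ⟨q, by ring, ci, h2⟩
  have nx : ∀ q : ℕ, 3 * q + 1 + 2 + 1 = 3 * (q + 1) + 1 + 0 := fun q => by ring
  have a0 : al μ 0 = 0 := by simp [al]
  have a1 : al μ (0 + 1) = μ := by simp [al]
  have a2 : al μ 2 = 1 - μ := by simp [al]
  have a3 : al μ (2 + 1) = 1 := by simp [al]
  have v1 : ∀ j q, q + 3 ≤ P.N → (tri3 μ P).v j (3 * q + 1 + 2) 1 = P.v j (q + 1) 1 :=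
    fun j q hq => by rw [v_eq μ P j hq (by norm_num), a2, a3]; congr 1; ring
  refine ⟨tri3 μ P, E', B', N', C', ?_, ?_, ?_, ?_⟩
  · intro j n hn ν hν
    by_cases h0 : n = 0
    · subst h0
      exact hH j 0 (by omega) ν hν
    by_cases h1 : n = 3 * P.N - 5
    · have : (tri3 μ P).v j n ν = P.v j (P.N - 1) ν := by
        simp only [tri3]; rw [if_neg h0, if_pos h1]
      rw [this]
      exact hH j _ (by omega) ν hν
    obtain ⟨q, r, hq, hr, rfl⟩ := inner (N := P.N) (n := n) (by omega) (by omega)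
    rw [v_eq μ P j hq hr]
    exact hH j _ (by omega) _ (par_mem m0 m2 hr hν)
  · intro j n c
    obtain ⟨q, rfl, ci, hq⟩ := crit j n c
    obtain ⟨s1, s2⟩ := hS j _ ci
    rw [v1 j q (by omega), nx, ed_eq μ P j (q := q) (by omega) (by norm_num),
      ed_eq μ P j (q := q + 1) hq (by norm_num), a0, a1, a2, a3]
    simp only [Prod.smul_fst, Prod.smul_snd, det_smul, smul_eq_mul, sub_sub_cancel, sub_zero]
    have := mul_pos m0 m0
    constructor <;> nlinarith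
  · intro j n c ν hν
    obtain ⟨q, rfl, ci, hq⟩ := crit j n c
    have hm : ν * μ ∈ Icc (0 : ℝ) (1 / 3) := ⟨by nlinarith [hν.1], by nlinarith [hν.2]⟩
    have hm' : μ - ν * μ ∈ Icc (0 : ℝ) (1 / 3) := ⟨by nlinarith [hν.2], by nlinarith [hν.1]⟩
    rw [v1 j q (by omega), nx, v_eq μ P j (q := q) (by omega) (by norm_num),
      v_eq μ P j (q := q + 1) hq (by norm_num), a0, a1, a2, a3]
    constructor
    · rw [← (hC j (q + 1) (by omega) (by omega) _ hm').2]; congr 1; ring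
    · rw [hE.std.glue j (q + 1) (by omega), ← (hC j (q + 1 + 1) (by omega) (by omega) _ hm).1]
      congr 1; ring
  · intro j n c
    obtain ⟨q, rfl, ci, hq⟩ := crit j n c
    refine ⟨fun c' => ?_, fun i0 hi ν hν j' n' h1 h2 ν' hν' => ?_⟩
    · obtain ⟨q', e, -⟩ := crit j _ c'
      omega
    obtain ⟨q', r', hq', hr', rfl⟩ := inner (N := P.N) h1 h2
    rw [pt_eq μ P j' hq' hr']
    have ht := par_mem m0 m2 hr' hν'
    generalize al μ r' + ν' * (al μ (r' + 1) - al μ r') = t at ht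
    have hd := (hG j (q + 1) (by omega) hq).1
    have n1 : (P.ed j (q + 1)).1 ≠ 0 := fun e => hd (by simp [e, det])
    have n2 : (P.ed j (q + 1 + 1)).1 ≠ 0 := fun e => hd (by simp [e, det])
    obtain ⟨s, hs, hp⟩ : ∃ s : ℝ, |s| < δ ∧
        ((tri3 μ P).pt j i0 ν = P.a j (q + 1 + 1) + s • P.ed j (q + 1) ∨
          (tri3 μ P).pt j i0 ν = P.a j (q + 1 + 1) + s • P.ed j (q + 1 + 1)) := by
      rcases hi with rfl | rfl
      · refine ⟨ν * μ - μ, abs_lt.2 ⟨by nlinarith [hν.1], by nlinarith [hν.2]⟩, Or.inl ?_⟩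
        rw [pt_eq μ P j (q := q) (by omega) (by norm_num), a2, a3, pt_end]; congr 2; ring
      · refine ⟨ν * μ, abs_lt.2 ⟨by nlinarith [hν.1], by nlinarith [hν.2]⟩, Or.inr ?_⟩
        rw [nx, pt_eq μ P j (q := q + 1) hq (by norm_num), a0, a1, FP.pt]; congr 2; ring
    generalize (tri3 μ P).pt j i0 ν = X at hp
    intro e
    by_cases hc : j' ≠ j ∨ (q' + 1 ≠ q + 1 ∧ q' + 1 ≠ q + 1 + 1)
    · have k := hfar s hs j (q + 1) (by omega) hq j' (q' + 1) (by omega) (by omega) hc t ht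
      rcases hp with hp | hp <;> rw [hp] at e
      · exact absurd e.symm k.1
      · exact absurd e.symm k.2
    obtain ⟨rfl, hq2⟩ : j' = j ∧ (q' = q ∨ q' = q + 1) := by
      constructor
      · by_contra h; exact hc (Or.inl h)
      · by_contra h; exact hc (Or.inr (by omega))
    rcases hq2 with rfl | rfl
    · rw [pt_end] at e ⊢
      rcases hp with rfl | rfl <;>
        simp only [Prod.fst_add, Prod.smul_fst, add_right_inj] at e
      · rw [same n1 e]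
      · obtain ⟨e1, e2⟩ := indep hd e.symm
        rw [e1, e2, zero_smul, zero_smul]
    · rw [FP.pt] at e ⊢
      rcases hp with rfl | rfl <;>
        simp only [Prod.fst_add, Prod.smul_fst, add_right_inj] at e
      · obtain ⟨e1, e2⟩ := indep hd e
        rw [e1, e2, zero_smul, zero_smul]
      · rw [same n2 e]

end Vale.Agent.Q258U
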