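import Vale.Agent.Q258U.Core
import Mathlib.Analysis.Calculus.MeanValue
import Mathlib.Analysis.Calculus.ContDiff.RCLike
import Mathlib.Analysis.SpecialFunctions.Trigonometric.Bounds
import Mathlib.Topology.UniformSpace.HeineCantor
import Mathlib.Topology.Connected.Clopen

/-!
# Shrinking a surface does not change the type of its boundary
-/

set_option linter.all false

namespace Vale.Agent.Q258U

open Set Filter Topology Metric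

namespace S1

/-- small displacements in a chart give small displacements in the space -/
def Cl (φ : ℝ × ℝ → E3) (η ρ : ℝ) : Prop :=
  ∀ x y a b : ℝ × ℝ, ‖x‖ ≤ 100 → ‖y‖ ≤ 100 → ‖a‖ ≤ ρ → ‖b‖ ≤ ρ → ‖a - b‖ ≤ ρ * ‖x - y‖ →
    ‖φ (x + a) - φ x‖ ≤ η ∧ ‖(φ (x + a) - φ x) - (φ (y + b) - φ y)‖ ≤ η * ‖x - y‖

theorem mvi {φ : ℝ × ℝ → E3} (hφ : ContDiff ℝ 1 φ) {η : ℝ} (hη : 0 < η) :
    ∀ᶠ ρ in 𝓝[>] (0 : ℝ), Cl φ η ρ := by
  obtain ⟨K, hK⟩ := hφ.contDiffOn.exists_lipschitzOnWith (s := closedBall 0 101) one_ne_zero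
    (convex_closedBall _ _) (isCompact_closedBall _ _)
  obtain ⟨δ, hδ, hu⟩ := Metric.uniformContinuousOn_iff.1
    ((isCompact_closedBall (0 : ℝ × ℝ) 101).uniformContinuousOn_of_continuous
      (hφ.continuous_fderiv one_ne_zero).continuousOn) (η / 2) (half_pos hη)
  have hK0 : (0 : ℝ) ≤ K := K.2
  have hd := hφ.differentiable one_ne_zero
  have h0 : 0 < min (min δ 1) (η / 2 / (K + 1)) := by positivity
  filter_upwards [Ioo_mem_nhdsGT h0] with ρ hρ x y a b hx hy ha hb hab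
  have r1 : ρ < δ := hρ.2.trans_le ((min_le_left _ _).trans (min_le_left _ _))
  have r2 : ρ < 1 := hρ.2.trans_le ((min_le_left _ _).trans (min_le_right _ _))
  have r3 : K * ρ ≤ η / 2 := by
    have := (lt_div_iff₀ (by positivity)).1 (hρ.2.trans_le (min_le_right _ _))
    nlinarith [hρ.1]
  have m1 : ∀ z c : ℝ × ℝ, ‖z‖ ≤ 100 → ‖c‖ ≤ ρ → z + c ∈ closedBall (0 : ℝ × ℝ) 101 :=
    fun z c hz hc => mem_closedBall_zero_iff.2 ((norm_add_le _ _).trans (by linarith))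
  have m0 : ∀ z : ℝ × ℝ, ‖z‖ ≤ 100 → z ∈ closedBall (0 : ℝ × ℝ) 101 :=
    fun z hz => mem_closedBall_zero_iff.2 (by linarith)
  have lip : ∀ z ∈ closedBall (0 : ℝ × ℝ) 101, ∀ z' ∈ closedBall (0 : ℝ × ℝ) 101,
      ‖φ z - φ z'‖ ≤ K * ‖z - z'‖ := fun z hz z' hz' => by
    have := hK.dist_le_mul z hz z' hz'
    rwa [dist_eq_norm, dist_eq_norm] at this
  constructor
  · have := lip _ (m1 x a hx ha) _ (m0 x hx)
    rw [add_sub_cancel_left] at this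
    nlinarith [mul_le_mul_of_nonneg_left ha hK0]
  · have k1 : ‖(φ (x + a) - φ x) - (φ (y + a) - φ y)‖ ≤ η / 2 * ‖x - y‖ := by
      refine (convex_closedBall (0 : ℝ × ℝ) 100).norm_image_sub_le_of_norm_hasFDerivWithin_le
        (f := fun z => φ (z + a) - φ z) (f' := fun z => fderiv ℝ φ (z + a) - fderiv ℝ φ z)
        (fun z _ => ?_) (fun z hz => ?_) (mem_closedBall_zero_iff.2 hy)
        (mem_closedBall_zero_iff.2 hx)
      · refine (HasFDerivAt.sub ?_ (hd z).hasFDerivAt).hasFDerivWithinAt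
        exact (hasFDerivAt_comp_add_right a).2 (hd (z + a)).hasFDerivAt
      · have hz' := mem_closedBall_zero_iff.1 hz
        have := hu _ (m1 z a hz' ha) _ (m0 z hz') (by
          rw [dist_eq_norm, add_sub_cancel_left]; linarith)
        rw [dist_eq_norm] at this
        exact this.le
    have k2 := lip _ (m1 y a hy ha) _ (m1 y b hy hb)
    rw [add_sub_add_left_eq_sub] at k2
    have k3 : K * ‖a - b‖ ≤ η / 2 * ‖x - y‖ :=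
      (mul_le_mul_of_nonneg_left hab hK0).trans (by
        rw [← mul_assoc]; exact mul_le_mul_of_nonneg_right r3 (norm_nonneg _))
    calc _ = ‖((φ (x + a) - φ x) - (φ (y + a) - φ y)) + (φ (y + a) - φ (y + b))‖ := by
          congr 1; abel
      _ ≤ _ := norm_add_le _ _
      _ ≤ _ := by linarith

theorem img {u : ℝ → ℝ} {p q : ℝ} (hpq : p ≤ q)
    (h : ∀ a ∈ Icc p q, ∀ b ∈ Icc p q, |(u a - a) - (u b - b)| ≤ |a - b|) :
    u '' Icc p q = Icc (u p) (u q) := by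
  refine ContinuousOn.image_Icc_of_monotoneOn hpq ?_ fun a ha b hb hab => ?_
  · refine (LipschitzOnWith.of_dist_le_mul (K := 2) fun a ha b hb => ?_).continuousOn
    have := h a ha b hb
    rw [Real.dist_eq, Real.dist_eq]
    have e : u a - u b = ((u a - a) - (u b - b)) + (a - b) := by ring
    rw [e]
    refine (abs_add_le _ _).trans ?_
    push_cast
    linarith
  · have := h a ha b hb
    rw [abs_of_nonpos (sub_nonpos.2 hab)] at this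
    linarith [(abs_le.1 this).2]

/-- the displacements of two points differ little -/
def Good (p q : E3 × E3) : Prop := ‖(p.2 - p.1) - (q.2 - q.1)‖ ≤ 1 / 4 * ‖p.1 - q.1‖

theorem Good.symm {p q : E3 × E3} (h : Good p q) : Good q p := by
  unfold Good at h ⊢
  rwa [norm_sub_rev, norm_sub_rev q.1]

theorem ofRel (hM : RowM) (S : Set (E3 × E3)) (h : ∀ p ∈ S, ∀ q ∈ S, Good p q) :
    Eqv (Prod.fst '' S) (Prod.snd '' S) := by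
  obtain ⟨H, e⟩ := hM S (fun x => x.1.1) (fun x => x.1.2) fun x y => h _ x.2 _ y.2
  have := Eqv.of_param H e
  rwa [← image_eq_range, ← image_eq_range] at this

theorem far {c : ℝ} {p q : E3 × E3} (h1 : ‖p.2 - p.1‖ ≤ c / 8) (h2 : ‖q.2 - q.1‖ ≤ c / 8)
    (h3 : c ≤ ‖p.1 - q.1‖) : Good p q :=
  (norm_sub_le _ _).trans (by linarith)

theorem mul_le {a b A B : ℝ} (ha : |a| ≤ A) (hb : |b| ≤ B) : |a * b| ≤ A * B := by
  rw [abs_mul]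
  exact mul_le_mul ha hb (abs_nonneg _) ((abs_nonneg _).trans ha)

/-- the estimate in the chart of the disc -/
theorem hom {r t t' ξ ξ' b b' w w' D : ℝ} (hr : r ≤ 1) (ht : t ∈ Icc (0 : ℝ) 2)
    (ht' : t' ∈ Icc (0 : ℝ) 2) (hξ : ξ ∈ Icc (-1 : ℝ) 29) (hξ' : ξ' ∈ Icc (-1 : ℝ) 29)
    (hb : |b| ≤ r) (hbb : |b - b'| ≤ r * |t - t'|) (hw : |w| ≤ r) (hw' : |w'| ≤ r)
    (hww : |w - w'| ≤ r * |ξ - ξ'|) (h1 : |t * ξ - t' * ξ'| ≤ D) (h2 : |t - t'| ≤ D) :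
    |((t + t * b) * (ξ + w) - t * ξ) - ((t' + t' * b') * (ξ' + w') - t' * ξ')| ≤ 200 * r * D := by
  have r0 : 0 ≤ r := (abs_nonneg _).trans hb
  have D0 : 0 ≤ D := (abs_nonneg _).trans h2
  have a1 : |ξ| ≤ 29 := abs_le.2 ⟨by linarith [hξ.1], hξ.2⟩
  have a1' : |ξ'| ≤ 29 := abs_le.2 ⟨by linarith [hξ'.1], hξ'.2⟩
  have a2 : |t'| ≤ 2 := abs_le.2 ⟨by linarith [ht'.1], ht'.2⟩
  have a3 : |b - b'| ≤ r * D := hbb.trans (mul_le_mul_of_nonneg_left h2 r0)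
  have a4 : |t' * (ξ - ξ')| ≤ 30 * D := by
    have e : t' * (ξ - ξ') = (t * ξ - t' * ξ') - (t - t') * ξ := by ring
    rw [e]
    refine (abs_sub _ _).trans ?_
    linarith [mul_le h2 a1]
  have a5 : |t' * (w - w')| ≤ r * (30 * D) := by
    rw [abs_mul] at a4 ⊢
    calc _ ≤ |t'| * (r * |ξ - ξ'|) := mul_le_mul_of_nonneg_left hww (abs_nonneg _)
      _ = r * (|t'| * |ξ - ξ'|) := by ring
      _ ≤ _ := mul_le_mul_of_nonneg_left a4 r0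
  have a6 : |t * w - t' * w'| ≤ 31 * r * D := by
    have e : t * w - t' * w' = (t - t') * w + t' * (w - w') := by ring
    rw [e]
    refine (abs_add_le _ _).trans ?_
    linarith [mul_le h2 hw]
  have a7 : |1 + b| ≤ 2 := (abs_add_le _ _).trans (by rw [abs_one]; linarith)
  have e : ((t + t * b) * (ξ + w) - t * ξ) - ((t' + t' * b') * (ξ' + w') - t' * ξ') =
      (b * (t * ξ - t' * ξ') + (b - b') * (t' * ξ')) +
        ((1 + b) * (t * w - t' * w') + (b - b') * (t' * w')) := by ring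
  rw [e]
  have b1 := mul_le hb h1
  have b2 := mul_le a3 (mul_le a2 a1')
  have b3 := mul_le a7 a6
  have b4 := mul_le a3 (mul_le a2 (hw'.trans hr))
  have rD := mul_nonneg r0 D0
  refine (abs_add_le _ _).trans ((add_le_add (abs_add_le _ _) (abs_add_le _ _)).trans ?_)
  linarith

/-- a point of the disc and its displaced copy -/
def PF (f : ℝ × ℝ → E3) (θ ψ : ℝ → ℝ) (L : ℝ) (p : E3 × E3) : Prop :=
  ∃ ξ ∈ Icc (-1 : ℝ) 29, ∃ t ∈ Icc (0 : ℝ) L, p = (f (t * ξ, t), f (θ t * ψ ξ, θ t))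

/-- a point on the edge of a band and its displaced copy -/
def PG (g : ℝ × ℝ → E3) (θ : ℝ → ℝ) (e e' : ℝ) (u v : ℝ) (p : E3 × E3) : Prop :=
  ∃ t ∈ Icc u v, ∃ σ : ℝ, (σ = 1 ∨ σ = -1) ∧ p = (g (t, σ * e), g (θ t, σ * e'))

theorem mem_tri {t ξ : ℝ} (ht : t ∈ Icc (0 : ℝ) 2) (hξ : ξ ∈ Icc (-1 : ℝ) 29) :
    (t * ξ, t) ∈ tri :=
  ⟨ht.2, by nlinarith [ht.1, hξ.1], by nlinarith [ht.1, hξ.2]⟩

theorem nrm_le {x y B : ℝ} (hx : |x| ≤ B) (hy : |y| ≤ B) : ‖((x, y) : ℝ × ℝ)‖ ≤ B :=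
  max_le hx hy

theorem abs_sg {σ e : ℝ} (hσ : σ = 1 ∨ σ = -1) : |σ * e| = |e| := by
  rcases hσ with rfl | rfl <;> simp

theorem FF {f : ℝ × ℝ → E3} {c ρ r : ℝ} {b w : ℝ → ℝ}
    (c1 : ∀ x ∈ tri, ∀ y ∈ tri, c * ‖x - y‖ ≤ ‖f x - f y‖) (hf : Cl f (c / 8) ρ)
    (hr : 200 * r ≤ ρ) (hρ : ρ ≤ 1) (b1 : ∀ t ∈ Icc (0 : ℝ) 5, |b t| ≤ r)
    (b2 : ∀ t ∈ Icc (0 : ℝ) 5, ∀ t' ∈ Icc (0 : ℝ) 5, |b t - b t'| ≤ r * |t - t'|)
    (w1 : ∀ ξ, |w ξ| ≤ r) (w2 : ∀ ξ ξ', |w ξ - w ξ'| ≤ r * |ξ - ξ'|) {p q : E3 × E3}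
    (hp : PF f (fun t => t + t * b t) (fun ξ => ξ + w ξ) 2 p)
    (hq : PF f (fun t => t + t * b t) (fun ξ => ξ + w ξ) 2 q) :
    ‖p.2 - p.1‖ ≤ c / 8 ∧ Good p q := by
  obtain ⟨ξ, hξ, t, ht, rfl⟩ := hp
  obtain ⟨ξ', hξ', t', ht', rfl⟩ := hq
  have r0 : 0 ≤ r := (abs_nonneg _).trans (w1 0)
  have i5 : ∀ {t : ℝ}, t ∈ Icc (0 : ℝ) 2 → t ∈ Icc (0 : ℝ) 5 := fun h => ⟨h.1, by linarith [h.2]⟩
  have a2 : ∀ {t : ℝ}, t ∈ Icc (0 : ℝ) 2 → |t| ≤ 2 := fun h => abs_le.2 ⟨by linarith [h.1], h.2⟩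
  have a1 : ∀ {t : ℝ}, t ∈ Icc (-1 : ℝ) 29 → |t| ≤ 29 :=
    fun h => abs_le.2 ⟨by linarith [h.1], h.2⟩
  have n1 : ∀ {t ξ : ℝ}, t ∈ Icc (0 : ℝ) 2 → ξ ∈ Icc (-1 : ℝ) 29 → ‖(t * ξ, t)‖ ≤ 100 :=
    fun ht hξ => nrm_le ((mul_le (a2 ht) (a1 hξ)).trans (by norm_num)) ((a2 ht).trans (by norm_num))
  have n2 : ∀ {t ξ : ℝ}, t ∈ Icc (0 : ℝ) 2 → ξ ∈ Icc (-1 : ℝ) 29 →
      ‖((t + t * b t) * (ξ + w ξ) - t * ξ, t * b t)‖ ≤ ρ := by
    intro t ξ ht hξ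
    have k1 := mul_le (a2 ht) (b1 t (i5 ht))
    refine nrm_le ?_ (by linarith)
    have e : (t + t * b t) * (ξ + w ξ) - t * ξ = (t * b t) * ξ + (t * w ξ + t * b t * w ξ) := by
      ring
    rw [e]
    have k2 := mul_le k1 (a1 hξ)
    have k3 := mul_le (a2 ht) (w1 ξ)
    have k4 := mul_le k1 ((w1 ξ).trans (by linarith : r ≤ 1))
    refine (abs_add_le _ _).trans ((add_le_add le_rfl (abs_add_le _ _)).trans ?_)
    linarith
  have d1 : |t * ξ - t' * ξ'| ≤ ‖(t * ξ, t) - (t' * ξ', t')‖ :=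
    norm_fst_le ((t * ξ, t) - (t' * ξ', t'))
  have d2 : |t - t'| ≤ ‖(t * ξ, t) - (t' * ξ', t')‖ := norm_snd_le ((t * ξ, t) - (t' * ξ', t'))
  have low := c1 _ (mem_tri ht hξ) _ (mem_tri ht' hξ')
  have key := hf (t * ξ, t) (t' * ξ', t') _ _ (n1 ht hξ) (n1 ht' hξ') (n2 ht hξ) (n2 ht' hξ') (by
    generalize ‖(t * ξ, t) - (t' * ξ', t')‖ = D at d1 d2
    have D0 : 0 ≤ D := (abs_nonneg _).trans d2
    have rD : 200 * r * D ≤ ρ * D := mul_le_mul_of_nonneg_right hr D0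
    refine nrm_le ((hom (by linarith) ht ht' hξ hξ' (b1 t (i5 ht)) (b2 t (i5 ht) t' (i5 ht'))
      (w1 _) (w1 _) (w2 _ _) d1 d2).trans rD) ?_
    have e : t * b t - t' * b t' = (t - t') * b t + t' * (b t - b t') := by ring
    show |t * b t - t' * b t'| ≤ _
    rw [e]
    have k1 := mul_le d2 (b1 t (i5 ht))
    have k2 := mul_le (a2 ht') ((b2 t (i5 ht) t' (i5 ht')).trans
      (mul_le_mul_of_nonneg_left d2 r0))
    have k3 := mul_nonneg r0 D0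
    refine (abs_add_le _ _).trans ?_
    linarith)
  simp only [Prod.mk_add_mk, add_sub_cancel] at key
  refine ⟨key.1, key.2.trans ?_⟩
  have := norm_nonneg (f (t * ξ, t) - f (t' * ξ', t'))
  show _ ≤ 1 / 4 * ‖f (t * ξ, t) - f (t' * ξ', t')‖
  linarith

theorem GG {g : ℝ × ℝ → E3} {c ρ e e' : ℝ} {θ : ℝ → ℝ}
    (c2 : ∀ x ∈ wide, ∀ y ∈ wide, c * ‖x - y‖ ≤ ‖g x - g y‖) (hg : Cl g (c / 8) ρ)
    (he : e ∈ Ioc (0 : ℝ) 1) (hee : |e' - e| ≤ ρ * e) (t1 : ∀ t ∈ Icc (0 : ℝ) 5, |θ t - t| ≤ ρ)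
    (t2 : ∀ t ∈ Icc (0 : ℝ) 5, ∀ t' ∈ Icc (0 : ℝ) 5, |(θ t - t) - (θ t' - t')| ≤ ρ * |t - t'|)
    {p q : E3 × E3} (hp : PG g θ e e' 1 4 p) (hq : PG g θ e e' 1 4 q) :
    ‖p.2 - p.1‖ ≤ c / 8 ∧ Good p q := by
  obtain ⟨t, ht, σ, hσ, rfl⟩ := hp
  obtain ⟨t', ht', σ', hσ', rfl⟩ := hq
  have i5 : ∀ {t : ℝ}, t ∈ Icc (1 : ℝ) 4 → t ∈ Icc (0 : ℝ) 5 :=
    fun h => ⟨by linarith [h.1], by linarith [h.2]⟩
  have r0 : 0 ≤ ρ := (abs_nonneg _).trans (t1 t (i5 ht))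
  have e1 : ∀ {σ : ℝ}, σ = 1 ∨ σ = -1 → |σ * e| ≤ 1 := fun h => by
    rw [abs_sg h, abs_of_pos he.1]; exact he.2
  have mw : ∀ {t σ : ℝ}, t ∈ Icc (1 : ℝ) 4 → σ = 1 ∨ σ = -1 → (t, σ * e) ∈ wide :=
    fun ht h => ⟨⟨ht.1, (abs_le.1 (e1 h)).1⟩, ⟨ht.2, (abs_le.1 (e1 h)).2⟩⟩
  have n1 : ∀ {t σ : ℝ}, t ∈ Icc (1 : ℝ) 4 → σ = 1 ∨ σ = -1 → ‖(t, σ * e)‖ ≤ 100 :=
    fun ht h => nrm_le (abs_le.2 ⟨by linarith [ht.1], by linarith [ht.2]⟩)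
      ((e1 h).trans (by norm_num))
  have n2 : ∀ {t σ : ℝ}, t ∈ Icc (1 : ℝ) 4 → σ = 1 ∨ σ = -1 → ‖(θ t - t, σ * (e' - e))‖ ≤ ρ :=
    fun ht h => nrm_le (t1 _ (i5 ht)) (by rw [abs_sg h]; nlinarith [he.2])
  have d1 : |t - t'| ≤ ‖(t, σ * e) - (t', σ' * e)‖ := norm_fst_le ((t, σ * e) - (t', σ' * e))
  have d2 : |σ * e - σ' * e| ≤ ‖(t, σ * e) - (t', σ' * e)‖ :=
    norm_snd_le ((t, σ * e) - (t', σ' * e))
  have low := c2 _ (mw ht hσ) _ (mw ht' hσ')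
  have key := hg (t, σ * e) (t', σ' * e) _ _ (n1 ht hσ) (n1 ht' hσ') (n2 ht hσ) (n2 ht' hσ') (by
    generalize ‖(t, σ * e) - (t', σ' * e)‖ = D at d1 d2
    refine nrm_le ((t2 t (i5 ht) t' (i5 ht')).trans (mul_le_mul_of_nonneg_left d1 r0)) ?_
    show |σ * (e' - e) - σ' * (e' - e)| ≤ _
    rw [← sub_mul, abs_mul, abs_of_pos he.1] at d2
    rw [← sub_mul, abs_mul]
    calc _ ≤ |σ - σ'| * (ρ * e) := mul_le_mul_of_nonneg_left hee (abs_nonneg _)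
      _ = ρ * (|σ - σ'| * e) := by ring
      _ ≤ _ := mul_le_mul_of_nonneg_left d2 r0)
  have e2 : ∀ σ : ℝ, σ * e + σ * (e' - e) = σ * e' := fun σ => by ring
  simp only [Prod.mk_add_mk, add_sub_cancel, e2] at key
  refine ⟨key.1, key.2.trans ?_⟩
  have := norm_nonneg (g (t, σ * e) - g (t', σ' * e))
  show _ ≤ 1 / 4 * ‖g (t, σ * e) - g (t', σ' * e)‖
  linarith

theorem step (hM : RowM) {f : ℝ × ℝ → E3} {g : Fin 4 → ℝ × ℝ → E3} (hS : Surface f g)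
    {c ρ r l e l' e' : ℝ} {b w : ℝ → ℝ}
    (c1 : ∀ x ∈ tri, ∀ y ∈ tri, c * ‖x - y‖ ≤ ‖f x - f y‖)
    (c2 : ∀ j, ∀ x ∈ wide, ∀ y ∈ wide, c * ‖x - y‖ ≤ ‖g j x - g j y‖)
    (c3 : ∀ i j, i ≠ j → ∀ x ∈ wide, ∀ y ∈ wide, c ≤ ‖g i x - g j y‖)
    (c4 : ∀ j, ∀ x ∈ tri, x.2 ≤ 1 → ∀ y ∈ mid, c ≤ ‖f x - g j y‖)
    (hf : Cl f (c / 8) ρ) (hg : ∀ j, Cl (g j) (c / 8) ρ) (hr : 200 * r ≤ ρ) (hρ : ρ ≤ 1)
    (hl : l ∈ Ioc (0 : ℝ) 1) (he : e ∈ Ioc (0 : ℝ) 1) (he' : e' ∈ Ioc (0 : ℝ) 1)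
    (hee : |e' - e| ≤ ρ * e) (b1 : ∀ t ∈ Icc (0 : ℝ) 5, |b t| ≤ r)
    (b2 : ∀ t ∈ Icc (0 : ℝ) 5, ∀ t' ∈ Icc (0 : ℝ) 5, |b t - b t'| ≤ r * |t - t'|)
    (b3 : ∀ t, (5 - t) * b (5 - t) = -(t * b t)) (b4 : b 2 = 0) (b5 : l + l * b l = l')
    (w1 : ∀ ξ, |w ξ| ≤ r) (w2 : ∀ ξ ξ', |w ξ - w ξ'| ≤ r * |ξ - ξ'|)
    (w3 : ∀ (n : ℕ) (σ : ℝ), σ = 1 ∨ σ = -1 → w (4 * n + σ * e) = σ * (e' - e)) :
    Eqv (bdry f g l e) (bdry f g l' e') := by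
  have r0 : 0 ≤ r := (abs_nonneg _).trans (w1 0)
  have hFF := fun p q => FF (p := p) (q := q) c1 hf hr hρ b1 b2 w1 w2
  obtain ⟨θ, hθ⟩ : ∃ θ : ℝ → ℝ, θ = fun t => t + t * b t := ⟨_, rfl⟩
  obtain ⟨ψ, hψ⟩ : ∃ ψ : ℝ → ℝ, ψ = fun ξ => ξ + w ξ := ⟨_, rfl⟩
  rw [← hθ, ← hψ] at hFF
  have a5 : ∀ {t : ℝ}, t ∈ Icc (0 : ℝ) 5 → |t| ≤ 5 := fun h => abs_le.2 ⟨by linarith [h.1], h.2⟩
  have t1 : ∀ t ∈ Icc (0 : ℝ) 5, |θ t - t| ≤ ρ := fun t ht => by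
    rw [hθ]
    simp only [add_sub_cancel_left]
    linarith [mul_le (a5 ht) (b1 t ht)]
  have t2 : ∀ t ∈ Icc (0 : ℝ) 5, ∀ t' ∈ Icc (0 : ℝ) 5,
      |(θ t - t) - (θ t' - t')| ≤ ρ * |t - t'| := fun t ht t' ht' => by
    rw [hθ]
    simp only [add_sub_cancel_left]
    have e : t * b t - t' * b t' = (t - t') * b t + t' * (b t - b t') := by ring
    rw [e]
    have k1 := mul_le (le_refl |t - t'|) (b1 t ht)
    have k2 := mul_le (a5 ht') (b2 t ht t' ht')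
    have k3 := mul_nonneg r0 (abs_nonneg (t - t'))
    have k4 := mul_le_mul_of_nonneg_right hr (abs_nonneg (t - t'))
    refine (abs_add_le _ _).trans ?_
    linarith
  have t3 : ∀ t, θ (5 - t) = 5 - θ t := fun t => by
    rw [hθ]
    simp only [b3]
    ring
  have t4 : ∀ {u v : ℝ}, 0 ≤ u → u ≤ v → v ≤ 5 → θ '' Icc u v = Icc (θ u) (θ v) :=
    fun h1 h2 h3 => img h2 fun x hx y hy =>
      (t2 x ⟨h1.trans hx.1, hx.2.trans h3⟩ y ⟨h1.trans hy.1, hy.2.trans h3⟩).trans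
        (mul_le_of_le_one_left (abs_nonneg _) hρ)
  have t0 : θ 0 = 0 := by rw [hθ]; simp
  have tl : θ l = l' := by rw [hθ]; exact b5
  have t5 : ∀ t ∈ Icc (0 : ℝ) 2, θ t ∈ Icc (0 : ℝ) 2 := fun t ht => by
    have := mem_image_of_mem θ ht
    rw [t4 le_rfl (by norm_num) (by norm_num), t0] at this
    have e : θ 2 = 2 := by rw [hθ]; simp [b4]
    rwa [e] at this
  have t6 : θ '' Icc 0 l = Icc 0 l' := by
    rw [t4 le_rfl hl.1.le (by linarith [hl.2]), t0, tl]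
  have t7 : θ '' Icc l (5 - l) = Icc l' (5 - l') := by
    rw [t4 hl.1.le (by linarith [hl.2]) (by linarith [hl.1]), t3, tl]
  have p1 : ∀ (n : ℕ) (σ : ℝ), σ = 1 ∨ σ = -1 → ψ (4 * n + σ * e) = 4 * n + σ * e' :=
    fun n σ h => by
      rw [hψ]
      simp only [w3 n σ h]
      ring
  have p2 : ∀ n : ℕ, ψ '' Icc (4 * n + e) (4 * n + 4 - e) = Icc (4 * n + e') (4 * n + 4 - e') := by
    intro n
    rw [img (by linarith [he.2]) fun x _ y _ => ?_]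
    · have k1 := p1 n 1 (Or.inl rfl)
      have k2 := p1 (n + 1) (-1) (Or.inr rfl)
      rw [one_mul, one_mul] at k1
      push_cast at k2
      rw [k1, show 4 * (n : ℝ) + 4 - e = 4 * (n + 1) + -1 * e by ring, k2]
      congr 1
      ring
    · rw [hψ]
      simp only [add_sub_cancel_left]
      exact (w2 x y).trans (mul_le_of_le_one_left (abs_nonneg _) (by linarith))
  have p3 : ψ (-e) = -e' := by simpa using p1 0 (-1) (Or.inr rfl)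
  have p4 : ψ (28 + e) = 28 + e' := by
    have := p1 7 1 (Or.inl rfl)
    norm_num at this
    exact this
  have s1 : ∀ {σ e : ℝ}, σ = 1 ∨ σ = -1 → e ∈ Ioc (0 : ℝ) 1 → σ * e ∈ Icc (-1 : ℝ) 1 :=
    fun h he => abs_le.1 (by rw [abs_sg h, abs_of_pos he.1]; exact he.2)
  have bS : ∀ j, 0 ≤ pS j ∧ pS j ≤ 28 := fun j => by fin_cases j <;> simp [pS] <;> norm_num
  have bE : ∀ j, 0 ≤ pE j ∧ pE j ≤ 28 := fun j => by fin_cases j <;> simp [pE] <;> norm_num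
  have GF1 : ∀ j L p, L ≤ 2 → PG (g j) θ e e' 0 L p → PF f θ ψ L p := by
    rintro j L _ hL ⟨t, ht, σ, hσ, rfl⟩
    have ht2 : t ∈ Icc (0 : ℝ) 2 := ⟨ht.1, ht.2.trans hL⟩
    have k := s1 hσ he
    refine ⟨pS j + σ * e, ⟨by linarith [k.1, bS j], by linarith [k.2, bS j]⟩, t, ht, ?_⟩
    rw [((hS.2.2.2 j).2.2.1 t ht2 _ k).1, ((hS.2.2.2 j).2.2.1 _ (t5 t ht2) _ (s1 hσ he')).1,
      pS_eq, p1 _ _ hσ]
  have GF2 : ∀ j L p, L ≤ 2 → PG (g j) θ e e' (5 - L) 5 p → PF f θ ψ L p := by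
    rintro j L _ hL ⟨t, ht, σ, hσ, rfl⟩
    obtain ⟨t, rfl⟩ : ∃ u, t = 5 - u := ⟨5 - t, by ring⟩
    have ht1 : t ∈ Icc (0 : ℝ) L := ⟨by linarith [ht.2], by linarith [ht.1]⟩
    have ht2 : t ∈ Icc (0 : ℝ) 2 := ⟨ht1.1, ht1.2.trans hL⟩
    have k := s1 hσ he
    refine ⟨pE j - σ * e, ⟨by linarith [k.2, bE j], by linarith [k.1, bE j]⟩, t, ht1, ?_⟩
    have k2 := p1 (fE j) (-σ) (by rcases hσ with rfl | rfl <;> simp)
    rw [neg_mul, neg_mul, ← sub_eq_add_neg, ← sub_eq_add_neg, ← pE_eq] at k2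
    rw [t3, ((hS.2.2.2 j).2.2.1 t ht2 _ k).2, ((hS.2.2.2 j).2.2.1 _ (t5 t ht2) _ (s1 hσ he')).2, k2]
  have hGG := fun j p q => GG (p := p) (q := q) (c2 j) (hg j) he hee t1 t2
  have up : ∀ p, PF f θ ψ 1 p → PF f θ ψ 2 p := by
    rintro _ ⟨ξ, hξ, t, ht, rfl⟩
    exact ⟨ξ, hξ, t, ⟨ht.1, by linarith [ht.2]⟩, rfl⟩
  have FG : ∀ j p q, PF f θ ψ 1 p → PG (g j) θ e e' 1 4 q → Good p q := by
    intro j p q hp hq
    have k1 := (hFF p p (up p hp) (up p hp)).1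
    have k2 := (hGG j q q hq hq).1
    obtain ⟨t, ht, σ, hσ, rfl⟩ := hq
    by_cases h2 : t ≤ 2
    · exact (hFF _ _ (up p hp) (GF1 j 2 _ le_rfl ⟨t, ⟨by linarith [ht.1], h2⟩, σ, hσ, rfl⟩)).2
    by_cases h3 : 3 ≤ t
    · exact (hFF _ _ (up p hp) (GF2 j 2 _ le_rfl
        ⟨t, ⟨by linarith, by linarith [ht.2]⟩, σ, hσ, rfl⟩)).2
    obtain ⟨ξ, hξ, u, hu, rfl⟩ := hp
    exact far k1 k2 (c4 j _ (mem_tri ⟨hu.1, by linarith [hu.2]⟩ hξ) hu.2 _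
      ⟨⟨by linarith, (s1 hσ he).1⟩, ⟨by linarith, (s1 hσ he).2⟩⟩)
  have G2 : ∀ i j p q, PG (g i) θ e e' 1 4 p → PG (g j) θ e e' 1 4 q → Good p q := by
    intro i j p q hp hq
    by_cases h : i = j
    · subst h
      exact (hGG i p q hp hq).2
    have k1 := (hGG i p p hp hp).1
    have k2 := (hGG j q q hq hq).1
    obtain ⟨t, ht, σ, hσ, rfl⟩ := hp
    obtain ⟨t', ht', σ', hσ', rfl⟩ := hq
    exact far k1 k2 (c3 i j h _ ⟨⟨ht.1, (s1 hσ he).1⟩, ⟨ht.2, (s1 hσ he).2⟩⟩ _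
      ⟨⟨ht'.1, (s1 hσ' he).1⟩, ⟨ht'.2, (s1 hσ' he).2⟩⟩)
  let S : Set (E3 × E3) := {p | (∃ t ∈ Icc (0 : ℝ) l, ∃ ξ, (ξ = -e ∨ ξ = 28 + e) ∧
      p = (f (t * ξ, t), f (θ t * ψ ξ, θ t))) ∨
    (∃ n : Fin 7, ∃ ξ ∈ Icc (4 * n + e : ℝ) (4 * n + 4 - e),
      p = (f (l * ξ, l), f (θ l * ψ ξ, θ l))) ∨ ∃ j, PG (g j) θ e e' l (5 - l) p}
  have cls : ∀ p ∈ S, PF f θ ψ 1 p ∨ ∃ j, PG (g j) θ e e' 1 4 p := by
    rintro p (⟨t, ht, ξ, hξ, rfl⟩ | ⟨n, ξ, hξ, rfl⟩ | ⟨j, t, ht, σ, hσ, rfl⟩)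
    · refine Or.inl ⟨ξ, ?_, t, ⟨ht.1, ht.2.trans hl.2⟩, rfl⟩
      rcases hξ with rfl | rfl <;> constructor <;> linarith [he.1, he.2]
    · have k1 : (0 : ℝ) ≤ (n : ℕ) := Nat.cast_nonneg _
      have k2 : ((n : ℕ) : ℝ) ≤ 6 := by exact_mod_cast Nat.lt_succ_iff.1 n.2
      exact Or.inl ⟨ξ, ⟨by linarith [hξ.1, he.1], by linarith [hξ.2, he.1]⟩, l,
        ⟨hl.1.le, hl.2⟩, rfl⟩
    · by_cases h1 : t ≤ 1
      · exact Or.inl (GF1 j 1 _ one_le_two ⟨t, ⟨hl.1.le.trans ht.1, h1⟩, σ, hσ, rfl⟩)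
      by_cases h4 : 4 ≤ t
      · exact Or.inl (GF2 j 1 _ one_le_two
          ⟨t, ⟨by linarith, by linarith [ht.2, hl.1]⟩, σ, hσ, rfl⟩)
      exact Or.inr ⟨j, t, ⟨by linarith, by linarith⟩, σ, hσ, rfl⟩
  have main := ofRel hM S fun p hp q hq => by
    rcases cls p hp with h | ⟨i, h⟩ <;> rcases cls q hq with h' | ⟨j, h'⟩
    · exact (hFF p q (up p h) (up q h')).2
    · exact FG j p q h h'
    · exact (FG i q p h' h).symm
    · exact G2 i j p q h h'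
  have e1 : Prod.fst '' S = bdry f g l e := by
    ext y
    constructor
    · rintro ⟨_, ⟨t, ht, ξ, hξ, rfl⟩ | ⟨n, ξ, hξ, rfl⟩ | ⟨j, t, ht, σ, hσ, rfl⟩, rfl⟩
      · refine Or.inl ⟨t, ht, ?_⟩
        rcases hξ with rfl | rfl
        · exact Or.inl (by rw [mul_neg])
        · exact Or.inr rfl
      · exact Or.inr (Or.inl ⟨n, ξ, hξ, rfl⟩)
      · refine Or.inr (Or.inr ⟨j, t, ht, ?_⟩)
        rcases hσ with rfl | rfl
        · exact Or.inl (by simp only [one_mul])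
        · exact Or.inr (by simp only [neg_one_mul])
    · rintro (⟨t, ht, rfl | rfl⟩ | ⟨n, ξ, hξ, rfl⟩ | ⟨j, t, ht, rfl | rfl⟩)
      · exact ⟨_, Or.inl ⟨t, ht, _, Or.inl rfl, rfl⟩, by rw [mul_neg]⟩
      · exact ⟨_, Or.inl ⟨t, ht, _, Or.inr rfl, rfl⟩, rfl⟩
      · exact ⟨_, Or.inr (Or.inl ⟨n, ξ, hξ, rfl⟩), rfl⟩
      · exact ⟨_, Or.inr (Or.inr ⟨j, t, ht, 1, Or.inl rfl, rfl⟩), by simp only [one_mul]⟩
      · exact ⟨_, Or.inr (Or.inr ⟨j, t, ht, -1, Or.inr rfl, rfl⟩), by simp only [neg_one_mul]⟩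
  have e2 : Prod.snd '' S = bdry f g l' e' := by
    ext y
    constructor
    · rintro ⟨_, ⟨t, ht, ξ, hξ, rfl⟩ | ⟨n, ξ, hξ, rfl⟩ | ⟨j, t, ht, σ, hσ, rfl⟩, rfl⟩
      · refine Or.inl ⟨θ t, t6 ▸ mem_image_of_mem θ ht, ?_⟩
        rcases hξ with rfl | rfl
        · exact Or.inl (by simp only [p3, mul_neg])
        · exact Or.inr (by rw [p4])
      · exact Or.inr (Or.inl ⟨n, ψ ξ, p2 n ▸ mem_image_of_mem ψ hξ, by rw [tl]⟩)
      · refine Or.inr (Or.inr ⟨j, θ t, t7 ▸ mem_image_of_mem θ ht, ?_⟩)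
        rcases hσ with rfl | rfl
        · exact Or.inl (by simp only [one_mul])
        · exact Or.inr (by simp only [neg_one_mul])
    · rintro (⟨t, ht, h⟩ | ⟨n, ξ, hξ, rfl⟩ | ⟨j, t, ht, h⟩)
      · rw [← t6] at ht
        obtain ⟨t, ht, rfl⟩ := ht
        rcases h with rfl | rfl
        · exact ⟨_, Or.inl ⟨t, ht, _, Or.inl rfl, rfl⟩, by simp only [p3, mul_neg]⟩
        · exact ⟨_, Or.inl ⟨t, ht, _, Or.inr rfl, rfl⟩, by rw [p4]⟩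
      · rw [← p2] at hξ
        obtain ⟨ξ, hξ, rfl⟩ := hξ
        exact ⟨_, Or.inr (Or.inl ⟨n, ξ, hξ, rfl⟩), by rw [tl]⟩
      · rw [← t7] at ht
        obtain ⟨t, ht, rfl⟩ := ht
        rcases h with rfl | rfl
        · exact ⟨_, Or.inr (Or.inr ⟨j, t, ht, 1, Or.inl rfl, rfl⟩), by simp only [one_mul]⟩
        · exact ⟨_, Or.inr (Or.inr ⟨j, t, ht, -1, Or.inr rfl, rfl⟩), by simp only [neg_one_mul]⟩
  rwa [e1, e2] at main

/-- the field that moves the level -/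
def be (t : ℝ) : ℝ := (2 - t) * (3 - t) * (5 - t) * (5 - 2 * t)

theorem be_le : ∃ K : ℝ, (∀ t ∈ Icc (0 : ℝ) 5, |be t| ≤ K) ∧
    ∀ t ∈ Icc (0 : ℝ) 5, ∀ t' ∈ Icc (0 : ℝ) 5, |be t - be t'| ≤ K * |t - t'| := by
  have h : ContDiff ℝ 1 be := by unfold be; fun_prop
  obtain ⟨K, hK⟩ := h.contDiffOn.exists_lipschitzOnWith (s := Icc 0 5) one_ne_zero
    (convex_Icc _ _) isCompact_Icc
  have hK0 : (0 : ℝ) ≤ K := K.2
  have l : ∀ t ∈ Icc (0 : ℝ) 5, ∀ t' ∈ Icc (0 : ℝ) 5, |be t - be t'| ≤ K * |t - t'| :=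
    fun t ht t' ht' => hK.dist_le_mul t ht t' ht'
  refine ⟨5 * K, fun t ht => ?_, fun t ht t' ht' => (l t ht t' ht').trans
    (mul_le_mul_of_nonneg_right (by linarith) (abs_nonneg _))⟩
  have := l t ht 5 ⟨by norm_num, le_rfl⟩
  rw [show be 5 = 0 by simp [be], sub_zero] at this
  have k : |t - 5| ≤ 5 := abs_le.2 ⟨by linarith [ht.1], by linarith [ht.2]⟩
  nlinarith

theorem loc (hM : RowM) (hSB : RowSB) {f : ℝ × ℝ → E3} {g : Fin 4 → ℝ × ℝ → E3}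
    (hS : Surface f g) (x : ℝ × ℝ) (hx : x ∈ Ioc (0 : ℝ) 1 ×ˢ Ioc (0 : ℝ) 1) :
    ∀ᶠ y in 𝓝[Ioc (0 : ℝ) 1 ×ˢ Ioc (0 : ℝ) 1] x, Eqv (bdry f g x.1 x.2) (bdry f g y.1 y.2) := by
  obtain ⟨l, e⟩ := x
  have hl : l ∈ Ioc (0 : ℝ) 1 := hx.1
  have he : e ∈ Ioc (0 : ℝ) 1 := hx.2
  obtain ⟨c, hc, c1, c2, c3, c4⟩ := hSB f g hS
  have c8 : 0 < c / 8 := by positivity
  obtain ⟨ρ, hf, hg, hρ⟩ := ((mvi hS.1 c8).and ((eventually_all.2 fun j =>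
    mvi (hS.2.2.2 j).1 c8).and (Ioc_mem_nhdsGT one_pos))).exists
  obtain ⟨K, K1, K2⟩ := be_le
  have hb : 0 < l * be l := by
    unfold be
    have := hl.1
    have : 0 < 2 - l := by linarith [hl.2]
    have : 0 < 3 - l := by linarith [hl.2]
    have : 0 < 5 - l := by linarith [hl.2]
    have : 0 < 5 - 2 * l := by linarith [hl.2]
    positivity
  have pi0 := Real.pi_pos
  have hs : 0 < Real.sin (Real.pi / 2 * e) :=
    Real.sin_pos_of_pos_of_lt_pi (by have := he.1; positivity) (by nlinarith [he.2])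
  have ev : ∀ (u : ℝ × ℝ → ℝ) (a : ℝ), Continuous u → u (l, e) = 0 → 0 < a →
      ∀ᶠ y in 𝓝[Ioc (0 : ℝ) 1 ×ˢ Ioc (0 : ℝ) 1] (l, e), u y ≤ a := fun u a hu h0 ha =>
    mem_nhdsWithin_of_mem_nhds (hu.continuousAt.eventually (ge_mem_nhds (h0 ▸ ha)))
  have r0 : 0 < ρ / 200 := by have := hρ.1; positivity
  filter_upwards [self_mem_nhdsWithin,
    ev (fun y => |(y.1 - l) / (l * be l)| * K) _ (by fun_prop) (by simp) r0,
    ev (fun y => |(y.2 - e) / Real.sin (Real.pi / 2 * e)| * 2) _ (by fun_prop) (by simp) r0,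
    ev (fun y => |y.2 - e|) _ (by fun_prop) (by simp) (mul_pos hρ.1 he.1)] with y hy k1 k2 k3
  refine step hM hS (r := ρ / 200) (b := fun t => (y.1 - l) / (l * be l) * be t)
    (w := fun ξ => (y.2 - e) / Real.sin (Real.pi / 2 * e) * Real.sin (Real.pi / 2 * ξ))
    c1 c2 c3 c4 hf hg (by linarith) hρ.2 hl he hy.2 k3 (fun t ht => ?_) (fun t ht t' ht' => ?_)
    (fun t => ?_) ?_ ?_ (fun ξ => ?_) (fun ξ ξ' => ?_) fun n σ hσ => ?_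
  · rw [abs_mul]
    exact (mul_le_mul_of_nonneg_left (K1 t ht) (abs_nonneg _)).trans k1
  · rw [← mul_sub, abs_mul]
    refine (mul_le_mul_of_nonneg_left (K2 t ht t' ht') (abs_nonneg _)).trans ?_
    rw [← mul_assoc]
    exact mul_le_mul_of_nonneg_right k1 (abs_nonneg _)
  · generalize (y.1 - l) / (l * be l) = d
    unfold be
    ring
  · simp [be]
  · have : be l ≠ 0 := fun h => by rw [h, mul_zero] at hb; exact lt_irrefl _ hb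
    have := hl.1.ne'
    field_simp
    ring
  · rw [abs_mul]
    exact (mul_le_mul_of_nonneg_left ((Real.abs_sin_le_one _).trans one_le_two)
      (abs_nonneg _)).trans k2
  · rw [← mul_sub, abs_mul]
    have k : |Real.sin (Real.pi / 2 * ξ) - Real.sin (Real.pi / 2 * ξ')| ≤ 2 * |ξ - ξ'| := by
      refine (Real.abs_sin_sub_sin_le _ _).trans ?_
      rw [← mul_sub, abs_mul, abs_of_pos (by positivity)]
      exact mul_le_mul_of_nonneg_right (by linarith [Real.pi_le_four]) (abs_nonneg _)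
    refine (mul_le_mul_of_nonneg_left k (abs_nonneg _)).trans ?_
    rw [← mul_assoc]
    exact mul_le_mul_of_nonneg_right k2 (abs_nonneg _)
  · have k : Real.sin (Real.pi / 2 * (4 * n + σ * e)) = σ * Real.sin (Real.pi / 2 * e) := by
      rw [show Real.pi / 2 * (4 * n + σ * e) = σ * (Real.pi / 2 * e) + n * (2 * Real.pi) by ring,
        Real.sin_add_nat_mul_two_pi]
      rcases hσ with rfl | rfl <;> simp
    simp only [k]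
    rw [mul_left_comm, div_mul_cancel₀ _ hs.ne']

theorem rim_eq (f : ℝ × ℝ → E3) (g : Fin 4 → ℝ × ℝ → E3) : rim f g = bdry f g 1 1 := by
  have e : ∀ p : Fin 7, (4 * p + 4 - 1 : ℝ) = 4 * p + 3 := fun p => by ring
  have e' : ∀ t : ℝ, t * (28 + 1) = 29 * t := fun t => by ring
  have e'' : (5 - 1 : ℝ) = 4 := by norm_num
  simp only [rim, bdry, mul_one, one_mul, e, e', e'']

end S1

theorem rowS1 (hM : RowM) (hSB : RowSB) : RowS1 := by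
  intro f g hS l hl e he
  rw [S1.rim_eq]
  exact (isPreconnected_Ioc.prod isPreconnected_Ioc).induction₂
    (fun x y : ℝ × ℝ => Eqv (bdry f g x.1 x.2) (bdry f g y.1 y.2)) (S1.loc hM hSB hS)
    (fun _ _ _ _ _ _ h h' => h.trans h') (fun _ _ _ _ h => h.symm) (x := (1, 1)) (y := (l, e))
    ⟨⟨one_pos, le_rfl⟩, ⟨one_pos, le_rfl⟩⟩ ⟨hl, he⟩

end Vale.Agent.Q258U
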