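import Vale.Agent.Q258U.Core
import Mathlib.Topology.MetricSpace.HausdorffDimension
import Mathlib.LinearAlgebra.Complex.FiniteDimensional

/-!
# An affine change of coordinates
-/

set_option linter.all false

namespace Vale.Agent.Q258U.S2

open Set Complex

theorem finrank_E3 : Module.finrank ℝ E3 = 3 := by
  simp [E3, Module.finrank_prod]

/-- a direction outside a plane and outside the cones over four curves -/
theorem exists_dir (A : ℝ × ℝ →L[ℝ] E3) (c : Fin 4 → ℝ → E3) (hc : ∀ j, ContDiff ℝ 1 (c j)) :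
    ∃ w : E3, (∀ x, A x ≠ w) ∧ ∀ j (s t : ℝ), s • c j t ≠ w := by
  have h2 : Module.finrank ℝ (ℝ × ℝ) = 2 := by simp [Module.finrank_prod]
  have hA : dimH (range A) ≤ 2 := by
    have := (A.contDiff (n := 1)).dimH_range_le
    rw [h2] at this
    exact_mod_cast this
  have hC : ∀ j, dimH (range fun p : ℝ × ℝ => p.1 • c j p.2) ≤ 2 := fun j => by
    have h : ContDiff ℝ 1 fun p : ℝ × ℝ => p.1 • c j p.2 :=
      contDiff_fst.smul ((hc j).comp contDiff_snd)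
    have := h.dimH_range_le
    rw [h2] at this
    exact_mod_cast this
  have hS : dimH (range A ∪ ⋃ j, range fun p : ℝ × ℝ => p.1 • c j p.2) <
      Module.finrank ℝ E3 := by
    rw [finrank_E3, dimH_union, dimH_iUnion]
    refine lt_of_le_of_lt (max_le hA (iSup_le hC)) ?_
    exact_mod_cast (by norm_num : (2 : ℕ) < 3)
  obtain ⟨w, hw⟩ := (dense_compl_of_dimH_lt_finrank hS).nonempty
  refine ⟨w, fun x e => hw (Or.inl ⟨x, e⟩), fun j s t e => hw (Or.inr ?_)⟩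
  exact mem_iUnion.2 ⟨j, (s, t), e⟩

/-- the change of coordinates -/
theorem exists_equiv (A : ℝ × ℝ →L[ℝ] E3) (hA : Function.Injective A) (w : E3)
    (hw : ∀ x, A x ≠ w) : ∃ M : E3 ≃L[ℝ] E3,
      (∀ x : ℝ × ℝ, M (A x) = ((x.1 : ℂ) + (x.2 : ℂ) * I, x.2)) ∧
      ∀ y, (M y).1 = 0 → ∃ s : ℝ, y = s • w := by
  let B : E3 →ₗ[ℝ] E3 :=
    { toFun := fun p => A (p.1.re, p.1.im) + (p.2 - p.1.im) • w
      map_add' := fun p q => by
        have : ((p + q).1.re, (p + q).1.im) = (p.1.re, p.1.im) + (q.1.re, q.1.im) := by simp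
        rw [this, map_add]
        simp only [Prod.snd_add, Prod.fst_add, add_im]
        module
      map_smul' := fun a p => by
        have : ((a • p).1.re, (a • p).1.im) = a • (p.1.re, p.1.im) := by simp
        rw [this, map_smul]
        simp only [Prod.smul_snd, Prod.smul_fst, smul_im, RingHom.id_apply, smul_eq_mul]
        module }
  have hB : ∀ p : E3, B p = A (p.1.re, p.1.im) + (p.2 - p.1.im) • w := fun _ => rfl
  have hi : Function.Injective B := by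
    rw [injective_iff_map_eq_zero]
    intro p hp
    rw [hB] at hp
    have h1 : p.2 - p.1.im = 0 := by
      by_contra h
      apply hw ((-(p.2 - p.1.im)⁻¹) • (p.1.re, p.1.im))
      rw [map_smul, eq_neg_of_add_eq_zero_left hp, smul_neg, neg_smul, neg_neg, smul_smul,
        inv_mul_cancel₀ h, one_smul]
    rw [h1, zero_smul, add_zero, ← map_zero A] at hp
    have h2 := hA hp
    have h3 : p.1.re = 0 := congrArg Prod.fst h2
    have h4 : p.1.im = 0 := congrArg Prod.snd h2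
    refine Prod.ext (Complex.ext h3 h4) ?_
    show p.2 = 0
    linarith
  let E : E3 ≃ₗ[ℝ] E3 := LinearEquiv.ofInjectiveEndo B hi
  have hE : ∀ p, E p = B p := fun _ => rfl
  refine ⟨E.toContinuousLinearEquiv.symm, fun x => ?_, fun y hy => ?_⟩
  · rw [ContinuousLinearEquiv.symm_apply_eq]
    show A x = E _
    rw [hE, hB]
    simp
  · refine ⟨(E.symm y).2, ?_⟩
    have h1 : (E.symm y).1 = 0 := hy
    have h2 := hB (E.symm y)
    have : ((0 : ℂ).re, (0 : ℂ).im) = (0 : ℝ × ℝ) := rfl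
    rwa [← hE, E.apply_symm_apply, h1, this, map_zero, zero_add, zero_im, sub_zero] at h2

theorem zero_mem : (0 : ℝ × ℝ) ∈ tri := by simp [tri]

theorem pS_bd (j : Fin 4) : 0 ≤ pS j ∧ pS j ≤ 28 := by
  fin_cases j <;> simp [pS] <;> norm_num

theorem pE_bd (j : Fin 4) : 0 ≤ pE j ∧ pE j ≤ 28 := by
  fin_cases j <;> simp [pE] <;> norm_num

theorem ray_mem {p t : ℝ} (hp : 0 ≤ p ∧ p ≤ 28) (h0 : 0 ≤ t) (h2 : t ≤ 2) :
    ((t * p, t) : ℝ × ℝ) ∈ tri := by
  refine ⟨h2, ?_, ?_⟩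
  · show -t ≤ t * p
    nlinarith [hp.1]
  · show t * p ≤ 29 * t
    nlinarith [hp.2]

/-- the cores of the bands do not meet the apex -/
theorem core_ne {f : ℝ × ℝ → E3} {g : Fin 4 → ℝ × ℝ → E3} (h : Surface f g) (j : Fin 4) {t : ℝ}
    (h0 : 0 < t) (h5 : t < 5) : g j (t, 0) ≠ f 0 := by
  obtain ⟨-, hi, -, hg⟩ := h
  obtain ⟨-, -, hov, hm⟩ := hg j
  have z : (0 : ℝ) ∈ Icc (-1 : ℝ) 1 := ⟨by norm_num, by norm_num⟩
  intro e
  by_cases a : t ≤ 2
  · rw [(hov t ⟨h0.le, a⟩ 0 z).1, add_zero] at e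
    exact h0.ne' (congrArg Prod.snd (hi (ray_mem (pS_bd j) h0.le a) zero_mem e))
  by_cases b : 3 ≤ t
  · have e' := (hov (5 - t) ⟨by linarith, by linarith⟩ 0 z).2
    rw [sub_sub_cancel, sub_zero, e] at e'
    have : 5 - t = 0 := congrArg Prod.snd
      (hi (ray_mem (pE_bd j) (by linarith) (by linarith)) zero_mem e'.symm)
    linarith
  have hmid : ((t, 0) : ℝ × ℝ) ∈ mid :=
    ⟨⟨(not_le.1 a).le, z.1⟩, ⟨(not_le.1 b).le, z.2⟩⟩
  rcases (hm _ hmid).1 ⟨0, zero_mem, e.symm⟩ with c | c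
  · exact a (le_of_eq c)
  · exact b (le_of_eq c.symm)

theorem fderiv_aff (M : E3 ≃L[ℝ] E3) (c : E3) {f : ℝ × ℝ → E3} (hf : ContDiff ℝ 1 f)
    (x y : ℝ × ℝ) : fderiv ℝ (fun x => M (f x - c)) x y = M (fderiv ℝ f x y) := by
  have h1 : HasFDerivAt f (fderiv ℝ f x) x := (hf.differentiable one_ne_zero x).hasFDerivAt
  have h2 := (M : E3 →L[ℝ] E3).hasFDerivAt.comp x (h1.sub_const c)
  have h3 : fderiv ℝ (fun x => M (f x - c)) x = _ := h2.fderiv
  rw [h3]
  rfl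

/-- the affine image of a surface is a surface -/
theorem surface_aff (M : E3 ≃L[ℝ] E3) (c : E3) {f : ℝ × ℝ → E3} {g : Fin 4 → ℝ × ℝ → E3}
    (h : Surface f g) : Surface (fun x => M (f x - c)) (fun j x => M (g j x - c)) := by
  obtain ⟨hf, hi, hd, hg⟩ := h
  have inj : ∀ a b : E3, M (a - c) = M (b - c) → a = b := fun a b e =>
    sub_left_injective (M.injective e)
  refine ⟨M.contDiff.comp (hf.sub contDiff_const), fun x hx y hy e => hi hx hy (inj _ _ e),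
    fun x hx a b e => hd x hx (M.injective ?_), fun j => ?_⟩
  · rwa [fderiv_aff M c hf, fderiv_aff M c hf] at e
  obtain ⟨g1, g2, g3, g4⟩ := hg j
  refine ⟨M.contDiff.comp (g1.sub contDiff_const), fun x hx a b e => g2 x hx (M.injective ?_),
    fun t ht s hs => ?_, fun x hx => ⟨?_, fun i y hy e => (g4 x hx).2 i y hy (inj _ _ e)⟩⟩
  · rwa [fderiv_aff M c g1, fderiv_aff M c g1] at e
  · exact ⟨congrArg (fun y => M (y - c)) (g3 t ht s hs).1,
      congrArg (fun y => M (y - c)) (g3 t ht s hs).2⟩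
  · rintro ⟨y, hy, e⟩
    exact (g4 x hx).1 ⟨y, hy, inj _ _ e⟩

/-- the boundary of the image is the image of the boundary -/
theorem rim_image (h : E3 → E3) (f : ℝ × ℝ → E3) (g : Fin 4 → ℝ × ℝ → E3) :
    h '' rim f g = rim (fun x => h (f x)) (fun j x => h (g j x)) := by
  ext y
  constructor
  · rintro ⟨_, ⟨t, ht, rfl | rfl⟩ | ⟨p, x, hx, rfl⟩ | ⟨j, t, ht, rfl | rfl⟩, rfl⟩
    · exact Or.inl ⟨t, ht, Or.inl rfl⟩
    · exact Or.inl ⟨t, ht, Or.inr rfl⟩
    · exact Or.inr (Or.inl ⟨p, x, hx, rfl⟩)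
    · exact Or.inr (Or.inr ⟨j, t, ht, Or.inl rfl⟩)
    · exact Or.inr (Or.inr ⟨j, t, ht, Or.inr rfl⟩)
  · rintro (⟨t, ht, rfl | rfl⟩ | ⟨p, x, hx, rfl⟩ | ⟨j, t, ht, rfl | rfl⟩)
    · exact ⟨_, Or.inl ⟨t, ht, Or.inl rfl⟩, rfl⟩
    · exact ⟨_, Or.inl ⟨t, ht, Or.inr rfl⟩, rfl⟩
    · exact ⟨_, Or.inr (Or.inl ⟨p, x, hx, rfl⟩), rfl⟩
    · exact ⟨_, Or.inr (Or.inr ⟨j, t, ht, Or.inl rfl⟩), rfl⟩
    · exact ⟨_, Or.inr (Or.inr ⟨j, t, ht, Or.inr rfl⟩), rfl⟩

end Vale.Agent.Q258U.S2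

namespace Vale.Agent.Q258U

open S2

theorem rowS2 : RowS2 := by
  intro f g h
  have hc : ∀ j, ContDiff ℝ 1 fun t : ℝ => g j (t, 0) - f 0 := fun j =>
    ((h.2.2.2 j).1.comp (contDiff_id.prodMk contDiff_const)).sub contDiff_const
  obtain ⟨w, hw1, hw2⟩ := exists_dir (fderiv ℝ f 0) _ hc
  obtain ⟨M, hM1, hM2⟩ := exists_equiv (fderiv ℝ f 0) (h.2.2.1 0 zero_mem) w hw1
  refine ⟨fun x => M (f x - f 0), fun j x => M (g j x - f 0), surface_aff M _ h,
    ⟨by simp, fun x => by rw [fderiv_aff M _ h.1, hM1], fun j t h0 h5 e => ?_⟩,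
    (Homeomorph.subRight (f 0)).trans M.toHomeomorph, rim_image _ f g⟩
  obtain ⟨s, hs⟩ := hM2 _ e
  by_cases s0 : s = 0
  · rw [s0, zero_smul] at hs
    exact core_ne h j h0 h5 (sub_eq_zero.1 hs)
  · exact hw2 j s⁻¹ t (by rw [hs, smul_smul, inv_mul_cancel₀ s0, one_smul])

end Vale.Agent.Q258U
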