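import Vale.Agent.Q258U.S3aa

/-!
# Row S3a: the approximating polygon is embedded
-/

set_option linter.all false

namespace Vale.Agent.Q258U

open Set Complex

namespace S3a

open S3b

variable {f : ℝ × ℝ → E3} {g : Fin 4 → ℝ × ℝ → E3} {N : ℕ}

theorem msh_le {x : ℝ} (hx : 0 < x) : ∃ N0, ∀ N ≥ N0, 4 ≤ N ∧ 100 * msh N ≤ x := by
  refine ⟨max 4 ⌈500 / x⌉₊, fun N hN => ⟨(le_max_left _ _).trans hN, ?_⟩⟩
  have h1 : 500 / x ≤ N := Nat.ceil_le.1 ((le_max_right _ _).trans hN)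
  have h2 := msh_mul N
  rw [div_le_iff₀ hx] at h1
  push_cast at h2
  refine le_of_mul_le_mul_right ?_ (by positivity : (0 : ℝ) < N + 2)
  nlinarith

theorem cc_a (j : Fin 4) {i : ℕ} (hi : i ≤ N) : cc g N j (i + 1) = msh N • apxA g N j i := by
  rw [cc, if_neg (by omega), Nat.add_sub_cancel]

theorem ww_v (j : Fin 4) {i : ℕ} (hi : i ≤ N) : ww g N j (i + 1) = msh N • apxV g N j i := by
  rw [ww, if_neg (by omega), Nat.add_sub_cancel]

theorem ed_eq (j : Fin 4) {i : ℕ} (hi : i < N) :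
    msh N • (apx g N).ed j i = cc g N j (i + 1 + 1) - cc g N j (i + 1) := by
  rw [cc_a j (by omega), cc_a j (by omega), ← smul_sub]; rfl

theorem v_eq (j : Fin 4) {i : ℕ} (hi : i < N) (μ : ℝ) :
    msh N • (apx g N).v j i μ = (1 - μ) • ww g N j (i + 1) + μ • ww g N j (i + 1 + 1) := by
  rw [ww_v j (by omega), ww_v j (by omega)]
  simp only [apx]
  module

theorem pt_eq (j : Fin 4) {i : ℕ} (hi : i < N) {μ : ℝ} (h : μ ∈ Icc (0 : ℝ) 1) :
    msh N • (apx g N).pt j i μ = HH g N j 0 (((i + 1 : ℕ) + μ) * msh N) := by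
  have := HH_edge (g := g) j 0 hi h
  rw [zero_smul, add_zero] at this
  rw [← this, smul_inv_smul₀ (msh_pos N).ne']

theorem HH_node (j : Fin 4) (k : ℕ) : HH g N j 0 (k * msh N) = cc g N j k := by
  have := HH_eq (g := g) (N := N) j 0 k (μ := 0) ⟨le_rfl, zero_le_one⟩
  simpa using this

theorem ind_all (hS : Surface f g) (hn : Nrm f g) (hN : 4 ≤ N) {c η δ : ℝ} (hη : 0 ≤ η)
    (hc : 5000 * η < c) (hU : US f η δ) (hV : ∀ j, US (g j) η δ) (lδ : 100 * msh N ≤ δ)
    (δ1 : δ ≤ 1) (b1 : ∀ x ∈ tri, ∀ y ∈ tri, c * ‖x - y‖ ≤ ‖f x - f y‖)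
    (b2 : ∀ j, ∀ x ∈ wide, ∀ y ∈ wide, c * ‖x - y‖ ≤ ‖g j x - g j y‖)
    (j : Fin 4) {i i' : ℕ} (hi : i' < N) (hi' : i' = i ∨ i' = i + 1) {μ : ℝ}
    (hμ : μ ∈ Icc (0 : ℝ) 1) :
    Ind ((apx g N).ed j i) ((apx g N).ed j i') ((apx g N).v j i μ) := by
  have l0 := msh_pos N
  have e5 := msh_mul N
  have a2 : ((i + 1 + 1 : ℕ) : ℝ) * msh N = (i + 1 : ℕ) * msh N + msh N := by push_cast; ring
  have t5 : ((i + 1 + 1 : ℕ) : ℝ) * msh N < 5 := by
    rw [← e5]
    exact mul_lt_mul_of_pos_right (Nat.cast_lt.2 (by omega)) l0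
  obtain ⟨Q1, Q2, F, h1, h2⟩ := frame hS hn hN hη (by linarith) hU hV lδ δ1 b1 b2 j
    (t := ((i + 1 + 1 : ℕ) : ℝ) * msh N) (by positivity) t5
  have n1 : |((i + 1 : ℕ) : ℝ) * msh N - (i + 1 + 1 : ℕ) * msh N| ≤ msh N :=
    abs_le.2 ⟨by linarith, by linarith⟩
  have n2 : |((i + 1 + 1 : ℕ) : ℝ) * msh N - (i + 1 + 1 : ℕ) * msh N| ≤ msh N :=
    abs_le.2 ⟨by linarith, by linarith⟩
  obtain ⟨r0, r0p, w0⟩ := h2 (i + 1) (by omega) (by omega) n1
  obtain ⟨r1, r1p, w1⟩ := h2 (i + 1 + 1) (by omega) (by omega) n2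
  have m0 := hμ.1
  have m1 : 0 ≤ 1 - μ := by linarith [hμ.2]
  have rp : 0 < (1 - μ) * r0 + μ * r1 := by
    rcases m0.eq_or_lt with h | h
    · rw [← h]; linarith
    · positivity
  refine ind_smul (l := msh N) (ind_of (η := 149 * η) F (by linarith) l0 l0 rp ?_ ?_ ?_)
  · rw [ed_eq j (by omega)]
    exact h1 _ (by omega) n1
  · rw [ed_eq j hi]
    rcases hi' with rfl | rfl
    · exact h1 _ (by omega) n1
    · exact h1 _ (by omega) n2
  · rw [v_eq j (by omega)]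
    have e : (1 - μ) • ww g N j (i + 1) + μ • ww g N j (i + 1 + 1) - ((1 - μ) * r0 + μ * r1) • Q2 =
        (1 - μ) • (ww g N j (i + 1) - r0 • Q2) + μ • (ww g N j (i + 1 + 1) - r1 • Q2) := by
      module
    rw [e]
    refine (norm_add_le _ _).trans ?_
    rw [norm_smul, norm_smul, Real.norm_of_nonneg m0, Real.norm_of_nonneg m1]
    nlinarith [mul_le_mul_of_nonneg_left w0 m1, mul_le_mul_of_nonneg_left w1 m0,
      mul_nonneg hη rp.le]

/-- near the apex the height and the imaginary part are about the parameter -/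
theorem apex (hn : Nrm f g) {η δ p t : ℝ} (hη : 0 ≤ η) (hU : US f η δ) (p0 : 0 ≤ p) (p1 : p ≤ 28)
    (t0 : 0 ≤ t) (tδ : 29 * t ≤ δ) : t - 29 * η * t ≤ (f (t * p, t)).2 ∧
      t - 29 * η * t ≤ (f (t * p, t)).1.im := by
  have n := ray_norm (u := p) (by linarith) (by linarith) t0
  have k := dLip hn hU (x := (t * p, t)) (y := 0) (by linarith) (by rw [norm_zero]; linarith)
  rw [LL0, hn.1, sub_zero, sub_zero, sub_zero] at k
  have k2 : ‖LL (t * p, t) - f (t * p, t)‖ ≤ η * (29 * t) := k.trans (by gcongr)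
  have u1 := abs_le.1 ((norm_snd_le (LL (t * p, t) - f (t * p, t))).trans k2)
  have u2 := abs_le.1 ((abs_im_le_norm _).trans
    ((norm_fst_le (LL (t * p, t) - f (t * p, t))).trans k2))
  simp [LL] at u1 u2
  constructor <;> linarith [u1.2, u2.2]

theorem std (hS : Surface f g) (hn : Nrm f g) (hN : 4 ≤ N) {η δ : ℝ} (hη : 0 ≤ η)
    (η1 : η ≤ 1 / 1000) (hU : US f η δ) (lδ : 100 * msh N ≤ δ) (δ1 : δ ≤ 1) : Std (apx g N) := by
  have l0 := msh_pos N
  have e5 := msh_mul N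
  have z : (0 : ℝ) ∈ Icc (-1 : ℝ) 1 := ⟨by norm_num, by norm_num⟩
  have I3 : 3 * msh N ∈ Icc (0 : ℝ) 2 := ⟨by positivity, by linarith⟩
  have key : ∀ (p : ℝ) (x : E3), 0 ≤ p → p ≤ 28 → msh N • x = f (3 * msh N * p, 3 * msh N) →
      2 < x.2 ∧ 2 < x.1.im := fun p x p0 p1 h => by
    have k := apex hn hη hU p0 p1 I3.1 (by linarith)
    rw [← h] at k
    simp only [Prod.smul_snd, Prod.smul_fst, smul_eq_mul, real_smul, mul_im, ofReal_re,
      ofReal_im, zero_mul, add_zero] at k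
    constructor <;> refine lt_of_mul_lt_mul_left ?_ l0.le <;> nlinarith [k.1, k.2]
  have S2 : ∀ j, 2 < (apxA g N j 2).2 ∧ 2 < (apxA g N j 2).1.im := fun j => by
    refine key (pS j) _ (pS_mem j).1 (pS_mem j).2 ?_
    rw [← cc_a j (by omega), cc_in j (by omega) (by omega)]
    have := ((hS.2.2.2 j).2.2.1 _ I3 0 z).1
    rw [add_zero] at this
    exact_mod_cast this
  have E2 : ∀ j, 2 < (apxA g N j (N - 2)).2 ∧ 2 < (apxA g N j (N - 2)).1.im := fun j => by
    refine key (pE j) _ (pE_mem j).1 (pE_mem j).2 ?_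
    rw [← cc_a j (by omega), cc_in j (by omega) (by omega)]
    have := ((hS.2.2.2 j).2.2.1 _ I3 0 z).2
    rw [sub_zero] at this
    rw [← this]
    congr 2
    rw [← e5, show N + 2 = N - 2 + 1 + 3 by omega]
    push_cast
    ring
  have A1 : ∀ j, apxA g N j 1 = (2 * (pS j : ℂ) + 2 * I, 2) := fun j => by
    rw [apxA, if_neg (by omega), if_pos rfl]
  have A2 : ∀ j, apxA g N j (N - 1) = (2 * (pE j : ℂ) + 2 * I, 2) := fun j => by
    rw [apxA, if_neg (by omega), if_neg (by omega), if_pos rfl]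
  obtain ⟨W, hW⟩ := (finite_range fun p : Fin 4 × Fin N =>
    ‖apxV g N p.1 (p.2 + 1) - apxV g N p.1 p.2‖).bddAbove
  exact
    { N4 := hN
      s0 := fun j => by simp only [apx]; rw [apxA, if_pos rfl]
      s1 := fun j => by simp only [apx]; rw [A1]
      s1h := fun j => by simp only [apx]; rw [A1]; norm_num
      s2h := fun j => by simp only [apx]; rw [A1]; exact (S2 j).1
      s2i := fun j => (S2 j).2
      e0 := fun j => by
        simp only [apx]
        rw [apxA, if_neg (by omega), if_neg (by omega), if_neg (by omega), if_pos rfl]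
      e1 := fun j => by simp only [apx]; rw [A2]
      e1h := fun j => by simp only [apx]; rw [A2]; norm_num
      e2h := fun j => by simp only [apx]; rw [A2]; exact (E2 j).1
      e2i := fun j => (E2 j).2
      vs := fun j μ _ => by
        simp only [apx]
        rw [apxV, if_pos rfl, apxV, if_neg (by omega), if_pos rfl]
        ext <;> simp <;> ring
      ve := fun j μ _ => by
        simp only [apx]
        rw [apxV, if_neg (by omega), if_neg (by omega), if_pos rfl, apxV, if_neg (by omega),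
          if_neg (by omega), if_neg (by omega), if_pos (by omega)]
        ext <;> simp <;> ring
      glue := fun j i _ => by simp [apx]
      lip := ⟨W, fun j i hi μ _ μ' _ => by
        have e : (apx g N).v j i μ - (apx g N).v j i μ' =
            (μ - μ') • (apxV g N j (i + 1) - apxV g N j i) := by
          simp only [apx]; module
        rw [e, norm_smul, Real.norm_eq_abs, mul_comm]
        exact mul_le_mul_of_nonneg_right (hW ⟨(j, ⟨i, hi⟩), rfl⟩) (abs_nonneg _)⟩ }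

theorem away (hS : Surface f g) (hn : Nrm f g) {a : ℝ} (a0 : 0 < a) :
    ∃ d : ℝ, 0 < d ∧ ∀ j, ∀ t ∈ Icc a (5 - a), d ≤ ‖(g j (t, 0)).1‖ := by
  have h : ∀ j, ∃ d : ℝ, 0 < d ∧ ∀ t ∈ Icc a (5 - a), d ≤ ‖(g j (t, 0)).1‖ := fun j => by
    have hc : Continuous (g j) := (hS.2.2.2 j).1.continuous
    have hc2 : Continuous fun t : ℝ => ‖(g j (t, 0)).1‖ := by fun_prop
    exact isCompact_Icc.exists_forall_le' hc2.continuousOn fun t ht =>
      norm_pos_iff.2 (hn.2.2 j t (by linarith [ht.1]) (by linarith [ht.2]))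
  choose d d0 hd using h
  refine ⟨min (min (d 0) (d 1)) (min (d 2) (d 3)), by simp [d0], fun j t ht =>
    le_trans ?_ (hd j t ht)⟩
  fin_cases j <;> simp

end S3a

open S3a S3b in
theorem rowS3a (hSB : RowSB) : RowS3a := by
  intro f g hS hn
  obtain ⟨c, c0, b1, b2, b3, b4⟩ := hSB f g hS
  obtain ⟨η, η0, hc, η1⟩ : ∃ η : ℝ, 0 < η ∧ 5000 * η < c ∧ η ≤ 1 / 1000 :=
    ⟨min (c / 10000) (1 / 1000), lt_min (by positivity) (by norm_num),
      by linarith [min_le_left (c / 10000) (1 / 1000)], min_le_right _ _⟩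
  obtain ⟨δ0, d0, U0⟩ := exists_US hS.1 η0
  choose δ1 d1 U1 using fun j => exists_US (hS.2.2.2 j).1 η0
  obtain ⟨δ, δp, δ1', hU, hV⟩ : ∃ δ : ℝ, 0 < δ ∧ δ ≤ 1 ∧ US f η δ ∧ ∀ j, US (g j) η δ := by
    refine ⟨min (min 1 δ0) (min (min (δ1 0) (δ1 1)) (min (δ1 2) (δ1 3))), ?_, by simp,
      U0.mono (by simp), fun j => (U1 j).mono ?_⟩
    · simp [d0, d1]
    · fin_cases j <;> simp
  obtain ⟨d, dp, hd⟩ := away hS hn (a := δ / 29) (by positivity)
  obtain ⟨N0, hN0⟩ := msh_le (lt_min δp dp)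
  refine ⟨N0, fun N hN => ?_⟩
  have N4 := (hN0 N hN).1
  have lδ := (hN0 N hN).2.trans (min_le_left _ _)
  have ld := (hN0 N hN).2.trans (min_le_right _ _)
  have l0 := msh_pos N
  have e5 := msh_mul N
  have z : (0 : ℝ) ∈ Icc (-1 : ℝ) 1 := ⟨by norm_num, by norm_num⟩
  have ov := fun j => (hS.2.2.2 j).2.2.1
  obtain ⟨W, hW⟩ := (finite_range fun p : Fin 4 × Fin (N + 3) => ‖ww g N p.1 p.2‖).bddAbove
  have p1 := fun j => P1 (s := 0) (W := W) hS hn N4 η0.le hU hV lδ δ1' (by simp [δp.le]) j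
    (fun k hk => hW ⟨(j, ⟨k, by omega⟩), rfl⟩) (by simp; positivity)
  have I4 : ∀ n < N, ∀ μ ∈ Icc (0 : ℝ) 1,
      ((n + 1 : ℕ) + μ) * msh N ∈ Ioo (0 : ℝ) 5 := fun n hn μ hμ => by
    have n0 : (0 : ℝ) ≤ n := Nat.cast_nonneg _
    have n1 : (n + 1 : ℝ) ≤ N := by exact_mod_cast hn
    rw [← e5]
    push_cast
    constructor <;> nlinarith [hμ.1, hμ.2]
  refine ⟨std hS hn N4 η0.le η1 hU lδ δ1', fun j i hi μ hμ =>
    ind_all hS hn N4 η0.le hc hU hV lδ δ1' b1 b2 j hi (Or.inl rfl) hμ, fun j i hi =>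
    ind_all hS hn N4 η0.le hc hU hV lδ δ1' b1 b2 j hi (Or.inr rfl) ⟨zero_le_one, le_rfl⟩, ?_, ?_⟩
  · intro j i j' i' h1 h2 h3 h4 h5 μ hμ μ' hμ' h
    have h2 : i + 2 ≤ N := h2
    have h4 : i' + 2 ≤ N := h4
    have e := congrArg (fun x => msh N • x) h
    beta_reduce at e
    rw [pt_eq j (by omega) hμ, pt_eq j' (by omega) hμ'] at e
    have k := inj_core (E := fun j t => HH g N j 0 t - g j (t, 0)) hS (η := 123 * η)
      (by positivity) (by linarith) b1 b2 b3 b4 p1 (fun j => ?_) (I4 i (by omega) μ hμ)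
      (I4 i' (by omega) μ' hμ') (i := j) (j := j') (by
        beta_reduce
        rw [e, norm_sub_rev]
        congr 1
        abel)
    · rcases h5 with h5 | h5
      · exact h5 k.1
      · have k2 := mul_right_cancel₀ l0.ne' k.2
        have : (i + 2 : ℝ) ≤ i' := by exact_mod_cast h5
        push_cast at k2
        linarith [hμ.2, hμ'.1]
    · have u0 := HH_node (g := g) (N := N) j 0
      have u5 := HH_node (g := g) (N := N) j (N + 2)
      have o := ov j 0 ⟨le_rfl, by norm_num⟩ 0 z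
      rw [Nat.cast_zero, zero_mul] at u0
      rw [e5] at u5
      rw [sub_zero, zero_mul, zero_mul, show ((0 : ℝ), (0 : ℝ)) = 0 from rfl, hn.1] at o
      beta_reduce
      rw [u0, u5, o.2, show ((0 : ℝ), (0 : ℝ)) = 0 from rfl, o.1]
      simp [cc]
  · intro j i h1 h2 μ hμ hB
    have h2 : i + 3 ≤ N := h2
    have e := pt_eq (g := g) j (by omega : i < N) hμ
    have ht := I4 i (by omega) μ hμ
    have ht0 := I4 i (by omega) 0 ⟨le_rfl, zero_le_one⟩
    rw [add_zero] at ht0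
    have k1 := p1 j _ (Ioo_subset_Icc_self ht) _ (Ioo_subset_Icc_self ht0)
    have k2 := cc_near hS hn N4 η0.le hU lδ (by linarith) j (k := i + 1) (by omega)
    rw [HH_node, ← e] at k1
    have i2 : (2 : ℝ) ≤ i := by exact_mod_cast h1
    have i3 : (i + 3 : ℝ) ≤ N := by exact_mod_cast h2
    obtain ⟨t, ht3, ht4, et, k⟩ : ∃ t, 3 * msh N ≤ t ∧ t ≤ 5 - 3 * msh N ∧ t ∈ Ioo (0 : ℝ) 5 ∧
        ‖msh N • (apx g N).pt j i μ - g j (t, 0)‖ ≤ msh N / 4 := by
      refine ⟨_, ?_, ?_, ht, ?_⟩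
      · push_cast; nlinarith [hμ.1]
      · rw [← e5]; push_cast; nlinarith [hμ.2]
      · have : |(((i + 1 : ℕ) : ℝ) + μ) * msh N - (i + 1 : ℕ) * msh N| ≤ msh N :=
          abs_le.2 ⟨by nlinarith [hμ.1], by nlinarith [hμ.2]⟩
        have k3 := norm_sub_norm_le
          (msh N • (apx g N).pt j i μ - g j ((((i + 1 : ℕ) : ℝ) + μ) * msh N, 0))
          (cc g N j (i + 1) - g j ((i + 1 : ℕ) * msh N, 0))
        nlinarith [mul_le_mul_of_nonneg_left this (by positivity : 0 ≤ 123 * η)]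
    have k' := (norm_fst_le _).trans k
    set x := ((apx g N).pt j i μ).1 with hx
    have ex : (msh N • (apx g N).pt j i μ - g j (t, 0)).1 = msh N • x - (g j (t, 0)).1 := rfl
    rw [ex] at k'
    obtain ⟨B1, B2, B3, B4⟩ := hB
    have im : ∀ τ p : ℝ, 0 ≤ p → p ≤ 28 → 3 * msh N ≤ τ → τ ≤ δ / 29 →
        g j (t, 0) = f (τ * p, τ) → False := fun τ p p0 p1 t3 tδ o => by
      have a := (apex hn η0.le hU p0 p1 (by linarith) (by linarith)).2
      have b := abs_le.1 ((abs_im_le_norm _).trans k')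
      rw [← o] at a
      simp only [sub_im, real_smul, mul_im, ofReal_re, ofReal_im, zero_mul, add_zero] at b
      nlinarith [b.1, mul_le_mul_of_nonneg_left B4 l0.le]
    by_cases c1 : t ≤ δ / 29
    · refine im t _ (pS_mem j).1 (pS_mem j).2 ht3 c1 ?_
      rw [(ov j t ⟨et.1.le, by linarith⟩ 0 z).1, add_zero]
    by_cases c2 : 5 - δ / 29 ≤ t
    · refine im (5 - t) _ (pE_mem j).1 (pE_mem j).2 (by linarith) (by linarith) ?_
      have := (ov j (5 - t) ⟨by linarith [et.2], by linarith⟩ 0 z).2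
      rwa [sub_sub_cancel, sub_zero] at this
    · have a := hd j t ⟨by linarith, by linarith⟩
      have b : ‖x‖ ≤ 66 := (norm_le_abs_re_add_abs_im x).trans (by
        linarith [abs_le.2 (⟨by linarith, B2⟩ : -64 ≤ x.re ∧ x.re ≤ 64),
          abs_le.2 (⟨by linarith, B4⟩ : -2 ≤ x.im ∧ x.im ≤ 2)])
      have b2 : ‖msh N • x‖ ≤ msh N * 66 := by
        rw [norm_smul, Real.norm_of_nonneg l0.le]; gcongr
      linarith [norm_sub_norm_le (g j (t, 0)).1 (msh N • x), norm_sub_rev (g j (t, 0)).1 (msh N • x)]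

end Vale.Agent.Q258U
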