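import Vale.Agent.Q258U.S3bb

/-!
# Row S3b: the approximating polygon gives the same knot
-/

set_option linter.all false

namespace Vale.Agent.Q258U

open Set Complex

namespace S3b

/-- the standard linear map -/
noncomputable def LL (x : ℝ × ℝ) : E3 := ((x.1 : ℂ) + (x.2 : ℂ) * I, x.2)

/-- the vertices, scaled -/
noncomputable def cc (g : Fin 4 → ℝ × ℝ → E3) (N : ℕ) (j : Fin 4) (k : ℕ) : E3 :=
  if k = 0 ∨ k = N + 2 then 0 else msh N • apxA g N j (k - 1)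

/-- the framing, scaled -/
noncomputable def ww (g : Fin 4 → ℝ × ℝ → E3) (N : ℕ) (j : Fin 4) (k : ℕ) : E3 :=
  if k = 0 ∨ k = N + 2 then 0 else msh N • apxV g N j (k - 1)

variable {f : ℝ × ℝ → E3} {g : Fin 4 → ℝ × ℝ → E3} {N : ℕ}

theorem msh_pos (N : ℕ) : 0 < msh N := by unfold msh; positivity

theorem msh_mul (N : ℕ) : ((N + 2 : ℕ) : ℝ) * msh N = 5 := by
  unfold msh; push_cast; field_simp

theorem cc_lo (hN : 4 ≤ N) (j : Fin 4) {k : ℕ} (hk : k ≤ 2) :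
    cc g N j k = LL (k * msh N * pS j, k * msh N) := by
  interval_cases k
  · simp [cc, LL]; rfl
  · rw [cc, if_neg (by omega), apxA, if_pos rfl]
    ext <;> simp [LL] <;> ring
  · rw [cc, if_neg (by omega), apxA, if_neg (by omega), if_pos rfl]
    ext <;> simp [LL] <;> ring

theorem cc_hi (hN : 4 ≤ N) (j : Fin 4) {k : ℕ} (hk : k ≤ 2) :
    cc g N j (N + 2 - k) = LL (k * msh N * pE j, k * msh N) := by
  interval_cases k
  · simp [cc, LL]; rfl
  · rw [cc, if_neg (by omega), apxA, if_neg (by omega), if_neg (by omega), if_neg (by omega),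
      if_pos (by omega)]
    ext <;> simp [LL] <;> ring
  · rw [cc, if_neg (by omega), apxA, if_neg (by omega), if_neg (by omega), if_pos (by omega)]
    ext <;> simp [LL] <;> ring

theorem cc_in (j : Fin 4) {k : ℕ} (h1 : 3 ≤ k) (h2 : k + 1 ≤ N) :
    cc g N j k = g j (k * msh N, 0) := by
  rw [cc, if_neg (by omega), apxA, if_neg (by omega), if_neg (by omega), if_neg (by omega),
    if_neg (by omega), smul_inv_smul₀ (msh_pos N).ne', Nat.cast_sub (by omega), Nat.cast_one,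
    sub_add_cancel]

theorem ww_lo (hN : 4 ≤ N) (j : Fin 4) {k : ℕ} (hk : k ≤ 2) :
    ww g N j k = (k * msh N) • (1 : ℝ) • LL (1, 0) := by
  interval_cases k
  · simp [ww]
  · rw [ww, if_neg (by omega), apxV, if_pos rfl]
    ext <;> simp [LL]
  · rw [ww, if_neg (by omega), apxV, if_neg (by omega), if_pos rfl]
    ext <;> simp [LL] <;> ring

theorem ww_hi (hN : 4 ≤ N) (j : Fin 4) {k : ℕ} (hk : k ≤ 2) :
    ww g N j (N + 2 - k) = (k * msh N) • (-1 : ℝ) • LL (1, 0) := by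
  interval_cases k
  · simp [ww]
  · rw [ww, if_neg (by omega), apxV, if_neg (by omega), if_neg (by omega), if_neg (by omega),
      if_pos (by omega)]
    ext <;> simp [LL]
  · rw [ww, if_neg (by omega), apxV, if_neg (by omega), if_neg (by omega), if_pos (by omega)]
    ext <;> simp [LL] <;> ring

theorem ww_in (j : Fin 4) {k : ℕ} (h1 : 3 ≤ k) (h2 : k + 1 ≤ N) :
    ww g N j k = fderiv ℝ (g j) (k * msh N, 0) (0, 1) := by
  rw [ww, if_neg (by omega), apxV, if_neg (by omega), if_neg (by omega), if_neg (by omega),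
    if_neg (by omega), smul_inv_smul₀ (msh_pos N).ne', Nat.cast_sub (by omega), Nat.cast_one,
    sub_add_cancel]

/-- the edges of the approximating bands -/
noncomputable def HH (g : Fin 4 → ℝ × ℝ → E3) (N : ℕ) (j : Fin 4) (s t : ℝ) : E3 :=
  pl (msh N) (fun k => cc g N j k + s • ww g N j k) t

theorem HH_eq (j : Fin 4) (s : ℝ) (k : ℕ) {μ : ℝ} (h : μ ∈ Icc (0 : ℝ) 1) :
    HH g N j s ((k + μ) * msh N) = (1 - μ) • (cc g N j k + s • ww g N j k) +
      μ • (cc g N j (k + 1) + s • ww g N j (k + 1)) := pl_eq (msh_pos N) _ k h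

theorem HH_lo (hN : 4 ≤ N) (j : Fin 4) (s : ℝ) {t : ℝ} (ht : t ∈ Icc (0 : ℝ) (msh N)) :
    HH g N j s t = LL (t * (pS j + s), t) := by
  have l0 := msh_pos N
  obtain ⟨μ, hμ, rfl⟩ : ∃ μ ∈ Icc (0 : ℝ) 1, t = μ * msh N :=
    ⟨t / msh N, ⟨div_nonneg ht.1 l0.le, (div_le_one l0).2 ht.2⟩, by field_simp⟩
  have := HH_eq (g := g) (N := N) j s 0 hμ
  rw [Nat.cast_zero, zero_add] at this
  rw [this, cc_lo hN j (by omega), cc_lo hN j (by omega), ww_lo hN j (by omega),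
    ww_lo hN j (by omega)]
  ext <;> simp [LL] <;> ring

theorem HH_hi (hN : 4 ≤ N) (j : Fin 4) (s : ℝ) {t : ℝ} (ht : t ∈ Icc (0 : ℝ) (msh N)) :
    HH g N j s (5 - t) = LL (t * (pE j - s), t) := by
  have l0 := msh_pos N
  obtain ⟨μ, hμ, rfl⟩ : ∃ μ ∈ Icc (0 : ℝ) 1, t = μ * msh N :=
    ⟨t / msh N, ⟨div_nonneg ht.1 l0.le, (div_le_one l0).2 ht.2⟩, by field_simp⟩
  have := HH_eq (g := g) (N := N) j s (N + 1)
    (⟨by linarith [hμ.2], by linarith [hμ.1]⟩ : 1 - μ ∈ Icc (0 : ℝ) 1)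
  have e : (((N + 1 : ℕ) : ℝ) + (1 - μ)) * msh N = 5 - μ * msh N := by
    rw [← msh_mul N]; push_cast; ring
  rw [e] at this
  have c0 := cc_hi (g := g) hN j (k := 0) (by omega)
  have c1 := cc_hi (g := g) hN j (k := 1) (by omega)
  have w0 := ww_hi (g := g) hN j (k := 0) (by omega)
  have w1 := ww_hi (g := g) hN j (k := 1) (by omega)
  rw [show N + 2 - 0 = N + 1 + 1 from rfl] at c0 w0
  rw [show N + 2 - 1 = N + 1 from rfl] at c1 w1
  rw [this, c0, c1, w0, w1]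
  ext <;> simp [LL] <;> ring

theorem HH_edge (j : Fin 4) (s : ℝ) {n : ℕ} (hn : n < N) {μ : ℝ} (h : μ ∈ Icc (0 : ℝ) 1) :
    (msh N)⁻¹ • HH g N j s (((n + 1 : ℕ) + μ) * msh N) =
      (apx g N).pt j n μ + s • (apx g N).v j n μ := by
  rw [HH_eq j s _ h, cc, cc, ww, ww, if_neg (by omega), if_neg (by omega), if_neg (by omega),
    if_neg (by omega)]
  simp only [Nat.add_sub_cancel, apx, FP.pt, FP.ed]
  have l0 := (msh_pos N).ne'
  rw [inv_smul_eq_iff₀ l0]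
  module

theorem pS_mem (j : Fin 4) : 0 ≤ pS j ∧ pS j ≤ 28 := pos_mem (j, false)

theorem pE_mem (j : Fin 4) : 0 ≤ pE j ∧ pE j ≤ 28 := pos_mem (j, true)

theorem dLip (hn : Nrm f g) {η δ : ℝ} (hU : US f η δ) {x y : ℝ × ℝ} (hx : ‖x‖ ≤ δ)
    (hy : ‖y‖ ≤ δ) : ‖(LL x - f x) - (LL y - f y)‖ ≤ η * ‖x - y‖ := by
  have k := (hU 0 (by simp)).2 x y (by simpa using hx) (by simpa using hy)
  rw [map_sub, hn.2.1, hn.2.1] at k
  have e : (LL x - f x) - (LL y - f y) = -(f x - f y - (LL x - LL y)) := by abel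
  rw [e, norm_neg]
  exact k

theorem LL0 : LL 0 = 0 := by ext <;> simp [LL]

theorem cc_near (hS : Surface f g) (hn : Nrm f g) (hN : 4 ≤ N) {η δ : ℝ} (hη : 0 ≤ η)
    (hU : US f η δ) (lδ : 100 * msh N ≤ δ) (l1 : msh N ≤ 1) (j : Fin 4) {k : ℕ}
    (hk : k ≤ N + 2) : ‖cc g N j k - g j (k * msh N, 0)‖ ≤ η * (60 * msh N) := by
  have l0 := msh_pos N
  have key : ∀ (i : ℕ) (p : ℝ), i ≤ 2 → 0 ≤ p → p ≤ 28 → (i * msh N ∈ Icc (0 : ℝ) 2) ∧
      ‖LL (i * msh N * p, i * msh N) - f (i * msh N * p, i * msh N)‖ ≤ η * (60 * msh N) := by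
    intro i p hi p0 p1
    have i2 : (i : ℝ) ≤ 2 := by exact_mod_cast hi
    have i0 : 0 ≤ i * msh N := by positivity
    have i3 : i * msh N ≤ 2 * msh N := by gcongr
    have n := ray_norm (u := p) (by linarith) (by linarith) i0
    have k := dLip hn hU (x := (i * msh N * p, i * msh N)) (y := 0) (by linarith)
      (by rw [norm_zero]; linarith)
    rw [LL0, hn.1, sub_zero, sub_zero, sub_zero] at k
    exact ⟨⟨i0, by linarith⟩, k.trans (by gcongr; linarith)⟩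
  have z : (0 : ℝ) ∈ Icc (-1 : ℝ) 1 := ⟨by norm_num, by norm_num⟩
  by_cases h1 : k ≤ 2
  · obtain ⟨a, b⟩ := key k _ h1 (pS_mem j).1 (pS_mem j).2
    rwa [cc_lo hN j h1, ((hS.2.2.2 j).2.2.1 _ a 0 z).1, add_zero]
  by_cases h2 : N ≤ k
  · obtain ⟨i, rfl⟩ : ∃ i, k = N + 2 - i := ⟨N + 2 - k, by omega⟩
    wlog hi : i ≤ 2
    · omega
    obtain ⟨a, b⟩ := key i _ hi (pE_mem j).1 (pE_mem j).2
    have e : ((N + 2 - i : ℕ) : ℝ) * msh N = 5 - i * msh N := by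
      rw [← msh_mul N, Nat.cast_sub (by omega)]; ring
    rwa [cc_hi hN j hi, e, ((hS.2.2.2 j).2.2.1 _ a 0 z).2, sub_zero]
  · rw [cc_in j (by omega) (by omega), sub_self, norm_zero]
    positivity

theorem ww_S (hS : Surface f g) (hn : Nrm f g) (hN : 4 ≤ N) (j : Fin 4) {k : ℕ}
    (hk : k * msh N ≤ 2) : ∃ τ, k * msh N - 2 * msh N ≤ τ ∧ τ ≤ k * msh N ∧
      ww g N j k = (k * msh N) • (1 : ℝ) • fderiv ℝ f (τ * pS j, τ) (1, 0) := by
  have l0 := msh_pos N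
  by_cases h1 : k ≤ 2
  · have i2 : (k : ℝ) ≤ 2 := by exact_mod_cast h1
    refine ⟨0, by nlinarith, by positivity, ?_⟩
    rw [ww_lo hN j h1, zero_mul, show ((0 : ℝ), (0 : ℝ)) = 0 from rfl, hn.2.1]
    rfl
  · have h2 : k + 1 ≤ N := by
      have e := msh_mul N
      have : (5 * k : ℝ) ≤ 2 * (N + 2 : ℕ) := by
        refine le_of_mul_le_mul_right ?_ l0
        nlinarith
      have : 5 * k ≤ 2 * (N + 2) := by exact_mod_cast this
      omega
    refine ⟨k * msh N, by linarith, le_rfl, ?_⟩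
    rw [ww_in j (by omega) h2]
    refine der_ov hS.1 (hS.2.2.2 j).1 fun s hs => ?_
    rw [one_mul]
    exact ((hS.2.2.2 j).2.2.1 _ ⟨by positivity, hk⟩ s hs).1

theorem ww_E (hS : Surface f g) (hn : Nrm f g) (hN : 4 ≤ N) (j : Fin 4) {k : ℕ} (hk' : k ≤ N + 2)
    (hk : 3 ≤ k * msh N) : ∃ τ, 5 - k * msh N - 2 * msh N ≤ τ ∧ τ ≤ 5 - k * msh N ∧
      ww g N j k = (5 - k * msh N) • (-1 : ℝ) • fderiv ℝ f (τ * pE j, τ) (1, 0) := by
  have l0 := msh_pos N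
  have e := msh_mul N
  have k5 : k * msh N ≤ 5 := by
    rw [← e]; gcongr
  by_cases h1 : N ≤ k
  · obtain ⟨i, rfl⟩ : ∃ i, k = N + 2 - i := ⟨N + 2 - k, by omega⟩
    wlog hi : i ≤ 2
    · omega
    have i2 : (i : ℝ) ≤ 2 := by exact_mod_cast hi
    have e : ((N + 2 - i : ℕ) : ℝ) * msh N = 5 - i * msh N := by
      rw [← msh_mul N, Nat.cast_sub (by omega)]; ring
    refine ⟨0, by rw [e]; nlinarith, by linarith, ?_⟩
    rw [ww_hi hN j hi, zero_mul, show ((0 : ℝ), (0 : ℝ)) = 0 from rfl, hn.2.1, e, sub_sub_cancel]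
    rfl
  · have h2 : 3 ≤ k := by
      have : (3 * (N + 2 : ℕ) : ℝ) ≤ 5 * k := by
        refine le_of_mul_le_mul_right ?_ l0
        nlinarith
      have : 3 * (N + 2) ≤ 5 * k := by exact_mod_cast this
      omega
    refine ⟨5 - k * msh N, by linarith, le_rfl, ?_⟩
    rw [ww_in j h2 (by omega)]
    refine der_ov hS.1 (hS.2.2.2 j).1 fun s hs => ?_
    have := ((hS.2.2.2 j).2.2.1 (5 - k * msh N) ⟨by linarith, by linarith⟩ s hs).2
    rwa [sub_sub_cancel, sub_eq_add_neg (pE j), ← neg_one_mul s] at this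

theorem P3 (hS : Surface f g) (hn : Nrm f g) (hN : 4 ≤ N) {η δ ε : ℝ} (hη : 0 ≤ η)
    (hU : US f η δ) (hV : ∀ j, US (g j) η δ) (lδ : 100 * msh N ≤ δ) (δ1 : δ ≤ 1) (ε0 : 0 < ε)
    (εδ : ε ≤ δ) (j : Fin 4) {t : ℝ} (ht : t ∈ Icc (0 : ℝ) 5) :
    ‖(HH g N j ε t - g j (t, ε)) - (HH g N j (-ε) t - g j (t, -ε))‖ ≤
      4 * η * (ε * min t (5 - t)) := by
  have l0 := msh_pos N
  have e5 := msh_mul N
  obtain ⟨k, hk, μ, hμ, e⟩ := cell l0 (N + 1) (t := t) (by rwa [e5])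
  have a0 : k * msh N ≤ t := by rw [e]; nlinarith [hμ.1]
  have a1 : t ≤ k * msh N + msh N := by rw [e]; nlinarith [hμ.2]
  have a2 : ((k + 1 : ℕ) : ℝ) * msh N = k * msh N + msh N := by push_cast; ring
  have a3 : 0 ≤ k * msh N := by positivity
  have a4 : k * msh N + msh N ≤ 5 := by
    rw [← a2, ← e5]
    exact mul_le_mul_of_nonneg_right (Nat.cast_le.2 (by omega)) l0.le
  have s1 : ε ∈ Icc (-1 : ℝ) 1 := ⟨by linarith, by linarith⟩
  have s2 : -ε ∈ Icc (-1 : ℝ) 1 := ⟨by linarith, by linarith⟩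
  have ov := (hS.2.2.2 j).2.2.1
  have E1 := HH_eq (g := g) (N := N) j ε k hμ
  have E2 := HH_eq (g := g) (N := N) j (-ε) k hμ
  rw [← e] at E1 E2
  rw [E1, E2]
  by_cases h1 : t ≤ 1
  · rw [min_eq_left (by linarith)]
    obtain ⟨τ, b1, b2, b3⟩ := ww_S hS hn hN j (k := k) (by linarith)
    obtain ⟨τ', b1', b2', b3'⟩ := ww_S hS hn hN j (k := k + 1) (by linarith)
    have p := pS_mem j
    refine p3cell ε0.le hμ
      (wnear hU lδ p.1 p.2 ht.1 h1 a3 (abs_le.2 ⟨by linarith, by linarith⟩) abs_one b3)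
      (wnear hU lδ p.1 p.2 ht.1 h1 (by positivity) (abs_le.2 ⟨by linarith, by linarith⟩)
        abs_one b3') (by rw [a2, e]; ring) ?_
    have := gnear hU ε0.le εδ p.1 p.2 ht.1 h1 abs_one
    rwa [one_mul, one_mul, ← (ov t ⟨ht.1, by linarith⟩ _ s1).1,
      ← (ov t ⟨ht.1, by linarith⟩ _ s2).1] at this
  by_cases h2 : 4 ≤ t
  · rw [min_eq_right (by linarith)]
    obtain ⟨τ, b1, b2, b3⟩ := ww_E hS hn hN j (k := k) (by omega) (by linarith)
    obtain ⟨τ', b1', b2', b3'⟩ := ww_E hS hn hN j (k := k + 1) (by omega) (by linarith)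
    have p := pE_mem j
    have t0 : 0 ≤ 5 - t := by linarith [ht.2]
    have t1 : 5 - t ≤ 1 := by linarith
    have κ : |(-1 : ℝ)| = 1 := by simp
    refine p3cell ε0.le hμ
      (wnear hU lδ p.1 p.2 t0 t1 (by linarith) (abs_le.2 ⟨by linarith, by linarith⟩) κ b3)
      (wnear hU lδ p.1 p.2 t0 t1 (by linarith) (abs_le.2 ⟨by linarith, by linarith⟩) κ b3')
      (by rw [a2, e]; ring) ?_
    have := gnear hU ε0.le εδ p.1 p.2 t0 t1 κ
    rwa [neg_one_mul, neg_one_mul, ← sub_eq_add_neg, ← sub_eq_add_neg,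
      ← (ov _ ⟨t0, by linarith⟩ _ s1).2, ← (ov _ ⟨t0, by linarith⟩ _ s2).2, sub_sub_cancel] at this
  · have k3 : 3 ≤ k := by
      have : (3 : ℝ) ≤ k := by
        refine le_of_mul_le_mul_right ?_ l0
        linarith
      exact_mod_cast this
    have k4 : k + 2 ≤ N := by
      have : (k + 4 : ℝ) ≤ (N + 2 : ℕ) := by
        refine le_of_mul_le_mul_right ?_ l0
        linarith
      have : k + 4 ≤ N + 2 := by exact_mod_cast this
      omega
    have t60 : |t| ≤ 60 := abs_le.2 ⟨by linarith [ht.1], by linarith⟩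
    rw [ww_in j k3 (by omega), ww_in j (k := k + 1) (by omega) (by omega)]
    refine (p3cell ε0.le hμ (wmid (hV j) t60 (abs_le.2 ⟨by linarith, by linarith⟩))
      (wmid (hV j) t60 (abs_le.2 ⟨by linarith, by linarith⟩)) (by ring)
      (gmid (hV j) ε0.le εδ t60)).trans ?_
    gcongr
    exact le_min (by linarith) (by linarith)

theorem P1 (hS : Surface f g) (hn : Nrm f g) (hN : 4 ≤ N) {η δ s W : ℝ} (hη : 0 ≤ η)
    (hU : US f η δ) (hV : ∀ j, US (g j) η δ) (lδ : 100 * msh N ≤ δ) (δ1 : δ ≤ 1) (hs : |s| ≤ δ)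
    (j : Fin 4) (hW : ∀ k ≤ N + 2, ‖ww g N j k‖ ≤ W) (hsW : |s| * (2 * W) ≤ η * msh N) :
    ∀ t ∈ Icc (0 : ℝ) 5, ∀ t' ∈ Icc (0 : ℝ) 5,
      ‖(HH g N j s t - g j (t, s)) - (HH g N j s t' - g j (t', s))‖ ≤ 123 * η * |t - t'| := by
  have l0 := msh_pos N
  have e5 := msh_mul N
  have := glue (φ := fun t => HH g N j s t - g j (t, s)) (η := 123 * η) l0 (N + 2) (by
    intro k hk μ hμ μ' hμ'
    have a2 : ((k + 1 : ℕ) : ℝ) * msh N = k * msh N + msh N := by push_cast; ring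
    have a3 : 0 ≤ k * msh N := by positivity
    have a4 : k * msh N + msh N ≤ 5 := by
      rw [← a2, ← e5]
      exact mul_le_mul_of_nonneg_right (Nat.cast_le.2 (by omega)) l0.le
    have c0 := cc_near hS hn hN hη hU lδ (by linarith) j (k := k) (by omega)
    have c1 := cc_near hS hn hN hη hU lδ (by linarith) j (k := k + 1) (by omega)
    rw [a2] at c1
    beta_reduce
    rw [HH_eq j s k hμ, HH_eq j s k hμ', add_mul, add_mul]
    refine p1cell (hV j) l0 (by linarith) hs (abs_le.2 ⟨by linarith, by linarith⟩) c0 c1 ?_ hμ hμ'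
    rw [norm_smul, Real.norm_eq_abs]
    refine le_trans ?_ hsW
    gcongr
    linarith [norm_sub_le (ww g N j (k + 1)) (ww g N j k), hW k (by omega), hW (k + 1) (by omega)])
  rwa [e5] at this

theorem tri_norm {x : ℝ × ℝ} (hx : x ∈ tri) : ‖x‖ ≤ 29 * x.2 := by
  obtain ⟨a, b⟩ := x
  obtain ⟨-, h1, h2⟩ := hx
  dsimp only at h1 h2 ⊢
  rw [norm_pr]
  refine max_le (abs_le.2 ⟨?_, ?_⟩) (abs_le.2 ⟨?_, ?_⟩) <;> linarith

theorem image (hN : 4 ≤ N) {ε : ℝ} (ε0 : 0 < ε) (ε1 : ε ≤ 1) (h : E3 ≃ₜ E3)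
    (h1 : ∀ u t, -1 ≤ u → u ≤ 29 → t ∈ Icc (0 : ℝ) 1 →
      h (f (t * msh N * u, t * msh N)) = LL (t * u, t))
    (h2 : ∀ j s t, |s| = ε → t ∈ Icc (0 : ℝ) 5 → h (g j (t, s)) = (msh N)⁻¹ • HH g N j s t) :
    h '' bdry f g (msh N) ε = Kn0 (apx g N) ε := by
  have l0 := msh_pos N
  have e5 := msh_mul N
  have s1 : |ε| = ε := abs_of_pos ε0
  have s2 : |-ε| = ε := by rw [abs_neg, s1]
  have A1 : ∀ t ∈ Icc (0 : ℝ) 1, h (f (-(t * msh N * ε), t * msh N)) =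
      (((-(t * ε) : ℝ) : ℂ) + (t : ℂ) * I, t) := fun t ht => by
    have := h1 (-ε) t (by linarith) (by linarith) ht
    rwa [mul_neg, mul_neg] at this
  have A2 : ∀ t ∈ Icc (0 : ℝ) 1, h (f (t * msh N * (28 + ε), t * msh N)) =
      (((t * (28 + ε) : ℝ) : ℂ) + (t : ℂ) * I, t) := fun t ht =>
    h1 (28 + ε) t (by linarith) (by linarith) ht
  have A3 : ∀ p : Fin 7, ∀ x ∈ Icc (4 * p + ε : ℝ) (4 * p + 4 - ε),
      h (f (msh N * x, msh N)) = ((x : ℂ) + I, 1) := fun p x hx => by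
    have p0 : (0 : ℝ) ≤ (p : ℕ) := Nat.cast_nonneg _
    have p1 : ((p : ℕ) : ℝ) ≤ 6 := by exact_mod_cast Nat.lt_succ_iff.1 p.2
    have := h1 x 1 (by linarith [hx.1]) (by linarith [hx.2]) ⟨zero_le_one, le_rfl⟩
    simpa [LL] using this
  have I4 : ∀ n < N, ∀ μ ∈ Icc (0 : ℝ) 1,
      ((n + 1 : ℕ) + μ) * msh N ∈ Icc (msh N) (5 - msh N) := fun n hn μ hμ => by
    have n0 : (0 : ℝ) ≤ n := Nat.cast_nonneg _
    have n1 : (n + 1 : ℝ) ≤ N := by exact_mod_cast hn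
    rw [← e5]
    push_cast
    constructor <;> nlinarith [hμ.1, hμ.2]
  have A4 : ∀ j s, |s| = ε → ∀ n < N, ∀ μ ∈ Icc (0 : ℝ) 1,
      h (g j (((n + 1 : ℕ) + μ) * msh N, s)) = (apx g N).pt j n μ + s • (apx g N).v j n μ :=
    fun j s hs n hn μ hμ => by
      have := I4 n hn μ hμ
      rw [h2 j s _ hs ⟨by linarith [this.1], by linarith [this.2]⟩, HH_edge j s hn hμ]
  ext y
  constructor
  · rintro ⟨x, ⟨t, ht, hx⟩ | ⟨p, x, hx, rfl⟩ | ⟨j, t, ht, hx⟩, rfl⟩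
    · obtain ⟨μ, hμ, rfl⟩ : ∃ μ ∈ Icc (0 : ℝ) 1, t = μ * msh N :=
        ⟨t / msh N, ⟨div_nonneg ht.1 l0.le, (div_le_one l0).2 ht.2⟩, by field_simp⟩
      refine Or.inl (Or.inl ⟨μ, hμ, ?_⟩)
      rcases hx with rfl | rfl
      · exact Or.inl (A1 μ hμ)
      · exact Or.inr (A2 μ hμ)
    · exact Or.inl (Or.inr ⟨p, x, hx, A3 p x hx⟩)
    · obtain ⟨n, hn, μ, hμ, e⟩ := cell l0 (N - 1) (t := t - msh N) ⟨by linarith [ht.1], by
        rw [Nat.sub_add_cancel (by omega)]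
        have := ht.2
        rw [← e5] at this
        push_cast at this
        linarith⟩
      have e' : t = ((n + 1 : ℕ) + μ) * msh N := by push_cast; linarith
      subst e'
      refine Or.inr ⟨j, n, by dsimp only [apx]; omega, μ, hμ, ?_⟩
      rcases hx with rfl | rfl
      · exact Or.inl (A4 j ε s1 n (by omega) μ hμ)
      · exact Or.inr ((A4 j (-ε) s2 n (by omega) μ hμ).trans (by rw [neg_smul, sub_eq_add_neg]))
  · rintro ((⟨t, ht, hy⟩ | ⟨p, x, hx, rfl⟩) | ⟨j, n, hn, μ, hμ, hy⟩)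
    · have a : t * msh N ∈ Icc (0 : ℝ) (msh N) :=
        ⟨mul_nonneg ht.1 l0.le, by nlinarith [ht.2]⟩
      rcases hy with rfl | rfl
      · exact ⟨_, Or.inl ⟨_, a, Or.inl rfl⟩, A1 t ht⟩
      · exact ⟨_, Or.inl ⟨_, a, Or.inr rfl⟩, A2 t ht⟩
    · exact ⟨_, Or.inr (Or.inl ⟨p, x, hx, rfl⟩), A3 p x hx⟩
    · rcases hy with rfl | rfl
      · exact ⟨_, Or.inr (Or.inr ⟨j, _, I4 n hn μ hμ, Or.inl rfl⟩), A4 j ε s1 n hn μ hμ⟩
      · exact ⟨_, Or.inr (Or.inr ⟨j, _, I4 n hn μ hμ, Or.inr rfl⟩),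
          (A4 j (-ε) s2 n hn μ hμ).trans (by rw [neg_smul, sub_eq_add_neg])⟩

end S3b

open S3b in
theorem rowS3b (hM : RowM) (hSB : RowSB) : RowS3b := by
  intro f g hS hn
  obtain ⟨c, c0, b1, b2, b3, b4⟩ := hSB f g hS
  obtain ⟨η, η0, hc⟩ : ∃ η : ℝ, 0 < η ∧ 200 * (123 * η) ≤ c :=
    ⟨c / (200 * 123), by positivity, by linarith⟩
  obtain ⟨δ0, d0, U0⟩ := exists_US hS.1 η0
  choose δ1 d1 U1 using fun j => exists_US (hS.2.2.2 j).1 η0
  obtain ⟨δ, δp, δ1', hU, hV⟩ : ∃ δ : ℝ, 0 < δ ∧ δ ≤ 1 ∧ US f η δ ∧ ∀ j, US (g j) η δ := by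
    refine ⟨min (min 1 δ0) (min (min (δ1 0) (δ1 1)) (min (δ1 2) (δ1 3))), ?_, by simp,
      U0.mono (by simp), fun j => (U1 j).mono ?_⟩
    · simp [d0, d1]
    · fin_cases j <;> simp
  refine ⟨max 4 ⌈500 / δ⌉₊, fun N hN => ?_⟩
  have N4 : 4 ≤ N := (le_max_left _ _).trans hN
  have l0 := msh_pos N
  have lδ : 100 * msh N ≤ δ := by
    have h1 : 500 / δ ≤ N := Nat.ceil_le.1 ((le_max_right _ _).trans hN)
    have h2 := msh_mul N
    rw [div_le_iff₀ δp] at h1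
    push_cast at h2
    refine le_of_mul_le_mul_right ?_ (by positivity : (0 : ℝ) < N + 2)
    nlinarith
  obtain ⟨W, hW⟩ := (finite_range fun p : Fin 4 × Fin (N + 3) => ‖ww g N p.1 p.2‖).bddAbove
  have hW' : ∀ j, ∀ k ≤ N + 2, ‖ww g N j k‖ ≤ W := fun j k hk =>
    hW ⟨(j, ⟨k, by omega⟩), rfl⟩
  have W0 : 0 ≤ W := (norm_nonneg _).trans (hW' 0 0 (by omega))
  refine ⟨min δ (η * msh N / (2 * W + 1)), lt_min δp (by positivity), fun ε hε => ?_⟩
  have ε0 := hε.1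
  have εδ : ε ≤ δ := hε.2.trans (min_le_left _ _)
  have εW : ε * (2 * W) ≤ η * msh N := by
    have := (le_div_iff₀ (by positivity)).1 (hε.2.trans (min_le_right _ _))
    nlinarith
  have H : Dat f g (fun x => LL x - f x) (fun j s t => HH g N j s t - g j (t, s)) c (123 * η)
      (msh N) ε :=
    { hη := by positivity
      hc := hc
      l0 := l0
      l1 := by linarith
      ε0 := ε0
      ε1 := by linarith
      ov := fun j => (hS.2.2.2 j).2.2.1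
      b1 := b1
      b2 := b2
      b3 := b3
      b4 := b4
      d0 := by simp only [LL0, hn.1, sub_zero]
      dL := fun x hx h1 y hy h2 =>
        (dLip hn hU (by linarith [tri_norm hx]) (by linarith [tri_norm hy])).trans
          (by gcongr; linarith)
      p1 := fun j s hs => P1 hS hn N4 η0.le hU hV lδ δ1' (hs ▸ εδ) j (hW' j) (hs ▸ εW)
      p2 := fun j s hs t ht => by
        have := (hS.2.2.2 j).2.2.1 t ⟨ht.1, by linarith [ht.2]⟩ s
          (abs_le.1 (by linarith : |s| ≤ 1))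
        beta_reduce
        rw [HH_lo N4 j s ht, HH_hi N4 j s ht, this.1, this.2]
        exact ⟨rfl, rfl⟩
      p3 := fun j t ht => (P3 hS hn N4 η0.le hU hV lδ δ1' ε0 εδ j ht).trans (by
        have : 0 ≤ ε * min t (5 - t) := mul_nonneg ε0.le (le_min ht.1 (by linarith [ht.2]))
        gcongr
        norm_num) }
  obtain ⟨h, h1, h2⟩ := H.homeo hM
  refine ⟨h.trans (Homeomorph.smulOfNeZero (msh N)⁻¹ (inv_ne_zero l0.ne')),
    image N4 ε0 H.ε1 _ (fun u t u0 u1 ht => ?_) fun j s t hs ht => ?_⟩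
  · change (msh N)⁻¹ • h _ = _
    rw [h1 u _ u0 u1 ⟨mul_nonneg ht.1 l0.le, by nlinarith [ht.2]⟩, add_sub_cancel,
      inv_smul_eq_iff₀ l0.ne']
    ext <;> simp [LL] <;> ring
  · change (msh N)⁻¹ • h _ = _
    rw [h2 j s t hs ht, add_sub_cancel]

end Vale.Agent.Q258U
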