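import Vale.Agent.Q258U.Core

/-!
# The gaps are pushed down by a shear
-/

set_option linter.all false

namespace Vale.Agent.Q258U

open Set Complex

namespace S4

/-- seven tents -/
noncomputable def tent (ε ξ : ℝ) : ℝ :=
  ∑ p : Fin 7, max 0 (1 - |ξ - (4 * (p : ℝ) + 2)| / (2 - ε))

/-- the amount of the shear -/
noncomputable def phi (ε : ℝ) (z : ℂ) : ℝ :=
  max 0 (1 - 2 * |z.im - 1|) * tent ε (z.re / max z.im (1 / 2))

theorem cont_phi (ε : ℝ) : Continuous (phi ε) := by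
  have h : Continuous fun z : ℂ => z.re / max z.im (1 / 2) :=
    continuous_re.div (continuous_im.max continuous_const) fun z =>
      (lt_of_lt_of_le (by norm_num) (le_max_right _ _)).ne'
  unfold phi tent
  refine Continuous.mul (by fun_prop) (continuous_finset_sum _ fun p _ => ?_)
  exact continuous_const.max (continuous_const.sub
    ((h.sub continuous_const).abs.div_const _))

/-- the shear -/
noncomputable def shear (ε : ℝ) : E3 ≃ₜ E3 where
  toFun y := (y.1, y.2 - phi ε y.1)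
  invFun y := (y.1, y.2 + phi ε y.1)
  left_inv y := by simp
  right_inv y := by simp
  continuous_toFun := continuous_fst.prodMk (continuous_snd.sub ((cont_phi ε).comp continuous_fst))
  continuous_invFun :=
    continuous_fst.prodMk (continuous_snd.add ((cont_phi ε).comp continuous_fst))

theorem shear_apply (ε : ℝ) (y : E3) : shear ε y = (y.1, y.2 - phi ε y.1) := rfl

theorem shear_fix {ε : ℝ} {y : E3} (h : phi ε y.1 = 0) : shear ε y = y := by
  rw [shear_apply, h, sub_zero]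

theorem image_fix {ε : ℝ} {S : Set E3} (h : ∀ y ∈ S, phi ε y.1 = 0) : shear ε '' S = S := by
  conv_rhs => rw [← image_id S]
  exact image_congr fun y hy => shear_fix (h y hy)

theorem term_zero {ε d : ℝ} (h1 : ε ≤ 1) (h : 2 - ε ≤ |d|) : max 0 (1 - |d| / (2 - ε)) = 0 :=
  max_eq_left (sub_nonpos.2 ((one_le_div (by linarith)).2 h))

theorem tent_zero {ε ξ : ℝ} (h1 : ε ≤ 1)
    (h : ∀ p : ℕ, p < 7 → ξ ≤ 4 * p + ε ∨ 4 * p + 4 - ε ≤ ξ) : tent ε ξ = 0 := by
  refine Finset.sum_eq_zero fun p _ => term_zero h1 ?_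
  rcases h p p.2 with h | h
  · exact le_abs.2 (Or.inr (by linarith))
  · exact le_abs.2 (Or.inl (by linarith))

theorem tent_foot {ε ξ : ℝ} (h0 : 0 ≤ ε) (h1 : ε ≤ 1) (q : ℕ) (h : ξ = 4 * q + ε ∨ ξ = 4 * q - ε) :
    tent ε ξ = 0 := by
  refine tent_zero h1 fun p _ => ?_
  rcases le_or_gt q p with hq | hq
  · have : (q : ℝ) ≤ p := by exact_mod_cast hq
    left; rcases h with h | h <;> linarith
  · have : (p : ℝ) + 1 ≤ q := by exact_mod_cast hq
    right; rcases h with h | h <;> linarith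

theorem tent_gap {ε x : ℝ} (h0 : 0 ≤ ε) (h1 : ε ≤ 1) (p : Fin 7)
    (hx : x ∈ Icc (4 * p + ε : ℝ) (4 * p + 4 - ε)) :
    tent ε x = 1 - |x - (4 * (p : ℝ) + 2)| / (2 - ε) := by
  unfold tent
  rw [Finset.sum_eq_single p]
  · refine max_eq_right (sub_nonneg.2 ((div_le_one (by linarith)).2 (abs_le.2 ⟨?_, ?_⟩)))
    · linarith [hx.1]
    · linarith [hx.2]
  · intro q _ hq
    refine term_zero h1 ?_
    rcases lt_or_gt_of_ne hq with h | h
    · have : ((q : ℕ) : ℝ) + 1 ≤ (p : ℕ) := by exact_mod_cast h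
      exact le_abs.2 (Or.inl (by linarith [hx.1]))
    · have : ((p : ℕ) : ℝ) + 1 ≤ (q : ℕ) := by exact_mod_cast h
      exact le_abs.2 (Or.inr (by linarith [hx.2]))
  · exact fun h => absurd (Finset.mem_univ _) h

theorem phi_im {ε : ℝ} {z : ℂ} (h : z.im ≤ 1 / 2 ∨ 3 / 2 ≤ z.im) : phi ε z = 0 := by
  have : 1 / 2 ≤ |z.im - 1| := by
    rcases h with h | h
    · exact le_abs.2 (Or.inr (by linarith))
    · exact le_abs.2 (Or.inl (by linarith))
  rw [phi, max_eq_left (by linarith), zero_mul]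

/-- the rays through the corners of the feet -/
theorem phi_ray {ε : ℝ} (h0 : 0 ≤ ε) (h1 : ε ≤ 1) {z : ℂ} (q : ℕ)
    (h : z.re = z.im * (4 * q + ε) ∨ z.re = z.im * (4 * q - ε)) : phi ε z = 0 := by
  rcases le_total z.im (1 / 2) with hz | hz
  · exact phi_im (Or.inl hz)
  · have hz' : z.im ≠ 0 := by intro e; rw [e] at hz; norm_num at hz
    rw [phi, max_eq_left hz, tent_foot h0 h1 q, mul_zero]
    rcases h with h | h
    · left; rw [h]; field_simp
    · right; rw [h]; field_simp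

theorem phi_re {ε : ℝ} (h0 : 0 ≤ ε) (h1 : ε ≤ 1) {z : ℂ} (h : z.re ≤ 0 ∨ 42 ≤ z.re) :
    phi ε z = 0 := by
  rcases le_total z.im (1 / 2) with hz | hz
  · exact phi_im (Or.inl hz)
  rcases le_total (3 / 2) z.im with hz' | hz'
  · exact phi_im (Or.inr hz')
  have hp : 0 < z.im := by linarith
  rw [phi, max_eq_left hz, tent_zero h1, mul_zero]
  intro p hp7
  have h6 : (p : ℝ) ≤ 6 := by exact_mod_cast Nat.lt_succ_iff.1 hp7
  have hp0 : (0 : ℝ) ≤ p := Nat.cast_nonneg p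
  rcases h with h | h
  · left
    have : z.re / z.im ≤ 0 := div_nonpos_of_nonpos_of_nonneg h hp.le
    linarith
  · right
    have : 28 ≤ z.re / z.im := (le_div_iff₀ hp).2 (by linarith)
    linarith

theorem phi_gap {ε x : ℝ} (h0 : 0 ≤ ε) (h1 : ε ≤ 1) (p : Fin 7)
    (hx : x ∈ Icc (4 * p + ε : ℝ) (4 * p + 4 - ε)) :
    phi ε ((x : ℂ) + I) = 1 - |x - (4 * (p : ℝ) + 2)| / (2 - ε) := by
  have e1 : ((x : ℂ) + I).im = 1 := by simp
  have e2 : ((x : ℂ) + I).re = x := by simp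
  rw [phi, e1, e2, max_eq_left (by norm_num : (1 / 2 : ℝ) ≤ 1), div_one, tent_gap h0 h1 p hx]
  simp

theorem image_sides {ε : ℝ} (h0 : 0 ≤ ε) (h1 : ε ≤ 1) : shear ε '' sides ε = sides ε := by
  refine image_fix ?_
  rintro _ ⟨t, -, rfl | rfl⟩
  · exact phi_ray h0 h1 0 (Or.inr (by simp))
  · exact phi_ray h0 h1 7 (Or.inl (by simp; left; norm_num))

theorem image_flat {ε : ℝ} (h0 : 0 ≤ ε) (h1 : ε ≤ 1) : shear ε '' flat ε = wedge ε := by
  have h2 : 0 < 2 - ε := by linarith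
  ext y
  constructor
  · rintro ⟨_, ⟨p, x, hx, rfl⟩, rfl⟩
    rw [shear_apply, phi_gap h0 h1 p hx, sub_sub_cancel]
    refine ⟨p, |x - (4 * (p : ℝ) + 2)| / (2 - ε), ⟨by positivity,
      (div_le_one h2).2 (abs_le.2 ⟨by linarith [hx.1], by linarith [hx.2]⟩)⟩, ?_⟩
    rw [div_mul_cancel₀ _ h2.ne']
    rcases le_total 0 (x - (4 * (p : ℝ) + 2)) with h | h
    · right; rw [abs_of_nonneg h, add_sub_cancel]
    · left; rw [abs_of_nonpos h, sub_neg_eq_add, add_sub_cancel]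
  · rintro ⟨p, t, ht, rfl | rfl⟩
    · have hx : (4 * p + 2 - t * (2 - ε) : ℝ) ∈ Icc (4 * p + ε : ℝ) (4 * p + 4 - ε) :=
        ⟨by nlinarith [ht.2], by nlinarith [ht.1]⟩
      refine ⟨_, ⟨p, _, hx, rfl⟩, ?_⟩
      rw [shear_apply, phi_gap h0 h1 p hx, sub_sub_cancel, sub_sub_cancel_left, abs_neg,
        abs_of_nonneg (mul_nonneg ht.1 h2.le), mul_div_cancel_right₀ _ h2.ne']
    · have hx : (4 * p + 2 + t * (2 - ε) : ℝ) ∈ Icc (4 * p + ε : ℝ) (4 * p + 4 - ε) :=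
        ⟨by nlinarith [ht.1], by nlinarith [ht.2]⟩
      refine ⟨_, ⟨p, _, hx, rfl⟩, ?_⟩
      rw [shear_apply, phi_gap h0 h1 p hx, sub_sub_cancel, add_sub_cancel_left,
        abs_of_nonneg (mul_nonneg ht.1 h2.le), mul_div_cancel_right₀ _ h2.ne']

/-- the framing is bounded -/
theorem bound {P : FP} (h : Std P) :
    ∃ M : ℝ, 0 < M ∧ ∀ j, ∀ i < P.N, ∀ μ ∈ Icc (0 : ℝ) 1, ‖P.v j i μ‖ ≤ M := by
  obtain ⟨L, hL⟩ := h.lip
  refine ⟨(∑ j, ∑ i ∈ Finset.range P.N, ‖P.v j i 0‖) + |L| + 1, by positivity,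
    fun j i hi μ hμ => ?_⟩
  have h1 := hL j i hi μ hμ 0 ⟨le_rfl, zero_le_one⟩
  have h2 : L * |μ - 0| ≤ |L| := by
    rw [sub_zero, abs_of_nonneg hμ.1]
    nlinarith [le_abs_self L, abs_nonneg L, hμ.1, hμ.2]
  have h3 : ‖P.v j i 0‖ ≤ ∑ j, ∑ i ∈ Finset.range P.N, ‖P.v j i 0‖ :=
    (Finset.single_le_sum (f := fun i => ‖P.v j i 0‖) (fun _ _ => norm_nonneg _)
      (Finset.mem_range.2 hi)).trans
      (Finset.single_le_sum (f := fun j => ∑ i ∈ Finset.range P.N, ‖P.v j i 0‖)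
        (fun _ _ => by positivity) (Finset.mem_univ j))
  linarith [norm_sub_norm_le (P.v j i μ) (P.v j i 0)]

theorem pt_fst (P : FP) (j : Fin 4) (i : ℕ) (μ : ℝ) :
    (P.pt j i μ).1 = (P.a j i).1 + μ * ((P.a j (i + 1)).1 - (P.a j i).1) := by
  simp [FP.pt, FP.ed]

/-- the shear does not move the points near the inner edges -/
theorem phi_inner {P : FP} (h : Emb P) {ε : ℝ} (h0 : 0 ≤ ε) (h1 : ε ≤ 1) {j : Fin 4} {i : ℕ}
    (hi : 1 ≤ i) (hi' : i + 2 ≤ P.N) {μ : ℝ} (hμ : μ ∈ Icc (0 : ℝ) 1) {w : ℂ} (hw : ‖w‖ ≤ 1 / 2) :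
    phi ε ((P.pt j i μ).1 + w) = 0 := by
  have hre := abs_le.1 ((abs_re_le_norm w).trans hw)
  have him := abs_le.1 ((abs_im_le_norm w).trans hw)
  have e : (P.pt j i μ).1.im =
      (1 - μ) * (P.a j i).1.im + μ * (P.a j (i + 1)).1.im := by
    rw [pt_fst]; simp; ring
  have key : 2 ≤ (P.a j i).1.im → 2 ≤ (P.a j (i + 1)).1.im → phi ε ((P.pt j i μ).1 + w) = 0 := by
    intro a b
    refine phi_im (Or.inr ?_)
    rw [add_im, e]
    nlinarith [hμ.1, hμ.2]
  have N4 := h.std.N4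
  rcases eq_or_lt_of_le hi with rfl | hi2
  · exact key (by rw [h.std.s1]; simp) (h.std.s2i j).le
  rcases eq_or_lt_of_le hi' with e2 | hi3
  · have a : i = P.N - 2 := by omega
    have b : i + 1 = P.N - 1 := by omega
    exact key (by rw [a]; exact (h.std.e2i j).le) (by rw [b, h.std.e1]; simp)
  have hb := h.box j i hi2 hi3 μ hμ
  simp only [Box, mem_setOf_eq, not_and_or, not_le] at hb
  rcases hb with hb | hb | hb | hb
  · exact phi_re h0 h1 (Or.inl (by rw [add_re]; linarith))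
  · exact phi_re h0 h1 (Or.inr (by rw [add_re]; linarith))
  · exact phi_im (Or.inl (by rw [add_im]; linarith))
  · exact phi_im (Or.inr (by rw [add_im]; linarith))

theorem image_bd {P : FP} (h : Emb P) {ε M : ℝ} (h0 : 0 ≤ ε) (h1 : ε ≤ 1) (hε : ε * M ≤ 1 / 2)
    (hM : ∀ j, ∀ i < P.N, ∀ μ ∈ Icc (0 : ℝ) 1, ‖P.v j i μ‖ ≤ M) :
    shear ε '' Bd P ε = Bd P ε := by
  refine image_fix ?_
  rintro y ⟨j, i, hi, μ, hμ, hy⟩
  have N4 := h.std.N4
  rcases Nat.eq_zero_or_pos i with rfl | hi1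
  · have e : (P.pt j 0 μ).1 = (1 + μ) * ((pS j : ℂ) + I) := by
      rw [pt_fst, zero_add, h.std.s0, h.std.s1]; ring
    refine phi_ray h0 h1 (fS j) ?_
    rcases hy with rfl | rfl
    · left
      rw [Prod.fst_add, e, h.std.vs j μ hμ, ← pS_eq]; simp; ring
    · right
      rw [Prod.fst_sub, e, h.std.vs j μ hμ, ← pS_eq]; simp; ring
  rcases eq_or_lt_of_le (Nat.succ_le_of_lt hi) with e2 | hi2
  · have a : i = P.N - 1 := by omega
    have e : (P.pt j i μ).1 = (2 - μ) * ((pE j : ℂ) + I) := by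
      rw [pt_fst, show i + 1 = P.N from e2, a, h.std.e0, h.std.e1]; ring
    refine phi_ray h0 h1 (fE j) ?_
    rcases hy with rfl | rfl
    · right
      rw [Prod.fst_add, e, a, h.std.ve j μ hμ, ← pE_eq]; simp; ring
    · left
      rw [Prod.fst_sub, e, a, h.std.ve j μ hμ, ← pE_eq]; simp; ring
  have hw : ‖(ε • P.v j i μ).1‖ ≤ 1 / 2 := by
    refine (norm_fst_le _).trans ?_
    rw [norm_smul, Real.norm_of_nonneg h0]
    exact (mul_le_mul_of_nonneg_left (hM j i hi μ hμ) h0).trans hε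
  rcases hy with rfl | rfl
  · exact phi_inner h h0 h1 hi1 hi2 hμ hw
  · rw [Prod.fst_sub, sub_eq_add_neg]
    exact phi_inner h h0 h1 hi1 hi2 hμ (by rwa [norm_neg])

end S4

theorem rowS4 : RowS4 := fun P h => by
  obtain ⟨M, hM0, hM⟩ := S4.bound h.std
  refine ⟨min 1 (1 / (2 * M)), by positivity, fun ε hε => ⟨S4.shear ε, ?_⟩⟩
  have h1 : ε ≤ 1 := hε.2.trans (min_le_left _ _)
  have h2 : ε * M ≤ 1 / 2 := by
    have := (le_div_iff₀ (by positivity)).1 (hε.2.trans (min_le_right _ _))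
    linarith
  rw [Kn0, Kn, image_union, image_union, S4.image_sides hε.1.le h1, S4.image_flat hε.1.le h1,
    S4.image_bd h hε.1.le h1 h2 hM]

end Vale.Agent.Q258U
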