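import Vale.Agent.Q258U.Core
import Mathlib.Analysis.Calculus.ContDiff.RCLike
import Mathlib.Analysis.Calculus.FDeriv.Mul
import Mathlib.Analysis.Calculus.FDeriv.Prod
import Mathlib.Analysis.Calculus.TangentCone.Prod
import Mathlib.Analysis.Calculus.TangentCone.Real
import Mathlib.Analysis.Normed.Module.FiniteDimension
import Mathlib.Topology.Order.Compact

/-!
# Lower bounds of distances on a surface
-/

set_option linter.all false

namespace Vale.Agent.Q258U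

open Set Filter Topology

namespace SB

/-- an injective immersion of a compact set does not contract distances too much -/
theorem lower (F : ℝ × ℝ → E3) (hF : ContDiff ℝ 1 F) {K : Set (ℝ × ℝ)} (hK : IsCompact K)
    (hi : InjOn F K) (hd : ∀ x ∈ K, Function.Injective (fderiv ℝ F x)) :
    ∃ c : ℝ, 0 < c ∧ ∀ x ∈ K, ∀ y ∈ K, c * ‖x - y‖ ≤ ‖F x - F y‖ := by
  have key : ∃ c : ℝ, 0 < c ∧ ∀ z ∈ K ×ˢ K, c * ‖z.1 - z.2‖ ≤ ‖F z.1 - F z.2‖ := by
    refine (hK.prod hK).induction_on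
      (p := fun S => ∃ c : ℝ, 0 < c ∧ ∀ z ∈ S, c * ‖z.1 - z.2‖ ≤ ‖F z.1 - F z.2‖)
      ⟨1, one_pos, fun _ h => h.elim⟩ ?_ ?_ ?_
    · rintro S T hST ⟨c, hc, h⟩
      exact ⟨c, hc, fun z hz => h z (hST hz)⟩
    · rintro S T ⟨c, hc, h⟩ ⟨c', hc', h'⟩
      refine ⟨min c c', lt_min hc hc', ?_⟩
      rintro z (hz | hz)
      · exact (mul_le_mul_of_nonneg_right (min_le_left _ _) (norm_nonneg _)).trans (h z hz)
      · exact (mul_le_mul_of_nonneg_right (min_le_right _ _) (norm_nonneg _)).trans (h' z hz)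
    · rintro ⟨x, y⟩ ⟨hx, hy⟩
      suffices H : ∃ c : ℝ, 0 < c ∧
          ∀ᶠ z : (ℝ × ℝ) × (ℝ × ℝ) in 𝓝 (x, y), c * ‖z.1 - z.2‖ ≤ ‖F z.1 - F z.2‖ by
        obtain ⟨c, hc, H⟩ := H
        exact ⟨_, mem_nhdsWithin_of_mem_nhds H, c, hc, fun z hz => hz⟩
      by_cases e : x = y
      · subst e
        have h1 : HasStrictFDerivAt F (fderiv ℝ F x) x :=
          hF.contDiffAt.hasStrictFDerivAt one_ne_zero
        obtain ⟨L, hL, hA⟩ := (fderiv ℝ F x : (ℝ × ℝ) →ₗ[ℝ] E3).exists_antilipschitzWith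
          (LinearMap.ker_eq_bot.2 (hd x hx))
        have hL' : (0 : ℝ) < L := hL
        have h2 := h1.isLittleO.def (c := 1 / (2 * L)) (by positivity)
        refine ⟨1 / (2 * L), by positivity, h2.mono fun z hz => ?_⟩
        have h3 : ‖z.1 - z.2‖ ≤ L * ‖fderiv ℝ F x (z.1 - z.2)‖ := by
          have := hA.le_mul_dist (z.1 - z.2) 0
          simpa using this
        have h4 : ‖fderiv ℝ F x (z.1 - z.2)‖ ≤
            ‖F z.1 - F z.2‖ + ‖F z.1 - F z.2 - fderiv ℝ F x (z.1 - z.2)‖ := by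
          have := norm_sub_le (F z.1 - F z.2) (F z.1 - F z.2 - fderiv ℝ F x (z.1 - z.2))
          rwa [sub_sub_cancel] at this
        have h5 : 1 / L * ‖z.1 - z.2‖ ≤ ‖fderiv ℝ F x (z.1 - z.2)‖ := by
          rw [one_div, inv_mul_le_iff₀ hL']
          exact h3
        have h6 : (1 : ℝ) / L = 1 / (2 * L) + 1 / (2 * L) := by field_simp; norm_num
        rw [h6, add_mul] at h5
        linarith
      · have h1 : 0 < ‖F x - F y‖ := norm_pos_iff.2 (sub_ne_zero.2 fun h => e (hi hx hy h))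
        have h2 : 0 < ‖x - y‖ := norm_pos_iff.2 (sub_ne_zero.2 e)
        refine ⟨‖F x - F y‖ / (2 * ‖x - y‖), by positivity, ?_⟩
        have hc := hF.continuous
        refine (ContinuousAt.eventually_lt (by fun_prop) (by fun_prop) ?_).mono fun z hz => hz.le
        have : ‖F x - F y‖ / (2 * ‖x - y‖) * ‖x - y‖ = ‖F x - F y‖ / 2 := by field_simp
        change ‖F x - F y‖ / (2 * ‖x - y‖) * ‖x - y‖ < ‖F x - F y‖
        rw [this]
        linarith
  obtain ⟨c, hc, h⟩ := key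
  exact ⟨c, hc, fun x hx y hy => h (x, y) ⟨hx, hy⟩⟩

/-- disjoint compact images are at a positive distance -/
theorem apart (F G : ℝ × ℝ → E3) (hF : Continuous F) (hG : Continuous G) {K L : Set (ℝ × ℝ)}
    (hK : IsCompact K) (hL : IsCompact L) (h : ∀ x ∈ K, ∀ y ∈ L, F x ≠ G y) :
    ∃ c : ℝ, 0 < c ∧ ∀ x ∈ K, ∀ y ∈ L, c ≤ ‖F x - G y‖ := by
  obtain ⟨c, hc, h'⟩ := (hK.prod hL).exists_forall_le'
    (f := fun z : (ℝ × ℝ) × (ℝ × ℝ) => ‖F z.1 - G z.2‖) (a := 0) (by fun_prop)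
    fun z hz => norm_pos_iff.2 (sub_ne_zero.2 (h _ hz.1 _ hz.2))
  exact ⟨c, hc, fun x hx y hy => h' (x, y) ⟨hx, hy⟩⟩

/-- the differential in a chart -/
theorem chart (f g : ℝ × ℝ → E3) (hf : ContDiff ℝ 1 f) (hg : ContDiff ℝ 1 g) (u e a : ℝ)
    (he : e ≠ 0) {R : Set (ℝ × ℝ)} {x : ℝ × ℝ} (hx : x ∈ R) (hR : UniqueDiffWithinAt ℝ R x)
    (h : ∀ p ∈ R, g p = f ((u + e * p.1) * (a + e * p.2), u + e * p.1)) (h0 : u + e * x.1 ≠ 0)
    (hi : Function.Injective (fderiv ℝ f ((u + e * x.1) * (a + e * x.2), u + e * x.1))) :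
    Function.Injective (fderiv ℝ g x) := by
  have h1 : HasFDerivAt (fun p : ℝ × ℝ => u + e * p.1) (e • ContinuousLinearMap.fst ℝ ℝ ℝ) x :=
    (hasFDerivAt_fst.const_mul e).const_add u
  have h2 : HasFDerivAt (fun p : ℝ × ℝ => a + e * p.2) (e • ContinuousLinearMap.snd ℝ ℝ ℝ) x :=
    (hasFDerivAt_snd.const_mul e).const_add a
  have h3 := (h1.mul h2).prodMk h1
  have h4 := ((hf.differentiable one_ne_zero _).hasFDerivAt.comp x h3).hasFDerivWithinAt (s := R)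
  have h5 := h4.congr (f₁ := g) h (h x hx)
  rw [hR.eq (hg.differentiable one_ne_zero x).hasFDerivAt.hasFDerivWithinAt h5]
  rw [injective_iff_map_eq_zero]
  intro v hv
  have h6' := (injective_iff_map_eq_zero _).1 hi _ hv
  have h6 : (u + e * x.1) * (e * v.2) + (a + e * x.2) * (e * v.1) = 0 ∧ e * v.1 = 0 :=
    ⟨congrArg Prod.fst h6', congrArg Prod.snd h6'⟩
  have h7 : v.1 = 0 := (mul_eq_zero.1 h6.2).resolve_left he
  have h8 := h6.1
  rw [h7, mul_zero, mul_zero, add_zero] at h8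
  exact Prod.ext h7 ((mul_eq_zero.1 ((mul_eq_zero.1 h8).resolve_left h0)).resolve_left he)

theorem tri_compact : IsCompact tri := by
  refine (isCompact_Icc (a := ((-2 : ℝ), (0 : ℝ))) (b := (58, 2))).of_isClosed_subset ?_ ?_
  · exact (isClosed_le continuous_snd continuous_const).inter
      ((isClosed_le continuous_snd.neg continuous_fst).inter
        (isClosed_le continuous_fst (continuous_const.mul continuous_snd)))
  · rintro x ⟨h1, h2, h3⟩
    exact ⟨⟨by linarith, by linarith⟩, by linarith, h1⟩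

theorem mem_tri {t a : ℝ} (h0 : 0 ≤ t) (h2 : t ≤ 2) (h3 : -1 ≤ a) (h4 : a ≤ 29) :
    (t * a, t) ∈ tri :=
  ⟨h2, by change -t ≤ t * a; nlinarith, by change t * a ≤ 29 * t; nlinarith⟩

theorem pS_mem (j : Fin 4) : 0 ≤ pS j ∧ pS j ≤ 28 := by
  fin_cases j <;> simp [pS] <;> norm_num

theorem pE_mem (j : Fin 4) : 0 ≤ pE j ∧ pE j ≤ 28 := by
  fin_cases j <;> simp [pE] <;> norm_num

theorem feetS {i j : Fin 4} (h : |pS i - pS j| ≤ 2) : i = j := by
  fin_cases i <;> fin_cases j <;> simp [pS] at h ⊢ <;> norm_num [abs_le] at h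

theorem feetE {i j : Fin 4} (h : |pE i - pE j| ≤ 2) : i = j := by
  fin_cases i <;> fin_cases j <;> simp [pE] at h ⊢ <;> norm_num [abs_le] at h

theorem feetSE {i j : Fin 4} (h : |pS i - pE j| ≤ 2) : False := by
  fin_cases i <;> fin_cases j <;> simp [pS, pE] at h <;> norm_num [abs_le] at h

variable {f : ℝ × ℝ → E3} {g : Fin 4 → ℝ × ℝ → E3}

theorem lowS (h : Surface f g) (j : Fin 4) {x : ℝ × ℝ} (h0 : 0 ≤ x.1) (h2 : x.1 ≤ 2)
    (h3 : -1 ≤ x.2) (h4 : x.2 ≤ 1) :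
    g j x = f (x.1 * (pS j + x.2), x.1) ∧ (x.1 * (pS j + x.2), x.1) ∈ tri :=
  ⟨((h.2.2.2 j).2.2.1 x.1 ⟨h0, h2⟩ x.2 ⟨h3, h4⟩).1,
    mem_tri h0 h2 (by linarith [pS_mem j]) (by linarith [pS_mem j])⟩

theorem lowE (h : Surface f g) (j : Fin 4) {x : ℝ × ℝ} (h0 : 3 ≤ x.1) (h2 : x.1 ≤ 5)
    (h3 : -1 ≤ x.2) (h4 : x.2 ≤ 1) :
    g j x = f ((5 - x.1) * (pE j - x.2), 5 - x.1) ∧ ((5 - x.1) * (pE j - x.2), 5 - x.1) ∈ tri := by
  refine ⟨?_, mem_tri (by linarith) (by linarith) (by linarith [pE_mem j])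
    (by linarith [pE_mem j])⟩
  have := ((h.2.2.2 j).2.2.1 (5 - x.1) ⟨by linarith, by linarith⟩ x.2 ⟨h3, h4⟩).2
  rwa [sub_sub_cancel] at this

theorem ends (h : Surface f g) {i j : Fin 4} {x y : ℝ × ℝ} (hx : x ∈ wide) (hy : y ∈ wide)
    (ex : x.1 ≤ 2 ∨ 3 ≤ x.1) (ey : y.1 ≤ 2 ∨ 3 ≤ y.1) (e : g i x = g j y) : i = j ∧ x = y := by
  obtain ⟨⟨x1, x2⟩, x3, x4⟩ := hx
  obtain ⟨⟨y1, y2⟩, y3, y4⟩ := hy
  dsimp only at x1 x2 x3 x4 y1 y2 y3 y4
  have key : ∀ {t a t' a' : ℝ}, 1 ≤ t → (t * a, t) ∈ tri → (t' * a', t') ∈ tri →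
      f (t * a, t) = f (t' * a', t') → t = t' ∧ a = a' := fun {t a t' a'} ht m m' e => by
    have h1 := h.2.1 m m' e
    have h2 : t = t' := congrArg Prod.snd h1
    have h3 : t * a = t' * a' := congrArg Prod.fst h1
    rw [← h2] at h3
    exact ⟨h2, mul_left_cancel₀ (by linarith) h3⟩
  rcases ex with ex | ex <;> rcases ey with ey | ey
  · obtain ⟨a1, a2⟩ := lowS h i (x := x) (by linarith) ex x2 x4
    obtain ⟨b1, b2⟩ := lowS h j (x := y) (by linarith) ey y2 y4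
    obtain ⟨k1, k2⟩ := key x1 a2 b2 (a1.symm.trans (e.trans b1))
    have : i = j := feetS (abs_le.2 ⟨by linarith, by linarith⟩)
    subst this
    exact ⟨rfl, Prod.ext k1 (by linarith)⟩
  · obtain ⟨a1, a2⟩ := lowS h i (x := x) (by linarith) ex x2 x4
    obtain ⟨b1, b2⟩ := lowE h j (x := y) ey (by linarith) y2 y4
    obtain ⟨k1, k2⟩ := key x1 a2 b2 (a1.symm.trans (e.trans b1))
    exact (feetSE (i := i) (j := j) (abs_le.2 ⟨by linarith, by linarith⟩)).elim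
  · obtain ⟨a1, a2⟩ := lowE h i (x := x) ex (by linarith) x2 x4
    obtain ⟨b1, b2⟩ := lowS h j (x := y) (by linarith) ey y2 y4
    obtain ⟨k1, k2⟩ := key y1 b2 a2 (b1.symm.trans (e.symm.trans a1))
    exact (feetSE (i := j) (j := i) (abs_le.2 ⟨by linarith, by linarith⟩)).elim
  · obtain ⟨a1, a2⟩ := lowE h i (x := x) ex (by linarith) x2 x4
    obtain ⟨b1, b2⟩ := lowE h j (x := y) ey (by linarith) y2 y4
    obtain ⟨k1, k2⟩ := key (by linarith) a2 b2 (a1.symm.trans (e.trans b1))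
    have : i = j := feetE (abs_le.2 ⟨by linarith, by linarith⟩)
    subst this
    exact ⟨rfl, Prod.ext (by linarith) (by linarith)⟩

theorem end_mem (h : Surface f g) (j : Fin 4) {x : ℝ × ℝ} (hx : x ∈ wide)
    (ex : x.1 ≤ 2 ∨ 3 ≤ x.1) : g j x ∈ f '' tri := by
  obtain ⟨⟨x1, x2⟩, x3, x4⟩ := hx
  dsimp only at x1 x2 x3 x4
  rcases ex with ex | ex
  · obtain ⟨a1, a2⟩ := lowS h j (x := x) (by linarith) ex x2 x4
    exact ⟨_, a2, a1.symm⟩
  · obtain ⟨a1, a2⟩ := lowE h j (x := x) ex (by linarith) x2 x4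
    exact ⟨_, a2, a1.symm⟩

theorem mid_of {x : ℝ × ℝ} (hx : x ∈ wide) (ex : ¬ (x.1 ≤ 2 ∨ 3 ≤ x.1)) : x ∈ mid := by
  push Not at ex
  exact ⟨⟨ex.1.le, hx.1.2⟩, ex.2.le, hx.2.2⟩

/-- the long bands are embedded and disjoint -/
theorem inj (h : Surface f g) {i j : Fin 4} {x y : ℝ × ℝ} (hx : x ∈ wide) (hy : y ∈ wide)
    (e : g i x = g j y) : i = j ∧ x = y := by
  by_cases ex : x.1 ≤ 2 ∨ 3 ≤ x.1 <;> by_cases ey : y.1 ≤ 2 ∨ 3 ≤ y.1
  · exact ends h hx hy ex ey e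
  · have := ((h.2.2.2 j).2.2.2 y (mid_of hy ey)).1 (e ▸ end_mem h i hx ex)
    exact absurd (this.imp le_of_eq ge_of_eq) ey
  · have := ((h.2.2.2 i).2.2.2 x (mid_of hx ex)).1 (e ▸ end_mem h j hy ey)
    exact absurd (this.imp le_of_eq ge_of_eq) ex
  · exact ((h.2.2.2 j).2.2.2 y (mid_of hy ey)).2 i x (mid_of hx ex) e

/-- the long bands are immersed -/
theorem imm (h : Surface f g) (j : Fin 4) {x : ℝ × ℝ} (hx : x ∈ wide) :
    Function.Injective (fderiv ℝ (g j) x) := by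
  by_cases ex : x.1 ≤ 2 ∨ 3 ≤ x.1
  swap
  · exact (h.2.2.2 j).2.1 x (mid_of hx ex)
  obtain ⟨⟨x1, x2⟩, x3, x4⟩ := hx
  dsimp only at x1 x2 x3 x4
  rcases ex with ex | ex
  · have hm : x ∈ Icc (0 : ℝ) 2 ×ˢ Icc (-1 : ℝ) 1 := ⟨⟨by linarith, ex⟩, x2, x4⟩
    refine chart f (g j) h.1 (h.2.2.2 j).1 0 1 (pS j) one_ne_zero hm
      (((uniqueDiffOn_Icc (by norm_num)).prod (uniqueDiffOn_Icc (by norm_num))) x hm)
      (fun p hp => ?_) (by linarith) (h.2.2.1 _ ?_)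
    · simpa only [zero_add, one_mul] using (lowS h j hp.1.1 hp.1.2 hp.2.1 hp.2.2).1
    · simpa only [zero_add, one_mul] using (lowS h j hm.1.1 hm.1.2 hm.2.1 hm.2.2).2
  · have hm : x ∈ Icc (3 : ℝ) 5 ×ˢ Icc (-1 : ℝ) 1 := ⟨⟨ex, by linarith⟩, x2, x4⟩
    refine chart f (g j) h.1 (h.2.2.2 j).1 5 (-1) (pE j) (by norm_num) hm
      (((uniqueDiffOn_Icc (by norm_num)).prod (uniqueDiffOn_Icc (by norm_num))) x hm)
      (fun p hp => ?_) (by linarith) (h.2.2.1 _ ?_)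
    · simpa only [neg_mul, one_mul, ← sub_eq_add_neg] using
        (lowE h j hp.1.1 hp.1.2 hp.2.1 hp.2.2).1
    · simpa only [neg_mul, one_mul, ← sub_eq_add_neg] using
        (lowE h j hm.1.1 hm.1.2 hm.2.1 hm.2.2).2

/-- the small disc is disjoint from the middle parts of the bands -/
theorem disc (h : Surface f g) (j : Fin 4) {x y : ℝ × ℝ} (hx : x ∈ tri) (h1 : x.2 ≤ 1)
    (hy : y ∈ mid) : f x ≠ g j y := fun e => by
  rcases ((h.2.2.2 j).2.2.2 y hy).1 ⟨x, hx, e⟩ with ey | ey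
  · obtain ⟨a1, a2⟩ := lowS h j (x := y) (by linarith) ey.le hy.1.2 hy.2.2
    have : x.2 = y.1 := congrArg Prod.snd (h.2.1 hx a2 (e.trans a1))
    linarith
  · obtain ⟨a1, a2⟩ := lowE h j (x := y) ey.ge (by linarith) hy.1.2 hy.2.2
    have : x.2 = 5 - y.1 := congrArg Prod.snd (h.2.1 hx a2 (e.trans a1))
    linarith

/-- a common positive lower bound -/
theorem common {ι : Type} [Finite ι] (c : ι → ℝ) (h : ∀ i, 0 < c i) :
    ∃ d : ℝ, 0 < d ∧ ∀ i, d ≤ c i := by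
  obtain ⟨d, hd, h'⟩ := (finite_range c).isCompact.exists_forall_le' (f := fun t : ℝ => t) (a := 0)
    continuousOn_id (by rintro _ ⟨i, rfl⟩; exact h i)
  exact ⟨d, hd, fun i => h' _ ⟨i, rfl⟩⟩

end SB

open SB in
theorem rowSB : RowSB := by
  intro f g h
  have hw : IsCompact wide := isCompact_Icc
  have hm : IsCompact mid := isCompact_Icc
  have hg : ∀ j, ContDiff ℝ 1 (g j) := fun j => (h.2.2.2 j).1
  obtain ⟨c1, p1, h1⟩ := lower f h.1 tri_compact h.2.1 h.2.2.1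
  choose c2 p2 h2 using fun j => lower (g j) (hg j) hw
    (fun x hx y hy e => (inj h hx hy e).2) fun x hx => imm h j hx
  have k3 : ∀ q : Fin 4 × Fin 4, ∃ c : ℝ, 0 < c ∧
      (q.1 ≠ q.2 → ∀ x ∈ wide, ∀ y ∈ wide, c ≤ ‖g q.1 x - g q.2 y‖) := fun q => by
    by_cases e : q.1 = q.2
    · exact ⟨1, one_pos, fun h => absurd e h⟩
    · obtain ⟨c, hc, k⟩ := apart _ _ (hg q.1).continuous (hg q.2).continuous hw hw
        fun x hx y hy e' => e (inj h hx hy e').1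
      exact ⟨c, hc, fun _ => k⟩
  choose c3 p3 h3 using k3
  choose c4 p4 h4 using fun j => apart f (g j) h.1.continuous (hg j).continuous
    (tri_compact.inter_right (isClosed_le continuous_snd (continuous_const (y := (1 : ℝ))))) hm
    fun x hx y hy => disc h j hx.1 hx.2 hy
  obtain ⟨d2, q2, r2⟩ := common c2 p2
  obtain ⟨d3, q3, r3⟩ := common c3 p3
  obtain ⟨d4, q4, r4⟩ := common c4 p4
  refine ⟨min (min c1 d2) (min d3 d4), by positivity, fun x hx y hy => ?_, fun j x hx y hy => ?_,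
    fun i j e x hx y hy => ?_, fun j x hx x1 y hy => ?_⟩
  · exact (mul_le_mul_of_nonneg_right ((min_le_left _ _).trans (min_le_left _ _))
      (norm_nonneg _)).trans (h1 x hx y hy)
  · exact (mul_le_mul_of_nonneg_right
      (((min_le_left _ _).trans (min_le_right _ _)).trans (r2 j)) (norm_nonneg _)).trans
      (h2 j x hx y hy)
  · exact (((min_le_right _ _).trans (min_le_left _ _)).trans (r3 (i, j))).trans
      (h3 (i, j) e x hx y hy)
  · exact (((min_le_right _ _).trans (min_le_right _ _)).trans (r4 j)).trans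
      (h4 j x ⟨hx, x1⟩ y hy)

end Vale.Agent.Q258U
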