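import Vale.Agent.Q258U.Ta

/-!
# Row T: subdivision, parity of the number of critical points, stability
-/

set_option linter.all false

namespace Vale.Agent.Q258U

open Vale.Agent.P258.Braid Vale.Agent.N258B Vale.Agent.Q258D Set Complex

namespace T

theorem pt_snd (P : FP) (j : Fin 4) (i : ℕ) (s : ℝ) :
    (P.pt j i s).2 = (1 - s) * (P.a j i).2 + s * (P.a j (i + 1)).2 := by
  simp only [FP.pt, FP.ed, Prod.snd_add, Prod.smul_snd, Prod.snd_sub, smul_eq_mul]; ring

theorem pt_im (P : FP) (j : Fin 4) (i : ℕ) (s : ℝ) :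
    (P.pt j i s).1.im = (1 - s) * (P.a j i).1.im + s * (P.a j (i + 1)).1.im := by
  simp only [FP.pt, FP.ed, Prod.fst_add, Prod.smul_fst, Prod.fst_sub, add_im, smul_im, sub_im,
    smul_eq_mul]
  ring

theorem im_one {P : FP} (h : Std P) (j : Fin 4) : (P.a j 1).1.im = 2 := by
  rw [h.s1]; simp

theorem im_pen {P : FP} (h : Std P) (j : Fin 4) : (P.a j (P.N - 1)).1.im = 2 := by
  rw [h.e1]; simp

variable {μ : ℝ} {P : FP}

theorem std (h : Std P) (h0 : 0 < μ) (h1 : μ < 1 / 2) : Std (tri3 μ P) := by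
  have h4 := h.N4
  have hN : 2 ≤ P.N := by omega
  have a1 : ∀ j, (tri3 μ P).a j 1 = P.a j 1 := fun j => tri3_a_old μ P j (q := 0) hN
  have a2 : ∀ j, (tri3 μ P).a j 2 = P.pt j 1 μ := fun j => by
    have := tri3_a μ P j (q := 0) (r := 1) (by omega) (by omega)
    rwa [al_one] at this
  have b1 : ∀ j, (tri3 μ P).a j ((tri3 μ P).N - 1) = P.a j (P.N - 1) := fun j => by
    rw [tri3_N, show 3 * P.N - 4 - 1 = 3 * P.N - 5 by omega, tri3_a_pen μ hN]
  have b2 : ∀ j, (tri3 μ P).a j ((tri3 μ P).N - 2) = P.pt j (P.N - 2) (1 - μ) := fun j => by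
    have := tri3_a μ P j (q := P.N - 3) (r := 2) (by omega) (by omega)
    rwa [al_two, show 3 * (P.N - 3) + 1 + 2 = 3 * P.N - 4 - 2 by omega,
      show P.N - 3 + 1 = P.N - 2 by omega] at this
  have e : P.N - 2 + 1 = P.N - 1 := by omega
  refine ⟨by rw [tri3_N]; omega, fun j => by rw [tri3_a_zero, h.s0], fun j => by rw [a1, h.s1],
    fun j => by rw [a1]; exact h.s1h j, fun j => ?_, fun j => ?_,
    fun j => by rw [tri3_N, tri3_a_last μ hN, h.e0], fun j => by rw [b1, h.e1],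
    fun j => by rw [b1]; exact h.e1h j, fun j => ?_, fun j => ?_,
    fun j ν hν => by rw [tri3_v_zero, h.vs j ν hν], fun j ν hν => ?_, fun j n hn => ?_, ?_⟩
  · rw [a1, a2, pt_snd]
    nlinarith [h.s2h j]
  · rw [a2, pt_im, im_one h]
    nlinarith [h.s2i j]
  · rw [b1, b2, pt_snd, e]
    nlinarith [h.e2h j]
  · rw [b2, pt_im, e, im_pen h]
    nlinarith [h.e2i j]
  · rw [tri3_N, show 3 * P.N - 4 - 1 = 3 * P.N - 5 by omega, tri3_v_last μ hN, h.ve j ν hν]
  · rw [tri3_N] at hn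
    rw [v_eq μ hN j (by omega), v_eq μ hN j hn, one_mul, zero_mul, add_zero, add_sub_cancel]
    rcases adj μ hn with ⟨-, k1, k2⟩ | ⟨-, k1, k2, k3⟩
    · rw [k1, k2]
    · rw [k1, k2, k3]
      exact h.glue j _ (k1 ▸ ix_lt hn)
  · obtain ⟨L, hL⟩ := h.lip
    refine ⟨|L|, fun j n hn s hs t ht => ?_⟩
    rw [tri3_N] at hn
    rw [v_eq μ hN j hn, v_eq μ hN j hn]
    refine (hL j _ (ix_lt hn) _ (par_mem h0 h1 _ _ hs) _ (par_mem h0 h1 _ _ ht)).trans ?_
    obtain ⟨k1, k2, k3⟩ := bd h0 h1 P.N n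
    rw [add_sub_add_left_eq_sub, ← sub_mul, abs_mul, abs_of_pos (sub_pos.2 k2)]
    calc _ ≤ |L| * (|s - t| * (up μ P.N n - lw μ n)) :=
          mul_le_mul_of_nonneg_right (le_abs_self L) (mul_nonneg (abs_nonneg _) (by linarith))
      _ ≤ |L| * (|s - t| * 1) := by gcongr; linarith
      _ = _ := by rw [mul_one]

/-- the parameter along a band grows -/
theorem mono (h0 : 0 < μ) (h1 : μ < 1 / 2) {N n n' : ℕ} (h : n + 2 ≤ n') (h' : n' < 3 * N - 4) :
    (ix n : ℝ) + up μ N n < ix n' + lw μ n' := by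
  have step : ∀ m, m + 1 < 3 * N - 4 → (ix m : ℝ) + up μ N m = ix (m + 1) + lw μ (m + 1) := by
    intro m hm
    rcases adj μ hm with ⟨-, k1, k2⟩ | ⟨-, k1, k2, k3⟩
    · rw [k1, k2]
    · rw [k1, k2, k3]; push_cast; ring
  induction n', h using Nat.le_induction with
  | base =>
    rw [step n (by omega), ← step (n + 1) h']
    linarith [(bd h0 h1 N (n + 1)).2.1]
  | succ m hm ih =>
    rw [← step m h']
    linarith [(bd h0 h1 N m).2.1, ih (by omega)]

/-- points on the same edge or on consecutive edges -/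
theorem near (h : Emb P) (j : Fin 4) {i i' : ℕ} (hi : i' = i ∨ i' = i + 1) (hN : i' < P.N)
    {s s' : ℝ} (hs : s ≤ 1) (hs' : 0 ≤ s') (e : P.pt j i s = P.pt j i' s') :
    (i : ℝ) + s = i' + s' := by
  rcases hi with rfl | rfl
  · have k := h.edge j i' hN 0 ⟨le_rfl, zero_le_one⟩
    rcases le_total s s' with c | c
    · have := (k (s' - s) 0 0 (by linarith) le_rfl (by rw [← pt_sub, e]; simp)).1
      linarith
    · have := (k (s - s') 0 0 (by linarith) le_rfl (by rw [← pt_sub, e]; simp)).1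
      linarith
  · have k := h.vert j i hN (1 - s) s' 0 (by linarith) hs' (by
      have e1 := pt_sub P j i s 1
      have e2 := pt_sub P j (i + 1) 0 s'
      rw [sub_zero, pt_zero] at e2
      rw [← e1, ← e2, pt_one, e]
      simp)
    push_cast
    linarith [k.1, k.2.1]

theorem emb (h : Emb P) (h0 : 0 < μ) (h1 : μ < 1 / 2) : Emb (tri3 μ P) := by
  have h4 := h.std.N4
  have hN : 2 ≤ P.N := by omega
  have d : ∀ n, 0 < up μ P.N n - lw μ n := fun n => sub_pos.2 (bd h0 h1 P.N n).2.1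
  refine ⟨std h.std h0 h1, fun j n hn s hs => ?_, fun j n hn => ?_,
    fun j n j' n' c1 c2 c3 c4 c5 s hs s' hs' => ?_, fun j n c1 c2 s hs => ?_⟩
  · rw [tri3_N] at hn
    rw [ed_eq μ hN j hn, v_eq μ hN j hn]
    exact ind_smul (h.edge j _ (ix_lt hn) _ (par_mem h0 h1 _ _ hs)) (d n) (d n)
  · rw [tri3_N] at hn
    have hn' : n < 3 * P.N - 4 := by omega
    rw [ed_eq μ hN j hn, ed_eq μ hN j hn', v_eq μ hN j hn']
    refine ind_smul ?_ (d _) (d _)
    rcases adj μ hn with ⟨-, k1, -⟩ | ⟨-, k1, k2, -⟩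
    · rw [k1]
      exact h.edge j _ (ix_lt hn') _ (par_mem h0 h1 _ _ ⟨zero_le_one, le_rfl⟩)
    · rw [k1, one_mul, add_sub_cancel, k2]
      exact h.vert j _ (k1 ▸ ix_lt hn)
  · rw [tri3_N] at c2 c4
    rw [pt_eq μ hN j (by omega), pt_eq μ hN j' (by omega)]
    have m1 := par_mem h0 h1 P.N n hs
    have m2 := par_mem h0 h1 P.N n' hs'
    by_cases c : j ≠ j' ∨ ix n + 2 ≤ ix n'
    · exact h.disj j _ j' _ (by unfold ix; omega) (by unfold ix; omega) (by unfold ix; omega)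
        (by unfold ix; omega) c _ m1 _ m2
    · obtain ⟨e, c'⟩ := not_or.1 c
      obtain rfl := not_not.1 e
      have c6 : n + 2 ≤ n' := c5.resolve_left e
      intro e'
      have k1 := near h j (by unfold ix at c' ⊢; omega) (ix_lt (N := P.N) (by omega)) m1.2 m2.1 e'
      have k2 := mono h0 h1 (N := P.N) c6 (by omega)
      linarith [(par_bd h0 h1 P.N n hs).2, (par_bd h0 h1 P.N n' hs').1]
  · rw [tri3_N] at c2
    rw [pt_eq μ hN j (by omega)]
    have m1 := par_mem h0 h1 P.N n hs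
    obtain ⟨m2, m3⟩ := par_bd h0 h1 P.N n hs
    by_cases c3 : ix n = 1
    · have k := mono h0 h1 (N := P.N) (n := 0) c1 (by omega)
      rw [ix_zero, up_zero, c3] at k
      intro hb
      have k2 := hb.2.2.2
      rw [c3, pt_im, im_one h.std] at k2
      have := h.std.s2i j
      push_cast at k
      nlinarith
    by_cases c4 : ix n = P.N - 2
    · have k := mono h0 h1 (N := P.N) (n := n) (n' := 3 * P.N - 5) (by omega) (by omega)
      rw [ix_last hN, lw_last μ hN, c4, show P.N - 1 = P.N - 2 + 1 by omega] at k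
      intro hb
      have k2 := hb.2.2.2
      rw [c4, pt_im, show P.N - 2 + 1 = P.N - 1 by omega, im_pen h.std] at k2
      have := h.std.e2i j
      push_cast at k
      nlinarith
    · exact h.box j _ (by unfold ix at c3 ⊢; omega) (by unfold ix at c4 ⊢; omega) _ m1

theorem bd_eq (hN : 2 ≤ P.N) (h0 : 0 < μ) (h1 : μ < 1 / 2) (ε : ℝ) : Bd (tri3 μ P) ε = Bd P ε := by
  ext y
  constructor
  · rintro ⟨j, n, hn, s, hs, e⟩
    rw [tri3_N] at hn
    rw [pt_eq μ hN j hn, v_eq μ hN j hn] at e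
    exact ⟨j, _, ix_lt hn, _, par_mem h0 h1 _ _ hs, e⟩
  · rintro ⟨j, i, hi, s, hs, e⟩
    obtain ⟨n, hn, ν, hν, rfl, rfl⟩ := cover h0 h1 hN hi hs
    refine ⟨j, n, hn, ν, hν, ?_⟩
    rwa [pt_eq μ hN j hn, v_eq μ hN j hn]

theorem nh (hN : 2 ≤ P.N) (h0 : 0 < μ) (h1 : μ < 1 / 2) (h : NH P) : NH (tri3 μ P) := by
  intro j n hn
  rw [tri3_N] at hn
  rw [ed_eq μ hN j hn, Prod.smul_snd, smul_eq_mul]
  exact mul_ne_zero (sub_pos.2 (bd h0 h1 P.N n).2.1).ne' (h j _ (ix_lt hn))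

theorem crit (hN : 2 ≤ P.N) (h0 : 0 < μ) (h1 : μ < 1 / 2) (j : Fin 4) (n : ℕ) :
    Crit (tri3 μ P) j n ↔ ∃ i, n = 3 * i ∧ Crit P j i := by
  have key : n + 1 < 3 * P.N - 4 → (((tri3 μ P).ed j n).2 * ((tri3 μ P).ed j (n + 1)).2 < 0 ↔
      (P.ed j (ix n)).2 * (P.ed j (ix (n + 1))).2 < 0) := fun hn => by
    rw [ed_eq μ hN j hn, ed_eq μ hN j (by omega : n < 3 * P.N - 4), Prod.smul_snd, Prod.smul_snd,
      smul_eq_mul, smul_eq_mul, mul_mul_mul_comm]
    have d := mul_pos (sub_pos.2 (bd h0 h1 P.N n).2.1) (sub_pos.2 (bd h0 h1 P.N (n + 1)).2.1)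
    exact ⟨fun k => neg_of_mul_neg_right k d.le, fun k => mul_neg_of_pos_of_neg d k⟩
  constructor
  · rintro ⟨hn, k⟩
    rw [tri3_N] at hn
    rw [key hn] at k
    rcases adj μ hn with ⟨-, k1, -⟩ | ⟨k0, k1, -, -⟩
    · rw [k1] at k
      exact absurd k (not_lt.2 (mul_self_nonneg _))
    · exact ⟨ix n, k0, k1 ▸ ix_lt hn, k1 ▸ k⟩
  · rintro ⟨i, rfl, hi, k⟩
    have hn : 3 * i + 1 < 3 * P.N - 4 := by omega
    refine ⟨hn, (key hn).2 ?_⟩
    rwa [show ix (3 * i) = i by unfold ix; omega, show ix (3 * i + 1) = i + 1 by unfold ix; omega]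

open Classical in
theorem cnt_eq (hN : 2 ≤ P.N) (h0 : 0 < μ) (h1 : μ < 1 / 2) (j : Fin 4) :
    cnt (tri3 μ P) j = cnt P j := by
  unfold cnt
  symm
  refine Finset.card_bij (fun i _ => 3 * i) (fun i hi => ?_) (fun a _ b _ e => by omega)
    fun n hn => ?_
  · have k := (crit hN h0 h1 j _).2 ⟨i, rfl, (Finset.mem_filter.1 hi).2⟩
    exact Finset.mem_filter.2 ⟨Finset.mem_range.2 (Nat.lt_of_succ_lt k.1), k⟩
  · obtain ⟨i, rfl, k⟩ := (crit hN h0 h1 j _).1 (Finset.mem_filter.1 hn).2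
    exact ⟨i, Finset.mem_filter.2 ⟨Finset.mem_range.2 (Nat.lt_of_succ_lt k.1), k⟩, rfl⟩

open Classical in
/-- the direction of an edge is given by the parity of the number of critical points below it -/
theorem sign (h : Std P) (hh : NH P) (j : Fin 4) : ∀ m < P.N,
    0 < (-1 : ℝ) ^ ((Finset.range m).filter (Crit P j)).card * (P.ed j m).2 := by
  intro m
  induction m with
  | zero =>
    intro _
    have := h.s1h j
    simp [FP.ed, h.s0, this]
  | succ m ih =>
    intro hm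
    have k := ih (by omega)
    have a := hh j m (by omega)
    have b := hh j (m + 1) hm
    have a2 : 0 < (P.ed j m).2 * (P.ed j m).2 := mul_self_pos.2 a
    rw [Finset.range_add_one, Finset.filter_insert]
    split_ifs with c
    · rw [Finset.card_insert_of_notMem (by simp), pow_succ]
      have c2 := c.2
      refine pos_of_mul_pos_left (b := (P.ed j m).2 * (P.ed j m).2) ?_ a2.le
      nlinarith [mul_pos k (neg_pos.2 c2)]
    · have c2 : 0 < (P.ed j m).2 * (P.ed j (m + 1)).2 :=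
        lt_of_le_of_ne (not_lt.1 fun c2 => c ⟨hm, c2⟩) (mul_ne_zero a b).symm
      refine pos_of_mul_pos_left (b := (P.ed j m).2 * (P.ed j m).2) ?_ a2.le
      nlinarith [mul_pos k c2]

theorem odd (h : Std P) (hh : NH P) (j : Fin 4) : Odd (cnt P j) := by
  have h4 := h.N4
  have k := sign h hh j (P.N - 1) (by omega)
  have e : P.N - 1 + 1 = P.N := by omega
  have c : ¬ Crit P j (P.N - 1) := fun c => by have := c.1; omega
  have k1 : (P.ed j (P.N - 1)).2 < 0 := by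
    have := h.e1h j
    simp [FP.ed, e, h.e0, this]
  unfold cnt
  rw [← e, Finset.range_add_one, Finset.filter_insert, if_neg c]
  refine Nat.not_even_iff_odd.1 fun ev => ?_
  rw [ev.neg_one_pow] at k
  linarith

open Classical in
theorem stab (h : NH P) : ∃ ρ : ℝ, 0 < ρ ∧ ∀ P', Close ρ P P' → NH P' ∧ ∀ j, cnt P' j = cnt P j := by
  obtain ⟨ρ, hρ, k⟩ : ∃ ρ : ℝ, 0 < ρ ∧ ∀ j, ∀ i < P.N, 3 * ρ ≤ |(P.ed j i).2| := by
    rcases isEmpty_or_nonempty (Fin 4 × Fin P.N) with c | c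
    · exact ⟨1, one_pos, fun j i hi => (c.false (j, ⟨i, hi⟩)).elim⟩
    · obtain ⟨x, hx⟩ := Finite.exists_min fun x : Fin 4 × Fin P.N => |(P.ed x.1 x.2).2|
      have := abs_pos.2 (h x.1 _ x.2.2)
      exact ⟨|(P.ed x.1 x.2).2| / 3, by positivity, fun j i hi => by
        have := hx (j, ⟨i, hi⟩)
        linarith⟩
  refine ⟨ρ, hρ, fun P' ⟨e, hc⟩ => ?_⟩
  have key : ∀ j, ∀ i < P.N, 0 < (P.ed j i).2 * (P'.ed j i).2 := fun j i hi => by
    have a := abs_le.1 ((norm_snd_le _).trans ((hc j).1 i hi.le))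
    have b := abs_le.1 ((norm_snd_le _).trans ((hc j).1 (i + 1) hi))
    have c := k j i hi
    simp only [FP.ed, Prod.snd_sub] at a b c ⊢
    rcases le_abs.1 c with c | c
    · exact mul_pos (by linarith) (by linarith)
    · exact mul_pos_of_neg_of_neg (by linarith) (by linarith)
  refine ⟨fun j i hi z => ?_, fun j => ?_⟩
  · have := key j i (e ▸ hi)
    rw [z, mul_zero] at this
    exact lt_irrefl _ this
  · unfold cnt
    rw [e]
    congr 1
    refine Finset.filter_congr fun i _ => ?_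
    unfold Crit
    rw [e]
    refine and_congr_right fun hi => ?_
    have d := mul_pos (key j i (by omega)) (key j (i + 1) hi)
    rw [mul_mul_mul_comm] at d
    exact ⟨fun c => neg_of_mul_pos_left d c.le, fun c => neg_of_mul_pos_right d c.le⟩

end T

theorem rowT : RowT :=
  ⟨fun P h μ h0 h1 =>
    have hN : 2 ≤ P.N := le_trans (by norm_num) h.std.N4
    ⟨T.emb h h0 h1, T.bd_eq hN h0 h1, fun hh =>
      ⟨T.nh hN h0 h1 hh, T.cnt_eq hN h0 h1, T.crit hN h0 h1⟩⟩,
    fun _ h hh => T.odd h hh, fun _ h => T.stab h⟩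

end Vale.Agent.Q258U
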