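import Vale.Agent.Q258U.Core
import Mathlib.Tactic.IntervalCases

/-!
# Positions of the strands along the words `slide`, `nest`, `bottom`
-/

set_option linter.all false

namespace Vale.Agent.Q258U

open Vale.Agent.P258.Braid Vale.Agent.N258B Vale.Agent.Q258D Set Complex

namespace TB

variable {ι : Type}

/-- the final position -/
def ps (w : Word) (q : ℕ) : ℕ := w.foldl (fun q x => sw x q) q

theorem fin_ps (l : ι ↪ ℕ) (w : Word) (i : ι) : fin l w i = ps w (l i) := fin_apply w l i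

theorem ps_append (u v : Word) (q : ℕ) : ps (u ++ v) q = ps v (ps u q) := List.foldl_append

theorem inv_cons (x : ℕ × Bool) (w : Word) : inverse (x :: w) = inverse w ++ [(x.1, !x.2)] := by
  simp [inverse]

theorem inv_append (u v : Word) : inverse (u ++ v) = inverse v ++ inverse u := by simp [inverse]

theorem inv_inv (w : Word) : inverse (inverse w) = w := by
  simp [inverse, List.map_reverse, Function.comp_def]

theorem fin_inv (w : Word) : ∀ l : ι ↪ ℕ, fin (fin l w) (inverse w) = l := by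
  induction w with
  | nil => intro l; rfl
  | cons x w ih =>
    intro l
    rw [inv_cons, fin_append, fin_cons l x, ih]
    ext i
    exact sw_sw x (l i)

theorem fin_inv' (w : Word) (l : ι ↪ ℕ) : fin (fin l (inverse w)) w = l := by
  have := fin_inv (inverse w) l
  rwa [inv_inv] at this

/-- the inverse word respects the layers -/
theorem resp_inv (la : ι → ℝ) (w : Word) :
    ∀ l : ι ↪ ℕ, Resp la l w → Resp la (fin l w) (inverse w) := by
  induction w with
  | nil => intro l _; trivial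
  | cons x w ih =>
    intro l h
    rw [inv_cons, resp_append, fin_cons l x, fin_inv]
    refine ⟨ih _ h.2, fun i j hi hj => ?_, trivial⟩
    have h1 : l i = x.1 + 1 := by
      have : sw x (l i) = x.1 := hi
      unfold sw at this; split_ifs at this <;> omega
    have h2 : l j = x.1 := by
      have : sw x (l j) = x.1 + 1 := hj
      unfold sw at this; split_ifs at this <;> omega
    have := h.1 j i h2 h1
    revert this
    cases x.2 <;> simp

/-- strands of one layer do not cross -/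
theorem order (la : ι → ℝ) (w : Word) : ∀ l : ι ↪ ℕ, Resp la l w → ∀ a a', la a = la a' →
    (fin l w a < fin l w a' ↔ l a < l a') := by
  induction w with
  | nil => intro l _ a a' _; rfl
  | cons x w ih =>
    intro l h a a' e
    rw [fin_cons, ih _ h.2 a a' e, swE_apply, swE_apply]
    have k1 : ¬ (l a = x.1 ∧ l a' = x.1 + 1) := fun hh => by
      have := h.1 a a' hh.1 hh.2
      rw [e] at this
      split_ifs at this <;> exact lt_irrefl _ this
    have k2 : ¬ (l a' = x.1 ∧ l a = x.1 + 1) := fun hh => by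
      have := h.1 a' a hh.1 hh.2
      rw [e] at this
      split_ifs at this <;> exact lt_irrefl _ this
    unfold sw
    split_ifs <;> omega

theorem slide_succ (i d : ℕ) : slide i (d + 1) = slide i d ++ [(i + d, false)] := by
  simp [slide, List.range_succ]

theorem nest_succ (q n : ℕ) : nest q (n + 1) = nest q n ++ slide (q + 4 * n + 1) 2 := by
  simp [nest, List.range_succ]

theorem islide_succ (i d : ℕ) :
    inverse (slide i (d + 1)) = (i + d, true) :: inverse (slide i d) := by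
  rw [slide_succ, inv_append]; rfl

theorem ps_slide (i d : ℕ) : ∀ q, ps (inverse (slide i d)) q =
    if q = i + d then i else if i ≤ q ∧ q < i + d then q + 1 else q := by
  induction d with
  | zero => intro q; change q = _; split_ifs <;> omega
  | succ d ih =>
    intro q
    rw [islide_succ]
    change ps _ (sw (i + d, true) q) = _
    rw [ih]
    unfold sw
    dsimp only
    split_ifs <;> omega

theorem resp_slide (la : ι → ℝ) (i d : ℕ) : ∀ l : ι ↪ ℕ,
    (∀ a b, l a = i + d → i ≤ l b → l b < i + d → la a < la b) →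
      Resp la l (inverse (slide i d)) := by
  induction d with
  | zero => intro l _; trivial
  | succ d ih =>
    intro l h
    rw [islide_succ]
    refine ⟨fun a b ha hb => ?_, ih _ fun a b ha hb hb' => ?_⟩
    · exact h b a hb (by dsimp only at ha; omega) (by dsimp only at ha; omega)
    · rw [swE_apply] at ha hb hb'
      unfold sw at ha hb hb'
      dsimp only at ha hb hb'
      refine h a b ?_ ?_ ?_
      · split_ifs at ha <;> omega
      · split_ifs at hb hb' <;> omega
      · split_ifs at hb hb' <;> omega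

theorem ps_nest (q n : ℕ) : ∀ p, ps (inverse (nest q n)) p =
    if q ≤ p ∧ p < q + 4 * n then
      (if (p - q) % 4 = 0 then p else if (p - q) % 4 = 3 then p - 2 else p + 1) else p := by
  induction n with
  | zero => intro p; change p = _; split_ifs <;> omega
  | succ n ih =>
    intro p
    rw [nest_succ, inv_append, ps_append, ih, ps_slide]
    split_ifs <;> omega

theorem resp_nest (la : ι → ℝ) (q n : ℕ) : ∀ l : ι ↪ ℕ,
    (∀ a b i, i < n → l a = q + 4 * i + 3 → q + 4 * i + 1 ≤ l b → l b < q + 4 * i + 3 →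
      la a < la b) → Resp la l (inverse (nest q n)) := by
  induction n with
  | zero => intro l _; trivial
  | succ n ih =>
    intro l h
    rw [nest_succ, inv_append, resp_append]
    refine ⟨resp_slide la _ _ l fun a b ha hb hb' => h a b n (by omega) ha hb hb',
      ih _ fun a b i hi ha hb hb' => ?_⟩
    rw [fin_ps, ps_slide] at ha hb hb'
    refine h a b i (by omega) ?_ ?_ ?_
    · split_ifs at ha <;> omega
    · split_ifs at hb hb' <;> omega
    · split_ifs at hb hb' <;> omega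

theorem rng_slide {N i d : ℕ} (h : i + d < N) : Rng N (slide i d) := fun x hx => by
  simp only [slide, List.mem_map, List.mem_range] at hx
  obtain ⟨a, ha, rfl⟩ := hx
  dsimp only
  omega

theorem rng_nest {N q n : ℕ} (h : q + 4 * n ≤ N) : Rng N (nest q n) := fun x hx => by
  simp only [nest, List.mem_flatMap, List.mem_range] at hx
  obtain ⟨a, ha, hx⟩ := hx
  exact rng_slide (by omega) x hx

theorem bij_dbl {n : ℕ} {l : ι ↪ ℕ} (h : Bij n l) : Bij (2 * n) (dbl l) := fun q => by
  constructor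
  · intro hq
    obtain ⟨i, hi⟩ := (h (q / 2)).1 (by omega)
    rcases Nat.mod_two_eq_zero_or_one q with e | e
    · exact ⟨(i, false), by rw [dbl_apply]; dsimp only; rw [hi]; simp; omega⟩
    · exact ⟨(i, true), by rw [dbl_apply]; dsimp only; rw [hi]; simp; omega⟩
  · rintro ⟨a, rfl⟩
    have := h.lt a.1
    have := Bool.toNat_le a.2
    rw [dbl_apply]
    omega

theorem bij_lT {k : ℕ} (hk : 0 < k) : Bij (8 * k) (lT k) := fun q => by
  constructor
  · intro hq
    exact ⟨(⟨q / (2 * k), Nat.div_lt_of_lt_mul (by omega)⟩, ⟨q % (2 * k), Nat.mod_lt _ (by omega)⟩),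
      Nat.div_add_mod _ _⟩
  · rintro ⟨⟨⟨j, hj⟩, r, hr⟩, rfl⟩
    rw [lT_apply]
    dsimp only
    interval_cases j <;> omega

theorem bij_lB {k : ℕ} (hk : 0 < k) : Bij (8 * k) (lB k) :=
  ((bij_lT hk).swE (by dsimp only; omega)).swE (by dsimp only; omega)

/-! ### the top -/

theorem posT (k : ℕ) (a : Lb k) : ∃ m o, o < 4 ∧ dbl (lT k) a = 4 * m + o ∧ m < 4 * k ∧
    mT k a = 2 * m + (o + 1) / 2 % 2 ∧ (a.1.2.val + a.2.toNat) % 2 = (o + 1) / 2 % 2 := by
  obtain ⟨⟨⟨j, hj⟩, r, hr⟩, e⟩ := a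
  have := Bool.toNat_le e
  refine ⟨k * j + r / 2, 2 * (r % 2) + e.toNat, by omega, ?_, ?_, ?_, ?_⟩
  · rw [dbl_apply, lT_apply]
    dsimp only
    rw [mul_assoc]
    omega
  · interval_cases j <;> omega
  · unfold mT
    dsimp only
    omega
  · dsimp only
    omega

theorem respT (k : ℕ) : Resp (laT k) (dbl (lT k)) (inverse (nest 0 (4 * k))) := by
  refine resp_nest _ _ _ _ fun a b i _ ha hb hb' => ?_
  obtain ⟨m, o, h1, h2, -, -, h3⟩ := posT k a
  obtain ⟨m', o', h1', h2', -, -, h3'⟩ := posT k b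
  unfold laT
  rw [if_pos (by omega), if_neg (by omega)]
  norm_num

theorem halfT (k : ℕ) (a : Lb k) :
    fin (dbl (lT k)) (inverse (nest 0 (4 * k))) a / 2 = mT k a := by
  obtain ⟨m, o, h1, h2, h3, h4, -⟩ := posT k a
  rw [fin_ps, ps_nest, h2, h4]
  split_ifs <;> omega

/-! ### the bottom -/

/-- the word of one block -/
def blk (k c : ℕ) : Word := slide (c + 2) (4 * k - 4) ++ nest (c + 2) (k - 1)

theorem bottom_eq (k : ℕ) : bottom k = slide 1 (16 * k - 2) ++
    (blk k (4 * k * 0) ++ (blk k (4 * k * 1) ++ (blk k (4 * k * 2) ++ blk k (4 * k * 3)))) := by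
  have : List.range 4 = [0, 1, 2, 3] := rfl
  simp only [bottom, this, List.flatMap_cons, List.flatMap_nil, List.append_nil, blk]

/-- the permutation of one block -/
def g (k o : ℕ) : ℕ :=
  if 2 ≤ o ∧ o + 2 < 4 * k then (if o % 4 = 2 then o + 1 else if o % 4 = 1 then o - 1 else o + 2)
  else if o + 2 = 4 * k then 2 else o

theorem g_lt {k o : ℕ} (h : o < 4 * k) : g k o < 4 * k := by
  unfold g; split_ifs <;> omega

theorem ps_in {k : ℕ} (c : ℕ) {o : ℕ} (h : o < 4 * k) :
    ps (inverse (blk k c)) (c + o) = c + g k o := by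
  rw [blk, inv_append, ps_append, ps_nest, ps_slide]
  unfold g
  split_ifs <;> omega

theorem ps_out {k : ℕ} (hk : 0 < k) {c p : ℕ} (h : p < c ∨ c + 4 * k ≤ p) :
    ps (inverse (blk k c)) p = p := by
  rw [blk, inv_append, ps_append, ps_nest, ps_slide]
  split_ifs <;> omega

/-- a strand that ends outside the block did not move -/
theorem ps_back {k : ℕ} (hk : 0 < k) {c p : ℕ}
    (h : ps (inverse (blk k c)) p < c ∨ c + 4 * k ≤ ps (inverse (blk k c)) p) :
    ps (inverse (blk k c)) p = p := by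
  refine ps_out hk ?_
  by_contra hc
  obtain ⟨o, rfl⟩ : ∃ o, p = c + o := ⟨p - c, by omega⟩
  have := g_lt (k := k) (o := o) (by omega)
  rw [ps_in c (by omega)] at h
  omega

/-- the condition on the layers in one block -/
def Cond (k c : ℕ) (la : ι → ℝ) (l : ι ↪ ℕ) : Prop :=
  ∀ a b o o', l a = c + o → l b = c + o' → 2 ≤ o' → o' < o →
    (o + 2 = 4 * k ∨ (o + 2 < 4 * k ∧ o % 4 = 1 ∧ o ≤ o' + 2)) → la a < la b

theorem resp_blk {k : ℕ} (hk : 0 < k) {c : ℕ} {la : ι → ℝ} {l : ι ↪ ℕ} (h : Cond k c la l) :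
    Resp la l (inverse (blk k c)) := by
  rw [blk, inv_append, resp_append]
  refine ⟨resp_nest _ _ _ _ fun a b i hi ha hb hb' => ?_, resp_slide _ _ _ _ fun a b ha hb hb' => ?_⟩
  · exact h a b (4 * i + 5) (l b - c) (by omega) (by omega) (by omega) (by omega) (by omega)
  · rw [fin_ps, ps_nest] at ha hb hb'
    refine h a b (4 * k - 2) (l b - c) ?_ ?_ ?_ ?_ (by omega)
    · split_ifs at ha <;> omega
    all_goals split_ifs at hb hb' <;> omega

theorem Cond.next {k : ℕ} (hk : 0 < k) {c c' : ℕ} {la : ι → ℝ} {l : ι ↪ ℕ} (h : Cond k c la l)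
    (hc : c + 4 * k ≤ c') : Cond k c la (fin l (inverse (blk k c'))) := by
  intro a b o o' ha hb h1 h2 h3
  rw [fin_ps] at ha hb
  refine h a b o o' ?_ ?_ h1 h2 h3
  · rw [← ha, ps_back hk (by omega)]
  · rw [← hb, ps_back hk (by omega)]

/-- the number of the cap as a function of the position -/
def Spec (k : ℕ) (a : Lb k) (J o : ℕ) : Prop :=
  (o = 0 ∧ mB k a = 2 * J) ∨ ((o = 1 ∨ o + 2 = 4 * k) ∧ mB k a = 2 * J + 1) ∨
    (o + 1 = 4 * k ∧ mB k a = (2 * J + 2) % 8) ∨
    (2 ≤ o ∧ o + 2 < 4 * k ∧ mB k a = 8 + 2 * (k * J + (o + 2) / 4) + (o + 1) / 2 % 2 ∧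
      (a.1.2.val + a.2.toNat) % 2 = (o + 1) / 2 % 2)

theorem lB_apply (k : ℕ) (b : Bn k) :
    lB k b = sw (2 * k - 1, false) (sw (6 * k - 1, false) (2 * k * b.1.val + b.2.val)) := rfl

theorem foot {k : ℕ} (hk : 0 < k) (j : Fin 4) (r : Fin (2 * k)) :
    (r.val = 0 → ∃ J, J < 4 ∧ ((fS j = 2 * J ∧ lB k (j, r) = 2 * (k * J)) ∨
      (fS j = 2 * J + 1 ∧ lB k (j, r) + 1 = 2 * (k * J) + 2 * k))) ∧
    (r.val + 1 = 2 * k → ∃ J, J < 4 ∧ ((fE j = 2 * J ∧ lB k (j, r) = 2 * (k * J)) ∨
      (fE j = 2 * J + 1 ∧ lB k (j, r) + 1 = 2 * (k * J) + 2 * k))) ∧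
    (r.val ≠ 0 → r.val + 1 ≠ 2 * k → lB k (j, r) = 2 * (k * j.val) + r.val) := by
  obtain ⟨r, hr⟩ := r
  obtain ⟨j, hj⟩ := j
  rw [lB_apply]
  unfold sw
  dsimp only
  refine ⟨fun h => ?_, fun h => ?_, fun h h' => ?_⟩
  · interval_cases j
    · exact ⟨0, by omega, Or.inl ⟨rfl, by split_ifs <;> omega⟩⟩
    · exact ⟨0, by omega, Or.inr ⟨rfl, by split_ifs <;> omega⟩⟩
    · exact ⟨2, by omega, Or.inl ⟨rfl, by split_ifs <;> omega⟩⟩
    · exact ⟨2, by omega, Or.inr ⟨rfl, by split_ifs <;> omega⟩⟩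
  · interval_cases j
    · exact ⟨1, by omega, Or.inl ⟨rfl, by split_ifs <;> omega⟩⟩
    · exact ⟨1, by omega, Or.inr ⟨rfl, by split_ifs <;> omega⟩⟩
    · exact ⟨3, by omega, Or.inl ⟨rfl, by split_ifs <;> omega⟩⟩
    · exact ⟨3, by omega, Or.inr ⟨rfl, by split_ifs <;> omega⟩⟩
  · interval_cases j <;> split_ifs <;> omega

theorem posB {k : ℕ} (hk : 0 < k) (a : Lb k) :
    ∃ J o, J < 4 ∧ o < 4 * k ∧ dbl (lB k) a = 4 * k * J + o ∧ Spec k a J o := by
  obtain ⟨⟨j, r⟩, e⟩ := a
  have he := Bool.toNat_le e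
  have hr := r.2
  obtain ⟨f0, f1, f2⟩ := foot hk j r
  simp only [dbl_apply, mul_assoc]
  unfold Spec mB
  dsimp only
  generalize e.toNat = e at he ⊢
  by_cases h0 : r.val = 0
  · rw [if_pos h0]
    obtain ⟨J, hJ, h | h⟩ := f0 h0
    · exact ⟨J, e, hJ, by omega, by omega, by omega⟩
    · exact ⟨J, 4 * k - 2 + e, hJ, by omega, by omega, by omega⟩
  · rw [if_neg h0]
    by_cases h1 : r.val + 1 = 2 * k
    · rw [if_pos h1]
      obtain ⟨J, hJ, h | h⟩ := f1 h1
      · exact ⟨J, e, hJ, by omega, by omega, by omega⟩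
      · exact ⟨J, 4 * k - 2 + e, hJ, by omega, by omega, by omega⟩
    · rw [if_neg h1, f2 h0 h1]
      exact ⟨j.val, 2 * r.val + e, j.2, by omega, by omega, by omega⟩

theorem posB' {k : ℕ} (hk : 0 < k) (a : Lb k) {J o : ℕ} (hJ : J < 4) (ho : o < 4 * k)
    (h : dbl (lB k) a = 4 * k * J + o) : Spec k a J o := by
  obtain ⟨J', o', h1, h2, h3, h4⟩ := posB hk a
  have : J' = J ∧ o' = o := by interval_cases J <;> interval_cases J' <;> omega
  rwa [this.1, this.2] at h4

theorem lt1 {k : ℕ} {a b : Lb k} (ha : mB k a = 0) (hb : mB k b ≠ 0) : laB k a < laB k b := by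
  unfold laB
  rw [if_pos ha, if_neg hb]
  split_ifs <;> norm_num

theorem lt2 {k : ℕ} {a b : Lb k} (ha : mB k a < 8) (hb : 8 ≤ mB k b) : laB k a < laB k b := by
  unfold laB
  rw [if_pos ha, if_neg (by omega : ¬ mB k b = 0), if_neg (by omega : ¬ mB k b < 8)]
  split_ifs <;> norm_num

theorem lt3 {k : ℕ} {a b : Lb k} (ha : 8 ≤ mB k a) (hb : 8 ≤ mB k b)
    (ha' : (a.1.2.val + a.2.toNat) % 2 = 1) (hb' : (b.1.2.val + b.2.toNat) % 2 = 0) :
    laB k a < laB k b := by
  unfold laB
  rw [if_neg (by omega : ¬ mB k a = 0), if_neg (by omega : ¬ mB k a < 8), if_pos ha',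
    if_neg (by omega : ¬ mB k b = 0), if_neg (by omega : ¬ mB k b < 8), if_neg (by omega)]
  norm_num

theorem condB {k : ℕ} (hk : 0 < k) {J : ℕ} (hJ : J < 4) :
    Cond k (4 * k * J) (laB k) (dbl (lB k)) := by
  intro a b o o' ha hb h1 h2 h3
  have sa := posB' hk a hJ (by omega) ha
  have sb := posB' hk b hJ (by omega) hb
  unfold Spec at sa sb
  rcases h3 with h3 | h3
  · exact lt2 (by omega) (by omega)
  · exact lt3 (by omega) (by omega) (by omega) (by omega)

/-- the four blocks -/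
def four (k : ℕ) : Word :=
  blk k (4 * k * 0) ++ (blk k (4 * k * 1) ++ (blk k (4 * k * 2) ++ blk k (4 * k * 3)))

theorem ps_four {k : ℕ} (hk : 0 < k) {J o : ℕ} (hJ : J < 4) (ho : o < 4 * k) :
    ps (inverse (four k)) (4 * k * J + o) = 4 * k * J + g k o := by
  have := g_lt ho
  simp only [four, inv_append, ps_append]
  interval_cases J
  · rw [ps_out hk (c := 4 * k * 3) (by omega), ps_out hk (c := 4 * k * 2) (by omega),
      ps_out hk (c := 4 * k * 1) (by omega), ps_in _ ho]
  · rw [ps_out hk (c := 4 * k * 3) (by omega), ps_out hk (c := 4 * k * 2) (by omega),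
      ps_in _ ho, ps_out hk (by omega)]
  · rw [ps_out hk (c := 4 * k * 3) (by omega), ps_in _ ho, ps_out hk (c := 4 * k * 1) (by omega),
      ps_out hk (by omega)]
  · rw [ps_in _ ho, ps_out hk (c := 4 * k * 2) (by omega), ps_out hk (c := 4 * k * 1) (by omega),
      ps_out hk (by omega)]

theorem resp_four {k : ℕ} (hk : 0 < k) : Resp (laB k) (dbl (lB k)) (inverse (four k)) := by
  simp only [four, inv_append, resp_append, fin_append]
  refine ⟨⟨⟨resp_blk hk (condB hk (by omega)), resp_blk hk ?_⟩, resp_blk hk ?_⟩, resp_blk hk ?_⟩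
  · exact (condB hk (by omega)).next hk (by omega)
  · exact ((condB hk (by omega)).next hk (by omega)).next hk (by omega)
  · exact (((condB hk (by omega)).next hk (by omega)).next hk (by omega)).next hk (by omega)

theorem inv_bottom (k : ℕ) :
    inverse (bottom k) = inverse (four k) ++ inverse (slide 1 (16 * k - 2)) := by
  rw [bottom_eq, inv_append, four]

theorem respB {k : ℕ} (hk : 0 < k) : Resp (laB k) (dbl (lB k)) (inverse (bottom k)) := by
  rw [inv_bottom, resp_append]
  refine ⟨resp_four hk, resp_slide _ _ _ _ fun a b ha hb hb' => ?_⟩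
  obtain ⟨J, o, h1, h2, h3, h4⟩ := posB hk a
  obtain ⟨J', o', h1', h2', h3', h4'⟩ := posB hk b
  rw [fin_ps, h3, ps_four hk h1 h2] at ha
  rw [fin_ps, h3', ps_four hk h1' h2'] at hb hb'
  unfold Spec at h4 h4'
  unfold g at ha hb hb'
  refine lt1 ?_ ?_
  · interval_cases J <;> split_ifs at ha <;> omega
  · interval_cases J' <;> split_ifs at hb hb' <;> omega

theorem ps_bottom {k : ℕ} (hk : 0 < k) {J o : ℕ} (hJ : J < 4) (ho : o < 4 * k) :
    ps (inverse (bottom k)) (4 * k * J + o) = if J = 3 ∧ o + 1 = 4 * k then 1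
      else if J = 0 ∧ o = 0 then 0 else 4 * (k * J) + g k o + 1 := by
  rw [inv_bottom, ps_append, ps_four hk hJ ho, ps_slide]
  have h1 := g_lt ho
  have h2 : ∀ x, x = g k o → (x = 0 ↔ o = 0) ∧ (x + 1 = 4 * k ↔ o + 1 = 4 * k) := fun x hx => by
    unfold g at hx; split_ifs at hx <;> omega
  have h3 := h2 _ rfl
  have h4 : (J = 0 ∧ k * J = 0) ∨ (J = 1 ∧ k * J = k) ∨ (J = 2 ∧ k * J = 2 * k) ∨
      (J = 3 ∧ k * J = 3 * k) := by interval_cases J <;> omega
  rw [mul_assoc]
  split_ifs <;> omega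

theorem halfB {k : ℕ} (hk : 0 < k) (a : Lb k) : ∃ J s b, J < 4 ∧ s < k ∧ b < 2 ∧
    fin (dbl (lB k)) (inverse (bottom k)) a / 2 = 2 * (k * J) + 2 * s + b ∧
    ((s = 0 ∧ mB k a = 2 * J + b) ∨ (0 < s ∧ mB k a + b = 8 + 2 * (k * J + s) + 1)) := by
  obtain ⟨J, o, h1, h2, h3, h4⟩ := posB hk a
  rw [fin_ps, h3, ps_bottom hk h1 h2]
  unfold g
  rcases h4 with h | h | h | h
  · refine ⟨J, 0, 0, h1, hk, by omega, ?_, by omega⟩
    have : J = 0 → k * J = 0 := fun e => by rw [e, mul_zero]
    split_ifs <;> omega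
  · refine ⟨J, 0, 1, h1, hk, by omega, ?_, by omega⟩
    split_ifs <;> omega
  · by_cases e : J = 3
    · refine ⟨0, 0, 0, by omega, hk, by omega, ?_, by omega⟩
      split_ifs <;> omega
    · refine ⟨J + 1, 0, 0, by omega, hk, by omega, ?_, by omega⟩
      rw [mul_add k]
      split_ifs <;> omega
  · refine ⟨J, (o + 2) / 4, 1 - (o + 1) / 2 % 2, h1, by omega, by omega, ?_, by omega⟩
    split_ifs <;> omega

theorem matchB {k : ℕ} (hk : 0 < k) (a a' : Lb k) :
    fin (dbl (lB k)) (inverse (bottom k)) a / 2 = fin (dbl (lB k)) (inverse (bottom k)) a' / 2 ↔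
      mB k a = mB k a' := by
  obtain ⟨J, s, b, h1, h2, h3, h4, h5⟩ := halfB hk a
  obtain ⟨J', s', b', h1', h2', h3', h4', h5'⟩ := halfB hk a'
  rw [h4, h4']
  interval_cases J <;> interval_cases J' <;> omega

theorem rng_blk {k : ℕ} (hk : 0 < k) {c N : ℕ} (h : c + 4 * k ≤ N) : Rng N (blk k c) :=
  rng_append.2 ⟨rng_slide (by omega), rng_nest (by omega)⟩

theorem rng_bottom {k : ℕ} (hk : 0 < k) : Rng (16 * k) (bottom k) := by
  simp only [bottom_eq, rng_append]
  exact ⟨rng_slide (by omega), rng_blk hk (by omega), rng_blk hk (by omega), rng_blk hk (by omega),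
    rng_blk hk (by omega)⟩

end TB

open TB in
theorem rowTB : RowTB := fun k hk => by
  have e : 16 * k = 2 * (8 * k) := by omega
  have bT : Bij (16 * k) (dbl (lT k)) := e ▸ bij_dbl (bij_lT hk)
  have bB : Bij (16 * k) (dbl (lB k)) := e ▸ bij_dbl (bij_lB hk)
  have rT : Rng (16 * k) (inverse (nest 0 (4 * k))) := (rng_nest (by omega)).inverse
  refine ⟨bij_lT hk, bij_lB hk, bT, bB, rng_bottom hk, rT,
    ⟨_, bT.fin rT, rfl, respT k, fun a a' => by rw [halfT, halfT], order _ _ _ (respT k)⟩,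
    fin (dbl (lB k)) (inverse (bottom k)), bB.fin (rng_bottom hk).inverse, (fin_inv' _ _).symm, ?_,
    matchB hk, order _ _ _ (respB hk)⟩
  have := resp_inv _ _ _ (respB hk)
  rwa [inv_inv] at this

end Vale.Agent.Q258U
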