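import Vale.Agent.Q258U.Core
import Mathlib.AlgebraicTopology.FundamentalGroupoid.Basic

/-!
# The top of the plat
-/

set_option linter.all false

namespace Vale.Agent.Q258U.Top

open Vale.Agent.P258.Braid Vale.Agent.N258B Vale.Agent.Q258D Set Complex

variable {ι κ : Type}

/-- a common first part cancels -/
theorem cancel {Y : Type} [TopologicalSpace Y] {a b c d : Y} (τ : Path a b) (δ : Path b c)
    (σ : Path b d) : ((τ.trans δ).symm.trans (τ.trans σ)).Homotopic (δ.symm.trans σ) := by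
  rw [Path.trans_symm]
  refine (Path.Homotopic.trans_assoc _ _ _).trans ((Path.Homotopic.refl _).hcomp ?_)
  refine (Path.Homotopic.trans_assoc _ _ _).symm.trans ?_
  exact ((Path.Homotopic.symm_trans τ).hcomp (Path.Homotopic.refl _)).trans
    (Path.Homotopic.refl_trans _)

theorem all_trans {Y : Type} [TopologicalSpace Y] {a b c : Y} {P : Y → Prop} {γ : Path a b}
    {δ : Path b c} (h : ∀ t, P (γ t)) (h' : ∀ t, P (δ t)) (t : unitInterval) :
    P ((γ.trans δ) t) := by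
  rw [Path.trans_apply]
  split_ifs
  · exact h _
  · exact h' _

/-! ## Points of parallelograms -/

/-- a point of a parallelogram -/
def cor (P : ℂ × ℂ × ℂ) (s r : ℝ) : ℂ := P.1 + s * (P.2.1 - P.1) + r * P.2.2

theorem cor_inj {P : ℂ × ℂ × ℂ} (h : 0 < det (P.2.1 - P.1) P.2.2) {s r s' r' : ℝ}
    (e : cor P s r = cor P s' r') : s = s' ∧ r = r' := by
  have h1 := congrArg re e
  have h2 := congrArg im e
  unfold det at h
  simp only [cor, add_re, add_im, mul_re, mul_im, ofReal_re, ofReal_im, zero_mul, sub_zero,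
    add_zero] at h1 h2
  generalize (P.2.1 - P.1).re = a at *
  generalize (P.2.1 - P.1).im = b at *
  constructor
  · apply mul_right_cancel₀ h.ne'
    linear_combination P.2.2.im * h1 - P.2.2.re * h2
  · apply mul_right_cancel₀ h.ne'
    linear_combination a * h2 - b * h1

theorem cor_mem (P : ℂ × ℂ × ℂ) {s r : ℝ} (hs : s ∈ Icc (0 : ℝ) 1) (hr : r ∈ Icc (-1 : ℝ) 1) :
    cor P s r ∈ par P := ⟨s, hs, r, hr, rfl⟩

theorem cor_seg (P : ℂ × ℂ × ℂ) {s r s' r' : ℝ} {z : ℂ}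
    (h : z ∈ segment ℝ (cor P s r) (cor P s' r')) :
    ∃ u v : ℝ, 0 ≤ u ∧ 0 ≤ v ∧ u + v = 1 ∧ z = cor P (u * s + v * s') (u * r + v * r') := by
  obtain ⟨u, v, hu, hv, huv, rfl⟩ := h
  refine ⟨u, v, hu, hv, huv, ?_⟩
  have : (u : ℂ) + v = 1 := by exact_mod_cast huv
  simp only [cor, real_smul]
  push_cast
  linear_combination P.1 * this

/-- marked points on a family of parallelograms -/
structure Mk (π : ι → κ) (s r : ι → ℝ) : Prop where
  hs : ∀ a, s a ∈ Icc (0 : ℝ) 1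
  hr : ∀ a, r a ∈ Icc (-1 : ℝ) 1
  inj : ∀ a a', π a = π a' → s a = s a' → r a = r a' → a = a'

theorem same {B : Set ℂ} {p : κ → ℂ × ℂ × ℂ} (hp : p ∈ PC κ B) {i j : κ} {z : ℂ}
    (h : z ∈ par (p i)) (h' : z ∈ par (p j)) : i = j := by
  by_contra e
  exact disjoint_left.1 (hp.2.2 i j e) h h'

/-- the configuration of the marked points -/
def conf {π : ι → κ} {s r : ι → ℝ} (M : Mk π s r) {B : Set ℂ} (p : PC κ B) : X ι :=
  ⟨fun a => cor (p.1 (π a)) (s a) (r a), fun a a' e => by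
    have e' : cor (p.1 (π a)) (s a) (r a) = cor (p.1 (π a')) (s a') (r a') := e
    have h1 : π a = π a' :=
      same p.2 (cor_mem _ (M.hs a) (M.hr a)) (e' ▸ cor_mem _ (M.hs a') (M.hr a'))
    rw [← h1] at e'
    exact M.inj a a' h1 (cor_inj (p.2.1 _) e').1 (cor_inj (p.2.1 _) e').2⟩

theorem cont_conf {π : ι → κ} {s r : ι → ℝ} (M : Mk π s r) {B : Set ℂ} :
    Continuous (conf M : PC κ B → X ι) := by
  refine Continuous.subtype_mk (continuous_pi fun a => ?_) _
  have h1 : Continuous fun p : PC κ B => p.1 (π a) :=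
    (continuous_apply (π a)).comp continuous_subtype_val
  have h2 : Continuous fun P : ℂ × ℂ × ℂ => cor P (s a) (r a) := by
    unfold cor
    fun_prop
  exact h2.comp h1

/-- parallel sides are disjoint -/
theorem sc_conf {π : ι → κ} {s r : ι → ℝ} (M : Mk π s r) {B : Set ℂ} (p : PC κ B) {μ : ι → ℕ}
    {c : ι → ℝ} (hc : c = s ∨ c = r) (h : ∀ a a', μ a = μ a' ↔ π a = π a' ∧ c a = c a') :
    SC μ (conf M p) := by
  intro i j i' j' h1 h2 h3
  refine disjoint_left.2 fun z hz hz' => h3 ?_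
  obtain ⟨e1, c1⟩ := (h _ _).1 h1
  obtain ⟨e2, c2⟩ := (h _ _).1 h2
  have cv : ∀ {a b x y u v : ℝ}, x ∈ Icc a b → y ∈ Icc a b → 0 ≤ u → 0 ≤ v → u + v = 1 →
      u * x + v * y ∈ Icc a b := fun hx hy hu hv huv => convex_Icc _ _ hx hy hu hv huv
  have k1 : z ∈ segment ℝ (cor (p.1 (π i)) (s i) (r i)) (cor (p.1 (π i)) (s j) (r j)) := by
    have : z ∈ segment ℝ (cor (p.1 (π i)) (s i) (r i)) (cor (p.1 (π j)) (s j) (r j)) := hz
    rwa [← e1] at this
  have k2 : z ∈ segment ℝ (cor (p.1 (π i')) (s i') (r i')) (cor (p.1 (π i')) (s j') (r j')) := by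
    have : z ∈ segment ℝ (cor (p.1 (π i')) (s i') (r i')) (cor (p.1 (π j')) (s j') (r j')) := hz'
    rwa [← e2] at this
  obtain ⟨u, v, hu, hv, huv, f1⟩ := cor_seg _ k1
  obtain ⟨u', v', hu', hv', huv', f2⟩ := cor_seg _ k2
  have e : π i = π i' := same p.2
    (f1 ▸ cor_mem _ (cv (M.hs i) (M.hs j) hu hv huv) (cv (M.hr i) (M.hr j) hu hv huv))
    (f2 ▸ cor_mem _ (cv (M.hs i') (M.hs j') hu' hv' huv') (cv (M.hr i') (M.hr j') hu' hv' huv'))
  rw [f1, ← e] at f2
  obtain ⟨g1, g2⟩ := cor_inj (p.2.1 _) f2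
  refine (h _ _).2 ⟨e, ?_⟩
  rcases hc with rfl | rfl
  · linear_combination g1 + v * c1 - v' * c2 - c i * huv + c i' * huv'
  · linear_combination g2 + v * c1 - v' * c2 - c i * huv + c i' * huv'

/-- a path in a set, as a path of the subtype -/
theorem joined_conf {π : ι → κ} {s r : ι → ℝ} (M : Mk π s r) {B : Set ℂ} {p q : PC κ B}
    (h : JoinedIn (PC κ B) p.1 q.1) :
    ∃ τ : Path (conf M p) (conf M q), ∀ t, ∃ p' : PC κ B, τ t = conf M p' := by
  obtain ⟨γ⟩ := h.joined_subtype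
  exact ⟨γ.map (cont_conf M), fun t => ⟨γ t, rfl⟩⟩

/-! ## Straight paths of layered configurations -/

/-- the order in each layer is the same -/
def Ord (x la : ι → ℝ) (l : ι ↪ ℕ) : Prop := ∀ a a', la a = la a' → l a < l a' → x a < x a'

/-- the point of the straight path -/
def sp (x la : ι → ℝ) (l : ι ↪ ℕ) (t : ℝ) (a : ι) : ℂ :=
  (((1 - t) * x a + t * l a : ℝ) : ℂ) + (((1 - t) * la a : ℝ) : ℂ) * I

theorem sp_re (x la : ι → ℝ) (l : ι ↪ ℕ) (t : ℝ) (a : ι) :
    (sp x la l t a).re = (1 - t) * x a + t * l a := by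
  simp only [sp, add_re, mul_re, ofReal_re, ofReal_im, I_re, I_im]; ring

theorem sp_im (x la : ι → ℝ) (l : ι ↪ ℕ) (t : ℝ) (a : ι) :
    (sp x la l t a).im = (1 - t) * la a := by
  simp only [sp, add_im, mul_im, ofReal_re, ofReal_im, I_re, I_im]; ring

theorem sp_lt {x la : ι → ℝ} {l : ι ↪ ℕ} (H : Ord x la l) {t : ℝ} (h0 : 0 ≤ t) (h1 : t ≤ 1)
    {a a' : ι} (e : la a = la a') (h : l a < l a') :
    (sp x la l t a).re < (sp x la l t a').re := by
  have k1 := H a a' e h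
  have k2 : (l a : ℝ) < l a' := by exact_mod_cast h
  rw [sp_re, sp_re]
  rcases eq_or_lt_of_le h0 with rfl | h0
  · simpa using k1
  · nlinarith [mul_pos h0 (sub_pos.2 k2), mul_nonneg (sub_nonneg.2 h1) (sub_pos.2 k1).le]

theorem sp_lay {x la : ι → ℝ} {l : ι ↪ ℕ} (H : Ord x la l) {t : ℝ} (h0 : 0 ≤ t) (h1 : t ≤ 1)
    {a a' : ι} (n : a ≠ a') (e : (sp x la l t a).re = (sp x la l t a').re) :
    la a ≠ la a' ∧ t < 1 := by
  have k : l a ≠ l a' := fun h => n (l.injective h)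
  constructor
  · intro h
    rcases lt_or_gt_of_ne k with c | c
    · exact (sp_lt H h0 h1 h c).ne e
    · exact (sp_lt H h0 h1 h.symm c).ne e.symm
  · refine lt_of_le_of_ne h1 ?_
    rintro rfl
    rw [sp_re, sp_re] at e
    exact k (by exact_mod_cast (by linarith : (l a : ℝ) = l a'))

theorem sp_inj {x la : ι → ℝ} {l : ι ↪ ℕ} (H : Ord x la l) {t : ℝ} (h0 : 0 ≤ t) (h1 : t ≤ 1) :
    Function.Injective (sp x la l t) := fun a a' e => by
  by_contra n
  obtain ⟨k1, k2⟩ := sp_lay H h0 h1 n (congrArg re e)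
  have := congrArg im e
  rw [sp_im, sp_im] at this
  exact k1 (mul_left_cancel₀ (sub_pos.2 k2).ne' this)

/-- the straight path -/
def str {x la : ι → ℝ} {l : ι ↪ ℕ} (H : Ord x la l) (y : X ι)
    (hy : ∀ a, y.1 a = (x a : ℂ) + (la a : ℂ) * I) : Path y (cfg l) where
  toFun t := ⟨sp x la l t, sp_inj H t.2.1 t.2.2⟩
  continuous_toFun := by
    refine Continuous.subtype_mk (continuous_pi fun a => ?_) _
    unfold sp
    fun_prop
  source' := Subtype.ext (funext fun a => by rw [hy]; simp [sp])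
  target' := Subtype.ext (funext fun a => by simp [sp, cfg_apply])

theorem str_apply {x la : ι → ℝ} {l : ι ↪ ℕ} (H : Ord x la l) (y : X ι)
    (hy : ∀ a, y.1 a = (x a : ℂ) + (la a : ℂ) * I) (t : unitInterval) (a : ι) :
    (str H y hy t).1 a = sp x la l t a := rfl

theorem str_lay {x la : ι → ℝ} {l : ι ↪ ℕ} (H : Ord x la l) (y : X ι)
    (hy : ∀ a, y.1 a = (x a : ℂ) + (la a : ℂ) * I) (t : unitInterval) :
    str H y hy t ∈ Lay la := fun a a' n e => by
  obtain ⟨k1, k2⟩ := sp_lay H t.2.1 t.2.2 n e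
  refine ⟨k1, fun h => ?_⟩
  rw [str_apply, str_apply, sp_im, sp_im]
  exact mul_lt_mul_of_pos_left h (sub_pos.2 k2)

/-- the pairs of adjacent positions lie in the same layer -/
theorem str_sc {x la : ι → ℝ} {l : ι ↪ ℕ} (H : Ord x la l) (y : X ι)
    (hy : ∀ a, y.1 a = (x a : ℂ) + (la a : ℂ) * I)
    (h : ∀ a a', l a / 2 = l a' / 2 → la a = la a') (t : unitInterval) :
    SC (fun a => l a / 2) (str H y hy t) := by
  rcases eq_or_lt_of_le t.2.2 with e | e
  · have : t = 1 := Subtype.ext e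
    rw [this, Path.target]
    exact SC.cfg l
  intro i j i' j' h1 h2 h3
  refine disjoint_left.2 ?_
  rintro _ ⟨u, v, hu, hv, huv, rfl⟩ ⟨u', v', hu', hv', huv', e'⟩
  simp only [str_apply] at e'
  have k1 := congrArg re e'
  have k2 := congrArg im e'
  simp only [add_re, add_im, smul_re, smul_im, smul_eq_mul, sp_im] at k1 k2
  have c1 := h i j h1
  have c2 := h i' j' h2
  have c3 : la i = la i' := by
    apply mul_left_cancel₀ (sub_pos.2 e).ne'
    rw [← c1, ← c2] at k2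
    linear_combination (-1 : ℝ) * k2 - (1 - (t : ℝ)) * la i * huv + (1 - (t : ℝ)) * la i' * huv'
  have key : ∀ {a b c d u v u' v' : ℝ}, a < c → a < d → b < c → b < d → 0 ≤ u → 0 ≤ v →
      u + v = 1 → 0 ≤ u' → 0 ≤ v' → u' + v' = 1 → u * a + v * b < u' * c + v' * d := by
    intro a b c d u v u' v' q1 q2 q3 q4 hu hv huv hu' hv' huv'
    have r1 : u • a + v • b ∈ Iic (max a b) :=
      convex_Iic (𝕜 := ℝ) _ (le_max_left a b) (le_max_right a b) hu hv huv
    have r2 : u' • c + v' • d ∈ Ici (min c d) :=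
      convex_Ici (𝕜 := ℝ) _ (min_le_left c d) (min_le_right c d) hu' hv' huv'
    exact r1.trans_lt ((max_lt (lt_min q1 q2) (lt_min q3 q4)).trans_le r2)
  beta_reduce at h1 h2 h3
  rcases lt_or_gt_of_ne h3 with c | c
  · exact (key (sp_lt H t.2.1 t.2.2 c3 (by omega)) (sp_lt H t.2.1 t.2.2 (c3.trans c2) (by omega))
      (sp_lt H t.2.1 t.2.2 (c1.symm.trans c3) (by omega))
      (sp_lt H t.2.1 t.2.2 ((c1.symm.trans c3).trans c2) (by omega))
      hu hv huv hu' hv' huv').ne k1.symm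
  · exact (key (sp_lt H t.2.1 t.2.2 c3.symm (by omega))
      (sp_lt H t.2.1 t.2.2 (c3.symm.trans c1) (by omega))
      (sp_lt H t.2.1 t.2.2 (c2.symm.trans c3.symm) (by omega))
      (sp_lt H t.2.1 t.2.2 ((c2.symm.trans c3.symm).trans c1) (by omega))
      hu' hv' huv' hu hv huv).ne k1

/-! ## The top -/

/-- the parallelogram of a strand -/
def pi (k : ℕ) (a : Lb k) : Fin 4 × Fin k := (a.1.1, ⟨a.1.2.val / 2, by have := a.1.2.2; omega⟩)

/-- the end of the parallelogram -/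
def sd (k : ℕ) (a : Lb k) : ℝ := ((a.1.2.val % 2 : ℕ) : ℝ)

theorem la_eq {k : ℕ} (a a' : Lb k) : laT k a = laT k a' ↔
    (a.1.2.val + a.2.toNat) % 2 = (a'.1.2.val + a'.2.toNat) % 2 := by
  unfold laT
  split_ifs with h h' h'
  · simp [h, h']
  · constructor
    · intro e; norm_num at e
    · omega
  · constructor
    · intro e; norm_num at e
    · omega
  · constructor
    · omega
    · intro; rfl

theorem pi_eq {k : ℕ} (a a' : Lb k) : pi k a = pi k a' ↔
    a.1.1 = a'.1.1 ∧ a.1.2.val / 2 = a'.1.2.val / 2 := by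
  simp [pi, Fin.ext_iff]

theorem sd_eq {k : ℕ} (a a' : Lb k) : sd k a = sd k a' ↔ a.1.2.val % 2 = a'.1.2.val % 2 :=
  Nat.cast_inj

theorem blk {k : ℕ} {j j' : Fin 4} {i i' : ℕ} (h : i < k) (h' : i' < k) :
    k * j.val + i = k * j'.val + i' ↔ j = j' ∧ i = i' := by
  constructor
  · intro e
    have h3 : j = j' := by
      fin_cases j <;> fin_cases j' <;> simp at e ⊢ <;> omega
    subst h3
    exact ⟨rfl, by omega⟩
  · rintro ⟨rfl, rfl⟩; rfl

theorem mk_top (k : ℕ) : Mk (pi k) (sd k) (laT k) := by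
  refine ⟨fun a => ⟨Nat.cast_nonneg _, ?_⟩, fun a => ?_, ?_⟩
  · unfold sd
    exact_mod_cast (by omega : a.1.2.val % 2 ≤ 1)
  · unfold laT
    split_ifs <;> constructor <;> norm_num
  · rintro ⟨⟨j, r⟩, e⟩ ⟨⟨j', r'⟩, e'⟩ h1 h2 h3
    rw [pi_eq] at h1
    rw [sd_eq] at h2
    rw [la_eq] at h3
    dsimp only at h1 h2 h3
    obtain ⟨rfl, h1⟩ := h1
    have : r = r' := Fin.ext (by omega)
    subst this
    have : e = e' := by cases e <;> cases e' <;> simp at h3 ⊢ <;> omega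
    rw [this]

theorem mT_eq {k : ℕ} (a a' : Lb k) : mT k a = mT k a' ↔ pi k a = pi k a' ∧ laT k a = laT k a' := by
  have h1 := a.1.2.2
  have h2 := a'.1.2.2
  rw [pi_eq, la_eq, ← blk (k := k) (by omega) (by omega)]
  unfold mT
  omega

theorem lT_eq {k : ℕ} (a a' : Lb k) :
    lT k a.1 = lT k a'.1 ↔ pi k a = pi k a' ∧ sd k a = sd k a' := by
  have h1 := a.1.2.2
  have h2 := a'.1.2.2
  rw [pi_eq, sd_eq, ← blk (k := k) (by omega) (by omega), lT_apply, lT_apply, mul_assoc, mul_assoc]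
  omega

/-- the standard parallelograms -/
noncomputable def std (k : ℕ) (i : Fin 4 × Fin k) : ℂ × ℂ × ℂ :=
  (((4 * ((k * i.1.val + i.2.val : ℕ) : ℝ) + 1 / 2 : ℝ) : ℂ),
    ((4 * ((k * i.1.val + i.2.val : ℕ) : ℝ) + 5 / 2 : ℝ) : ℂ), I)

theorem cor_std (k : ℕ) (i : Fin 4 × Fin k) (s r : ℝ) : cor (std k i) s r =
    ((4 * ((k * i.1.val + i.2.val : ℕ) : ℝ) + 1 / 2 + 2 * s : ℝ) : ℂ) + (r : ℂ) * I := by
  simp only [cor, std]
  push_cast
  ring

theorem std_mem (k : ℕ) : std k ∈ PC (Fin 4 × Fin k) ∅ := by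
  refine ⟨fun i => ?_, fun i => disjoint_empty _, fun i j n => disjoint_left.2 ?_⟩
  · simp only [det, std, sub_re, sub_im, ofReal_re, ofReal_im, I_re, I_im]
    linarith
  · rintro z ⟨s, hs, r, hr, e⟩ ⟨s', hs', r', hr', e'⟩
    have e1 : cor (std k i) s r = cor (std k j) s' r' := e.symm.trans e'
    rw [cor_std, cor_std] at e1
    have e2 := congrArg re e1
    simp only [add_re, mul_re, ofReal_re, ofReal_im, I_re, I_im] at e2
    have e3 : k * i.1.val + i.2.val = k * j.1.val + j.2.val := by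
      generalize k * i.1.val + i.2.val = m at e2
      generalize k * j.1.val + j.2.val = m' at e2
      have a1 : (m : ℝ) < m' + 1 := by linarith [hs.1, hs'.2]
      have a2 : (m' : ℝ) < m + 1 := by linarith [hs'.1, hs.2]
      have a3 : m < m' + 1 := by exact_mod_cast a1
      have a4 : m' < m + 1 := by exact_mod_cast a2
      omega
    rw [blk i.2.2 j.2.2] at e3
    exact n (Prod.ext e3.1 (Fin.ext e3.2))

theorem conf_std (k : ℕ) (a : Lb k) : (conf (mk_top k) ⟨std k, std_mem k⟩).1 a =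
    ((2 * (lT k a.1 : ℝ) + 1 / 2 : ℝ) : ℂ) + (laT k a : ℂ) * I := by
  show cor (std k (pi k a)) (sd k a) (laT k a) = _
  rw [cor_std]
  congr 2
  have : lT k a.1 = 2 * (k * a.1.1.val + a.1.2.val / 2) + a.1.2.val % 2 := by
    rw [lT_apply, mul_assoc]; omega
  rw [this]
  simp only [pi, sd]
  push_cast
  ring

theorem top_eq {k : ℕ} {y : X (Lb k)} (h : Top k y) :
    ∃ p : PC (Fin 4 × Fin k) ∅, y = conf (mk_top k) p := by
  obtain ⟨p, hp, h⟩ := h
  refine ⟨⟨p, hp⟩, Subtype.ext (funext ?_)⟩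
  rintro ⟨⟨j, r⟩, e⟩
  have hr := r.2
  show _ = cor (p (j, ⟨r.val / 2, _⟩)) ((r.val % 2 : ℕ) : ℝ) (laT k ((j, r), e))
  rcases Nat.mod_two_eq_zero_or_one r.val with c | c
  · have := h j ⟨r.val / 2, by omega⟩ r ⟨r.val + 1, by omega⟩ (by dsimp only; omega)
      (by dsimp only; omega)
    cases e
    · rw [this.1]; simp [cor, laT, c, sub_eq_add_neg]
    · have c' : (r.val + 1) % 2 = 1 := by omega
      rw [this.2.1]; simp [cor, laT, c, c']
  · have := h j ⟨r.val / 2, by omega⟩ ⟨r.val - 1, by omega⟩ r (by dsimp only; omega)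
      (by dsimp only; omega)
    cases e
    · rw [this.2.2.1]; simp [cor, laT, c]
    · have c' : (r.val + 1) % 2 = 0 := by omega
      rw [this.2.2.2]; simp [cor, laT, c, c', sub_eq_add_neg]

theorem ord_dbl (k : ℕ) : Ord (fun a => 2 * (lT k a.1 : ℝ) + 1 / 2) (laT k) (dbl (lT k)) := by
  intro a a' h1 h2
  rw [dbl_apply, dbl_apply] at h2
  have h3 : lT k a.1 ≠ lT k a'.1 := fun e => by
    obtain ⟨e1, e2⟩ := (lT_eq a a').1 e
    rw [(mk_top k).inj a a' e1 e2 h1] at h2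
    exact lt_irrefl _ h2
  have := Bool.toNat_le a.2
  have := Bool.toNat_le a'.2
  have h4 : (lT k a.1 : ℝ) < lT k a'.1 := by exact_mod_cast (by omega : lT k a.1 < lT k a'.1)
  beta_reduce
  linarith

theorem sc_dbl {l : ι ↪ ℕ} {la : ι × Bool → ℝ}
    (H : Ord (fun a => 2 * (l a.1 : ℝ) + 1 / 2) la (dbl l)) (y : X (ι × Bool))
    (hy : ∀ a, y.1 a = ((2 * (l a.1 : ℝ) + 1 / 2 : ℝ) : ℂ) + (la a : ℂ) * I) (t : unitInterval) :
    SC (fun a => l a.1) (str H y hy t) := by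
  refine SC.of_re (fun m => 2 * m) (fun m => 2 * m + 1) (fun a => ?_) fun m n h => ?_
  · rw [str_apply, sp_re, dbl_apply]
    have h0 := t.2.1
    have h1 := t.2.2
    have h2 : (0 : ℝ) ≤ (a.2.toNat : ℝ) := Nat.cast_nonneg _
    have h3 : (a.2.toNat : ℝ) ≤ 1 := by exact_mod_cast Bool.toNat_le a.2
    push_cast
    constructor <;> nlinarith [mul_nonneg h0 h2, mul_nonneg h0 (sub_nonneg.2 h3)]
  · exact_mod_cast (by omega : 2 * m + 1 < 2 * n)

theorem lay_two {la : ι → ℝ} {y z z' : X ι} {δ : Path y z} {σ : Path y z'}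
    (h : ∀ t, δ t ∈ Lay la) (h' : ∀ t, σ t ∈ Lay la) (t : unitInterval) :
    (δ.symm.trans σ) t ∈ Lay la :=
  all_trans (P := fun z => z ∈ Lay la) (γ := δ.symm) (δ := σ) (fun t => h _) h' t

end Vale.Agent.Q258U.Top

namespace Vale.Agent.Q258U

open Top

theorem rowTop (hW : RowW) (hC : RowCl) (hT : RowTB) : RowTop := by
  intro k hk y hy
  obtain ⟨p, rfl⟩ := top_eq hy
  obtain ⟨-, -, -, -, -, -, ⟨l1, b1, f1, r1, m1, o1⟩, -⟩ := hT k hk
  obtain ⟨τ, hτ⟩ := joined_conf (mk_top k) (p := p) (q := ⟨std k, std_mem k⟩)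
    (hC _ ∅ isCompact_empty convex_empty _ p.2 _ (std_mem k))
  have H1 : Ord (fun a => 2 * (lT k a.1 : ℝ) + 1 / 2) (laT k) l1 := fun a a' h1 h2 =>
    ord_dbl k a a' h1 ((o1 a a' h1).1 h2)
  refine ⟨l1, τ.trans (str H1 _ (conf_std k)), τ.trans (str (ord_dbl k) _ (conf_std k)), b1, m1,
    all_trans (P := SC (mT k)) (fun t => ?_) fun t => ?_,
    all_trans (P := SC fun a : Lb k => lT k a.1) (fun t => ?_) (sc_dbl (ord_dbl k) _ (conf_std k)),
    IsW.homotopic ((hW _ (laT k)).2 _ _ _ r1 f1 _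
      (lay_two (str_lay (ord_dbl k) _ (conf_std k)) (str_lay H1 _ (conf_std k)))) (cancel _ _ _)⟩
  · obtain ⟨p', e⟩ := hτ t
    rw [e]
    exact sc_conf _ p' (Or.inr rfl) mT_eq
  · exact (str_sc H1 _ _ (fun a a' e => ((mT_eq a a').1 ((m1 a a').1 e)).2) t).congr m1
  · obtain ⟨p', e⟩ := hτ t
    rw [e]
    exact sc_conf _ p' (Or.inl rfl) lT_eq

end Vale.Agent.Q258U
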