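import Vale.Agent.Q258U.Core
import Mathlib.Topology.MetricSpace.Lipschitz

/-!
# Normal form of the framing
-/

set_option linter.all false

namespace Vale.Agent.Q258U

open Vale.Agent.P258.Braid Vale.Agent.N258B Vale.Agent.Q258D Set Complex

namespace V

theorem ind_left {e1 e2 V : E3} (h : Ind e1 e2 V) : Ind e1 e1 V := fun a b c ha hb e => by
  obtain ⟨h1, -, h3⟩ := h (a + b) 0 c (add_nonneg ha hb) le_rfl
    (by rw [add_smul, zero_smul, add_zero]; exact e)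
  exact ⟨by linarith, by linarith, h3⟩

theorem ind_right {e1 e2 V : E3} (h : Ind e1 e2 V) : Ind e2 e2 V := fun a b c ha hb e => by
  obtain ⟨-, h1, h3⟩ := h 0 (a + b) c le_rfl (add_nonneg ha hb)
    (by rw [add_smul, zero_smul, zero_add]; exact e)
  exact ⟨by linarith, by linarith, h3⟩

theorem comp3 {a b c : ℝ} {x y z : E3} (e : a • x + b • y + c • z = 0) :
    a * x.1.re + b * y.1.re + c * z.1.re = 0 ∧ a * x.1.im + b * y.1.im + c * z.1.im = 0 ∧
      a * x.2 + b * y.2 + c * z.2 = 0 := by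
  have x1 := congrArg (fun z : E3 => z.1.re) e
  have x2 := congrArg (fun z : E3 => z.1.im) e
  have x3 := congrArg (fun z : E3 => z.2) e
  simp only [Prod.fst_add, Prod.smul_fst, add_re, add_im, smul_re, smul_im, smul_eq_mul,
    Prod.fst_zero, zero_re, zero_im, Prod.snd_add, Prod.smul_snd, Prod.snd_zero] at x1 x2 x3
  exact ⟨x1, x2, x3⟩

/-- the framing is made horizontal at a point that is not critical -/
theorem ind_flat {e1 e2 V : E3} (h : Ind e1 e2 V) (hp : 0 < e1.2 * e2.2) {s : ℝ} (s0 : 0 ≤ s)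
    (s1 : s ≤ 1) : Ind e1 e2 (V - (s * (V.2 / e1.2)) • e1) := by
  intro a b c ha hb e
  have h1 : e1.2 ≠ 0 := fun h0 => by rw [h0, zero_mul] at hp; exact lt_irrefl _ hp
  have h2 : 0 < e1.2 * e1.2 := mul_self_pos.2 h1
  obtain ⟨u, hu⟩ : ∃ u, u = c * (V.2 / e1.2) := ⟨_, rfl⟩
  have hu' : u * e1.2 = c * V.2 := by rw [hu]; field_simp
  have x3 := (comp3 e).2.2
  simp only [Prod.snd_sub, Prod.smul_snd, smul_eq_mul] at x3
  have x4 : a * (e1.2 * e1.2) + b * (e1.2 * e2.2) + (1 - s) * u * (e1.2 * e1.2) = 0 := by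
    have : c * (s * (V.2 / e1.2) * e1.2) = s * (u * e1.2) := by rw [hu]; ring
    linear_combination e1.2 * x3 + e1.2 * this + e1.2 * hu'
  have e' : (a - s * u) • e1 + b • e2 + c • V = 0 := by
    rw [← e, hu, smul_sub, smul_smul, sub_smul]
    have : s * (c * (V.2 / e1.2)) = c * (s * (V.2 / e1.2)) := by ring
    rw [this]; abel
  rcases le_total u 0 with h0 | h0
  · obtain ⟨y1, y2, y3⟩ := h _ _ _ (by nlinarith) hb e'
    rw [hu, y3] at y1
    exact ⟨by linarith, y2, y3⟩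
  · have p1 := mul_nonneg ha h2.le
    have p2 := mul_nonneg hb hp.le
    have p3 := mul_nonneg (mul_nonneg (sub_nonneg.2 s1) h0) h2.le
    have ya : a = 0 := (mul_eq_zero.1 (by linarith : a * (e1.2 * e1.2) = 0)).resolve_right h2.ne'
    have yb : b = 0 := (mul_eq_zero.1 (by linarith : b * (e1.2 * e2.2) = 0)).resolve_right hp.ne'
    obtain ⟨-, -, y3⟩ := h (s * u) 0 (-c) (mul_nonneg s0 h0) le_rfl (by
      rw [ya, yb, zero_sub] at e'
      rw [← neg_eq_zero, ← e', neg_smul, neg_smul, zero_smul]; abel)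
    exact ⟨ya, yb, by linarith⟩

/-- the determinant of three vectors -/
def phi (e1 e2 V : E3) : ℝ :=
  V.2 * det e1.1 e2.1 + e1.2 * det e2.1 V.1 + e2.2 * det V.1 e1.1

theorem ind_phi {e1 e2 V : E3} (hD : det e1.1 e2.1 ≠ 0) (h : phi e1 e2 V ≠ 0) : Ind e1 e2 V := by
  intro a b c _ _ e
  obtain ⟨x1, x2, x3⟩ := comp3 e
  have hc : c = 0 := (mul_eq_zero.1 (show c * phi e1 e2 V = 0 by
    unfold phi det
    linear_combination (e1.1.re * e2.1.im - e1.1.im * e2.1.re) * x3 +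
      (e1.2 * e2.1.re - e2.2 * e1.1.re) * x2 + (e2.2 * e1.1.im - e1.2 * e2.1.im) * x1)).resolve_right h
  rw [hc] at x1 x2
  refine ⟨(mul_eq_zero.1 (show a * det e1.1 e2.1 = 0 from ?_)).resolve_right hD,
    (mul_eq_zero.1 (show b * det e1.1 e2.1 = 0 from ?_)).resolve_right hD, hc⟩
  · unfold det; linear_combination e2.1.im * x1 - e2.1.re * x2
  · unfold det; linear_combination e1.1.re * x2 - e1.1.im * x1

theorem ind_reg {e1 e2 V : E3} (hD : det e1.1 e2.1 ≠ 0) {l : ℝ} (hl : l ≠ 0)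
    (h : V.1 = l • (e1.1 - e2.1)) : Ind e1 e2 V := by
  intro a b c ha hb e
  obtain ⟨x1, x2, -⟩ := comp3 e
  rw [h] at x1 x2
  simp only [smul_re, smul_im, sub_re, sub_im, smul_eq_mul] at x1 x2
  have y1 : a + c * l = 0 := (mul_eq_zero.1 (show (a + c * l) * det e1.1 e2.1 = 0 by
    unfold det; linear_combination e2.1.im * x1 - e2.1.re * x2)).resolve_right hD
  have y2 : b - c * l = 0 := (mul_eq_zero.1 (show (b - c * l) * det e1.1 e2.1 = 0 by
    unfold det; linear_combination e1.1.re * x2 - e1.1.im * x1)).resolve_right hD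
  have ya : a = 0 := by linarith
  exact ⟨ya, by linarith, (mul_eq_zero.1 (by linarith : c * l = 0)).resolve_right hl⟩

/-- an allowed segment -/
def Seg (e1 e2 V W : E3) : Prop := ∀ s ∈ Icc (0 : ℝ) 1, Ind e1 e2 (V + s • (W - V))

theorem Seg.refl {e1 e2 V : E3} (h : Ind e1 e2 V) : Seg e1 e2 V V := fun s _ => by
  rwa [sub_self, smul_zero, add_zero]

theorem phi_seg (e1 e2 V W : E3) (s : ℝ) :
    phi e1 e2 (V + s • (W - V)) = phi e1 e2 V + s * (phi e1 e2 W - phi e1 e2 V) := by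
  simp only [phi, det, Prod.fst_add, Prod.smul_fst, Prod.fst_sub, add_re, add_im, smul_re, smul_im,
    sub_re, sub_im, smul_eq_mul, Prod.snd_add, Prod.smul_snd, Prod.snd_sub]
  ring

/-- three segments lead to the normal form at a vertex -/
theorem vertex {e1 e2 V : E3} (h1 : e1.2 ≠ 0) (h2 : e2.2 ≠ 0) (hI : Ind e1 e2 V)
    (hD : e1.2 * e2.2 < 0 → det e1.1 e2.1 ≠ 0) :
    ∃ W1 W2 W3 : E3, Seg e1 e2 V W1 ∧ Seg e1 e2 W1 W2 ∧ Seg e1 e2 W2 W3 ∧ W3.2 = 0 ∧
      (e1.2 * e2.2 < 0 → 0 < e1.2 * det e1.1 W3.1 ∧ 0 < e1.2 * det e2.1 W3.1) ∧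
      (0 < e1.2 * e2.2 → V.2 = 0 → W1 = V ∧ W2 = V ∧ W3 = V) := by
  rcases lt_or_gt_of_ne (mul_ne_zero h1 h2) with hc | hc
  · have D := hD hc
    obtain ⟨W1, s1, p1⟩ : ∃ W1, Seg e1 e2 V W1 ∧ phi e1 e2 W1 ≠ 0 := by
      by_cases h0 : phi e1 e2 V = 0
      · have e : phi e1 e2 (V + (0, 1)) = det e1.1 e2.1 := by
          have : phi e1 e2 (V + (0, 1)) = phi e1 e2 V + det e1.1 e2.1 := by
            simp only [phi, Prod.fst_add, Prod.snd_add, add_zero]; ring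
          rw [this, h0, zero_add]
        refine ⟨V + (0, 1), fun s _ => ?_, by rwa [e]⟩
        by_cases hs : s = 0
        · rwa [hs, zero_smul, add_zero]
        · refine ind_phi D ?_
          rw [phi_seg, e, h0, zero_add, sub_zero]
          exact mul_ne_zero hs D
      · exact ⟨V, Seg.refl hI, h0⟩
    obtain ⟨l, hl⟩ : ∃ l, l = -(e1.2 * det e1.1 e2.1) := ⟨_, rfl⟩
    have l0 : l ≠ 0 := by rw [hl]; exact neg_ne_zero.2 (mul_ne_zero h1 D)
    have q : 0 < e1.2 * det e1.1 e2.1 * (e1.2 * det e1.1 e2.1) :=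
      mul_self_pos.2 (mul_ne_zero h1 D)
    refine ⟨W1, (l • (e1.1 - e2.1), phi e1 e2 W1 / det e1.1 e2.1 + l * (e1.2 - e2.2)),
      (l • (e1.1 - e2.1), 0), s1, fun s _ => ind_phi D ?_, fun s _ => ind_reg D l0 ?_, rfl,
      fun _ => ⟨?_, ?_⟩, fun h => absurd h (not_lt.2 hc.le)⟩
    · have : phi e1 e2 (l • (e1.1 - e2.1), phi e1 e2 W1 / det e1.1 e2.1 + l * (e1.2 - e2.2)) =
          phi e1 e2 W1 := by
        obtain ⟨t, ht⟩ : ∃ t, t = phi e1 e2 W1 / det e1.1 e2.1 := ⟨_, rfl⟩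
        have ht' : phi e1 e2 W1 = t * det e1.1 e2.1 := by rw [ht]; field_simp
        rw [← ht, ht']
        simp only [phi, det, smul_re, smul_im, sub_re, sub_im, smul_eq_mul]
        ring
      rwa [phi_seg, this, sub_self, mul_zero, add_zero]
    · simp only [Prod.fst_add, Prod.smul_fst, Prod.fst_sub, sub_self, smul_zero, add_zero]
    · convert q using 1
      simp only [hl, det, smul_re, smul_im, sub_re, sub_im, smul_eq_mul]
      ring
    · convert q using 1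
      simp only [hl, det, smul_re, smul_im, sub_re, sub_im, smul_eq_mul]
      ring
  · refine ⟨V, V, V - (V.2 / e1.2) • e1, Seg.refl hI, Seg.refl hI, fun s hs => ?_, ?_,
      fun h => absurd h (not_lt.2 hc.le), fun _ h => ⟨rfl, rfl, ?_⟩⟩
    · convert ind_flat hI hc hs.1 hs.2 using 1
      rw [sub_sub_cancel_left, smul_neg, smul_smul, ← sub_eq_add_neg]
    · simp only [Prod.snd_sub, Prod.smul_snd, smul_eq_mul]
      field_simp
      ring
    · rw [h, zero_div, zero_smul, sub_zero]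

/-- Lipschitz on the unit interval -/
def Lp (f : ℝ → E3) : Prop :=
  ∃ L : ℝ, ∀ μ ∈ Icc (0 : ℝ) 1, ∀ μ' ∈ Icc (0 : ℝ) 1, ‖f μ - f μ'‖ ≤ L * |μ - μ'|

theorem Lp.cont {f : ℝ → E3} (h : Lp f) : ContinuousOn f (Icc 0 1) := by
  obtain ⟨L, h⟩ := h
  exact (LipschitzOnWith.of_dist_le' (K := L) fun x hx y hy => by
    rw [dist_eq_norm, Real.dist_eq]; exact h x hx y hy).continuousOn

theorem lp_of {P : FP} (h : Emb P) (j : Fin 4) {i : ℕ} (hi : i < P.N) : Lp (P.v j i) := by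
  obtain ⟨L, h⟩ := h.std.lip
  exact ⟨L, h j i hi⟩

/-- a new framing -/
theorem emb_of {P : FP} (h : Emb P) {v : Fin 4 → ℕ → ℝ → E3}
    (vs : ∀ j, ∀ μ ∈ Icc (0 : ℝ) 1, v j 0 μ = P.v j 0 μ)
    (ve : ∀ j, ∀ μ ∈ Icc (0 : ℝ) 1, v j (P.N - 1) μ = P.v j (P.N - 1) μ)
    (glue : ∀ j i, i + 1 < P.N → v j i 1 = v j (i + 1) 0) (lip : ∀ j, ∀ i < P.N, Lp (v j i))
    (edge : ∀ j, ∀ i < P.N, ∀ μ ∈ Icc (0 : ℝ) 1, Ind (P.ed j i) (P.ed j i) (v j i μ))
    (vert : ∀ j i, i + 1 < P.N → Ind (P.ed j i) (P.ed j (i + 1)) (v j i 1)) :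
    Emb ⟨P.N, P.a, v⟩ := by
  have s := h.std
  refine ⟨⟨s.N4, s.s0, s.s1, s.s1h, s.s2h, s.s2i, s.e0, s.e1, s.e1h, s.e2h, s.e2i,
    fun j μ hμ => (vs j μ hμ).trans (s.vs j μ hμ), fun j μ hμ => (ve j μ hμ).trans (s.ve j μ hμ),
    glue, ?_⟩, edge, vert, h.disj, h.box⟩
  choose! L hL using lip
  refine ⟨∑ j, ∑ i ∈ Finset.range P.N, |L j i|, fun j i hi μ hμ μ' hμ' =>
    (hL j i hi μ hμ μ' hμ').trans (mul_le_mul_of_nonneg_right ((le_abs_self _).trans ?_)
      (abs_nonneg _))⟩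
  exact (Finset.single_le_sum (f := fun i => |L j i|) (fun _ _ => abs_nonneg _)
    (Finset.mem_range.2 hi)).trans (Finset.single_le_sum
      (f := fun j => ∑ i ∈ Finset.range P.N, |L j i|)
      (fun _ _ => Finset.sum_nonneg fun _ _ => abs_nonneg _) (Finset.mem_univ j))

/-- a family of framings -/
theorem fam (hF : RowFam) {P : FP} {v : ℝ → Fin 4 → ℕ → ℝ → E3}
    (h : ∀ s ∈ Icc (0 : ℝ) 1, Emb ⟨P.N, P.a, v s⟩)
    (hc : ∀ j, ∀ i < P.N, ContinuousOn (fun p : ℝ × ℝ => v p.1 j i p.2) (Icc 0 1 ×ˢ Icc 0 1))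
    (h0 : ∀ j, ∀ i < P.N, ∀ μ ∈ Icc (0 : ℝ) 1, v 0 j i μ = P.v j i μ) :
    Sim P ⟨P.N, P.a, v 1⟩ := by
  refine Sim.trans (Sim.of_bd fun ε => ?_)
    (hF P.N (fun _ => P.a) v h (fun _ _ _ => continuousOn_const) hc)
  ext y
  refine exists_congr fun j => exists_congr fun i => and_congr_right fun hi =>
    exists_congr fun μ => and_congr_right fun hμ => ?_
  show y = P.pt j i μ + ε • v 0 j i μ ∨ y = P.pt j i μ - ε • v 0 j i μ ↔ _
  rw [h0 j i hi μ hμ]

/-- the projection onto the unit interval -/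
def cl (r : ℝ) : ℝ := max (min r 1) 0

theorem cl_mem (r : ℝ) : cl r ∈ Icc (0 : ℝ) 1 :=
  ⟨le_max_right _ _, max_le (min_le_right _ _) zero_le_one⟩

theorem cl_lip (r r' : ℝ) : |cl r - cl r'| ≤ |r - r'| :=
  (abs_max_sub_max_le_abs _ _ _).trans ((abs_min_sub_min_le_max _ _ _ _).trans
    (max_le le_rfl (by rw [sub_self, abs_zero]; exact abs_nonneg _)))

theorem cl_lo {r : ℝ} (h : r ≤ 0) : cl r = 0 := max_eq_right ((min_le_left _ _).trans h)

theorem cl_hi {r : ℝ} (h : 1 ≤ r) : cl r = 1 := by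
  rw [cl, min_eq_right h, max_eq_left zero_le_one]

theorem cl_mid {r : ℝ} (h : r ∈ Icc (0 : ℝ) 1) : cl r = r := by
  rw [cl, min_eq_left h.2, max_eq_left h.1]

/-- the extension of a framing beyond the ends of an edge -/
noncomputable def xt (f : ℝ → E3) (A B : E3) (r : ℝ) : E3 :=
  f (cl r) + max (-r) 0 • A + max (r - 1) 0 • B

theorem ext_lo (f : ℝ → E3) (A B : E3) {r : ℝ} (h : r ≤ 0) : xt f A B r = f 0 + (-r) • A := by
  rw [xt, cl_lo h, max_eq_left (by linarith), max_eq_right (by linarith), zero_smul, add_zero]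

theorem ext_hi (f : ℝ → E3) (A B : E3) {r : ℝ} (h : 1 ≤ r) :
    xt f A B r = f 1 + (r - 1) • B := by
  rw [xt, cl_hi h, max_eq_right (by linarith), max_eq_left (by linarith), zero_smul, add_zero]

theorem ext_mid (f : ℝ → E3) (A B : E3) {r : ℝ} (h : r ∈ Icc (0 : ℝ) 1) : xt f A B r = f r := by
  rw [xt, cl_mid h, max_eq_right (by linarith [h.1]), max_eq_right (by linarith [h.2]), zero_smul,
    zero_smul, add_zero, add_zero]

theorem ext_lip {f : ℝ → E3} (h : Lp f) (A B : E3) :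
    ∃ L : ℝ, 0 ≤ L ∧ ∀ r r', ‖xt f A B r - xt f A B r'‖ ≤ L * |r - r'| := by
  obtain ⟨L, h⟩ := h
  refine ⟨|L| + ‖A‖ + ‖B‖, by positivity, fun r r' => ?_⟩
  have e : xt f A B r - xt f A B r' = (f (cl r) - f (cl r')) + (max (-r) 0 - max (-r') 0) • A +
      (max (r - 1) 0 - max (r' - 1) 0) • B := by
    rw [xt, xt, sub_smul, sub_smul]; abel
  have h1 : ‖f (cl r) - f (cl r')‖ ≤ |L| * |r - r'| := (h _ (cl_mem r) _ (cl_mem r')).trans
    (mul_le_mul (le_abs_self L) (cl_lip r r') (abs_nonneg _) (abs_nonneg _))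
  have h2 : |max (-r) 0 - max (-r') 0| ≤ |r - r'| := (abs_max_sub_max_le_abs _ _ _).trans
    (by rw [neg_sub_neg, abs_sub_comm])
  have h3 : |max (r - 1) 0 - max (r' - 1) 0| ≤ |r - r'| := (abs_max_sub_max_le_abs _ _ _).trans
    (by rw [sub_sub_sub_cancel_right])
  rw [e]
  refine norm_add₃_le.trans ?_
  rw [norm_smul, norm_smul, Real.norm_eq_abs, Real.norm_eq_abs]
  have h4 := mul_le_mul_of_nonneg_right h2 (norm_nonneg A)
  have h5 := mul_le_mul_of_nonneg_right h3 (norm_nonneg B)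
  linarith

theorem ext_cont {f : ℝ → E3} (h : Lp f) (A B : E3) : Continuous (xt f A B) := by
  obtain ⟨L, -, h⟩ := ext_lip h A B
  exact (LipschitzWith.of_dist_le' (K := L) fun x y => by
    rw [dist_eq_norm, Real.dist_eq]; exact h x y).continuous

/-- the family that changes the values at the vertices -/
noncomputable def fa (P : FP) (W : Fin 4 → ℕ → E3) (s : ℝ) (j : Fin 4) (i : ℕ) (μ : ℝ) : E3 :=
  if i = 0 ∨ i + 1 = P.N then P.v j i μ
  else xt (P.v j i) (W j (i - 1) - P.v j (i - 1) 1) (W j i - P.v j i 1) (μ + s * (2 * μ - 1))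

theorem fa_in {P : FP} (W : Fin 4 → ℕ → E3) (s : ℝ) (j : Fin 4) {i : ℕ} (h : i + 2 ≠ P.N) (μ : ℝ) :
    fa P W s j (i + 1) μ = xt (P.v j (i + 1)) (W j i - P.v j i 1)
      (W j (i + 1) - P.v j (i + 1) 1) (μ + s * (2 * μ - 1)) :=
  if_neg (by omega)

/-- the values at the vertices are moved along allowed segments -/
theorem move (hF : RowFam) {P : FP} (h : Emb P) (W : Fin 4 → ℕ → E3)
    (w0 : ∀ j i, i = 0 ∨ i + 2 = P.N → W j i = P.v j i 1)
    (hW : ∀ j i, i + 1 < P.N → Seg (P.ed j i) (P.ed j (i + 1)) (P.v j i 1) (W j i)) :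
    Emb ⟨P.N, P.a, fa P W 1⟩ ∧ Sim P ⟨P.N, P.a, fa P W 1⟩ ∧
      ∀ j i, i + 1 < P.N → fa P W 1 j i 1 = W j i := by
  have N4 := h.std.N4
  have f1 : ∀ s, 0 ≤ s → ∀ j i, i + 1 < P.N →
      fa P W s j i 1 = P.v j i 1 + s • (W j i - P.v j i 1) := fun s hs j i hi => by
    rcases i with _ | i
    · rw [w0 j 0 (Or.inl rfl), sub_self, smul_zero, add_zero]; exact if_pos (Or.inl rfl)
    · rw [fa_in W s j (by omega), ext_hi _ _ _ (by linarith)]
      congr 2; ring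
  have f0 : ∀ s, 0 ≤ s → ∀ j i, i + 1 < P.N →
      fa P W s j (i + 1) 0 = P.v j i 1 + s • (W j i - P.v j i 1) := fun s hs j i hi => by
    by_cases e : i + 2 = P.N
    · rw [w0 j i (Or.inr e), sub_self, smul_zero, add_zero, h.std.glue j i hi]
      exact if_pos (Or.inr e)
    · rw [fa_in W s j e, ext_lo _ _ _ (by linarith), h.std.glue j i hi]
      congr 2; ring
  have hE : ∀ s ∈ Icc (0 : ℝ) 1, Emb ⟨P.N, P.a, fa P W s⟩ := fun s hs => by
    refine emb_of h (fun j μ _ => if_pos (Or.inl rfl)) (fun j μ _ => if_pos (Or.inr (by omega)))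
      (fun j i hi => (f1 s hs.1 j i hi).trans (f0 s hs.1 j i hi).symm) (fun j i hi => ?_)
      (fun j i hi μ hμ => ?_) fun j i hi => ?_
    · by_cases e : i = 0 ∨ i + 1 = P.N
      · convert lp_of h j hi using 1
        exact funext fun μ => if_pos e
      · obtain ⟨L, L0, hL⟩ := ext_lip (lp_of h j hi) (W j (i - 1) - P.v j (i - 1) 1)
          (W j i - P.v j i 1)
        refine ⟨L * (1 + 2 * s), fun μ _ μ' _ => ?_⟩
        rw [fa, fa, if_neg e, if_neg e]
        refine (hL _ _).trans (le_of_eq ?_)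
        rw [show μ + s * (2 * μ - 1) - (μ' + s * (2 * μ' - 1)) = (1 + 2 * s) * (μ - μ') by ring,
          abs_mul, abs_of_nonneg (by linarith [hs.1]), mul_assoc]
    · by_cases e : i = 0 ∨ i + 1 = P.N
      · rw [fa, if_pos e]; exact h.edge j i hi μ hμ
      · obtain ⟨i, rfl⟩ : ∃ n, i = n + 1 := ⟨i - 1, by omega⟩
        rw [fa_in W s j (by omega)]
        obtain ⟨r, hr⟩ : ∃ r, r = μ + s * (2 * μ - 1) := ⟨_, rfl⟩
        have r0 : -1 ≤ r := by nlinarith [hs.1, hs.2, hμ.1, hμ.2]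
        have r1 : r ≤ 2 := by nlinarith [hs.1, hs.2, hμ.1, hμ.2]
        rw [← hr]
        rcases le_total r 0 with c | c
        · rw [ext_lo _ _ _ c, ← h.std.glue j i hi]
          exact ind_right (hW j i hi _ ⟨by linarith, by linarith⟩)
        rcases le_total 1 r with c' | c'
        · rw [ext_hi _ _ _ c']
          exact ind_left (hW j (i + 1) (by omega) _ ⟨by linarith, by linarith⟩)
        · rw [ext_mid _ _ _ ⟨c, c'⟩]
          exact h.edge j _ hi r ⟨c, c'⟩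
    · rw [f1 s hs.1 j i hi]; exact hW j i hi s hs
  refine ⟨hE 1 ⟨zero_le_one, le_rfl⟩, fam hF hE (fun j i hi => ?_) fun j i hi μ hμ => ?_,
    fun j i hi => by rw [f1 1 zero_le_one j i hi, one_smul, add_sub_cancel]⟩
  · by_cases e : i = 0 ∨ i + 1 = P.N
    · simp only [fa, if_pos e]
      exact (lp_of h j hi).cont.comp continuousOn_snd fun p hp => hp.2
    · simp only [fa, if_neg e]
      exact ((ext_cont (lp_of h j hi) _ _).comp (by fun_prop)).continuousOn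
  · unfold fa
    split_ifs
    · rfl
    · rw [zero_mul, add_zero, ext_mid _ _ _ hμ]

/-- the framing is made horizontal along the edges -/
theorem flatten (hF : RowFam) {P : FP} (h : Emb P) (hN : NH P)
    (hv : ∀ j i, i + 1 < P.N → (P.v j i 1).2 = 0) :
    ∃ v, Emb ⟨P.N, P.a, v⟩ ∧ Sim P ⟨P.N, P.a, v⟩ ∧ HV ⟨P.N, P.a, v⟩ ∧
      ∀ j i, i + 1 < P.N → v j i 1 = P.v j i 1 := by
  obtain ⟨v, hv'⟩ : ∃ v : ℝ → Fin 4 → ℕ → ℝ → E3, ∀ s j i μ,
      v s j i μ = P.v j i μ - (s * ((P.v j i μ).2 / (P.ed j i).2)) • P.ed j i :=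
    ⟨_, fun _ _ _ _ => rfl⟩
  have fx : ∀ s j i μ, (P.v j i μ).2 = 0 → v s j i μ = P.v j i μ := fun s j i μ e => by
    rw [hv', e, zero_div, mul_zero, zero_smul, sub_zero]
  have hE : ∀ s ∈ Icc (0 : ℝ) 1, Emb ⟨P.N, P.a, v s⟩ := fun s hs => by
    refine emb_of h (fun j μ hμ => fx _ _ _ _ (by rw [h.std.vs j μ hμ]))
      (fun j μ hμ => fx _ _ _ _ (by rw [h.std.ve j μ hμ])) (fun j i hi => ?_) (fun j i hi => ?_)
      (fun j i hi μ hμ => ?_) fun j i hi => ?_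
    · rw [fx _ _ _ _ (hv j i hi), fx _ _ _ _ (by rw [← h.std.glue j i hi]; exact hv j i hi),
        h.std.glue j i hi]
    · obtain ⟨L, hL⟩ := lp_of h j hi
      refine ⟨(1 + ‖(s / (P.ed j i).2) • P.ed j i‖) * L, fun μ hμ μ' hμ' => ?_⟩
      have e : v s j i μ - v s j i μ' = (P.v j i μ - P.v j i μ') -
          (P.v j i μ - P.v j i μ').2 • (s / (P.ed j i).2) • P.ed j i := by
        rw [hv', hv', smul_smul, Prod.snd_sub, show ((P.v j i μ).2 - (P.v j i μ').2) *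
          (s / (P.ed j i).2) = s * ((P.v j i μ).2 / (P.ed j i).2) -
            s * ((P.v j i μ').2 / (P.ed j i).2) by ring, sub_smul]
        abel
      have h1 := hL μ hμ μ' hμ'
      have h2 := mul_le_mul_of_nonneg_right ((norm_snd_le _).trans h1)
        (norm_nonneg ((s / (P.ed j i).2) • P.ed j i))
      rw [e]
      refine (norm_sub_le _ _).trans ?_
      rw [norm_smul]
      linarith
    · rw [hv']
      exact ind_flat (h.edge j i hi μ hμ) (mul_self_pos.2 (hN j i hi)) hs.1 hs.2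
    · rw [fx _ _ _ _ (hv j i hi)]; exact h.vert j i hi
  refine ⟨v 1, hE 1 ⟨zero_le_one, le_rfl⟩, fam hF hE (fun j i hi => ?_) fun j i hi μ hμ => ?_,
    fun j i hi μ hμ => ?_, fun j i hi => fx _ _ _ _ (hv j i hi)⟩
  · simp only [hv']
    have c : ContinuousOn (fun p : ℝ × ℝ => P.v j i p.2) (Icc 0 1 ×ˢ Icc 0 1) :=
      (lp_of h j hi).cont.comp continuousOn_snd fun p hp => hp.2
    exact c.sub ((continuousOn_fst.mul (c.snd.div_const _)).smul continuousOn_const)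
  · rw [hv', zero_mul, zero_smul, sub_zero]
  · have := hN j i hi
    show (v 1 j i μ).2 = 0
    rw [hv']
    simp only [Prod.snd_sub, Prod.smul_snd, smul_eq_mul]
    field_simp
    ring

theorem ends {P : FP} (s : Std P) (j : Fin 4) {i : ℕ} (hi : i = 0 ∨ i + 2 = P.N) :
    0 < (P.ed j i).2 * (P.ed j (i + 1)).2 ∧ (P.v j i 1).2 = 0 := by
  have N4 := s.N4
  rcases hi with rfl | hi
  · refine ⟨mul_pos ?_ ?_, by rw [s.vs j 1 ⟨zero_le_one, le_rfl⟩]⟩
    · have := s.s1h j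
      rw [FP.ed, s.s0, Prod.snd_sub, zero_add]; linarith
    · have := s.s2h j
      rw [FP.ed, Prod.snd_sub]; exact sub_pos.2 this
  · have e1 : P.N - 1 = i + 1 := by omega
    have e2 : P.N - 2 = i := by omega
    refine ⟨mul_pos_of_neg_of_neg ?_ ?_, ?_⟩
    · have := s.e2h j
      rw [e1, e2] at this
      rw [FP.ed, Prod.snd_sub]; linarith
    · have := s.e1h j
      rw [e1] at this
      rw [FP.ed, show i + 1 + 1 = P.N by omega, s.e0, Prod.snd_sub]; linarith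
    · rw [s.glue j i (by omega), ← e1, s.ve j 0 ⟨le_rfl, zero_le_one⟩]

end V

open V in
theorem rowV (hF : RowFam) : RowV := by
  intro P h hN hG
  have key : ∀ j i, ∃ W1 W2 W3 : E3, i + 1 < P.N →
      Seg (P.ed j i) (P.ed j (i + 1)) (P.v j i 1) W1 ∧ Seg (P.ed j i) (P.ed j (i + 1)) W1 W2 ∧
      Seg (P.ed j i) (P.ed j (i + 1)) W2 W3 ∧ W3.2 = 0 ∧
      ((P.ed j i).2 * (P.ed j (i + 1)).2 < 0 → 0 < (P.ed j i).2 * det (P.ed j i).1 W3.1 ∧
        0 < (P.ed j i).2 * det (P.ed j (i + 1)).1 W3.1) ∧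
      (0 < (P.ed j i).2 * (P.ed j (i + 1)).2 → (P.v j i 1).2 = 0 →
        W1 = P.v j i 1 ∧ W2 = P.v j i 1 ∧ W3 = P.v j i 1) := fun j i => by
    by_cases hi : i + 1 < P.N
    · obtain ⟨W1, W2, W3, hW⟩ := vertex (hN j i (by omega)) (hN j (i + 1) hi) (h.vert j i hi)
        fun hc => by
          have : ¬ (i = 0 ∨ i + 2 = P.N) := fun e => lt_asymm hc (ends h.std j e).1
          exact (hG j i (by omega) (by omega)).1
      exact ⟨W1, W2, W3, fun _ => hW⟩
    · exact ⟨0, 0, 0, fun e => absurd e hi⟩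
  choose W1 W2 W3 hW using key
  have N4 := h.std.N4
  have w : ∀ j i, i = 0 ∨ i + 2 = P.N →
      W1 j i = P.v j i 1 ∧ W2 j i = P.v j i 1 ∧ W3 j i = P.v j i 1 := fun j i e =>
    (hW j i (by omega)).2.2.2.2.2 (ends h.std j e).1 (ends h.std j e).2
  obtain ⟨h1, s1, v1⟩ := move hF h W1 (fun j i e => (w j i e).1) fun j i hi => (hW j i hi).1
  generalize fa P W1 1 = u1 at h1 s1 v1
  obtain ⟨h2, s2, v2⟩ := move hF h1 W2 (fun j i e => by
      have e : i = 0 ∨ i + 2 = P.N := e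
      show W2 j i = u1 j i 1
      rw [v1 j i (by omega), (w j i e).1, (w j i e).2.1]) fun j i hi => by
    show Seg (P.ed j i) (P.ed j (i + 1)) (u1 j i 1) _
    rw [v1 j i hi]; exact (hW j i hi).2.1
  generalize fa ⟨P.N, P.a, u1⟩ W2 1 = u2 at h2 s2 v2
  obtain ⟨h3, s3, v3⟩ := move hF h2 W3 (fun j i e => by
      have e : i = 0 ∨ i + 2 = P.N := e
      show W3 j i = u2 j i 1
      rw [v2 j i (show i + 1 < P.N by omega), (w j i e).2.2, (w j i e).2.1]) fun j i hi => by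
    show Seg (P.ed j i) (P.ed j (i + 1)) (u2 j i 1) _
    rw [v2 j i hi]; exact (hW j i hi).2.2.1
  generalize fa ⟨_, _, u2⟩ W3 1 = u3 at h3 s3 v3
  obtain ⟨u4, h4, s4, hv4, v4⟩ := flatten hF h3 hN fun j i hi => by
    show (u3 j i 1).2 = 0
    rw [v3 j i hi]; exact (hW j i hi).2.2.2.1
  obtain ⟨h5, s5, v5⟩ := move hF h4 (fun j i => u4 j i 1) (fun _ _ _ => rfl)
    fun j i hi => Seg.refl (h4.vert j i hi)
  have f5 : ∀ j i μ, ¬ (i = 0 ∨ i + 1 = P.N) →
      fa ⟨P.N, P.a, u4⟩ (fun j i => u4 j i 1) 1 j i μ = u4 j i (cl (μ + 1 * (2 * μ - 1))) :=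
    fun j i μ e => by
      rw [fa, if_neg e]
      show xt (u4 j i) (u4 j (i - 1) 1 - u4 j (i - 1) 1) (u4 j i 1 - u4 j i 1) _ = _
      rw [xt, sub_self, sub_self, smul_zero, smul_zero, add_zero, add_zero]
  refine ⟨_, h5, s1.trans (s2.trans (s3.trans (s4.trans s5))), fun j i hi μ hμ => ?_,
    fun j i hc => ?_, fun j i i1 i2 μ hμ => ?_⟩
  · show (fa ⟨P.N, P.a, u4⟩ (fun j i => u4 j i 1) 1 j i μ).2 = 0
    by_cases e : i = 0 ∨ i + 1 = P.N
    · rw [fa, if_pos e]; exact hv4 j i hi μ hμ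
    · rw [f5 j i μ e]; exact hv4 j i hi _ (cl_mem _)
  · have e := (v5 j i hc.1).trans ((v4 j i hc.1).trans (v3 j i hc.1))
    have := (hW j i hc.1).2.2.2.2.1 hc.2
    rw [← e] at this
    exact this
  · have i2 : i + 2 ≤ P.N := i2
    have e : ¬ (i = 0 ∨ i + 1 = P.N) := by omega
    exact ⟨((f5 j i μ e).trans (by rw [cl_lo (by linarith [hμ.2]), cl_lo (by norm_num)])).trans
      (f5 j i 0 e).symm, ((f5 j i (1 - μ) e).trans (by
        rw [cl_hi (by linarith [hμ.2]), cl_hi (by norm_num)])).trans (f5 j i 1 e).symm⟩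

end Vale.Agent.Q258U
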