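import Vale.Agent.Q258U.Core
import Mathlib.Topology.Order.IntermediateValue

/-!
# Layered configurations
-/

set_option linter.all false

namespace Vale.Agent.Q258U

open Vale.Agent.P258.Braid Vale.Agent.N258B Set Complex

namespace W

variable {ι : Type}

/-- a mixture of two configurations, pushed towards the layers -/
def mix (la : ι → ℝ) (u v : X ι) (m σ : ℝ) (i : ι) : ℂ :=
  ⟨(1 - m) * (u.1 i).re + m * (v.1 i).re,
    (1 - σ) * ((1 - m) * (u.1 i).im + m * (v.1 i).im) + σ * la i⟩

theorem conv_lt {a b a' b' m : ℝ} (h : a < a') (h' : b < b') (m0 : 0 ≤ m) (m1 : m ≤ 1) :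
    (1 - m) * a + m * b < (1 - m) * a' + m * b' := by
  rcases eq_or_lt_of_le m0 with e | e
  · subst e; linarith
  · nlinarith [mul_pos e (sub_pos.2 h'), mul_nonneg (sub_nonneg.2 m1) (sub_pos.2 h).le]

theorem push_ne {la : ι → ℝ} {u : X ι} (hu : u ∈ Lay la) {σ : ℝ} (s0 : 0 ≤ σ) (s1 : σ ≤ 1)
    {i j : ι} (hij : i ≠ j) (h1 : (u.1 i).re = (u.1 j).re)
    (h2 : (1 - σ) * (u.1 i).im + σ * la i = (1 - σ) * (u.1 j).im + σ * la j) : False := by
  rcases lt_or_gt_of_ne (hu i j hij h1).1 with h | h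
  · exact (conv_lt ((hu i j hij h1).2 h) h s0 s1).ne h2
  · exact (conv_lt ((hu j i hij.symm h1.symm).2 h) h s0 s1).ne h2.symm

theorem mix_inj {la : ι → ℝ} {u v : X ι} (hu : u ∈ Lay la) (hv : v ∈ Lay la)
    (ho : ∀ i j, i ≠ j → la i = la j → (u.1 i).re < (u.1 j).re → (v.1 i).re < (v.1 j).re)
    {m σ : ℝ} (m0 : 0 ≤ m) (m1 : m ≤ 1) (s0 : 0 ≤ σ) (s1 : σ ≤ 1)
    (h : m = 0 ∨ m = 1 ∨ u = v ∨ σ = 1) : Function.Injective (mix la u v m σ) := by
  intro i j e
  by_contra hij
  have e1 : (1 - m) * (u.1 i).re + m * (v.1 i).re = (1 - m) * (u.1 j).re + m * (v.1 j).re :=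
    congrArg Complex.re e
  have e2 : (1 - σ) * ((1 - m) * (u.1 i).im + m * (v.1 i).im) + σ * la i =
      (1 - σ) * ((1 - m) * (u.1 j).im + m * (v.1 j).im) + σ * la j := congrArg Complex.im e
  rcases h with h | h | h | h
  · subst h
    exact push_ne hu s0 s1 hij (by linarith) (by linarith)
  · subst h
    exact push_ne hv s0 s1 hij (by linarith) (by linarith)
  · subst h
    exact push_ne hu s0 s1 hij (by linarith) (by linarith)
  · subst h
    have e3 : la i = la j := by linarith
    rcases lt_trichotomy (u.1 i).re (u.1 j).re with k | k | k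
    · exact (conv_lt k (ho i j hij e3 k) m0 m1).ne e1
    · exact (hu i j hij k).1 e3
    · exact (conv_lt k (ho j i (Ne.symm hij) e3.symm k) m0 m1).ne e1.symm

theorem pos_of {f : ℝ → ℝ} (hf : Continuous f) (h : ∀ t, f t ≠ 0) {a : ℝ} (ha : 0 < f a) (b : ℝ) :
    0 < f b := by
  by_contra hb
  obtain ⟨t, ht⟩ := intermediate_value_univ b a hf ⟨not_lt.1 hb, ha.le⟩
  exact h t ht

theorem ext_mem {x y : X ι} {S : Set (X ι)} (γ : Path x y) (h : ∀ t, γ t ∈ S) (τ : ℝ) :
    γ.extend τ ∈ S := h _

theorem cont_ext {x y : X ι} (γ : Path x y) (i : ι) : Continuous fun τ : ℝ => (γ.extend τ).1 i :=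
  (continuous_apply i).comp (continuous_subtype_val.comp γ.continuous_extend)

theorem ord {la : ι → ℝ} {x y : X ι} (γ : Path x y) (h : ∀ t, γ t ∈ Lay la) {i j : ι}
    (hij : i ≠ j) (e : la i = la j) {a : ℝ} (b : ℝ)
    (k : ((γ.extend a).1 i).re < ((γ.extend a).1 j).re) :
    ((γ.extend b).1 i).re < ((γ.extend b).1 j).re := by
  refine sub_pos.1 (pos_of (f := fun τ => ((γ.extend τ).1 j).re - ((γ.extend τ).1 i).re)
    ((continuous_re.comp (cont_ext γ j)).sub (continuous_re.comp (cont_ext γ i)))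
    (fun t ht => ?_) (sub_pos.2 k) b)
  exact (ext_mem γ h t i j hij (sub_eq_zero.1 ht).symm).1 e

/-- a plateau -/
def pl (s : ℝ) : ℝ := min 1 (min (3 * s) (3 - 3 * s))

/-- a ramp -/
def rm (s : ℝ) : ℝ := max 0 (min 1 (3 * s - 1))

theorem cont_pl : Continuous pl := by unfold pl; fun_prop

theorem cont_rm : Continuous rm := by unfold rm; fun_prop

theorem pl_nonneg {s : ℝ} (s0 : 0 ≤ s) (s1 : s ≤ 1) : 0 ≤ pl s :=
  le_min zero_le_one (le_min (by linarith) (by linarith))

theorem pl_le (s : ℝ) : pl s ≤ 1 := min_le_left _ _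

theorem pl_zero : pl 0 = 0 := by norm_num [pl]

theorem pl_one : pl 1 = 0 := by norm_num [pl]

theorem rm_zero : rm 0 = 0 := by norm_num [rm]

theorem rm_one : rm 1 = 1 := by norm_num [rm]

theorem pl_cases (s : ℝ) : 3 * s - 1 ≤ 0 ∨ 1 ≤ 3 * s - 1 ∨ pl s = 1 := by
  by_cases h : 3 * s - 1 ≤ 0
  · exact Or.inl h
  by_cases h' : 1 ≤ 3 * s - 1
  · exact Or.inr (Or.inl h')
  exact Or.inr (Or.inr (min_eq_left (le_min (by linarith) (by linarith))))

theorem mix_zero (la : ι → ℝ) (u v : X ι) : mix la u v 0 0 = u.1 :=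
  funext fun i => Complex.ext (by simp [mix]) (by simp [mix])

theorem mix_one (la : ι → ℝ) (u v : X ι) : mix la u v 1 0 = v.1 :=
  funext fun i => Complex.ext (by simp [mix]) (by simp [mix])

theorem mix_self (la : ι → ℝ) (u : X ι) (m : ℝ) : mix la u u m 0 = u.1 :=
  funext fun i => Complex.ext (by simp only [mix]; ring) (by simp only [mix]; ring)

theorem homotopic (la : ι → ℝ) {x y : X ι} (γ γ' : Path x y) (h : ∀ t, γ t ∈ Lay la)
    (h' : ∀ t, γ' t ∈ Lay la) : γ.Homotopic γ' := by
  let τ : unitInterval × unitInterval → ℝ := fun p => p.2 + pl p.1 * (2 * p.2 - 1)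
  have cτ : Continuous τ := by
    have := cont_pl
    fun_prop
  have inj : ∀ p : unitInterval × unitInterval, Function.Injective
      (mix la (γ.extend (τ p)) (γ'.extend (τ p)) (rm p.1) (pl p.1 * pl p.2)) := fun p => by
    have a0 := pl_nonneg p.1.2.1 p.1.2.2
    have b0 := pl_nonneg p.2.2.1 p.2.2.2
    refine mix_inj (ext_mem γ h _) (ext_mem γ' h' _) (fun i j hij e k => ?_) (le_max_left _ _)
      (max_le zero_le_one (min_le_left _ _)) (mul_nonneg a0 b0)
      (mul_le_one₀ (pl_le _) b0 (pl_le _)) ?_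
    · have k0 := ord γ h hij e 0 k
      rw [γ.extend_zero, ← γ'.extend_zero] at k0
      exact ord γ' h' hij e _ k0
    · rcases pl_cases p.1 with k | k | k
      · exact Or.inl (max_eq_left ((min_le_right _ _).trans k))
      · exact Or.inr (Or.inl (by rw [rm, min_eq_left k, max_eq_right zero_le_one]))
      · have e : τ p = 3 * p.2 - 1 := by simp only [τ, k]; ring
        rcases pl_cases p.2 with k' | k' | k'
        · exact Or.inr (Or.inr (Or.inl (by
            rw [e, γ.extend_of_le_zero k', γ'.extend_of_le_zero k'])))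
        · exact Or.inr (Or.inr (Or.inl (by
            rw [e, γ.extend_of_one_le k', γ'.extend_of_one_le k'])))
        · exact Or.inr (Or.inr (Or.inr (by rw [k, k', one_mul])))
  let H : unitInterval × unitInterval → X ι := fun p => ⟨_, inj p⟩
  have cH : Continuous H := by
    refine (continuous_pi fun i => ?_).subtype_mk _
    have c1 := (cont_ext γ i).comp cτ
    have c2 := (cont_ext γ' i).comp cτ
    have c3 : Continuous fun p : unitInterval × unitInterval => rm p.1 :=
      cont_rm.comp (continuous_subtype_val.comp continuous_fst)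
    have c4 : Continuous fun p : unitInterval × unitInterval => pl p.1 * pl p.2 :=
      (cont_pl.comp (continuous_subtype_val.comp continuous_fst)).mul
        (cont_pl.comp (continuous_subtype_val.comp continuous_snd))
    refine equivRealProdCLM.symm.continuous.comp (Continuous.prodMk ?_ ?_)
    · exact ((continuous_const.sub c3).mul (continuous_re.comp c1)).add
        (c3.mul (continuous_re.comp c2))
    · exact ((continuous_const.sub c4).mul (((continuous_const.sub c3).mul
        (continuous_im.comp c1)).add (c3.mul (continuous_im.comp c2)))).add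
        (c4.mul continuous_const)
  have e0 : ∀ s, H (s, 0) = x := fun s => Subtype.ext (by
    have k : τ (s, 0) ≤ 0 := by
      have := pl_nonneg s.2.1 s.2.2
      simp only [τ, Icc.coe_zero]; linarith
    show mix la (γ.extend (τ (s, 0))) (γ'.extend (τ (s, 0))) _ (pl s * pl 0) = _
    rw [γ.extend_of_le_zero k, γ'.extend_of_le_zero k, pl_zero, mul_zero, mix_self])
  have e1 : ∀ s, H (s, 1) = y := fun s => Subtype.ext (by
    have k : 1 ≤ τ (s, 1) := by
      have := pl_nonneg s.2.1 s.2.2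
      simp only [τ, Icc.coe_one]; linarith
    show mix la (γ.extend (τ (s, 1))) (γ'.extend (τ (s, 1))) _ (pl s * pl 1) = _
    rw [γ.extend_of_one_le k, γ'.extend_of_one_le k, pl_one, mul_zero, mix_self])
  refine ⟨⟨⟨⟨H, cH⟩, fun t => Subtype.ext ?_, fun t => Subtype.ext ?_⟩, fun s t ht => ?_⟩⟩
  · have k : τ (0, t) = t := by simp only [τ, Icc.coe_zero, pl_zero]; ring
    show mix la (γ.extend (τ (0, t))) (γ'.extend (τ (0, t))) (rm 0) (pl 0 * pl t) = _
    rw [k, rm_zero, pl_zero, zero_mul, mix_zero, γ.extend_extends']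
    rfl
  · have k : τ (1, t) = t := by simp only [τ, Icc.coe_one, pl_one]; ring
    show mix la (γ.extend (τ (1, t))) (γ'.extend (τ (1, t))) (rm 1) (pl 1 * pl t) = _
    rw [k, rm_one, pl_one, zero_mul, mix_one, γ'.extend_extends']
    rfl
  · rcases ht with rfl | rfl
    · exact (e0 s).trans γ.source.symm
    · exact (e1 s).trans γ.target.symm

theorem cfg_mem (la : ι → ℝ) (l : ι ↪ ℕ) : cfg l ∈ Lay la := fun i j hij e => by
  rw [cfg_apply, cfg_apply, natCast_re, natCast_re] at e
  exact absurd (l.injective (Nat.cast_injective e)) hij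

theorem lp_mem {la : ι → ℝ} {l : ι ↪ ℕ} {x : ℕ × Bool}
    (h : ∀ i j, l i = x.1 → l j = x.1 + 1 → if x.2 then la j < la i else la i < la j)
    (t : unitInterval) : lp l x t ∈ Lay la := by
  intro i j hij e
  have hl : l i ≠ l j := fun k => hij (l.injective k)
  have s0 := t.2.1
  have s1 := t.2.2
  have key : ∀ {a b : ℕ} {s : ℝ}, 0 ≤ s → s ≤ 1 → (a : ℝ) + s = b → b = a ∨ b = a + 1 :=
    fun {a b s} h0 h1 h2 => by
      have k1 : a ≤ b := by exact_mod_cast (by linarith : (a : ℝ) ≤ b)
      have k2 : b ≤ a + 1 := by exact_mod_cast (by linarith : (b : ℝ) ≤ a + 1)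
      omega
  rw [lp_apply, lp_apply] at e ⊢
  unfold mv at e ⊢
  split_ifs at e ⊢ with c1 c2 c3 c4 c5 c6 c7 c8 <;> simp only [natCast_re, natCast_im] at e ⊢
  · omega
  · have k : (t : ℝ) = 1 / 2 := by rw [c1, c3] at e; push_cast at e; linarith
    have := h i j c1 c3
    rw [k]
    unfold sg
    split_ifs at this ⊢
    · exact ⟨this.ne', fun k' => absurd this k'.not_gt⟩
    · exact ⟨this.ne, fun _ => by norm_num⟩
  · have := key s0 s1 e
    omega
  · have k : (t : ℝ) = 1 / 2 := by rw [c4, c5] at e; push_cast at e; linarith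
    have := h j i c5 c4
    rw [k]
    unfold sg
    split_ifs at this ⊢
    · exact ⟨this.ne, fun _ => by norm_num⟩
    · exact ⟨this.ne', fun k' => absurd this k'.not_gt⟩
  · omega
  · have := key (a := l j) (b := l i) s0 s1 (by linarith)
    omega
  · have := key s0 s1 e.symm
    omega
  · have := key (a := l i) (b := l j) s0 s1 (by linarith)
    omega
  · exact absurd (Nat.cast_injective e) hl

theorem trans_mem {x y z : X ι} {S : Set (X ι)} {γ : Path x y} {δ : Path y z} (h : ∀ t, γ t ∈ S)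
    (h' : ∀ t, δ t ∈ S) (t : unitInterval) : (γ.trans δ) t ∈ S := by
  rw [Path.trans_apply]
  split_ifs
  · exact h _
  · exact h' _

/-- the path of a word that respects the layers consists of layered configurations -/
theorem exists_lay (la : ι → ℝ) (w : Word) : ∀ l : ι ↪ ℕ, Resp la l w →
    ∃ γ, IsW l (fin l w) w γ ∧ ∀ t, γ t ∈ Lay la := by
  induction w with
  | nil => exact fun l _ => ⟨Path.refl _, IsW.nil _ _ (Path.Homotopic.refl _), fun _ => cfg_mem la l⟩
  | cons x w ih =>
    intro l h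
    obtain ⟨δ, h1, h2⟩ := ih (swE x l) h.2
    exact ⟨(lp l x).trans δ, IsW.cons _ _ x w δ _ h1 (Path.Homotopic.refl _),
      trans_mem (lp_mem h.1) h2⟩

end W

theorem rowW : RowW := by
  intro ι _ la
  refine ⟨fun x y γ γ' => W.homotopic la γ γ', ?_⟩
  rintro l _ w h rfl γ hγ
  obtain ⟨δ, h1, h2⟩ := W.exists_lay la w l h
  exact h1.homotopic (W.homotopic la γ δ hγ h2)

end Vale.Agent.Q258U
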