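import Vale.Agent.Q258U.Core
import Vale.Agent.Q258D.Core
import Vale.Agent.Q258E.W1

/-!
# Row W4: words with the trivial permutation are pure braids; the cable of the inverse word
-/

set_option linter.all false

namespace Vale.Agent.Q258U

open Vale.Agent.P258.Braid Vale.Agent.N258B Vale.Agent.Q258D Vale.Agent.Q258E.W0

namespace W4

variable {G : Type} [Group G]

/-- the normal form in a group generated by involutions with the relations of the braid group -/
theorem nf {s : ℕ → G} (h2 : ∀ i, s i * s i = 1)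
    (hc : ∀ i j, i + 2 ≤ j → s i * s j = s j * s i) (n : ℕ)
    (hb : ∀ j, j + 1 < n + 1 → s j * s (j + 1) * s j = s (j + 1) * s j * s (j + 1))
    (g : G) (hg : g ∈ Subgroup.closure (s '' {i | i < n + 1})) :
    ∃ w ∈ Subgroup.closure (s '' {i | i < n}), ∃ k ≤ n + 1, g = w * dn s n k := by
  set W := Subgroup.closure (s '' {i | i < n}) with hW
  have hm : ∀ j, j < n → s j ∈ W := fun j hj => Subgroup.subset_closure ⟨j, hj, rfl⟩
  have step : ∀ (w : G) (k j : ℕ), w ∈ W → k ≤ n + 1 → j < n + 1 →
      ∃ w' ∈ W, ∃ k' ≤ n + 1, w * dn s n k * s j = w' * dn s n k' := by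
    intro w k j hw hk hj
    rcases lt_trichotomy (j + k) n with h | h | h
    · exact ⟨w * s j, W.mul_mem hw (hm j (by omega)), k, hk, by
        rw [mul_assoc, dn_comm hc n j k h, mul_assoc]⟩
    · exact ⟨w, hw, k + 1, by omega, by rw [dn, show n - k = j by omega, mul_assoc]⟩
    · by_cases h' : j + k = n + 1
      · obtain ⟨k, rfl⟩ : ∃ k', k = k' + 1 := ⟨k - 1, by omega⟩
        exact ⟨w, hw, k, by omega, by
          rw [dn, show n - k = j by omega, mul_assoc, mul_assoc, h2, mul_one]⟩
      · obtain ⟨j, rfl⟩ : ∃ j', j = j' + 1 := ⟨j - 1, by omega⟩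
        exact ⟨w * s j, W.mul_mem hw (hm j (by omega)), k, hk, by
          rw [mul_assoc, dn_shift hc n j (hb j hj) (by omega) k hk (by omega), mul_assoc]⟩
  induction hg using Subgroup.closure_induction_right with
  | one => exact ⟨1, W.one_mem, 0, by omega, by simp [dn]⟩
  | mul_right x _ y hy ih =>
    obtain ⟨w, hw, k, hk, rfl⟩ := ih
    obtain ⟨j, hj, rfl⟩ := hy
    exact step w k j hw hk hj
  | mul_inv_cancel x _ y hy ih =>
    obtain ⟨w, hw, k, hk, rfl⟩ := ih
    obtain ⟨j, hj, rfl⟩ := hy
    rw [inv_eq_of_mul_eq_one_right (h2 j)]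
    exact step w k j hw hk hj

/-- the exchange of `i` and `i + 1` -/
def tr (i : ℕ) : Equiv.Perm ℕ := Equiv.swap i (i + 1)

theorem tr_apply (i q : ℕ) : tr i q = if q = i then i + 1 else if q = i + 1 then i else q := by
  simp [tr, Equiv.swap_apply_def]

theorem tr_sq (i : ℕ) : tr i * tr i = 1 := Equiv.swap_mul_self _ _

theorem tr_comm (i j : ℕ) (h : i + 2 ≤ j) : tr i * tr j = tr j * tr i := by
  ext q
  simp only [Equiv.Perm.mul_apply, tr_apply]
  split_ifs <;> omega

theorem tr_braid (i : ℕ) : tr i * tr (i + 1) * tr i = tr (i + 1) * tr i * tr (i + 1) := by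
  ext q
  simp only [Equiv.Perm.mul_apply, tr_apply]
  split_ifs <;> omega

theorem sw_eq (x : ℕ × Bool) (q : ℕ) : sw x q = tr x.1 q := by
  rw [tr_apply, sw]
  split_ifs <;> omega

theorem foldl_eq (w : Word) : ∀ q : ℕ,
    w.foldl (fun q x => sw x q) q = ((w.map fun x => tr x.1).prod)⁻¹ q := by
  induction w with
  | nil => intro q; simp
  | cons x w ih =>
    intro q
    rw [List.foldl_cons, ih, List.map_cons, List.prod_cons, mul_inv_rev, Equiv.Perm.mul_apply,
      inv_eq_of_mul_eq_one_right (tr_sq x.1), sw_eq]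

/-- the generators with their permutations -/
def pr (s : ℕ → G) (i : ℕ) : G × Equiv.Perm ℕ := (s i, tr i)

theorem fix (s : ℕ → G) (n : ℕ) (g : G × Equiv.Perm ℕ)
    (hg : g ∈ Subgroup.closure (pr s '' {i | i < n})) : g.2 (n + 1) = n + 1 := by
  induction hg using Subgroup.closure_induction with
  | mem x hx =>
    obtain ⟨i, hi, rfl⟩ := hx
    have hi' : i < n := hi
    show tr i (n + 1) = n + 1
    rw [tr_apply]
    split_ifs <;> omega
  | one => rfl
  | mul x y _ _ hx hy => show x.2 (y.2 (n + 1)) = n + 1; rw [hy, hx]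
  | inv x _ hx => show x.2⁻¹ (n + 1) = n + 1; rw [Equiv.Perm.inv_eq_iff_eq, hx]

theorem dn_top (s : ℕ → G) (n : ℕ) : ∀ k, k ≤ n + 1 → (dn (pr s) n k).2 (n + 1 - k) = n + 1
  | 0, _ => rfl
  | k + 1, h => by
    have ih := dn_top s n k (by omega)
    show (dn (pr s) n k).2 (tr (n - k) (n + 1 - (k + 1))) = n + 1
    rw [tr_apply, if_pos (by omega), show n - k + 1 = n + 1 - k by omega, ih]

theorem triv {s : ℕ → G} (h2 : ∀ i, s i * s i = 1)
    (hc : ∀ i j, i + 2 ≤ j → s i * s j = s j * s i) :
    ∀ n, (∀ j, j + 1 < n → s j * s (j + 1) * s j = s (j + 1) * s j * s (j + 1)) →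
      ∀ g ∈ Subgroup.closure (pr s '' {i | i < n}), g.2 = 1 → g.1 = 1
  | 0, _, g, hg, _ => by
    have : g = 1 := by simpa using hg
    rw [this]; rfl
  | n + 1, hb, g, hg, h1 => by
    obtain ⟨w, hw, k, hk, rfl⟩ := nf (s := pr s)
      (fun i => Prod.ext (h2 i) (tr_sq i))
      (fun i j h => Prod.ext (hc i j h) (tr_comm i j h)) n
      (fun j hj => Prod.ext (hb j hj) (tr_braid j)) g hg
    have e : (w * dn (pr s) n k).2 (n + 1 - k) = n + 1 := by
      show w.2 ((dn (pr s) n k).2 (n + 1 - k)) = n + 1
      rw [dn_top s n k hk, fix s n w hw]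
    rw [h1] at e
    have hk0 : k = 0 := by
      have : n + 1 - k = n + 1 := e
      omega
    subst hk0
    rw [dn, mul_one] at h1 ⊢
    exact triv h2 hc n (fun j hj => hb j (by omega)) w hw h1

theorem pure (N : ℕ) (w : Word) (hw : Rng N w) (h : ∀ s, w.foldl (fun q x => sw x q) s = s) :
    toBraid N w ∈ Tw N 1 := by
  let f := QuotientGroup.mk' (Tw N 1)
  let s : ℕ → BraidGroup N ⧸ Tw N 1 := fun i => f (letter N (i, true))
  have h2 : ∀ i, s i * s i = 1 := fun i => by
    show f _ * f _ = 1
    rw [← map_mul]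
    exact (QuotientGroup.eq_one_iff _).2 (Subgroup.subset_normalClosure ⟨i, by simp [pow_two]⟩)
  have hl : ∀ x : ℕ × Bool, f (letter N x) = s x.1 := by
    rintro ⟨i, _ | _⟩
    · have := letter_not N (i, true)
      rw [show letter N (i, false) = (letter N (i, true))⁻¹ from this, map_inv]
      exact inv_eq_of_mul_eq_one_right (h2 i)
    · rfl
  have key : ∀ v : Word, (v.map fun x => pr s x.1).prod =
      (f (toBraid N v), (v.map fun x => tr x.1).prod) := by
    intro v
    induction v with
    | nil => simp [toBraid]; rfl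
    | cons x v ih =>
      have e : toBraid N (x :: v) = letter N x * toBraid N v := by simp [toBraid]
      rw [List.map_cons, List.prod_cons, ih, e, map_mul, hl, List.map_cons, List.prod_cons]
      rfl
  have hmem : (w.map fun x => pr s x.1).prod ∈ Subgroup.closure (pr s '' {i | i < N - 1}) := by
    refine Subgroup.list_prod_mem _ fun g hg => ?_
    obtain ⟨x, hx, rfl⟩ := List.mem_map.1 hg
    have := hw x hx
    exact Subgroup.subset_closure ⟨x.1, show x.1 < N - 1 by omega, rfl⟩
  have h1 : (w.map fun x => tr x.1).prod = 1 := by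
    rw [← inv_eq_one]
    ext q
    rw [← foldl_eq, h]; rfl
  have := triv h2 (fun i j h => by
      show f _ * f _ = f _ * f _
      simp only [← map_mul, letter_comm N i j h]) (N - 1)
    (fun j h => by
      show f _ * f _ * f _ = f _ * f _ * f _
      simp only [← map_mul, letter_braid N j h]) _ hmem (by rw [key]; exact h1)
  rw [key] at this
  exact (QuotientGroup.eq_one_iff _).1 this

theorem comm' (N i j : ℕ) (h : i + 2 ≤ j) (e : Bool) :
    letter N (i, e) * letter N (j, e) = letter N (j, e) * letter N (i, e) := by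
  cases e
  · rw [show letter N (i, false) = (letter N (i, true))⁻¹ from letter_not N (i, true),
      show letter N (j, false) = (letter N (j, true))⁻¹ from letter_not N (j, true),
      ← mul_inv_rev, ← mul_inv_rev, letter_comm N i j h]
  · exact letter_comm N i j h

theorem cable_append (u v : Word) : cable (u ++ v) = cable u ++ cable v := by
  simp [cable]

theorem cable_inv (N : ℕ) (w : Word) :
    toBraid N (cable (inverse w)) = (toBraid N (cable w))⁻¹ := by
  induction w with
  | nil => simp [cable, inverse, toBraid]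
  | cons x w ih =>
    have e1 : inverse (x :: w) = inverse w ++ [(x.1, !x.2)] := by simp [inverse]
    have e2 : cable (x :: w) = cable [x] ++ cable w := cable_append [x] w
    rw [e1, e2, cable_append, toBraid_append, toBraid_append, ih, mul_inv_rev]
    congr 1
    have n1 := letter_not N (2 * x.1 + 1, x.2)
    have n0 := letter_not N (2 * x.1, x.2)
    have n2 := letter_not N (2 * x.1 + 2, x.2)
    have c := comm' N (2 * x.1) (2 * x.1 + 2) le_rfl x.2
    simp only [cable, toBraid, List.flatMap_cons, List.flatMap_nil, List.append_nil, List.map_cons,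
      List.map_nil, List.prod_cons, List.prod_nil, mul_one] at n0 n1 n2 ⊢
    rw [n0, n1, n2, ← mul_assoc (letter N (2 * x.1, x.2)), c]
    simp only [mul_inv_rev, mul_assoc]

theorem rng_cable {N : ℕ} {w : Word} (h : Rng N w) : Rng (2 * N) (cable w) := by
  intro y hy
  obtain ⟨x, hx, hy⟩ := List.mem_flatMap.1 hy
  have := h x hx
  simp only [List.mem_cons, List.not_mem_nil, or_false] at hy
  rcases hy with rfl | rfl | rfl | rfl <;> simp only <;> omega

end W4

theorem rowW4 : RowW4 :=
  ⟨W4.pure, fun N w h => ⟨W4.rng_cable h, W4.cable_inv (2 * N) w⟩⟩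

end Vale.Agent.Q258U
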