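import Vale.Agent.Q258U.X2b

/-!
# The knot of monotone pieces is a plat
-/

set_option linter.all false

namespace Vale.Agent.Q258U.X2

open Vale.Agent.P258.Braid Vale.Agent.N258B Vale.Agent.Q258D Set Complex Filter Topology

variable {k : ℕ} {T : ℝ} {c u : Fin 4 → ℕ → ℝ → ℂ} {ε : ℝ}

/-- the pieces that end on the disc -/
abbrev Ft (b : Bn k) : Prop := b.2.val = 0 ∨ b.2.val + 1 = 2 * k

/-- the number of the end -/
def fn (b : Bn k) : ℕ := if b.2.val = 0 then fS b.1 else fE b.1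

theorem fn_lt (b : Bn k) : fn b < 8 := by
  obtain ⟨j, r⟩ := b
  unfold fn
  split_ifs <;> fin_cases j <;> simp [fS, fE]

theorem fn_inj {b b' : Bn k} (h : Ft b) (h' : Ft b') (e : fn b = fn b') : b = b' := by
  obtain ⟨j, r⟩ := b
  obtain ⟨j', r'⟩ := b'
  unfold fn at e
  dsimp only [Ft] at h h' e
  split_ifs at e with h1 h2 h2
  · exact Prod.ext (by fin_cases j <;> fin_cases j' <;> simp [fS] at e ⊢)
      (Fin.ext (by dsimp only; omega))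
  · exfalso; fin_cases j <;> fin_cases j' <;> simp [fS, fE] at e
  · exfalso; fin_cases j <;> fin_cases j' <;> simp [fS, fE] at e
  · exact Prod.ext (by fin_cases j <;> fin_cases j' <;> simp [fE] at e ⊢)
      (Fin.ext (by dsimp only; omega))

theorem fn_surj (hk : 0 < k) {q : ℕ} (hq : q < 8) : ∃ b : Bn k, Ft b ∧ fn b = q := by
  have h1 : ∀ j, ∃ b : Bn k, Ft b ∧ fn b = fS j := fun j =>
    ⟨(j, ⟨0, by omega⟩), Or.inl rfl, if_pos rfl⟩
  have h2 : ∀ j, ∃ b : Bn k, Ft b ∧ fn b = fE j := fun j =>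
    ⟨(j, ⟨2 * k - 1, by omega⟩), Or.inr (by dsimp only; omega), if_neg (by dsimp only; omega)⟩
  interval_cases q
  exacts [h1 0, h1 1, h2 0, h2 1, h1 2, h1 3, h2 2, h2 3]

theorem lo_ft {b : Bn k} (h : Ft b) : lo k b.2 = 1 := if_pos h

theorem lo_nf {b : Bn k} (h : ¬ Ft b) : lo k b.2 = 0 := if_neg h

theorem lo_le (b : Bn k) : 0 ≤ lo k b.2 ∧ lo k b.2 ≤ 1 := by
  unfold lo; split_ifs <;> norm_num

/-- a point of a band -/
noncomputable def bp (c u : Fin 4 → ℕ → ℝ → ℂ) (ε : ℝ) (b : Bn k) (ρ t : ℝ) : ℂ :=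
  c b.1 b.2 t + (ρ * ε : ℝ) * u b.1 b.2 t

/-- the strands -/
noncomputable def St (c u : Fin 4 → ℕ → ℝ → ℂ) (ε : ℝ) (a : Lb k) (t : ℝ) : ℂ :=
  if Ft a.1 then (if t ≤ 1 then fp ε (2 * fn a.1 + a.2.toNat) t else bp c u ε a.1 (sg a.2) t)
  else bp c u ε a.1 (sg a.2) t

theorem St_ft {a : Lb k} (h : Ft a.1) {t : ℝ} (ht : t ≤ 1) :
    St c u ε a t = fp ε (2 * fn a.1 + a.2.toNat) t := by
  unfold St; rw [if_pos h, if_pos ht]

theorem ft_one (hS : SD k T c u) {b : Bn k} (h : Ft b) (e : Bool) :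
    fp ε (2 * fn b + e.toNat) 1 = bp c u ε b (sg e) 1 := by
  rw [fp_one _ (fn_lt b), bp, fn]
  split_ifs with h1
  · rw [h1, (hS.fs _).1, (hS.fs _).2, pS_eq]
  · rw [show b.2.val = 2 * k - 1 by omega, (hS.fe _).1, (hS.fe _).2, pE_eq]

theorem St_bp (hS : SD k T c u) {a : Lb k} {t : ℝ} (ht : lo k a.1.2 ≤ t) :
    St c u ε a t = bp c u ε a.1 (sg a.2) t := by
  unfold St
  split_ifs with h1 h2
  · rw [lo_ft h1] at ht
    obtain rfl : t = 1 := le_antisymm h2 ht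
    exact ft_one hS h1 _
  · rfl
  · rfl

theorem bp_cont (hS : SD k T c u) (b : Bn k) (ρ : ℝ) : Continuous (bp c u ε b ρ) := by
  unfold bp
  have := hS.cc b.1 b.2
  have := hS.cu b.1 b.2
  fun_prop

theorem St_cont (hS : SD k T c u) (a : Lb k) : Continuous (St c u ε a) := by
  unfold St
  split_ifs with h
  · exact Continuous.if_le (fp_cont _ _) (bp_cont hS _ _) continuous_id continuous_const
      fun t e => by
        obtain rfl : t = 1 := e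
        exact ft_one hS h _
  · exact bp_cont hS _ _

theorem set_eq (hk : 0 < k) (hS : SD k T c u) : sides ε ∪ wedge ε ∪ BS k T c u ε =
    {z | ∃ a : Lb k, 0 ≤ z.2 ∧ z.2 ≤ T ∧ z.1 = St c u ε a z.2} := by
  have hT := hS.hT
  ext z
  rw [mem_union, mem_disc]
  constructor
  · rintro (⟨n, hn, ht, e⟩ | ⟨j, r, hr, h1, h2, e⟩)
    · obtain ⟨b, hb, hb'⟩ := fn_surj hk (q := n / 2) (by omega)
      refine ⟨(b, decide (n % 2 = 1)), ht.1, by linarith [ht.2], ?_⟩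
      rw [St_ft hb ht.2, e, hb']
      congr 1
      by_cases h : n % 2 = 1 <;> simp [h] <;> omega
    · have h0 := (lo_le (k := k) (j, ⟨r, hr⟩)).1
      rcases e with e | e
      · refine ⟨((j, ⟨r, hr⟩), true), h0.trans h1, h2, ?_⟩
        rw [St_bp hS h1, e]
        simp [bp, sg]
      · refine ⟨((j, ⟨r, hr⟩), false), h0.trans h1, h2, ?_⟩
        rw [St_bp hS h1, e]
        simp [bp, sg, sub_eq_add_neg]
  · rintro ⟨a, h0, h1, e⟩
    by_cases h : lo k a.1.2 ≤ z.2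
    · refine Or.inr ⟨a.1.1, a.1.2, a.1.2.2, h, h1, ?_⟩
      rw [e, St_bp hS h]
      cases a.2 <;> simp [bp, sg, sub_eq_add_neg]
    · have hf : Ft a.1 := by
        by_contra hf
        exact h (lo_nf hf ▸ h0)
      rw [lo_ft hf] at h
      have := fn_lt a.1
      have := Bool.toNat_le a.2
      exact Or.inl ⟨_, by omega, ⟨h0, (not_le.1 h).le⟩, e.trans (St_ft hf (not_le.1 h).le)⟩

/-- joined at the top -/
abbrev JT (b b' : Bn k) : Prop := b.1 = b'.1 ∧ b.2.val / 2 = b'.2.val / 2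

/-- joined at the bottom -/
abbrev JB (b b' : Bn k) : Prop := b.1 = b'.1 ∧ (b.2.val + 1) / 2 = (b'.2.val + 1) / 2

/-- thin bands are disjoint away from the caps -/
def E1 (k : ℕ) (T : ℝ) (c u : Fin 4 → ℕ → ℝ → ℂ) (ε : ℝ) : Prop :=
  ∀ b b' : Bn k, b ≠ b' → ∀ t, lo k b.2 ≤ t → lo k b'.2 ≤ t → t ≤ T → (JT b b' → t ≤ T - 1) →
    (JB b b' → 1 ≤ t) → ∀ ρ ∈ Icc (-1 : ℝ) 1, ∀ ρ' ∈ Icc (-1 : ℝ) 1,
      bp c u ε b ρ t ≠ bp c u ε b' ρ' t

/-- thin bands do not meet the box -/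
def E2 (k : ℕ) (c u : Fin 4 → ℕ → ℝ → ℂ) (ε : ℝ) : Prop :=
  ∀ b : Bn k, ¬ Ft b → ∀ t ∈ Icc (0 : ℝ) 1, ∀ ρ ∈ Icc (-1 : ℝ) 1, bp c u ε b ρ t ∉ Box

theorem ev1 (hS : SD k T c u) : ∀ᶠ ε in 𝓝 (0 : ℝ), E1 k T c u ε := by
  refine eventually_all.2 fun b => eventually_all.2 fun b' => ?_
  by_cases hb : b = b'
  · exact Eventually.of_forall fun _ h => absurd hb h
  obtain ⟨α, hα⟩ : ∃ α, ∀ t, α ≤ t ↔ lo k b.2 ≤ t ∧ lo k b'.2 ≤ t ∧ (JB b b' → 1 ≤ t) := by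
    by_cases h : JB b b'
    · exact ⟨max (lo k b.2) (max (lo k b'.2) 1), fun t => by simp [h]⟩
    · exact ⟨max (lo k b.2) (lo k b'.2), fun t => by simp only [max_le_iff, h]; simp⟩
  obtain ⟨β, hβ⟩ : ∃ β, ∀ t, t ≤ β ↔ t ≤ T ∧ (JT b b' → t ≤ T - 1) := by
    by_cases h : JT b b'
    · exact ⟨min T (T - 1), fun t => by rw [le_min_iff, imp_iff_right h]⟩
    · exact ⟨T, fun t => by simp only [h]; simp⟩
  have := hS.cc b.1 b.2
  have := hS.cu b.1 b.2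
  have := hS.cc b'.1 b'.2
  have := hS.cu b'.1 b'.2
  refine (tube_ne ((isCompact_Icc (a := α) (b := β)).prod ((isCompact_Icc (a := (-1 : ℝ))
    (b := 1)).prod (isCompact_Icc (a := (-1 : ℝ)) (b := 1))))
    (fun z => bp c u z.1 b z.2.2.1 z.2.1) (fun z => bp c u z.1 b' z.2.2.2 z.2.1)
    (by unfold bp; fun_prop) (by unfold bp; fun_prop) fun y hy e => ?_).mono
      fun ε H _ t h1 h2 h3 h4 h5 ρ hρ ρ' hρ' =>
        H (t, ρ, ρ') ⟨⟨(hα t).2 ⟨h1, h2, h5⟩, (hβ t).2 ⟨h3, h4⟩⟩, hρ, hρ'⟩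
  obtain ⟨h1, h2, h5⟩ := (hα _).1 hy.1.1
  obtain ⟨h3, h4⟩ := (hβ _).1 hy.1.2
  simp only [bp, mul_zero, ofReal_zero, zero_mul, add_zero] at e
  obtain ⟨e1, e2 | ⟨e2, e3⟩ | ⟨e2, e3⟩⟩ := hS.dis _ _ b.2.2 _ _ b'.2.2 _ h1 h2 h3 e
  · exact hb (Prod.ext e1 (Fin.ext e2))
  · linarith [h4 ⟨e1, e3⟩]
  · linarith [h5 ⟨e1, e3⟩]

theorem ev2 (hS : SD k T c u) : ∀ᶠ ε in 𝓝 (0 : ℝ), E2 k c u ε := by
  refine eventually_all.2 fun b => ?_
  by_cases hb : Ft b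
  · exact Eventually.of_forall fun _ h => absurd hb h
  have := hS.cc b.1 b.2
  have := hS.cu b.1 b.2
  have := b.2.2
  refine (tube ((isCompact_Icc (a := (0 : ℝ)) (b := 1)).prod (isCompact_Icc (a := (-1 : ℝ))
    (b := 1))) (fun z => bp c u z.1 b z.2.2 z.2.1) (by unfold bp; fun_prop) box_closed
    fun y hy => ?_).mono fun ε H _ t ht ρ hρ => H (t, ρ) ⟨ht, hρ⟩
  simpa [bp] using hS.box b.1 b.2 (by omega) (by omega) _ hy.1

/-- the shape of two pieces that are joined by a cap -/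
def Cap (f g p q : ℝ → ℂ) : Prop :=
  ∃ z dL dR m : ℂ, 0 < det (dR - dL) m ∧ ∀ s ∈ Icc (0 : ℝ) 1,
    f s = z + s * dL ∧ g s = z + s * dR ∧ p s = m ∧ q s = -m

theorem Cap.ne {f g p q : ℝ → ℂ} (h : Cap f g p q) {s : ℝ} (hs : s ∈ Ioc (0 : ℝ) 1) (a b : ℝ) :
    f s + a * p s ≠ g s + b * q s := by
  obtain ⟨z, dL, dR, m, h, H⟩ := h
  obtain ⟨h1, h2, h3, h4⟩ := H s ⟨hs.1.le, hs.2⟩
  rw [h1, h2, h3, h4]
  exact cap_ne h hs.1.ne' a b

theorem Cap.lin {f g p q : ℝ → ℂ} (h : Cap f g p q) {s : ℝ} (hs : s ∈ Icc (0 : ℝ) 1) (a : ℂ) :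
    f s + a * p s = f 0 + a * p 0 + s * (f 1 + a * p 1 - (f 0 + a * p 0)) ∧
    g s + a * q s = g 0 + a * q 0 + s * (g 1 + a * q 1 - (g 0 + a * q 0)) := by
  obtain ⟨z, dL, dR, m, h, H⟩ := h
  obtain ⟨h1, h2, h3, h4⟩ := H s hs
  obtain ⟨a1, a2, a3, a4⟩ := H 0 ⟨le_rfl, zero_le_one⟩
  obtain ⟨b1, b2, b3, b4⟩ := H 1 ⟨zero_le_one, le_rfl⟩
  rw [h1, h2, h3, h4, a1, a2, a3, a4, b1, b2, b3, b4]
  constructor <;> push_cast <;> ring

theorem Cap.zero {f g p q : ℝ → ℂ} (h : Cap f g p q) : g 0 = f 0 ∧ q 0 = -p 0 ∧ p 0 ≠ 0 := by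
  obtain ⟨z, dL, dR, m, h, H⟩ := h
  obtain ⟨a1, a2, a3, a4⟩ := H 0 ⟨le_rfl, zero_le_one⟩
  rw [a1, a2, a3, a4]
  refine ⟨by simp, rfl, fun e => ?_⟩
  simp [e, det] at h

theorem Cap.neg {f g p q : ℝ → ℂ} (h : Cap f g p q) {s : ℝ} (hs : s ∈ Icc (0 : ℝ) 1) :
    q s = -p s := by
  obtain ⟨z, dL, dR, m, h, H⟩ := h
  obtain ⟨h1, h2, h3, h4⟩ := H s hs
  rw [h3, h4]

theorem Cap.pos {f g p q : ℝ → ℂ} (h : Cap f g p q) {s : ℝ} (hs : s ∈ Ioc (0 : ℝ) 1) {e : ℝ}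
    (he : 0 < e) : 0 < det (g s - f s) (e * p s) := by
  obtain ⟨z, dL, dR, m, h, H⟩ := h
  obtain ⟨h1, h2, h3, h4⟩ := H s ⟨hs.1.le, hs.2⟩
  rw [h1, h2, h3, show z + s * dR - (z + s * dL) = s * (dR - dL) by ring, det_scale]
  exact mul_pos (mul_pos hs.1 he) h

theorem Cap.tip {f g p q : ℝ → ℂ} (h : Cap f g p q) (he : ε ≠ 0) (e e' : Bool) :
    f 0 + (sg e * ε : ℝ) * p 0 = g 0 + (sg e' * ε : ℝ) * q 0 ↔ e ≠ e' := by
  obtain ⟨h1, h2, h3⟩ := h.zero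
  rw [h1, h2, add_right_inj, mul_neg, ← neg_mul, mul_left_inj' h3, ← ofReal_neg, ofReal_inj,
    ← neg_mul, mul_left_inj' he]
  cases e <;> cases e' <;> simp [sg] <;> norm_num

theorem capT (hS : SD k T c u) {b b' : Bn k} (h : JT b b') (h' : b.2.val < b'.2.val) :
    Cap (fun s => c b.1 b.2 (T - s)) (fun s => c b'.1 b'.2 (T - s))
      (fun s => u b.1 b.2 (T - s)) (fun s => u b'.1 b'.2 (T - s)) := by
  have := b'.2.2
  have e := hS.top b.1 (b.2.val / 2) (by omega)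
  rw [← h.1, show b'.2.val = 2 * (b.2.val / 2) + 1 by omega]
  rw [show 2 * (b.2.val / 2) = b.2.val by omega] at e ⊢
  exact e

theorem capB (hS : SD k T c u) {b b' : Bn k} (h : JB b b') (h' : b.2.val < b'.2.val) :
    Cap (c b.1 b.2) (c b'.1 b'.2) (u b.1 b.2) (u b'.1 b'.2) := by
  have := b'.2.2
  have e := hS.bot b.1 (b.2.val / 2) (by omega)
  rw [← h.1, show b'.2.val = 2 * (b.2.val / 2) + 2 by omega]
  rw [show 2 * (b.2.val / 2) + 1 = b.2.val by omega] at e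
  exact e

theorem lt_or {b b' : Bn k} (h : b ≠ b') (e : b.1 = b'.1) :
    b.2.val < b'.2.val ∨ b'.2.val < b.2.val :=
  lt_or_gt_of_ne fun f => h (Prod.ext e (Fin.ext f))

theorem bp_ne (hS : SD k T c u) (h1 : E1 k T c u ε) {b b' : Bn k} (hb : b ≠ b') {t : ℝ}
    (ht : t ∈ Ioo 0 T) (l : lo k b.2 ≤ t) (l' : lo k b'.2 ≤ t) {ρ ρ' : ℝ}
    (hρ : ρ ∈ Icc (-1 : ℝ) 1) (hρ' : ρ' ∈ Icc (-1 : ℝ) 1) :
    bp c u ε b ρ t ≠ bp c u ε b' ρ' t := by
  by_cases a : JT b b' ∧ T - 1 < t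
  · have hs : T - t ∈ Ioc (0 : ℝ) 1 := ⟨by linarith [ht.2], by linarith [a.2]⟩
    rcases lt_or hb a.1.1 with h | h
    · simpa only [sub_sub_cancel, bp] using (capT hS a.1 h).ne hs (ρ * ε) (ρ' * ε)
    · simpa only [sub_sub_cancel, bp] using
        ((capT hS ⟨a.1.1.symm, a.1.2.symm⟩ h).ne hs (ρ' * ε) (ρ * ε)).symm
  by_cases a' : JB b b' ∧ t < 1
  · have hs : t ∈ Ioc (0 : ℝ) 1 := ⟨ht.1, a'.2.le⟩
    rcases lt_or hb a'.1.1 with h | h
    · exact (capB hS a'.1 h).ne hs (ρ * ε) (ρ' * ε)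
    · exact ((capB hS ⟨a'.1.1.symm, a'.1.2.symm⟩ h).ne hs (ρ' * ε) (ρ * ε)).symm
  exact h1 b b' hb t l l' ht.2.le (fun h => not_lt.1 fun f => a ⟨h, f⟩)
    (fun h => not_lt.1 fun f => a' ⟨h, f⟩) ρ hρ ρ' hρ'

theorem lo_of {b : Bn k} {t : ℝ} (h0 : 0 ≤ t) (h : ¬ (Ft b ∧ t ≤ 1)) : lo k b.2 ≤ t := by
  by_cases f : Ft b
  · rw [lo_ft f]; exact (not_le.1 fun g => h ⟨f, g⟩).le
  · rw [lo_nf f]; exact h0

/-- the segment of a band -/
def sgm (c u : Fin 4 → ℕ → ℝ → ℂ) (ε : ℝ) (b : Bn k) (t : ℝ) : Set ℂ :=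
  segment ℝ (St c u ε (b, false) t) (St c u ε (b, true) t)

theorem St_mem (b : Bn k) (e : Bool) (t : ℝ) : St c u ε (b, e) t ∈ sgm c u ε b t := by
  cases e
  exacts [left_mem_segment _ _ _, right_mem_segment _ _ _]

theorem sgm_bp (hS : SD k T c u) {b : Bn k} {t : ℝ} (l : lo k b.2 ≤ t) {w : ℂ}
    (h : w ∈ sgm c u ε b t) : ∃ ρ ∈ Icc (-1 : ℝ) 1, w = bp c u ε b ρ t := by
  unfold sgm at h
  rw [St_bp hS (a := (b, false)) l, St_bp hS (a := (b, true)) l] at h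
  exact seg_mem h

theorem sgm_ft {b : Bn k} (h : Ft b) {t : ℝ} (ht : t ≤ 1) : sgm c u ε b t =
    segment ℝ (fp ε (2 * fn b) t) (fp ε (2 * fn b + 1) t) := by
  unfold sgm
  rw [St_ft (a := (b, false)) h ht, St_ft (a := (b, true)) h ht]
  rfl

theorem sgm_disj (hS : SD k T c u) (hε : ε ∈ Ioc (0 : ℝ) 1) (h1 : E1 k T c u ε)
    (h2 : E2 k c u ε) {t : ℝ} (ht : t ∈ Ioo 0 T) {b b' : Bn k} (hb : b ≠ b') :
    Disjoint (sgm c u ε b t) (sgm c u ε b' t) := by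
  have mix : ∀ b b' : Bn k, Ft b ∧ t ≤ 1 → ¬ (Ft b' ∧ t ≤ 1) →
      Disjoint (sgm c u ε b t) (sgm c u ε b' t) := fun b b' a a' => by
    refine disjoint_left.2 fun w hw hw' => ?_
    obtain ⟨ρ, hρ, rfl⟩ := sgm_bp hS (lo_of ht.1.le a') hw'
    rw [sgm_ft a.1 a.2] at hw
    have := fn_lt b
    exact h2 b' (fun f => a' ⟨f, a.2⟩) t ⟨ht.1.le, a.2⟩ ρ hρ (box_convex.segment_subset
      (fp_box hε ⟨ht.1.le, a.2⟩ (by omega)) (fp_box hε ⟨ht.1.le, a.2⟩ (by omega)) hw)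
  by_cases a : Ft b ∧ t ≤ 1 <;> by_cases a' : Ft b' ∧ t ≤ 1
  · rw [sgm_ft a.1 a.2, sgm_ft a'.1 a.2]
    rcases lt_or_gt_of_ne fun e => hb (fn_inj a.1 a'.1 e) with h | h
    · exact fp_disj hε ⟨ht.1, a.2⟩ h (fn_lt _)
    · exact (fp_disj hε ⟨ht.1, a.2⟩ h (fn_lt _)).symm
  · exact mix _ _ a a'
  · exact (mix _ _ a' a).symm
  · refine disjoint_left.2 fun w hw hw' => ?_
    obtain ⟨ρ, hρ, rfl⟩ := sgm_bp hS (lo_of ht.1.le a) hw
    obtain ⟨ρ', hρ', e⟩ := sgm_bp hS (lo_of ht.1.le a') hw'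
    exact bp_ne hS h1 hb ht (lo_of ht.1.le a) (lo_of ht.1.le a') hρ hρ' e

theorem bp_sg (hS : SD k T c u) (hε : ε ≠ 0) {b : Bn k} {t : ℝ} (l : lo k b.2 ≤ t) (ht : t ≤ T)
    {e e' : Bool} (h : bp c u ε b (sg e) t = bp c u ε b (sg e') t) : e = e' := by
  unfold bp at h
  rw [add_right_inj, mul_left_inj' (hS.une _ _ b.2.2 t l ht), ofReal_inj, mul_left_inj' hε] at h
  cases e <;> cases e' <;> simp [sg] at h ⊢ <;> norm_num at h

theorem St_inj (hS : SD k T c u) (hε : ε ∈ Ioc (0 : ℝ) 1) (h1 : E1 k T c u ε)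
    (h2 : E2 k c u ε) (t : ℝ) (ht : t ∈ Ioo 0 T) (a a' : Lb k)
    (h : St c u ε a t = St c u ε a' t) : a = a' := by
  obtain ⟨b, e⟩ := a
  obtain ⟨b', e'⟩ := a'
  by_cases hb : b = b'
  · subst hb
    by_cases f : Ft b ∧ t ≤ 1
    · rw [St_ft (a := (b, e)) f.1 f.2, St_ft (a := (b, e')) f.1 f.2] at h
      have := fp_ne hε ⟨ht.1, f.2⟩ (fn_lt b)
      cases e <;> cases e'
      exacts [rfl, absurd h this, absurd h.symm this, rfl]
    · have l := lo_of ht.1.le f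
      rw [St_bp hS (a := (b, e)) l, St_bp hS (a := (b, e')) l] at h
      exact Prod.ext rfl (bp_sg hS hε.1.ne' l ht.2.le h)
  · exact absurd (h ▸ St_mem b' e' t) (disjoint_left.1 (sgm_disj hS hε h1 h2 ht hb) (St_mem b e t))

theorem mT_iff (a a' : Lb k) : mT k a = mT k a' ↔
    JT a.1 a'.1 ∧ (a.1.2.val + a.2.toNat) % 2 = (a'.1.2.val + a'.2.toNat) % 2 := by
  obtain ⟨⟨j, r⟩, e⟩ := a
  obtain ⟨⟨j', r'⟩, e'⟩ := a'
  have := r.2
  have := r'.2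
  unfold mT
  dsimp only [JT]
  fin_cases j <;> fin_cases j' <;> simp <;> omega

theorem mB_ft {a : Lb k} (h : Ft a.1) : mB k a = (2 * fn a.1 + a.2.toNat + 1) / 2 % 8 := by
  unfold mB fn
  split_ifs with h1 h2
  · rfl
  · rfl
  · exact absurd (h.resolve_left h1) h2

theorem mB_nf {a : Lb k} (h : ¬ Ft a.1) : mB k a =
    8 + 2 * (k * a.1.1.val + (a.1.2.val + 1) / 2) + (a.1.2.val + a.2.toNat) % 2 := by
  unfold mB
  rw [if_neg fun f => h (Or.inl f), if_neg fun f => h (Or.inr f)]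

theorem mB_iff {a a' : Lb k} (h : ¬ Ft a.1) (h' : ¬ Ft a'.1) : mB k a = mB k a' ↔
    JB a.1 a'.1 ∧ (a.1.2.val + a.2.toNat) % 2 = (a'.1.2.val + a'.2.toNat) % 2 := by
  rw [mB_nf h, mB_nf h']
  obtain ⟨⟨j, r⟩, e⟩ := a
  obtain ⟨⟨j', r'⟩, e'⟩ := a'
  have := r.2
  have := r'.2
  dsimp only [Ft, JB] at h h' ⊢
  fin_cases j <;> fin_cases j' <;> simp <;> omega

theorem par_iff {r r' : ℕ} (h : r' = r + 1) (e e' : Bool) :
    e ≠ e' ↔ (r + e.toNat) % 2 = (r' + e'.toNat) % 2 := by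
  cases e <;> cases e' <;> simp <;> omega

theorem par_iff' (r : ℕ) (e e' : Bool) :
    e = e' ↔ (r + e.toNat) % 2 = (r + e'.toNat) % 2 := by
  cases e <;> cases e' <;> simp <;> omega

theorem top_iff (hS : SD k T c u) (hε : ε ≠ 0) (h1 : E1 k T c u ε) (a a' : Lb k) :
    St c u ε a T = St c u ε a' T ↔ mT k a = mT k a' := by
  have hT := hS.hT
  have l : ∀ b : Bn k, lo k b.2 ≤ T := fun b => by linarith [(lo_le b).2]
  rw [mT_iff, St_bp hS (l _), St_bp hS (l _)]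
  obtain ⟨b, e⟩ := a
  obtain ⟨b', e'⟩ := a'
  dsimp only
  by_cases hb : b = b'
  · subst hb
    rw [← par_iff']
    exact ⟨fun h => ⟨⟨rfl, rfl⟩, bp_sg hS hε (l b) le_rfl h⟩, fun h => by rw [h.2]⟩
  by_cases j : JT b b'
  · rw [and_iff_right j]
    rcases lt_or hb j.1 with h | h
    · rw [← par_iff (by omega)]
      simpa only [sub_zero, bp] using (capT hS j h).tip hε e e'
    · rw [eq_comm, eq_comm (a := (_ : ℕ)), ← par_iff (by omega)]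
      simpa only [sub_zero, bp] using (capT hS ⟨j.1.symm, j.2.symm⟩ h).tip hε e' e
  · exact iff_of_false (h1 b b' hb T (l b) (l b') le_rfl (fun h => absurd h j)
      (fun _ => by linarith) _ (sg_mem e) _ (sg_mem e')) fun h => j h.1

theorem bot_iff (hS : SD k T c u) (hε : ε ∈ Ioc (0 : ℝ) 1) (h1 : E1 k T c u ε) (h2 : E2 k c u ε)
    (a a' : Lb k) : St c u ε a 0 = St c u ε a' 0 ↔ mB k a = mB k a' := by
  have hT := hS.hT
  have n16 : ∀ a : Lb k, 2 * fn a.1 + a.2.toNat < 16 := fun a => by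
    have := fn_lt a.1
    have := Bool.toNat_le a.2
    omega
  have mix : ∀ a a' : Lb k, Ft a.1 → ¬ Ft a'.1 →
      (St c u ε a 0 = St c u ε a' 0 ↔ mB k a = mB k a') := fun a a' f f' => by
    rw [St_ft f zero_le_one, St_bp hS (lo_nf f').le, mB_ft f, mB_nf f']
    refine iff_of_false (fun e => h2 a'.1 f' 0 ⟨le_rfl, zero_le_one⟩ _ (sg_mem a'.2) ?_) (by omega)
    exact e ▸ fp_box hε ⟨le_rfl, zero_le_one⟩ (n16 a)
  by_cases f : Ft a.1 <;> by_cases f' : Ft a'.1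
  · rw [St_ft f zero_le_one, St_ft f' zero_le_one, mB_ft f, mB_ft f', fp_zero _ (n16 a) (n16 a')]
  · exact mix a a' f f'
  · rw [eq_comm, eq_comm (a := mB k a)]
    exact mix a' a f' f
  rw [mB_iff f f', St_bp hS (lo_nf f).le, St_bp hS (lo_nf f').le]
  obtain ⟨b, e⟩ := a
  obtain ⟨b', e'⟩ := a'
  dsimp only at f f' ⊢
  by_cases hb : b = b'
  · subst hb
    rw [← par_iff']
    exact ⟨fun h => ⟨⟨rfl, rfl⟩, bp_sg hS hε.1.ne' (lo_nf f).le (by linarith) h⟩,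
      fun h => by rw [h.2]⟩
  by_cases j : JB b b'
  · rw [and_iff_right j]
    rcases lt_or hb j.1 with h | h
    · rw [← par_iff (by omega)]
      exact (capB hS j h).tip hε.1.ne' e e'
    · rw [eq_comm, eq_comm (a := (_ : ℕ)), ← par_iff (by omega)]
      exact (capB hS ⟨j.1.symm, j.2.symm⟩ h).tip hε.1.ne' e' e
  · exact iff_of_false (h1 b b' hb 0 (lo_nf f).le (lo_nf f').le (by linarith)
      (fun _ => by linarith) (fun h => absurd h j) _ (sg_mem e) _ (sg_mem e')) fun h => j h.1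

theorem lin_top (hS : SD k T c u) (a : Lb k) (t : ℝ) (ht : t ∈ Icc (0 : ℝ) 1) :
    St c u ε a (T - t) = St c u ε a T + t * (St c u ε a (T - 1) - St c u ε a T) := by
  have hT := hS.hT
  have l := (lo_le a.1).2
  have := a.1.2.2
  rw [St_bp hS (by linarith [ht.2]), St_bp hS (by linarith), St_bp hS (by linarith)]
  by_cases h : a.1.2.val % 2 = 0
  · simpa only [sub_zero, bp] using ((capT hS (b := a.1) (b' := (a.1.1, ⟨a.1.2.val + 1, by omega⟩))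
      ⟨rfl, by dsimp only; omega⟩ (by simp)).lin ht (sg a.2 * ε : ℝ)).1
  · simpa only [sub_zero, bp] using ((capT hS (b' := a.1) (b := (a.1.1, ⟨a.1.2.val - 1, by omega⟩))
      ⟨rfl, by dsimp only; omega⟩ (by dsimp only; omega)).lin ht (sg a.2 * ε : ℝ)).2

theorem lin_bot (hS : SD k T c u) (a : Lb k) (t : ℝ) (ht : t ∈ Icc (0 : ℝ) 1) :
    St c u ε a t = St c u ε a 0 + t * (St c u ε a 1 - St c u ε a 0) := by
  by_cases f : Ft a.1
  · rw [St_ft f ht.2, St_ft f zero_le_one, St_ft f le_rfl]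
    exact fp_lin _ _ _
  have l := lo_nf f
  have := a.1.2.2
  rw [St_bp hS (by linarith [ht.1]), St_bp hS (by linarith), St_bp hS (by linarith)]
  by_cases h : a.1.2.val % 2 = 1
  · exact ((capB hS (b := a.1) (b' := (a.1.1, ⟨a.1.2.val + 1, by omega⟩))
      ⟨rfl, by dsimp only; omega⟩ (by simp)).lin ht (sg a.2 * ε : ℝ)).1
  · exact ((capB hS (b' := a.1) (b := (a.1.1, ⟨a.1.2.val - 1, by omega⟩))
      ⟨rfl, by dsimp only; omega⟩ (by dsimp only; omega)).lin ht (sg a.2 * ε : ℝ)).2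

theorem cor_of (hS : SD k T c u) {y : X (Lb k)} {t : ℝ} (hy : ∀ a, y.1 a = St c u ε a t)
    {b b' : Bn k} (l : lo k b.2 ≤ t) (l' : lo k b'.2 ≤ t) (e : u b'.1 b'.2 t = -u b.1 b.2 t) :
    Cor y b b' (c b.1 b.2 t, c b'.1 b'.2 t, ε * u b.1 b.2 t) := by
  unfold Cor
  rw [hy, hy, hy, hy, St_bp hS (a := (b, false)) l, St_bp hS (a := (b, true)) l,
    St_bp hS (a := (b', false)) l', St_bp hS (a := (b', true)) l']
  simp [bp, sg, e, sub_eq_add_neg]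

theorem bp_eq (b : Bn k) (ρ t : ℝ) : bp c u ε b ρ t = c b.1 b.2 t + ρ * (ε * u b.1 b.2 t) := by
  unfold bp; push_cast; ring

theorem ev_top (hS : SD k T c u) (hε : 0 < ε) (h1 : E1 k T c u ε) :
    ∀ᶠ t in 𝓝 (0 : ℝ), t ∈ Ioc (0 : ℝ) 1 → ∀ y : X (Lb k), (∀ a, y.1 a = St c u ε a (T - t)) →
      Top k y := by
  have hT := hS.hT
  let b : Fin 4 × Fin k → Bn k := fun i => (i.1, ⟨2 * i.2.val, by omega⟩)
  let b' : Fin 4 × Fin k → Bn k := fun i => (i.1, ⟨2 * i.2.val + 1, by omega⟩)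
  have C := fun i => capT hS (b := b i) (b' := b' i) ⟨rfl, by dsimp only [b, b']; omega⟩
    (by dsimp only [b, b']; omega)
  have l : ∀ b : Bn k, ∀ t ≤ 1, lo k b.2 ≤ T - t := fun b t ht => by linarith [(lo_le b).2]
  refine (par_disj (fun i s => c (b i).1 (b i).2 (T - s)) (fun i s => c (b' i).1 (b' i).2 (T - s))
    (fun i s => ε * u (b i).1 (b i).2 (T - s)) (fun i => (hS.cc _ _).comp (by fun_prop))
    (fun i => (hS.cc _ _).comp (by fun_prop))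
    (fun i => continuous_const.mul ((hS.cu _ _).comp (by fun_prop))) (fun i => (C i).zero.1)
    isClosed_empty (fun _ _ _ => notMem_empty _) fun i j hij ρ hρ ρ' hρ' => ?_).mono
      fun t H ht y hy => ⟨_, ⟨fun i => (C i).pos ht hε, H.1, H.2⟩, fun j i r r' e e' => ?_⟩
  · have nj : ¬ JT (b i) (b j) := fun h => hij (Prod.ext h.1 (Fin.ext (by
      have := h.2
      dsimp only [b] at this
      omega)))
    rw [← bp_eq, ← bp_eq]
    exact h1 _ _ (fun e => nj ⟨by rw [e], by rw [e]⟩) _ (l _ 0 zero_le_one) (l _ 0 zero_le_one)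
      (by linarith) (fun h => absurd h nj) (fun _ => by linarith) ρ hρ ρ' hρ'
  · obtain rfl : r = (b (j, i)).2 := Fin.ext e
    obtain rfl : r' = (b' (j, i)).2 := Fin.ext e'
    exact cor_of hS hy (b := b (j, i)) (b' := b' (j, i)) (l _ t ht.2) (l _ t ht.2)
      ((C (j, i)).neg ⟨ht.1.le, ht.2⟩)

theorem ev_bot (hS : SD k T c u) (hε : ε ∈ Ioc (0 : ℝ) 1) (h1 : E1 k T c u ε) (h2 : E2 k c u ε) :
    ∀ᶠ t in 𝓝 (0 : ℝ), t ∈ Ioo (0 : ℝ) 1 → ∀ y : X (Lb k), (∀ a, y.1 a = St c u ε a t) →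
      Bot k y := by
  have hT := hS.hT
  let b : Fin 4 × Fin (k - 1) → Bn k := fun i => (i.1, ⟨2 * i.2.val + 1, by omega⟩)
  let b' : Fin 4 × Fin (k - 1) → Bn k := fun i => (i.1, ⟨2 * i.2.val + 2, by omega⟩)
  have C := fun i => capB hS (b := b i) (b' := b' i) ⟨rfl, by dsimp only [b, b']; omega⟩
    (by dsimp only [b, b']; omega)
  have n : ∀ i, ¬ Ft (b i) := fun i => by dsimp only [b, Ft]; omega
  have n' : ∀ i, ¬ Ft (b' i) := fun i => by dsimp only [b', Ft]; omega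
  refine (par_disj (fun i s => c (b i).1 (b i).2 s) (fun i s => c (b' i).1 (b' i).2 s)
    (fun i s => ε * u (b i).1 (b i).2 s) (fun i => hS.cc _ _) (fun i => hS.cc _ _)
    (fun i => continuous_const.mul (hS.cu _ _)) (fun i => (C i).zero.1)
    box_closed (fun i ρ hρ => ?_) fun i j hij ρ hρ ρ' hρ' => ?_).mono
      fun t H ht y hy => ⟨fun n => fp ε n t, fp_ds hε ht,
        fun n hn => fp_box hε ⟨ht.1.le, ht.2.le⟩ hn, fun j r e => ⟨fun h => ?_, fun h => ?_⟩,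
        _, ⟨fun i => (C i).pos ⟨ht.1, ht.2.le⟩ hε.1, H.1, H.2⟩, fun j i r r' e e' => ?_⟩
  · rw [← bp_eq]
    exact h2 _ (n i) 0 ⟨le_rfl, zero_le_one⟩ ρ hρ
  · have nj : ¬ JB (b i) (b j) := fun h => hij (Prod.ext h.1 (Fin.ext (by
      have := h.2
      dsimp only [b] at this
      omega)))
    rw [← bp_eq, ← bp_eq]
    exact h1 _ _ (fun e => nj ⟨by rw [e], by rw [e]⟩) _ (lo_nf (n i)).le (lo_nf (n j)).le
      (by linarith) (fun _ => by linarith) (fun h => absurd h nj) ρ hρ ρ' hρ'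
  · rw [hy, St_ft (a := ((j, r), e)) (Or.inl h) ht.2.le, fn, if_pos h]
  · rw [hy, St_ft (a := ((j, r), e)) (Or.inr h) ht.2.le, fn, if_neg (by dsimp only; omega)]
  · obtain rfl : r = (b (j, i)).2 := Fin.ext e
    obtain rfl : r' = (b' (j, i)).2 := Fin.ext e'
    exact cor_of hS hy (b := b (j, i)) (b' := b' (j, i)) ((lo_nf (n _)).le.trans ht.1.le)
      ((lo_nf (n' _)).le.trans ht.1.le) ((C (j, i)).neg ⟨ht.1.le, ht.2.le⟩)

theorem pick {P : ℝ → Prop} (h : ∀ᶠ t in 𝓝 (0 : ℝ), P t) {a : ℝ} (ha : 0 < a) :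
    ∃ t, 0 < t ∧ t < a ∧ P t := by
  have : ∀ᶠ t in 𝓝[>] (0 : ℝ), 0 < t ∧ t < a ∧ P t :=
    eventually_mem_nhdsWithin.and (((eventually_lt_nhds ha).and h).filter_mono nhdsWithin_le_nhds)
  exact this.exists

end Vale.Agent.Q258U.X2

namespace Vale.Agent.Q258U

open Set X2

theorem rowX2 (h1 : RowC1) (hTB : RowTB) : RowX2 := by
  intro k T c u hk hS ε0 hε0
  have hT := hS.hT
  obtain ⟨-, -, -, -, -, -, ⟨l1, b1, -, -, m1, -⟩, l0, b0, -, -, m0, -⟩ := hTB k hk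
  rw [show 16 * k = 2 * (8 * k) by ring] at b0 b1
  obtain ⟨ε, e0, e1, E1, E2⟩ := pick ((ev1 hS).and (ev2 hS)) (lt_min hε0 zero_lt_one)
  have hε : ε ∈ Ioc (0 : ℝ) 1 := ⟨e0, (e1.trans_le (min_le_right _ _)).le⟩
  have inj := St_inj hS hε E1 E2
  obtain ⟨t0, t1, t2, P1, P2, P3⟩ := pick ((plat_of h1 (b0.two.congr m0) (b1.two.congr m1)
    (St c u ε) T (by linarith) (St_cont hS) inj (bot_iff hS hε E1 E2) (top_iff hS e0.ne' E1)
    (lin_bot hS) (lin_top hS)).and ((ev_bot hS hε E1 E2).and (ev_top hS e0 E1))) zero_lt_one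
  have lv : ∀ t : unitInterval, t0 + t * (T - 2 * t0) ∈ Ioo 0 T := fun t => by
    have := mul_nonneg t.2.1 (by linarith : 0 ≤ T - 2 * t0)
    have := mul_le_mul_of_nonneg_right t.2.2 (by linarith : 0 ≤ T - 2 * t0)
    constructor <;> linarith
  let Γ : unitInterval → X (Lb k) := fun t =>
    ⟨fun a => St c u ε a (t0 + t * (T - 2 * t0)), fun a a' h => inj _ (lv t) a a' h⟩
  have cΓ : Continuous Γ :=
    (continuous_pi fun a => (St_cont hS a).comp (by fun_prop)).subtype_mk _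
  refine ⟨ε, ⟨e0, (e1.trans_le (min_le_left _ _)).le⟩, Γ 0, Γ 1, ⟨⟨Γ, cΓ⟩, rfl, rfl⟩, ?_,
    fun t => ?_, P2 ⟨t1, t2⟩ _ fun a => ?_, P3 ⟨t1, t2.le⟩ _ fun a => ?_⟩
  · rw [set_eq hk hS]
    exact P1 t1 _ _ _ fun _ _ => rfl
  · rintro ⟨b, e⟩ ⟨b1, e1⟩ ⟨b', e'⟩ ⟨b2, e2⟩ f1 f2 f3
    obtain rfl : b = b1 := (lT k).injective f1
    obtain rfl : b' = b2 := (lT k).injective f2
    exact (sgm_disj hS hε E1 E2 (lv t) fun h => f3 (by rw [h])).mono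
      ((convex_segment _ _).segment_subset (St_mem b e _) (St_mem b e1 _))
      ((convex_segment _ _).segment_subset (St_mem b' e' _) (St_mem b' e2 _))
  · simp [Γ]
  · show St c u ε a _ = _
    congr 1
    simp only [Icc.coe_one]; ring

end Vale.Agent.Q258U
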