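import Vale.Agent.Q258U.Core
import Mathlib.Topology.MetricSpace.HausdorffDistance

/-!
# A zigzag adds two critical points
-/

set_option linter.all false

namespace Vale.Agent.Q258U

open Set Complex

namespace Z

/-- the framing of an edge is continuous -/
theorem cont_v {P : FP} (h : Std P) (j : Fin 4) {i : ℕ} (hi : i < P.N) :
    ContinuousOn (P.v j i) (Icc 0 1) := by
  obtain ⟨L, hL⟩ := h.lip
  refine (LipschitzOnWith.of_dist_le_mul (K := ⟨|L|, abs_nonneg L⟩) fun x hx y hy => ?_).continuousOn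
  rw [dist_eq_norm, Real.dist_eq]
  exact (hL j i hi x hx y hy).trans (mul_le_mul_of_nonneg_right (le_abs_self L) (abs_nonneg _))

/-- a map of the interval that is constant on the middle third -/
noncomputable def rr (μ : ℝ) : ℝ := 3 / 2 * (min μ (1 / 3) + max μ (2 / 3) - 2 / 3)

/-- the change of the parameter -/
noncomputable def rho (s : ℝ) (i : ℕ) (μ : ℝ) : ℝ := if i = 1 then μ + s * (rr μ - μ) else μ

theorem rr_mem {μ : ℝ} (h : μ ∈ Icc (0 : ℝ) 1) : rr μ ∈ Icc (0 : ℝ) 1 := by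
  obtain ⟨h0, h1⟩ := h
  unfold rr
  rcases le_total μ (1 / 3) with a | a <;> rcases le_total μ (2 / 3) with b | b <;>
    simp only [min_eq_left, min_eq_right, max_eq_left, max_eq_right, a, b] <;>
    constructor <;> linarith

theorem rr_lip (μ μ' : ℝ) : |rr μ - rr μ'| ≤ 3 * |μ - μ'| := by
  have h1 := abs_min_sub_min_le_max μ (1 / 3) μ' (1 / 3)
  have h2 := abs_max_sub_max_le_max μ (2 / 3) μ' (2 / 3)
  rw [sub_self, abs_zero, max_eq_left (abs_nonneg (μ - μ'))] at h1 h2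
  have h3 := abs_le.1 h1
  have h4 := abs_le.1 h2
  unfold rr
  exact abs_le.2 ⟨by linarith [h3.1, h4.1], by linarith [h3.2, h4.2]⟩

theorem rho_mem {s μ : ℝ} (hs : s ∈ Icc (0 : ℝ) 1) (i : ℕ) (h : μ ∈ Icc (0 : ℝ) 1) :
    rho s i μ ∈ Icc (0 : ℝ) 1 := by
  unfold rho
  split_ifs
  · have h1 := rr_mem h
    constructor <;> nlinarith [h.1, h.2, hs.1, hs.2, h1.1, h1.2]
  · exact h

theorem rho_zero (s : ℝ) (i : ℕ) : rho s i 0 = 0 := by
  unfold rho rr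
  split_ifs <;> norm_num

theorem rho_one (s : ℝ) (i : ℕ) : rho s i 1 = 1 := by
  unfold rho rr
  split_ifs <;> norm_num

theorem rho_lip {s : ℝ} (hs : s ∈ Icc (0 : ℝ) 1) (i : ℕ) (μ μ' : ℝ) :
    |rho s i μ - rho s i μ'| ≤ 4 * |μ - μ'| := by
  unfold rho
  have h0 := abs_nonneg (μ - μ')
  split_ifs
  · have h1 := abs_le.1 (rr_lip μ μ')
    have h2 := abs_le.1 (le_refl |μ - μ'|)
    have e : μ + s * (rr μ - μ) - (μ' + s * (rr μ' - μ')) =
        (1 - s) * (μ - μ') + s * (rr μ - rr μ') := by ring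
    rw [e]
    exact abs_le.2 ⟨by nlinarith [hs.1, hs.2, h1.1, h2.1], by nlinarith [hs.1, hs.2, h1.2, h2.2]⟩
  · linarith

/-- the new framing -/
noncomputable def nv (P : FP) (s : ℝ) : Fin 4 → ℕ → ℝ → E3 := fun j i μ => P.v j i (rho s i μ)

theorem emb_nv {P : FP} (h : Emb P) {s : ℝ} (hs : s ∈ Icc (0 : ℝ) 1) :
    Emb ⟨P.N, P.a, nv P s⟩ := by
  have h4 := h.std.N4
  refine ⟨⟨h4, h.std.s0, h.std.s1, h.std.s1h, h.std.s2h, h.std.s2i, h.std.e0, h.std.e1,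
    h.std.e1h, h.std.e2h, h.std.e2i, fun j μ hμ => ?_, fun j μ hμ => ?_, fun j i hi => ?_, ?_⟩,
    fun j i hi μ hμ => h.edge j i hi _ (rho_mem hs i hμ), fun j i hi => ?_, h.disj, h.box⟩
  · exact (congrArg (P.v j 0) (if_neg (by omega))).trans (h.std.vs j μ hμ)
  · exact (congrArg (P.v j (P.N - 1)) (if_neg (by omega : ¬ P.N - 1 = 1))).trans (h.std.ve j μ hμ)
  · show P.v j i (rho s i 1) = P.v j (i + 1) (rho s (i + 1) 0)
    rw [rho_one, rho_zero]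
    exact h.std.glue j i hi
  · obtain ⟨L, hL⟩ := h.std.lip
    refine ⟨|L| * 4, fun j i hi μ hμ μ' hμ' => ?_⟩
    refine (hL j i hi _ (rho_mem hs i hμ) _ (rho_mem hs i hμ')).trans ?_
    rw [mul_assoc]
    exact (mul_le_mul_of_nonneg_right (le_abs_self L) (abs_nonneg _)).trans
      (mul_le_mul_of_nonneg_left (rho_lip hs i μ μ') (abs_nonneg _))
  · show Ind (P.ed j i) (P.ed j (i + 1)) (P.v j i (rho s i 1))
    rw [rho_one]
    exact h.vert j i hi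

theorem sim_nv (hF : RowFam) {P : FP} (h : Emb P) : Sim P ⟨P.N, P.a, nv P 1⟩ := by
  have h1 := hF P.N (fun _ => P.a) (nv P) (fun s hs => emb_nv h hs)
    (fun j i _ => continuousOn_const) fun j i hi => by
      refine (cont_v h.std j hi).comp (f := fun p : ℝ × ℝ => rho p.1 i p.2) ?_
        fun p hp => rho_mem hp.1 i hp.2
      unfold rho rr
      split_ifs <;> fun_prop
  have e : nv P 0 = P.v := by
    funext j i μ
    simp [nv, rho]
  rwa [e] at h1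

theorem nv_mid (P : FP) (j : Fin 4) {μ : ℝ} (h1 : 1 / 3 ≤ μ) (h2 : μ ≤ 2 / 3) :
    nv P 1 j 1 μ = P.v j 1 (1 / 2) := by
  unfold nv rho rr
  rw [if_pos rfl, min_eq_right h1, max_eq_right h2]
  congr 1
  ring

theorem tri_a (P : FP) (j : Fin 4) (q r : ℕ) (hr : r < 3) (hq : q + 2 ≤ P.N)
    (h : 3 * q + 1 + r ≠ 3 * P.N - 4) :
    (tri3 (1 / 3) P).a j (3 * q + 1 + r) = P.pt j (q + 1) (r / 3) := by
  show ite _ _ _ = _
  rw [if_neg (by omega), if_neg h, (by omega : (3 * q + 1 + r - 1) / 3 = q),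
    (by omega : (3 * q + 1 + r - 1) % 3 = r)]
  congr 1
  interval_cases r <;> norm_num [al]

theorem tri_ed (P : FP) (j : Fin 4) (q r : ℕ) (hr : r < 3) (hq : q + 3 ≤ P.N) :
    (tri3 (1 / 3) P).ed j (3 * q + 1 + r) = (1 / 3 : ℝ) • P.ed j (q + 1) := by
  unfold FP.ed
  rw [tri_a P j q r hr (by omega) (by omega)]
  by_cases h2 : r = 2
  · subst h2
    rw [(by omega : 3 * q + 1 + 2 + 1 = 3 * (q + 1) + 1 + 0),
      tri_a P j (q + 1) 0 (by omega) (by omega) (by omega)]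
    simp only [FP.pt, FP.ed]
    push_cast
    module
  · rw [add_assoc (3 * q + 1), tri_a P j q (r + 1) (by omega) (by omega) (by omega)]
    simp only [FP.pt, FP.ed]
    push_cast
    module

theorem tri_v (P : FP) (j : Fin 4) (q r : ℕ) (hr : r < 3) (hq : q + 3 ≤ P.N) (ν : ℝ) :
    (tri3 (1 / 3) P).v j (3 * q + 1 + r) ν = P.v j (q + 1) (r / 3 + ν / 3) := by
  show ite _ _ _ = _
  rw [if_neg (by omega), if_neg (by omega), (by omega : (3 * q + 1 + r - 1) / 3 = q),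
    (by omega : (3 * q + 1 + r - 1) % 3 = r)]
  congr 1
  interval_cases r <;> norm_num [al] <;> ring

theorem sep {S T : Set E3} (hS : IsCompact S) (hT : IsClosed T) (h : Disjoint S T) :
    ∃ δ : ℝ, 0 < δ ∧ ∀ x ∈ S, ∀ y ∈ T, δ < ‖x - y‖ := by
  obtain ⟨r, hr, h⟩ := Metric.exists_pos_forall_lt_edist hS hT h
  refine ⟨r, hr, fun x hx y hy => ?_⟩
  have := h x hx y hy
  rw [edist_nndist, ENNReal.coe_lt_coe] at this
  rw [← dist_eq_norm]
  exact_mod_cast this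

theorem closed_box : IsClosed {y : E3 | y.1 ∈ Box} := by
  unfold Box
  simp only [mem_setOf_eq, setOf_and]
  refine (isClosed_le ?_ ?_).inter ((isClosed_le ?_ ?_).inter ((isClosed_le ?_ ?_).inter
    (isClosed_le ?_ ?_))) <;> fun_prop

/-- a small horizontal vector that is independent of `e` and `V` -/
theorem exists_w {e V : E3} (he : e.2 ≠ 0) (h : Ind e e V) {δ : ℝ} (hδ : 0 < δ) :
    ∃ w : E3, w.2 = 0 ∧ ‖w‖ ≤ δ ∧ ∀ a b c : ℝ, a • e + b • w + c • V = 0 →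
      a = 0 ∧ b = 0 ∧ c = 0 := by
  set z : ℂ := V.1 - (V.2 / e.2 : ℝ) * e.1 with hz
  have z0 : z ≠ 0 := fun h0 => by
    have h1 : V = (V.2 / e.2) • e := by
      refine Prod.ext ?_ ?_
      · have := sub_eq_zero.1 h0
        simpa using this
      · simp [he]
    rcases le_total 0 (V.2 / e.2) with h2 | h2
    · have := h (V.2 / e.2) 0 (-1) h2 le_rfl (by rw [← h1]; module)
      linarith [this.2.2]
    · have := h (-(V.2 / e.2)) 0 1 (neg_nonneg.2 h2) le_rfl (by rw [neg_smul, ← h1]; module)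
      linarith [this.2.2]
  have n0 : 0 < ‖z‖ := norm_pos_iff.2 z0
  refine ⟨((δ / ‖z‖ : ℝ) * I * z, 0), rfl, ?_, fun a b c h0 => ?_⟩
  · rw [Prod.norm_def]
    simp only [norm_mul, norm_I, norm_real, norm_zero, mul_one]
    rw [Real.norm_of_nonneg (by positivity), div_mul_cancel₀ _ n0.ne']
    exact max_le le_rfl hδ.le
  · have h1 := congrArg Prod.fst h0
    have h2 := congrArg Prod.snd h0
    simp only [Prod.fst_add, Prod.snd_add, Prod.smul_fst, Prod.smul_snd, smul_eq_mul, real_smul,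
      Prod.fst_zero, Prod.snd_zero, mul_zero, add_zero] at h1 h2
    have ha : a = -(c * (V.2 / e.2)) := by field_simp; linarith
    have h3 : (((c : ℝ) : ℂ) + (b * (δ / ‖z‖) : ℝ) * I) * z = 0 := by
      rw [← h1, ha, hz]
      push_cast
      ring
    have h4 := (mul_eq_zero.1 h3).resolve_right z0
    have h5 := congrArg Complex.re h4
    have h6 := congrArg Complex.im h4
    simp only [add_re, add_im, mul_re, mul_im, ofReal_re, ofReal_im, I_re, I_im, mul_zero,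
      mul_one, zero_mul, sub_zero, add_zero, zero_add, zero_re, zero_im] at h5 h6
    have h7 : b = 0 := (mul_eq_zero.1 h6).resolve_right (by positivity)
    exact ⟨by rw [ha, h5]; simp, h7, h5⟩

/-- the displacement of the vertices -/
def ka (j0 j : Fin 4) (n : ℕ) : ℝ :=
  if j = j0 ∧ n = 5 then 1 else if j = j0 ∧ n = 6 then -1 else 0

/-- the new vertices -/
noncomputable def na (Q : FP) (j0 : Fin 4) (f : E3) (s : ℝ) : Fin 4 → ℕ → E3 :=
  fun j n => Q.a j n + (s * ka j0 j n) • f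

/-- the edges that move -/
def Mv (j0 j : Fin 4) (i : ℕ) : Prop := j = j0 ∧ 4 ≤ i ∧ i ≤ 6

theorem ka_zero {j0 j : Fin 4} {n : ℕ} (h : j ≠ j0 ∨ n ≤ 4 ∨ 7 ≤ n) : ka j0 j n = 0 := by
  unfold ka
  rw [if_neg, if_neg] <;> rintro ⟨h1, h2⟩ <;> rcases h with h | h <;> first | exact h h1 | omega

theorem not_mv {j0 j : Fin 4} {i : ℕ} (h : ¬ Mv j0 j i) :
    ka j0 j i = 0 ∧ ka j0 j (i + 1) = 0 := by
  unfold Mv at h
  by_cases e : j = j0
  · have : ¬ (4 ≤ i ∧ i ≤ 6) := fun h' => h ⟨e, h'⟩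
    exact ⟨ka_zero (Or.inr (by omega)), ka_zero (Or.inr (by omega))⟩
  · exact ⟨ka_zero (Or.inl e), ka_zero (Or.inl e)⟩

theorem na_eq (Q : FP) {j0 j : Fin 4} (f : E3) (s : ℝ) {n : ℕ} (h : n ≤ 4 ∨ 7 ≤ n) :
    na Q j0 f s j n = Q.a j n := by
  unfold na
  rw [ka_zero (Or.inr h), mul_zero, zero_smul, add_zero]

theorem ed_na (Q : FP) (j0 j : Fin 4) (f : E3) (s : ℝ) (i : ℕ) :
    FP.ed ⟨Q.N, na Q j0 f s, Q.v⟩ j i = Q.ed j i + (s * (ka j0 j (i + 1) - ka j0 j i)) • f := by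
  simp only [FP.ed, na]
  module

theorem pt_na (Q : FP) (j0 j : Fin 4) (f : E3) (s : ℝ) (i : ℕ) (μ : ℝ) :
    FP.pt ⟨Q.N, na Q j0 f s, Q.v⟩ j i μ =
      Q.pt j i μ + (s * (ka j0 j i + μ * (ka j0 j (i + 1) - ka j0 j i))) • f := by
  simp only [FP.pt, FP.ed, na]
  module

theorem ed_fix (Q : FP) {j0 j : Fin 4} (f : E3) (s : ℝ) {i : ℕ} (h : ¬ Mv j0 j i) :
    FP.ed ⟨Q.N, na Q j0 f s, Q.v⟩ j i = Q.ed j i := by
  rw [ed_na, (not_mv h).1, (not_mv h).2]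
  simp

theorem pt_fix (Q : FP) {j0 j : Fin 4} (f : E3) (s : ℝ) {i : ℕ} (h : ¬ Mv j0 j i) (μ : ℝ) :
    FP.pt ⟨Q.N, na Q j0 f s, Q.v⟩ j i μ = Q.pt j i μ := by
  rw [pt_na, (not_mv h).1, (not_mv h).2]
  simp

theorem pt_line {Q : FP} {j0 : Fin 4} {e : E3} (he : ∀ i, 3 ≤ i → i ≤ 7 → Q.ed j0 i = e) {i : ℕ}
    (h3 : 3 ≤ i) (h7 : i ≤ 7) (μ : ℝ) : Q.pt j0 i μ = Q.a j0 3 + ((i : ℝ) - 3 + μ) • e := by
  have a4 : Q.a j0 4 = Q.a j0 3 + e := eq_add_of_sub_eq' (he 3 (by omega) (by omega))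
  have a5 : Q.a j0 5 = Q.a j0 4 + e := eq_add_of_sub_eq' (he 4 (by omega) (by omega))
  have a6 : Q.a j0 6 = Q.a j0 5 + e := eq_add_of_sub_eq' (he 5 (by omega) (by omega))
  have a7 : Q.a j0 7 = Q.a j0 6 + e := eq_add_of_sub_eq' (he 6 (by omega) (by omega))
  unfold FP.pt
  rw [he i h3 h7]
  interval_cases i <;> (try simp only [a7, a6, a5, a4]) <;> push_cast <;> module

/-- the points of the edges that move -/
theorem pt_mv {Q : FP} {j0 : Fin 4} {e : E3} (he : ∀ i, 3 ≤ i → i ≤ 7 → Q.ed j0 i = e) (w : E3)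
    {s μ : ℝ} (hs : s ∈ Icc (0 : ℝ) 1) (hμ : μ ∈ Icc (0 : ℝ) 1) {i : ℕ} (h4 : 4 ≤ i) (h6 : i ≤ 6) :
    ∃ x y : ℝ, FP.pt ⟨Q.N, na Q j0 (e + w) s, Q.v⟩ j0 i μ = Q.a j0 3 + x • e + y • w ∧
      1 ≤ x ∧ x ≤ 4 ∧ |y| ≤ 1 ∧ (5 ≤ i → 2 ≤ x) ∧ (i ≤ 5 → x ≤ 3) ∧
      (i = 4 → 0 ≤ y ∧ x ≤ 2 + y) ∧ (i = 6 → y ≤ 0 ∧ 3 + y ≤ x) := by
  obtain ⟨s0, s1⟩ := hs
  obtain ⟨m0, m1⟩ := hμ
  have p0 := mul_nonneg s0 m0
  have p1 := mul_nonneg s0 (sub_nonneg.2 m1)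
  have p2 := mul_nonneg (sub_nonneg.2 s1) m0
  have p3 := mul_nonneg (sub_nonneg.2 s1) (sub_nonneg.2 m1)
  refine ⟨(i : ℝ) - 3 + μ + s * (ka j0 j0 i + μ * (ka j0 j0 (i + 1) - ka j0 j0 i)),
    s * (ka j0 j0 i + μ * (ka j0 j0 (i + 1) - ka j0 j0 i)), ?_, ?_⟩
  · rw [pt_na, pt_line he (by omega) (by omega)]
    module
  · rw [abs_le]
    interval_cases i <;> norm_num [ka] <;> (repeat' constructor) <;> nlinarith

/-- the set that must be avoided -/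
def far (Q : FP) (j0 : Fin 4) : Set E3 :=
  {y | y.1 ∈ Box} ∪ ⋃ j, ⋃ i ∈ {i | 1 ≤ i ∧ i + 2 ≤ Q.N ∧ (j ≠ j0 ∨ i ≤ 2 ∨ 8 ≤ i)},
    Q.pt j i '' Icc 0 1

theorem closed_far (Q : FP) (j0 : Fin 4) : IsClosed (far Q j0) := by
  refine closed_box.union (isClosed_iUnion_of_finite fun j => Set.Finite.isClosed_biUnion
    ((Set.finite_lt_nat Q.N).subset fun i hi => ?_) fun i _ => IsCompact.isClosed
      (isCompact_Icc.image ?_))
  · have := hi.2.1
    show i < Q.N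
    omega
  · unfold FP.pt
    fun_prop

theorem disj_far {Q : FP} (h : Emb Q) (hN : 9 ≤ Q.N) {j0 : Fin 4} {e : E3}
    (he : ∀ i, 3 ≤ i → i ≤ 7 → Q.ed j0 i = e) :
    Disjoint ((fun x : ℝ => Q.a j0 3 + x • e) '' Icc 1 4) (far Q j0) := by
  refine disjoint_left.2 ?_
  rintro _ ⟨x, ⟨x1, x4⟩, rfl⟩ hx
  obtain ⟨i, h4, h6, μ, hμ, e1⟩ : ∃ i : ℕ, 4 ≤ i ∧ i ≤ 6 ∧ ∃ μ ∈ Icc (0 : ℝ) 1,
      x = (i : ℝ) - 3 + μ := by
    rcases le_total x 2 with a | a
    · exact ⟨4, le_rfl, by omega, x - 1, ⟨by linarith, by linarith⟩, by push_cast; ring⟩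
    rcases le_total x 3 with b | b
    · exact ⟨5, by omega, by omega, x - 2, ⟨by linarith, by linarith⟩, by push_cast; ring⟩
    · exact ⟨6, by omega, by omega, x - 3, ⟨by linarith, by linarith⟩, by push_cast; ring⟩
  beta_reduce at hx
  rw [e1, ← pt_line he (by omega) (by omega)] at hx
  rcases hx with hx | hx
  · exact h.box j0 i (by omega) (by omega) μ hμ hx
  · simp only [mem_iUnion, mem_setOf_eq] at hx
    obtain ⟨j, i', ⟨h1, h2, h3⟩, μ', hμ', e2⟩ := hx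
    rcases h3 with h3 | h3 | h3
    · exact h.disj j i' j0 i h1 h2 (by omega) (by omega) (Or.inl h3) μ' hμ' μ hμ e2
    · exact h.disj j i' j0 i h1 h2 (by omega) (by omega) (Or.inr (by omega)) μ' hμ' μ hμ e2
    · by_cases e3 : j = j0
      · exact h.disj j0 i j i' (by omega) (by omega) h1 h2 (Or.inr (by omega)) μ hμ μ' hμ' e2.symm
      · exact h.disj j i' j0 i h1 h2 (by omega) (by omega) (Or.inl e3) μ' hμ' μ hμ e2

theorem emb_na {Q : FP} (h : Emb Q) (hN : 9 ≤ Q.N) {j0 : Fin 4} {e V w : E3}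
    (he : ∀ i, 3 ≤ i → i ≤ 7 → Q.ed j0 i = e)
    (hV : ∀ i, 4 ≤ i → i ≤ 6 → ∀ μ ∈ Icc (0 : ℝ) 1, Q.v j0 i μ = V)
    (hw : ∀ a b c : ℝ, a • e + b • w + c • V = 0 → a = 0 ∧ b = 0 ∧ c = 0)
    (hf : ∀ x ∈ Icc (1 : ℝ) 4, ∀ y ∈ far Q j0, ‖w‖ < ‖Q.a j0 3 + x • e - y‖)
    {s : ℝ} (hs : s ∈ Icc (0 : ℝ) 1) : Emb ⟨Q.N, na Q j0 (e + w) s, Q.v⟩ := by
  have ind : ∀ t t' : ℝ, Ind (e + t • (e + w)) (e + t' • (e + w)) V := fun t t' a b c ha hb h0 => by
    obtain ⟨h1, h2, h3⟩ := hw (a + b + (a * t + b * t')) (a * t + b * t') c (by rw [← h0]; module)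
    exact ⟨by linarith, by linarith, h3⟩
  have away : ∀ i, 4 ≤ i → i ≤ 6 → ∀ μ ∈ Icc (0 : ℝ) 1,
      FP.pt ⟨Q.N, na Q j0 (e + w) s, Q.v⟩ j0 i μ ∉ far Q j0 := fun i h4 h6 μ hμ hx => by
    obtain ⟨x, y, e1, x1, x4, hy, -⟩ := pt_mv he w hs hμ h4 h6
    have := hf x ⟨x1, x4⟩ _ hx
    rw [e1, (by module : Q.a j0 3 + x • e - (Q.a j0 3 + x • e + y • w) = -(y • w)), norm_neg,
      norm_smul, Real.norm_eq_abs] at this
    nlinarith [norm_nonneg w]
  have co : ∀ x y x' y' : ℝ, Q.a j0 3 + x • e + y • w = Q.a j0 3 + x' • e + y' • w →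
      x = x' ∧ y = y' := fun x y x' y' h0 => by
    obtain ⟨h1, h2, -⟩ := hw (x - x') (y - y') 0 (by rw [← sub_eq_zero.2 h0]; module)
    exact ⟨by linarith, by linarith⟩
  have key : ∀ i, 4 ≤ i → i ≤ 6 → ∀ j' i', 1 ≤ i' → i' + 2 ≤ Q.N → ¬ Mv j0 j' i' →
      (j' ≠ j0 ∨ i + 2 ≤ i' ∨ i' + 2 ≤ i) → ∀ μ ∈ Icc (0 : ℝ) 1, ∀ μ' ∈ Icc (0 : ℝ) 1,
      FP.pt ⟨Q.N, na Q j0 (e + w) s, Q.v⟩ j0 i μ ≠ Q.pt j' i' μ' := by
    intro i h4 h6 j' i' h1 h2 hm hd μ hμ μ' hμ' e0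
    by_cases c : j' ≠ j0 ∨ i' ≤ 2 ∨ 8 ≤ i'
    · refine away i h4 h6 μ hμ (Or.inr ?_)
      simp only [mem_iUnion, mem_setOf_eq]
      exact ⟨j', i', ⟨h1, h2, c⟩, μ', hμ', e0.symm⟩
    · push Not at c
      obtain ⟨rfl, c1, c2⟩ := c
      have c3 : ¬ (4 ≤ i' ∧ i' ≤ 6) := fun h' => hm ⟨rfl, h'⟩
      have hd' := hd.resolve_left (fun h' => h' rfl)
      obtain ⟨x, y, e1, -, -, -, k1, k2, -⟩ := pt_mv he w hs hμ h4 h6
      rw [e1, pt_line he (by omega) (by omega)] at e0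
      have e2 := (co x y ((i' : ℝ) - 3 + μ') 0 (by rw [e0]; simp)).1
      rcases (by omega : i' = 3 ∨ i' = 7) with rfl | rfl
      · have := k1 (by omega)
        push_cast at e2
        linarith [hμ'.2]
      · have := k2 (by omega)
        push_cast at e2
        linarith [hμ'.1]
  have n0 : ∀ j, na Q j0 (e + w) s j 0 = Q.a j 0 := fun j => na_eq Q _ _ (by omega)
  have n1 : ∀ j, na Q j0 (e + w) s j 1 = Q.a j 1 := fun j => na_eq Q _ _ (by omega)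
  have n2 : ∀ j, na Q j0 (e + w) s j 2 = Q.a j 2 := fun j => na_eq Q _ _ (by omega)
  have m0 : ∀ j, na Q j0 (e + w) s j Q.N = Q.a j Q.N := fun j => na_eq Q _ _ (by omega)
  have m1 : ∀ j, na Q j0 (e + w) s j (Q.N - 1) = Q.a j (Q.N - 1) :=
    fun j => na_eq Q _ _ (by omega)
  have m2 : ∀ j, na Q j0 (e + w) s j (Q.N - 2) = Q.a j (Q.N - 2) :=
    fun j => na_eq Q _ _ (by omega)
  refine ⟨⟨h.std.N4, ?_, ?_, ?_, ?_, ?_, ?_, ?_, ?_, ?_, ?_, h.std.vs, h.std.ve, h.std.glue,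
    h.std.lip⟩, fun j i hi μ hμ => ?_, fun j i hi => ?_,
    fun j i j' i' h1 h2 h1' h2' hd μ hμ μ' hμ' => ?_, fun j i h1 h2 μ hμ => ?_⟩
  · simpa only [n0] using h.std.s0
  · simpa only [n1] using h.std.s1
  · simpa only [n1] using h.std.s1h
  · simpa only [n1, n2] using h.std.s2h
  · simpa only [n2] using h.std.s2i
  · simpa only [m0] using h.std.e0
  · simpa only [m1] using h.std.e1
  · simpa only [m1] using h.std.e1h
  · simpa only [m1, m2] using h.std.e2h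
  · simpa only [m2] using h.std.e2i
  · by_cases c : Mv j0 j i
    · obtain ⟨rfl, h4, h6⟩ := c
      rw [ed_na, he i (by omega) (by omega)]
      exact (hV i h4 h6 μ hμ).symm ▸ ind _ _
    · rw [ed_fix Q _ _ c]
      exact h.edge j i hi μ hμ
  · by_cases c : j = j0 ∧ 3 ≤ i ∧ i ≤ 6
    · obtain ⟨rfl, h3, h6⟩ := c
      rw [ed_na, ed_na, he i (by omega) (by omega), he (i + 1) (by omega) (by omega)]
      have e1 : Q.v j i 1 = V := by
        by_cases c3 : i = 3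
        · subst c3
          exact (h.std.glue j 3 (by omega)).trans (hV 4 (by omega) (by omega) 0 (by simp))
        · exact hV i (by omega) h6 1 (by simp)
      exact e1.symm ▸ ind _ _
    · rw [ed_fix Q _ _ fun c' => c ⟨c'.1, by have := c'.2; omega⟩,
        ed_fix Q _ _ fun c' => c ⟨c'.1, by have := c'.2; omega⟩]
      exact h.vert j i hi
  · by_cases c : Mv j0 j i <;> by_cases c' : Mv j0 j' i'
    · obtain ⟨rfl, h4, h6⟩ := c
      obtain ⟨rfl, h4', h6'⟩ := c'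
      have hd' := hd.resolve_left (fun h' => h' rfl)
      obtain ⟨x, y, e1, -, -, -, -, -, k, -⟩ := pt_mv he w hs hμ h4 h6
      obtain ⟨x', y', e1', -, -, -, -, -, -, k'⟩ := pt_mv he w hs hμ' h4' h6'
      rw [e1, e1']
      intro e0
      obtain ⟨a1, a2⟩ := co _ _ _ _ e0
      linarith [(k (by omega)).2, (k' (by omega)).2]
    · obtain ⟨rfl, h4, h6⟩ := c
      rw [pt_fix Q _ _ c']
      exact key i h4 h6 j' i' h1' h2' c' (hd.elim (fun a => Or.inl a.symm) fun a =>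
        Or.inr (Or.inl a)) μ hμ μ' hμ'
    · obtain ⟨rfl, h4, h6⟩ := c'
      rw [pt_fix Q _ _ c]
      exact (key i' h4 h6 j i h1 h2 c (hd.elim Or.inl fun a => Or.inr (Or.inr a))
        μ' hμ' μ hμ).symm
    · rw [pt_fix Q _ _ c, pt_fix Q _ _ c']
      exact h.disj j i j' i' h1 h2 h1' h2' hd μ hμ μ' hμ'
  · by_cases c : Mv j0 j i
    · obtain ⟨rfl, h4, h6⟩ := c
      exact fun hx => away i h4 h6 μ hμ (Or.inl hx)
    · rw [pt_fix Q _ _ c]
      exact h.box j i h1 h2 μ hμ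

/-- the heights of the edges at the end -/
theorem ht {Q : FP} {j0 : Fin 4} {e w : E3} (he : ∀ i, 3 ≤ i → i ≤ 7 → Q.ed j0 i = e)
    (hw : w.2 = 0) {i : ℕ} (h3 : 3 ≤ i) (h7 : i ≤ 7) :
    (FP.ed ⟨Q.N, na Q j0 (e + w) 1, Q.v⟩ j0 i).2 =
      (1 + (ka j0 j0 (i + 1) - ka j0 j0 i)) * e.2 := by
  rw [ed_na, he i h3 h7]
  simp only [Prod.snd_add, Prod.smul_snd, smul_eq_mul, hw]
  ring

theorem crit_na {Q : FP} (hN : 9 ≤ Q.N) {j0 : Fin 4} {e w : E3}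
    (he : ∀ i, 3 ≤ i → i ≤ 7 → Q.ed j0 i = e) (hw : w.2 = 0) (e0 : e.2 ≠ 0) (j : Fin 4) (i : ℕ) :
    Crit ⟨Q.N, na Q j0 (e + w) 1, Q.v⟩ j i ↔ Crit Q j i ∨ (j = j0 ∧ (i = 4 ∨ i = 5)) := by
  have p := mul_self_pos.2 e0
  unfold Crit
  by_cases c : j = j0 ∧ 3 ≤ i ∧ i ≤ 6
  · obtain ⟨rfl, h3, h6⟩ := c
    rw [ht he hw h3 (by omega), ht he hw (by omega : 3 ≤ i + 1) (by omega), he i h3 (by omega),
      he (i + 1) (by omega) (by omega)]
    have h1 : i + 1 < Q.N := by omega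
    have h2 : ¬ e.2 * e.2 < 0 := not_lt.2 p.le
    simp only [h1, h2, true_and, false_or]
    interval_cases i <;> norm_num [ka] <;> nlinarith
  · rw [ed_fix Q _ _ fun c' => c ⟨c'.1, by have := c'.2; omega⟩,
      ed_fix Q _ _ fun c' => c ⟨c'.1, by have := c'.2; omega⟩]
    exact (or_iff_left fun c' => c ⟨c'.1, by have := c'.2; omega⟩).symm

theorem zig (hF : RowFam) {Q : FP} (h : Emb Q) (hn : NH Q) (hN : 9 ≤ Q.N) {j0 : Fin 4} {e V : E3}
    (he : ∀ i, 3 ≤ i → i ≤ 7 → Q.ed j0 i = e)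
    (hV : ∀ i, 4 ≤ i → i ≤ 6 → ∀ μ ∈ Icc (0 : ℝ) 1, Q.v j0 i μ = V) :
    ∃ P', Emb P' ∧ NH P' ∧ Sim Q P' ∧ ∀ j, cnt P' j = cnt Q j + if j = j0 then 2 else 0 := by
  classical
  have e0 : e.2 ≠ 0 := he 4 (by omega) (by omega) ▸ hn j0 4 (by omega)
  have i0 : Ind e e V := by
    have := h.edge j0 4 (by omega) 0 (by simp)
    rwa [he 4 (by omega) (by omega), hV 4 (by omega) (by omega) 0 (by simp)] at this
  obtain ⟨δ, hδ, hs⟩ := sep (isCompact_Icc.image (by fun_prop)) (closed_far Q j0)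
    (disj_far h hN he)
  obtain ⟨w, w0, w1, w2⟩ := exists_w e0 i0 hδ
  have hE : ∀ s ∈ Icc (0 : ℝ) 1, Emb ⟨Q.N, na Q j0 (e + w) s, Q.v⟩ := fun s hs' =>
    emb_na h hN he hV w2 (fun x hx y hy => w1.trans_lt (hs _ ⟨x, hx, rfl⟩ y hy)) hs'
  refine ⟨⟨Q.N, na Q j0 (e + w) 1, Q.v⟩, hE 1 (by simp), fun j i hi => ?_, ?_, fun j => ?_⟩
  · by_cases c : Mv j0 j i
    · obtain ⟨rfl, h4, h6⟩ := c
      rw [ht he w0 (by omega) (by omega)]
      refine mul_ne_zero ?_ e0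
      interval_cases i <;> norm_num [ka]
    · rw [ed_fix Q _ _ c]
      exact hn j i hi
  · have h1 := hF Q.N (na Q j0 (e + w)) (fun _ => Q.v) hE
      (fun j i _ => by unfold na; fun_prop) fun j i hi =>
        (cont_v h.std j hi).comp continuousOn_snd fun p hp => hp.2
    have e1 : na Q j0 (e + w) 0 = Q.a := by
      funext j n
      simp [na]
    rwa [e1] at h1
  · unfold cnt
    simp only [crit_na hN he w0 e0]
    split_ifs with c
    · subst c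
      have nc : ∀ i, 3 ≤ i → i ≤ 6 → ¬ Crit Q j i := fun i h3 h6 hc => by
        have := hc.2
        rw [he i h3 (by omega), he (i + 1) (by omega) (by omega)] at this
        exact not_lt.2 (mul_self_nonneg _) this
      have e2 : (2 : ℕ) = ({4, 5} : Finset ℕ).card := rfl
      rw [e2, ← Finset.card_union_of_disjoint]
      · congr 1
        ext i
        simp only [Finset.mem_filter, Finset.mem_range, Finset.mem_union, Finset.mem_insert,
          Finset.mem_singleton, true_and]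
        constructor
        · rintro ⟨a, b | b⟩
          exacts [Or.inl ⟨a, b⟩, Or.inr b]
        · rintro (⟨a, b⟩ | b)
          exacts [⟨a, Or.inl b⟩, ⟨by omega, Or.inr b⟩]
      · refine Finset.disjoint_left.2 fun i hi hi' => ?_
        simp only [Finset.mem_insert, Finset.mem_singleton] at hi'
        exact nc i (by omega) (by omega) (Finset.mem_filter.1 hi).2
    · simp only [c, false_and, or_false, add_zero]

end Z

theorem rowZ (hT : RowT) (hF : RowFam) : RowZ := by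
  intro P h hn j0
  have h4 := h.std.N4
  obtain ⟨E1, B1, C1⟩ := hT.1 _ (Z.emb_nv h (s := 1) (by simp)) (1 / 3) (by norm_num) (by norm_num)
  obtain ⟨N1, K1, -⟩ := C1 hn
  obtain ⟨E2, B2, C2⟩ := hT.1 _ E1 (1 / 3) (by norm_num) (by norm_num)
  obtain ⟨N2, K2, -⟩ := C2 N1
  set Pa : FP := ⟨P.N, P.a, Z.nv P 1⟩ with hPa
  have n0 : Pa.N = P.N := rfl
  have n1 : (tri3 (1 / 3) Pa).N = 3 * P.N - 4 := rfl
  have n2 : (tri3 (1 / 3) (tri3 (1 / 3) Pa)).N = 3 * (3 * P.N - 4) - 4 := rfl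
  have d1 : ∀ r < 3, (tri3 (1 / 3) Pa).ed j0 (r + 1) = (1 / 3 : ℝ) • Pa.ed j0 1 := fun r hr => by
    have := Z.tri_ed Pa j0 0 r hr (by omega)
    rwa [(by omega : 3 * 0 + 1 + r = r + 1)] at this
  obtain ⟨P', E3, N3, S3, K3⟩ := Z.zig hF E2 N2 (by omega) (j0 := j0)
    (e := (1 / 3 : ℝ) • (1 / 3 : ℝ) • Pa.ed j0 1) (V := P.v j0 1 (1 / 2)) (fun i h3 h7 => by
      have := Z.tri_ed (tri3 (1 / 3) Pa) j0 ((i - 1) / 3) ((i - 1) % 3) (by omega) (by omega)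
      rwa [(by omega : 3 * ((i - 1) / 3) + 1 + (i - 1) % 3 = i), d1 _ (by omega)] at this)
    fun i h3 h7 μ hμ => by
      have k1 := Z.tri_v (tri3 (1 / 3) Pa) j0 1 (i - 4) (by omega) (by omega) μ
      have k2 := Z.tri_v Pa j0 0 1 (by omega) (by omega) (((i - 4 : ℕ) : ℝ) / 3 + μ / 3)
      rw [(by omega : 3 * 1 + 1 + (i - 4) = i)] at k1
      refine k1.trans (k2.trans (Z.nv_mid P j0 ?_ ?_))
      · have : (0 : ℝ) ≤ ((i - 4 : ℕ) : ℝ) := Nat.cast_nonneg _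
        push_cast
        linarith [hμ.1]
      · have : ((i - 4 : ℕ) : ℝ) ≤ 2 := by exact_mod_cast (by omega : i - 4 ≤ 2)
        push_cast
        linarith [hμ.2]
  refine ⟨P', E3, N3, (Z.sim_nv hF h).trans ((Sim.of_bd B1).trans ((Sim.of_bd B2).trans S3)),
    fun j => ?_⟩
  rw [K3, K2, K1]
  rfl

end Vale.Agent.Q258U
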