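import Vale.Agent.Q258U.M
import Vale.Agent.Q258U.SB
import Vale.Agent.Q258U.S1
import Vale.Agent.Q258U.S2
import Vale.Agent.Q258U.S3a
import Vale.Agent.Q258U.S3b
import Vale.Agent.Q258U.S4
import Vale.Agent.Q258U.Ex
import Vale.Agent.Q258U.L
import Vale.Agent.Q258U.O
import Vale.Agent.Q258U.T
import Vale.Agent.Q258U.Z
import Vale.Agent.Q258U.Gen
import Vale.Agent.Q258U.V
import Vale.Agent.Q258U.R
import Vale.Agent.Q258U.Pu
import Vale.Agent.Q258U.X1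
import Vale.Agent.Q258U.C1
import Vale.Agent.Q258U.C2
import Vale.Agent.Q258U.C3
import Vale.Agent.Q258U.W
import Vale.Agent.Q258U.G
import Vale.Agent.Q258U.D1
import Vale.Agent.Q258U.D
import Vale.Agent.Q258U.Br
import Vale.Agent.Q258U.F0
import Vale.Agent.Q258U.F1
import Vale.Agent.Q258U.F2
import Vale.Agent.Q258U.K
import Vale.Agent.Q258U.Cl
import Vale.Agent.Q258U.X2
import Vale.Agent.Q258U.TB
import Vale.Agent.Q258U.Top
import Vale.Agent.Q258U.Bot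
import Vale.Agent.Q258U.W4
import Vale.Agent.Q258U.Glue

/-!
# Every knot that bounds a surface of genus two is the knot of a word
-/

namespace Vale.Agent.Q258U

open Vale.Agent.P258.Braid Vale.Agent.N258B Vale.Agent.Q258D Topology

theorem universal {f : ℝ × ℝ → ℂ × ℝ} {g : Fin 4 → ℝ × ℝ → ℂ × ℝ} (h : Surface f g) :
    ∃ k0, ∀ k ≥ k0, ∃ w, Prs (8 * k) w ∧ Eqv (rim f g) (knot (8 * k) (surf k w)) := by
  have hL := rowL rowM
  have hF := rowFam hL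
  have c3 := rowC3 rowC1
  have c2 := rowC2 c3
  have hB := rowBr rowW c2
  obtain ⟨P, a, b⟩ := to_poly (rowS1 rowM rowSB) rowS2 (rowS3a rowSB) (rowS3b rowM rowSB) rowS4 h
  obtain ⟨k0, c⟩ := to_pieces hL rowO rowGen rowT (rowZ rowT hF) (rowV hF) (rowR rowT) (rowPu hF)
    rowX1 a
  refine ⟨k0 + 1, fun k hk => ?_⟩
  obtain ⟨P', T, c, u, d1, d2, d3⟩ := c k (by omega)
  obtain ⟨e, he, b⟩ := b.sim d1
  obtain ⟨ε, hε, x, y, γ, e1, e2, e3, e4⟩ := rowX2 rowC1 rowTB k T c u (by omega) d2 e he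
  obtain ⟨w, w1, w2⟩ := to_word c2 c3 (rowD rowW (rowG rowW) (rowD1 rowW)) hB
    (rowK hB (rowF1 rowW c2 c3) (rowF2 rowW c2 (rowF0 rowC1 c3))) rowTB (rowTop rowW rowCl rowTB)
    (rowBot rowW rowCl rowTB) rowW4 (by omega) γ e2 e3 e4
  refine ⟨w, w1, (b ε hε).trans (Eqv.trans ?_ w2)⟩
  rwa [Kn, d3]

end Vale.Agent.Q258U
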