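import Vale.Agent.Q258D.RowsT

/-!
# Colourings of surfaces whose bands have curls
-/

set_option linter.all false

namespace Vale.Agent.Q258U.N

open Vale.Agent.P258.Braid Vale.Agent.N258B Vale.Agent.Q258D Topology

/-- the numbers of additional twists of the four long bands -/
class Fr where
  n : ℕ → ℤ

variable {H : Type} [Group H]

/-- the meridians of the long bands, indexed by numbers -/
def yn (m : Mk H) : ℕ → H
  | 0 => ym m 0
  | 1 => ym m 1
  | 2 => ym m 2
  | _ => ym m 3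

/-- the frames at the ends of the four long bands -/
def em [Fr] (m : Mk H) (j : ℕ) : H := yn m j ^ Fr.n j * Q258D.em m j

/-- the row `u` at the top and the marking `m` give a colouring of the surface -/
def IsSol [Fr] (k : ℕ) (β : BraidGroup (8 * k)) (m : Mk H) (u : List (St 8 H)) : Prop :=
  InT k (bs (ym m)) u ∧ InB k (bs (ym m)) (em m) (bact H (8 * k) β u)

/-- the number of colourings with `t ^ s * λ = 1` -/
noncomputable def NS [Fr] (k : ℕ) (H : Type) [Group H] (β : BraidGroup (8 * k)) (s : ℤ) : ℕ :=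
  Nat.card {x : Mk H × List (St 8 H) // x.1.1 ^ s * lam x.1 = 1 ∧ IsSol k β x.1 x.2}

/-- all metabelian colourings are trivial on the bands (Alexander polynomial one) -/
def AM [Fr] (k : ℕ) (β : BraidGroup (8 * k)) : Prop :=
  ∀ (H : Type) [Group H], (∀ a ∈ commutator H, ∀ b ∈ commutator H, Commute a b) →
    ∀ (m : Mk H) (u : List (St 8 H)), Commute m.1 (lam m) → IsSol k β m u → ∀ j, ym m j = 1

/-- curls at the caps of the list `I` -/
def kap (I : List ℕ) : Word := I.map fun i => (2 * i, true)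

/-- colourings of the knot and colourings of the surface -/
def RowE1N : Prop :=
  ∀ (k : ℕ), 0 < k → ∀ I : List ℕ, I.Nodup → (∀ i ∈ I, i < 4 * k) → ∃ fr : Fr,
    ∀ w : Word, (∀ x ∈ w, x.1 + 1 < 8 * k) → ∀ β ∈ Tw (8 * k) 1,
      toBraid (8 * k) w = β * toBraid (8 * k) (kap I) →
    (∀ x ∈ surf k w, x.1 + 1 < 2 * (8 * k)) ∧
    ∀ (H : Type) [Group H],
      ∃ Φ : {c : Fin (2 * (8 * k)) → H // Capd (8 * k) (surf k w) (Pc c)} ≃
        {x : Mk H × List (St 8 H) // Commute x.1.1 (lam x.1) ∧ @IsSol H _ fr k β x.1 x.2},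
        ∀ c, (Φ c).1.1.1 = (Pc c.1 1)⁻¹ ∧ lam (Φ c).1.1 = Raw (surf k w) (Pc c.1) ∧
          ((∀ i j, Commute (c.1 i) (c.1 j)) → ∀ j, ym (Φ c).1.1 j = 1) ∧
          ((∀ j, ym (Φ c).1.1 j = 1) → ∀ i, c.1 i ∈ Subgroup.zpowers (Φ c).1.1.1)

end Vale.Agent.Q258U.N
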