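import Vale.Agent.Q258U.NDefs
import Vale.Agent.Q258E.HF

/-!
# The counting argument for surfaces whose bands have curls
-/

set_option linter.all false

namespace Vale.Agent.Q258U.N

open Vale.Agent.P258.Braid Vale.Agent.N258B Vale.Agent.Q258D

section

variable [Fr] {H H' : Type} [Group H] [Group H']

omit [Fr] in
theorem yn_map (f : H →* H') (m : Mk H) : ∀ j, yn (F4.mmap f m) j = f (yn m j)
  | 0 => F4.ym_map f m 0
  | 1 => F4.ym_map f m 1
  | 2 => F4.ym_map f m 2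
  | _ + 3 => F4.ym_map f m 3

theorem em_map (f : H →* H') (m : Mk H) (j : ℕ) : em (F4.mmap f m) j = f (em m j) := by
  rw [em, em, yn_map, F4.em_map, map_mul, map_zpow]

theorem em_pair (m : Mk H) (m' : Mk H') (n : ℕ) : em (pm m m') n = (em m n, em m' n) :=
  Prod.ext (em_map (MonoidHom.fst H H') (pm m m') n).symm
    (em_map (MonoidHom.snd H H') (pm m m') n).symm

theorem em_conj (m : Mk H) (j : ℕ) :
    (em m j)⁻¹ * yn m j * em m j = (Q258D.em m j)⁻¹ * yn m j * Q258D.em m j := by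
  rw [em, mul_inv_rev, mul_assoc _ _ (yn m j), ← zpow_neg, ← (Commute.self_zpow _ _).eq]
  group

end

variable [Fr]

/-- frames lie in the span of the labels; a colouring is determined by its labels -/
def RowF2 : Prop :=
  ∀ (H : Type) [Group H] (k : ℕ), 0 < k → ∀ β ∈ Tw (8 * k) 1,
    (∀ (m : Mk H) (u : List (St 8 H)), IsSol k β m u → (∀ s, frm u s ∈ span u) ∧
      (∀ j, ym m j ∈ span u) ∧
      ∀ l ∈ [m.2.1.1, m.2.1.2, m.2.2.1, m.2.2.2], l ∈ span u ∧ m.1⁻¹ * l * m.1 ∈ span u) ∧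
    ∀ (m m' : Mk H) (u u' : List (St 8 H)), IsSol k β m u → IsSol k β m' u' → ym m = ym m' →
      (∀ s, lbl u s = lbl u' s) → u = u' ∧ m.2 = m'.2

/-- partners of a good colouring (input: `RowF2`) -/
def RowF3 : Prop :=
  ∀ (H : Type) [Group H] [Finite H] (k : ℕ), 0 < k → Nat.card (Subgroup.center H) ≤ 2 →
    ∀ F : Finset (Subgroup (H × H)), Fam F → ∀ β ∈ Tw (8 * k) 1,
      ∀ (m : Mk H) (u : List (St 8 H)), Good m → IsSol k β m u → Gen u →
        Nat.card {x : Mk H × List (St 8 H) //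
          IsSol k β x.1 x.2 ∧ Gen x.2 ∧ ¬ Gen (zip2 u x.2)} ≤ 2 * F.card ∧
        (m.1 ^ (2 : ℤ) * lam m = 1 → ∀ (m' : Mk H) (u' : List (St 8 H)), IsSol k β m' u' →
          Gen u' → ¬ Gen (zip2 u u') → m'.1 ^ (-2 : ℤ) * lam m' ≠ 1)

/-- no colourings in a Borel subgroup (inputs: `RowD1`, `RowF2`) -/
def RowF4 : Prop :=
  ∀ (p : ℕ) [Fact p.Prime], 5 ≤ p → ∀ k, 0 < k → ∀ β ∈ Tw (8 * k) 1, AM k β →
    ∀ (m : Mk (SLp p)) (u : List (St 8 (SLp p))), Commute m.1 (lam m) → IsSol k β m u →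
      p ∣ Nat.card (span u) → Gen u

/-- conjugates and products of colourings -/
def RowF5 : Prop :=
  (∀ (H : Type) [Group H] [Finite H] [Nontrivial H] (k : ℕ) (β : BraidGroup (8 * k)),
    Nat.card (Subgroup.center H) ≤ 2 → ∀ (m : Mk H) (u : List (St 8 H)), IsSol k β m u → Gen u →
      Nat.card H ≤ 2 * Nat.card {x : Mk H × List (St 8 H) //
        (∀ s : ℤ, x.1.1 ^ s * lam x.1 = 1 ↔ m.1 ^ s * lam m = 1) ∧ (Good x.1 ↔ Good m) ∧
        IsSol k β x.1 x.2 ∧ Gen x.2 ∧ ¬ Gen (zip2 u x.2)}) ∧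
  (∀ (H : Type) [Group H], commutator H = ⊤ → ∀ u v w : List (St 8 H), labs u = labs v →
    labs u = labs w → Gen (zip2 u v) → Gen (zip2 u w) → Gen (zip2 v w) →
      Gen (zip2 (zip2 u v) w)) ∧
  (∀ (H : Type) [Group H] (u v : List (St 8 H)), labs u = labs v → Gen (zip2 u v) →
    Gen (zip2 v u)) ∧
  (∀ (H : Type) [Group H] (b : Fin 8 → H) (u : List (St 8 H)), Based b u → Gen u → NGen b) ∧
  (∀ (H H' : Type) [Group H] [Group H'] (k : ℕ) (m : Mk H) (m' : Mk H')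
    (u : List (St 8 H)) (u' : List (St 8 H')), InT k (bs (ym m)) u → InT k (bs (ym m')) u' →
      InT k (bs (ym (pm m m'))) (zip2 u u') ∧ ∀ β : BraidGroup (8 * k),
        (IsSol k β (pm m m') (zip2 u u') ↔ IsSol k β m u ∧ IsSol k β m' u')) ∧
  ∀ (H : Type) [Group H] [Finite H], commutator H = ⊤ → RowB3 → ∀ η : ℝ, 0 < η → ∃ k0, ∀ k ≥ k0,
    ∀ b b' : Fin 8 → H, OddB b → OddB b' → NGen b → NGen b' →
      (Nat.card {x : List (St 8 H) × List (St 8 H) //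
        InT k b x.1 ∧ InT k b' x.2 ∧ ¬ Gen (zip2 x.1 x.2)} : ℝ) ≤ η * (Nat.card H : ℝ) ^ (8 * k)

namespace F1

open Q258D.F1

variable {H : Type} [Group H]

theorem part2 (k : ℕ) (hk : 0 < k) (m : Mk H) (hm : Commute m.1 (lam m)) (v : List (St 8 H))
    (hv : InB k (bs (ym m)) (em m) v) : pr v = 1 := by
  obtain ⟨f, hf, rfl⟩ := hv
  have hb := oddB_bs (ym m)
  change pp k (bs (ym m)) (fb k (em m) f) (8 * k) = 1
  rw [show 8 * k = 2 * k * (0 + 1 + 1 + 1 + 1) by ring, pp_blk hk hb _ _ hf, pp_blk hk hb _ _ hf,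
    pp_blk hk hb _ _ hf, pp_blk hk hb _ _ hf, colr_start hk (0 + 1 + 1 + 1) 6 rfl,
    colr_start hk (0 + 1 + 1) 4 rfl, colr_start hk (0 + 1) 2 rfl, colr_start hk 0 0 rfl,
    mul_zero, pp_zero]
  rw [show bs (ym m) 0 = yn m 0 from rfl, show bs (ym m) 2 = yn m (0 + 1) from rfl,
    show bs (ym m) 4 = yn m (0 + 1 + 1) from rfl, show bs (ym m) 6 = yn m (0 + 1 + 1 + 1) from rfl,
    em_conj, em_conj, em_conj, em_conj]
  have h : m.1⁻¹ * ((lam m)⁻¹ * m.1 * lam m) = 1 := by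
    rw [mul_assoc, hm.eq]
    group
  refine Eq.trans ?_ h
  obtain ⟨t, ⟨a, b⟩, ⟨c, d⟩⟩ := m
  have y0 : ym (t, (a, b), (c, d)) 0 = ((a * b⁻¹ * a⁻¹)⁻¹ * t * (a * b⁻¹ * a⁻¹))⁻¹ * t := rfl
  have y1 : ym (t, (a, b), (c, d)) 1 = ((a * b⁻¹)⁻¹ * t * (a * b⁻¹))⁻¹ *
      ((a * b⁻¹ * a⁻¹)⁻¹ * t * (a * b⁻¹ * a⁻¹)) := rfl
  have y2 : ym (t, (a, b), (c, d)) 2 =
      ((a * b⁻¹ * a⁻¹ * b * (c * d⁻¹ * c⁻¹))⁻¹ * t * (a * b⁻¹ * a⁻¹ * b * (c * d⁻¹ * c⁻¹)))⁻¹ *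
        ((a * b⁻¹ * a⁻¹ * b)⁻¹ * t * (a * b⁻¹ * a⁻¹ * b)) := rfl
  have y3 : ym (t, (a, b), (c, d)) 3 =
      ((a * b⁻¹ * a⁻¹ * b * (c * d⁻¹))⁻¹ * t * (a * b⁻¹ * a⁻¹ * b * (c * d⁻¹)))⁻¹ *
        ((a * b⁻¹ * a⁻¹ * b * (c * d⁻¹ * c⁻¹))⁻¹ * t *
          (a * b⁻¹ * a⁻¹ * b * (c * d⁻¹ * c⁻¹))) := rfl
  have f0 : Q258D.em (t, (a, b), (c, d)) 0 = a * ym (t, (a, b), (c, d)) 1 := rfl
  have f1 : Q258D.em (t, (a, b), (c, d)) (0 + 1) = b := rfl
  have f2 : Q258D.em (t, (a, b), (c, d)) (0 + 1 + 1) = c * ym (t, (a, b), (c, d)) 3 := rfl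
  have f3 : Q258D.em (t, (a, b), (c, d)) (0 + 1 + 1 + 1) = d := rfl
  have l0 : lam (t, (a, b), (c, d)) = a * b⁻¹ * a⁻¹ * b * (c * d⁻¹ * c⁻¹ * d) := rfl
  have e0 : yn (t, (a, b), (c, d)) 0 = ym (t, (a, b), (c, d)) 0 := rfl
  have e2 : yn (t, (a, b), (c, d)) (0 + 1) = ym (t, (a, b), (c, d)) 1 := rfl
  have e4 : yn (t, (a, b), (c, d)) (0 + 1 + 1) = ym (t, (a, b), (c, d)) 2 := rfl
  have e6 : yn (t, (a, b), (c, d)) (0 + 1 + 1 + 1) = ym (t, (a, b), (c, d)) 3 := rfl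
  rw [e0, e2, e4, e6, f0, f1, f2, f3, l0, y0, y1, y2, y3]
  group

theorem part4 (k : ℕ) (β γ : BraidGroup (8 * k)) (hγ : γ ∈ ⁅Tw (8 * k) 1, Tw (8 * k) 1⁆)
    (h : AM k β) : AM k (β * γ) := by
  intro H _ hH m u hm hs
  refine h H hH m u hm ⟨hs.1, ?_⟩
  have h1 : ∀ s ∈ u, s.col ∈ commutator H := by
    obtain ⟨f, rfl⟩ := hs.1
    intro s hs'
    have h2 : s.col = s.tr⁻¹ * bs (ym m) s.lab * s.tr :=
      congrArg St.col ((inX_row _ _ _).1 s hs')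
    rw [h2]
    exact (inferInstance : (commutator H).Normal).conj_mem' _ (bs_mem (ym_mem m) _) _
  have h2 := hs.2
  rwa [map_mul, Equiv.Perm.mul_apply,
    part3 _ γ hγ u fun s hs t ht => hH _ (h1 s hs) _ (h1 t ht)] at h2

end F1

namespace F2

open Q258D.F2

variable {H H' : Type} [Group H] [Group H'] {N : ℕ}

theorem in_span {k : ℕ} (hk : 0 < k) {β : BraidGroup (8 * k)} (hβ : β ∈ Tw (8 * k) 1) (m : Mk H)
    (u : List (St 8 H)) (h : IsSol k β m u) : (∀ s, frm u s ∈ span u) ∧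
      (∀ j, ym m j ∈ span u) ∧
      ∀ l ∈ [m.2.1.1, m.2.1.2, m.2.2.1, m.2.2.2], l ∈ span u ∧ m.1⁻¹ * l * m.1 ∈ span u := by
  obtain ⟨⟨f, hf⟩, f', hf0, hf'⟩ := h
  obtain ⟨p1, p2⟩ := propagate hk (· ∈ span u) f f' (em m)
    (fun j => by rw [hf0]; exact (span u).one_mem) fun s hs => by
      have := frm_pure hβ u s
      rw [hf', frm_row _ _ hs] at this
      rw [this]
      conv_rhs => rw [hf, frm_row _ _ hs, ← hf]
  have h1 : ∀ s, frm u s ∈ span u := fun s => by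
    by_cases hs : s < 8 * k
    · conv_rhs => rw [hf, frm_row _ _ hs]
      exact p1 _ (by omega)
    · conv_rhs => rw [hf, frm_ge _ _ (by omega)]
      exact (span u).one_mem
  have h2 : ∀ j, ym m j ∈ span u := fun j => by
    have hs : 2 * k * j < 8 * k := by
      have : 2 * k * j ≤ 2 * k * 3 := Nat.mul_le_mul_left _ (by omega)
      omega
    have h3 := lbl_mem u (2 * k * j)
    conv_rhs at h3 => rw [hf, lbl_row _ _ hs, bs_colr hk]
    have h4 := p1 (2 * k * j / 2) (by omega)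
    simpa [mul_assoc] using (span u).mul_mem ((span u).mul_mem h4 h3) ((span u).inv_mem h4)
  refine ⟨h1, h2, ?_⟩
  replace p2 : ∀ j < 4, Q258D.em m j ∈ span u := fun j hj => by
    refine ((span u).mul_mem_cancel_left ((span u).zpow_mem (x := yn m j) ?_ _)).1 (p2 j hj)
    interval_cases j
    exacts [h2 0, h2 1, h2 2, h2 3]
  generalize span u = K at p2 h2
  obtain ⟨t, ⟨a, b⟩, c, d⟩ := m
  have hb : b ∈ K := p2 1 (by omega)
  have hd : d ∈ K := p2 3 (by omega)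
  have ha : a ∈ K := (K.mul_mem_cancel_right (h2 1)).1 (p2 0 (by omega))
  have hc : c ∈ K := (K.mul_mem_cancel_right (h2 3)).1 (p2 2 (by omega))
  let L : Subgroup H := K.comap (MulAut.conj t⁻¹).toMonoidHom
  have hL : ∀ g, g ∈ L ↔ t⁻¹ * g * t ∈ K := fun g => by
    change t⁻¹ * g * t⁻¹⁻¹ ∈ K ↔ _
    rw [inv_inv]
  have key : ∀ g ∈ K, (g⁻¹ * t * g)⁻¹ * t ∈ K ↔ g ∈ L := fun g hg => by
    rw [hL, show (g⁻¹ * t * g)⁻¹ * t = g⁻¹ * (t⁻¹ * g * t) by group,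
      K.mul_mem_cancel_left (K.inv_mem hg)]
  have step : ∀ g g', (g'⁻¹ * t * g')⁻¹ * (g⁻¹ * t * g) ∈ K → g ∈ K → g' ∈ K → g ∈ L → g' ∈ L := by
    intro g g' h hg hg' hl
    rw [← key _ hg']
    simpa [mul_assoc] using K.mul_mem h ((key _ hg).2 hl)
  have k1 : a * b⁻¹ ∈ K := K.mul_mem ha (K.inv_mem hb)
  have k2 : a * b⁻¹ * a⁻¹ ∈ K := K.mul_mem k1 (K.inv_mem ha)
  have k3 : a * b⁻¹ * a⁻¹ * b ∈ K := K.mul_mem k2 hb
  have k4 : c * d⁻¹ ∈ K := K.mul_mem hc (K.inv_mem hd)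
  have k5 : c * d⁻¹ * c⁻¹ ∈ K := K.mul_mem k4 (K.inv_mem hc)
  have l2 : a * b⁻¹ * a⁻¹ ∈ L := (key _ k2).1 (h2 0)
  have l1 : a * b⁻¹ ∈ L := step _ _ (h2 1) k2 k1 l2
  have la : a ∈ L := L.inv_mem_iff.1 ((L.mul_mem_cancel_left l1).1 l2)
  have lb : b ∈ L := L.inv_mem_iff.1 ((L.mul_mem_cancel_left la).1 l1)
  have l3 : a * b⁻¹ * a⁻¹ * b ∈ L := L.mul_mem l2 lb
  have l5 : a * b⁻¹ * a⁻¹ * b * (c * d⁻¹ * c⁻¹) ∈ L := step _ _ (h2 2) k3 (K.mul_mem k3 k5) l3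
  have l4 : a * b⁻¹ * a⁻¹ * b * (c * d⁻¹) ∈ L :=
    step _ _ (h2 3) (K.mul_mem k3 k5) (K.mul_mem k3 k4) l5
  have l6 := (L.mul_mem_cancel_left l3).1 l5
  have l7 := (L.mul_mem_cancel_left l3).1 l4
  have lc : c ∈ L := L.inv_mem_iff.1 ((L.mul_mem_cancel_left l7).1 l6)
  have ld : d ∈ L := L.inv_mem_iff.1 ((L.mul_mem_cancel_left lc).1 l7)
  intro l hl
  simp only [List.mem_cons, List.not_mem_nil, or_false] at hl
  rcases hl with rfl | rfl | rfl | rfl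
  exacts [⟨ha, (hL _).1 la⟩, ⟨hb, (hL _).1 lb⟩, ⟨hc, (hL _).1 lc⟩, ⟨hd, (hL _).1 ld⟩]

theorem isSol_zip {k : ℕ} {β : BraidGroup (8 * k)} {m : Mk H} {m' : Mk H'} {u : List (St 8 H)}
    {u' : List (St 8 H')} (h : IsSol k β m u) (h' : IsSol k β m' u') :
    IsSol k β (pm m m') (zip2 u u') := by
  obtain ⟨⟨f, hf⟩, g, hg0, hg⟩ := h
  obtain ⟨⟨f', hf'⟩, g', hg0', hg'⟩ := h'
  have hl : labs u = labs u' := by rw [hf, hf', (inX_row _ _ _).2, (inX_row _ _ _).2]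
  refine ⟨⟨fun i => (f i, f' i), by rw [hf, hf', zip2_row, bs_pair]⟩,
    fun i => (g i, g' i), fun j => Prod.ext (hg0 j) (hg0' j), ?_⟩
  rw [bact_zip2 β hl, hg, hg', zip2_row, bs_pair]
  refine row_congr _ fun s _ => ?_
  split_ifs
  · exact (em_pair m m' _).symm
  · rfl

theorem unique {k : ℕ} (hk : 0 < k) {β : BraidGroup (8 * k)} (hβ : β ∈ Tw (8 * k) 1)
    (m m' : Mk H) (u u' : List (St 8 H)) (h : IsSol k β m u) (h' : IsSol k β m' u')
    (hy : ym m = ym m') (hl : ∀ s, lbl u s = lbl u' s) : u = u' ∧ m.2 = m'.2 := by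
  obtain ⟨h1, -, h3⟩ := in_span hk hβ _ _ (isSol_zip h h')
  have hD := span_zip_le h.1 h'.1 (K := (MonoidHom.fst H H).eqLocus (MonoidHom.snd H H))
    fun s _ => hl s
  constructor
  · have h4 : ∀ s, frm u s = frm u' s := fun s => by
      have := hD (h1 s)
      rwa [frm_zip h.1 h'.1] at this
    obtain ⟨f, hf⟩ := h.1
    obtain ⟨f', hf'⟩ := h'.1
    rw [hf, hf', hy]
    refine row_congr _ fun s hs => ?_
    have := h4 s
    rwa [hf, hf', frm_row _ _ hs, frm_row _ _ hs] at this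
  · exact Prod.ext (Prod.ext (hD (h3 (pm m m').2.1.1 (by simp)).1) (hD (h3 (pm m m').2.1.2 (by simp)).1))
      (Prod.ext (hD (h3 (pm m m').2.2.1 (by simp)).1) (hD (h3 (pm m m').2.2.2 (by simp)).1))

section partners

variable {K : Subgroup (H × H)}
  (hZ : ∀ a b, (a, b) ∈ K → (a ∈ Subgroup.center H ↔ b ∈ Subgroup.center H))
include hZ

variable {k : ℕ} (hk : 0 < k) {β : BraidGroup (8 * k)} (hβ : β ∈ Tw (8 * k) 1) {m : Mk H}
  {u : List (St 8 H)} (h : IsSol k β m u)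
include hk hβ h

/-- the meridian of a partner is determined up to the centre -/
theorem mer_central (hs : ∀ b, ∃ a, (a, b) ∈ K) (hg : Good m) {m' : Mk H} {u' : List (St 8 H)}
    (h' : IsSol k β m' u') (hK : span (zip2 u u') ≤ K) {t0 : H} (h0 : (m.1, t0) ∈ K) :
    m'.1 * t0⁻¹ ∈ Subgroup.center H := by
  obtain ⟨-, -, h3⟩ := in_span hk hβ _ _ (isSol_zip h h')
  obtain ⟨c0, hc⟩ := hs (m'.1 * t0⁻¹)
  have key : ∀ l l', (l, l') ∈ K → (m.1⁻¹ * l * m.1, m'.1⁻¹ * l' * m'.1) ∈ K →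
      c0⁻¹ * l * c0 * l⁻¹ ∈ Subgroup.center H := by
    intro l l' h1 h2
    have h4 := mod_eq hZ h2 (K.mul_mem (K.mul_mem (K.inv_mem h0) h1) h0)
    refine (hZ _ _ (K.mul_mem (K.mul_mem (K.mul_mem (K.inv_mem hc) h1) hc) (K.inv_mem h1))).2 ?_
    have h5 := (Subgroup.center H).inv_mem (QuotientGroup.eq.1 h4)
    have h6 := Subgroup.Normal.conj_mem inferInstance _ h5 (l' * t0)
    convert h6 using 1
    simp only [Prod.snd_mul, Prod.snd_inv]
    group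
  refine (hZ _ _ hc).1 (hg.2 c0 fun l hl => ?_)
  simp only [List.mem_cons, List.not_mem_nil, or_false] at hl
  rcases hl with rfl | rfl | rfl | rfl
  · exact key _ _ (hK (h3 (pm m m').2.1.1 (by simp)).1) (hK (h3 (pm m m').2.1.1 (by simp)).2)
  · exact key _ _ (hK (h3 (pm m m').2.1.2 (by simp)).1) (hK (h3 (pm m m').2.1.2 (by simp)).2)
  · exact key _ _ (hK (h3 (pm m m').2.2.1 (by simp)).1) (hK (h3 (pm m m').2.2.1 (by simp)).2)
  · exact key _ _ (hK (h3 (pm m m').2.2.2 (by simp)).1) (hK (h3 (pm m m').2.2.2 (by simp)).2)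

/-- a partner is determined by its meridian -/
theorem partner_eq {m' m'' : Mk H} {u' u'' : List (St 8 H)} (h' : IsSol k β m' u')
    (hK' : span (zip2 u u') ≤ K) (h'' : IsSol k β m'' u'') (hK'' : span (zip2 u u'') ≤ K)
    (ht : m'.1 = m''.1) : (m', u') = (m'', u'') := by
  obtain ⟨a1, -, a3⟩ := in_span hk hβ _ _ (isSol_zip h h')
  obtain ⟨b1, -, b3⟩ := in_span hk hβ _ _ (isSol_zip h h'')
  have e1 := mod_eq hZ (hK' (a3 (pm m m').2.1.1 (by simp)).1)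
    (hK'' (b3 (pm m m'').2.1.1 (by simp)).1)
  have e2 := mod_eq hZ (hK' (a3 (pm m m').2.1.2 (by simp)).1)
    (hK'' (b3 (pm m m'').2.1.2 (by simp)).1)
  have e3 := mod_eq hZ (hK' (a3 (pm m m').2.2.1 (by simp)).1)
    (hK'' (b3 (pm m m'').2.2.1 (by simp)).1)
  have e4 := mod_eq hZ (hK' (a3 (pm m m').2.2.2 (by simp)).1)
    (hK'' (b3 (pm m m'').2.2.2 (by simp)).1)
  have hz : ∀ g g' : H, (g : H ⧸ Subgroup.center H) = g' → zz m' g = zz m'' g' := fun g g' e => by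
    rw [zz, zz, ht, conj_eq e]
  have hy : ym m' = ym m'' := by
    unfold ym
    rw [ht, hz _ (m''.2.1.1 * m''.2.1.2⁻¹ * m''.2.1.1⁻¹), hz _ (m''.2.1.1 * m''.2.1.2⁻¹),
      hz _ (cm m''.2.1 * (m''.2.2.1 * m''.2.2.2⁻¹ * m''.2.2.1⁻¹)), hz _ (cm m''.2.1),
      hz _ (cm m''.2.1 * (m''.2.2.1 * m''.2.2.2⁻¹))] <;>
    simp only [cm, QuotientGroup.mk_mul, QuotientGroup.mk_inv, e1, e2, e3, e4]
  have hf : ∀ s, ((frm u' s : H) : H ⧸ Subgroup.center H) = (frm u'' s : H) := fun s =>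
    mod_eq hZ (frm_zip h.1 h'.1 s ▸ hK' (a1 s)) (frm_zip h.1 h''.1 s ▸ hK'' (b1 s))
  obtain ⟨c1, c2⟩ := unique hk hβ m' m'' u' u'' h' h'' hy fun s => by
    obtain ⟨f, hf'⟩ := h'.1
    obtain ⟨f', hf''⟩ := h''.1
    have := hf s
    rw [hf', hf''] at this ⊢
    by_cases hs : s < 8 * k
    · rw [frm_row _ _ hs, frm_row _ _ hs] at this
      rw [lbl_row _ _ hs, lbl_row _ _ hs, hy, conj_eq this]
    · rw [lbl_ge _ _ (not_lt.1 hs), lbl_ge _ _ (not_lt.1 hs)]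
  exact Prod.ext (Prod.ext ht c2) c1

/-- a partner has the same slope -/
theorem slope_ne (hs : ∀ a, ∃ b, (a, b) ∈ K) (hs' : ∀ b, ∃ a, (a, b) ∈ K) (hg : Good m)
    (hm : m.1 ^ (2 : ℤ) * lam m = 1) {m' : Mk H} {u' : List (St 8 H)} (h' : IsSol k β m' u')
    (hK : span (zip2 u u') ≤ K) : m'.1 ^ (-2 : ℤ) * lam m' ≠ 1 := by
  intro hm'
  obtain ⟨t0, h0⟩ := hs m.1
  have h1 := mer_central hZ hk hβ h hs' hg h' hK h0
  obtain ⟨-, -, a3⟩ := in_span hk hβ _ _ (isSol_zip h h')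
  have e1 := hK (a3 (pm m m').2.1.1 (by simp)).1
  have e2 := hK (a3 (pm m m').2.1.2 (by simp)).1
  have e3 := hK (a3 (pm m m').2.2.1 (by simp)).1
  have e4 := hK (a3 (pm m m').2.2.2 (by simp)).1
  have h2 : lam (pm m m') ∈ K :=
    K.mul_mem (K.mul_mem (K.mul_mem (K.mul_mem e1 (K.inv_mem e2)) (K.inv_mem e1)) e2)
      (K.mul_mem (K.mul_mem (K.mul_mem e3 (K.inv_mem e4)) (K.inv_mem e3)) e4)
  have h3 : (m.1 ^ (2 : ℤ) * lam m, t0 ^ (2 : ℤ) * lam m') ∈ K :=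
    K.mul_mem (K.zpow_mem h0 2) h2
  have h4 := (hZ _ _ h3).1 (by rw [hm]; exact Subgroup.one_mem _)
  rw [zpow_neg, inv_mul_eq_one] at hm'
  have h5 : (m'.1 : H ⧸ Subgroup.center H) = t0 := by
    have := (QuotientGroup.eq_one_iff _).2 h1
    rwa [QuotientGroup.mk_mul, QuotientGroup.mk_inv, mul_inv_eq_one] at this
  refine hg.1 ((hZ _ (t0 ^ 4) (K.pow_mem h0 4)).2 ((QuotientGroup.eq_one_iff _).1 ?_))
  have h6 := (QuotientGroup.eq_one_iff _).2 h4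
  rw [← hm', QuotientGroup.mk_mul, QuotientGroup.mk_zpow, QuotientGroup.mk_zpow, h5,
    ← zpow_add] at h6
  rw [QuotientGroup.mk_pow, ← h6, ← zpow_natCast]
  rfl

end partners

theorem rowF2 : RowF2 := fun _ _ _ hk _ hβ => ⟨F2.in_span hk hβ, F2.unique hk hβ⟩

theorem rowF3' : RowF3 := by
  intro H _ _ k hk hc F hF β hβ m u hg h hu
  have hK : ∀ (m' : Mk H) (u' : List (St 8 H)), IsSol k β m' u' → Gen u' → ¬ Gen (zip2 u u') →
      ∃ K ∈ F, span (zip2 u u') ≤ K := fun m' u' h' hu' hn => by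
    obtain ⟨s1, s2⟩ := subdirect ((labs_of_inT h.1).trans (labs_of_inT h'.1).symm) hu hu'
    exact hF.2 _ hn s1 s2
  refine ⟨?_, fun hm m' u' h' hu' hn => ?_⟩
  · choose K hK1 hK2 using fun x : {x : Mk H × List (St 8 H) //
      IsSol k β x.1 x.2 ∧ Gen x.2 ∧ ¬ Gen (zip2 u x.2)} => hK _ _ x.2.1 x.2.2.1 x.2.2.2
    choose t0 ht0 using fun L : F => (hF.1 L.1 L.2).1 m.1
    have hinj : Function.Injective fun x => ((⟨K x, hK1 x⟩, ⟨x.1.1.1 * (t0 ⟨K x, hK1 x⟩)⁻¹,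
        mer_central (hF.1 _ (hK1 x)).2.2 hk hβ h (hF.1 _ (hK1 x)).2.1 hg x.2.1 (hK2 x)
          (ht0 ⟨K x, hK1 x⟩)⟩) : F × Subgroup.center H) := by
      intro x y e
      have e1 : (⟨K x, hK1 x⟩ : F) = ⟨K y, hK1 y⟩ := congrArg Prod.fst e
      have e2 : x.1.1.1 * (t0 ⟨K x, hK1 x⟩)⁻¹ = y.1.1.1 * (t0 ⟨K y, hK1 y⟩)⁻¹ :=
        congrArg (fun z => z.2.1) e
      rw [e1] at e2
      have e3 : K x = K y := congrArg Subtype.val e1
      exact Subtype.ext (partner_eq (hF.1 _ (hK1 x)).2.2 hk hβ h x.2.1 (hK2 x) y.2.1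
        (e3 ▸ hK2 y) (mul_right_cancel e2))
    refine (Nat.card_le_card_of_injective _ hinj).trans ?_
    rw [Nat.card_prod, Nat.card_eq_fintype_card, Fintype.card_coe, mul_comm]
    exact Nat.mul_le_mul_right _ hc
  · obtain ⟨K, hK1, hK2⟩ := hK m' u' h' hu' hn
    exact slope_ne (hF.1 _ hK1).2.2 hk hβ h (hF.1 _ hK1).1 (hF.1 _ hK1).2.1 hg hm h' hK2

end F2

namespace F4

open Q258D.F4

variable {H H' : Type} [Group H] [Group H']

theorem isSol_map {k : ℕ} {β : BraidGroup (8 * k)} {m : Mk H} {u : List (St 8 H)} (f : H →* H')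
    (h : IsSol k β m u) : IsSol k β (mmap f m) (u.map (St.map f)) := by
  have := sol_map f (show Sol k β _ _ u from h)
  rw [← bs_map f _ _ (ym_map f m), ← funext (em_map f m)] at this
  exact this

theorem span_bot {k : ℕ} {β : BraidGroup (8 * k)} {m : Mk H} {u : List (St 8 H)}
    (h : IsSol k β m u) (hy : ∀ j, ym m j = 1) : span u = ⊥ := by
  obtain ⟨⟨g, hg⟩, -⟩ := h
  rw [eq_bot_iff, span_le]
  intro s hs
  rw [hg] at hs
  simp only [row, List.mem_map] at hs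
  obtain ⟨a, -, rfl⟩ := hs
  have : ∀ c, bs (ym m) c = 1 := fun c => by fin_cases c <;> simp [bs, hy]
  simp [mk, this]

variable {p : ℕ} [Fact p.Prime]

theorem core {k : ℕ} {β : BraidGroup (8 * k)} (hβ : β ∈ Tw (8 * k) 1) (hA : AM k β)
    {m : Mk (SLp p)} {u : List (St 8 (SLp p))} (hc : Commute m.1 (lam m)) (hs : IsSol k β m u)
    (hf : ∀ s, frm u s ∈ Bor p)
    (hl : ∀ l ∈ [m.2.1.1, m.2.1.2, m.2.2.1, m.2.2.2], l ∈ Bor p ∧ m.1⁻¹ * l * m.1 ∈ Bor p) :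
    ∀ j, ym m j = 1 := by
  obtain ⟨t, ⟨l1, l2⟩, l3, l4⟩ := m
  obtain ⟨a1, b1⟩ := hl l1 (by simp)
  obtain ⟨a2, b2⟩ := hl l2 (by simp)
  obtain ⟨a3, b3⟩ := hl l3 (by simp)
  obtain ⟨a4, b4⟩ := hl l4 (by simp)
  simp only at b1 b2 b3 b4
  by_cases ht : t ∈ Bor p
  · let n : Mk (Bor p) := (⟨t, ht⟩, (⟨l1, a1⟩, ⟨l2, a2⟩), ⟨l3, a3⟩, ⟨l4, a4⟩)
    have hn : mmap (Bor p).subtype n = (t, (l1, l2), l3, l4) := rfl
    rw [← hn] at hc hs ⊢
    have h1 : Sol k β (fun c => ((bs (ym n) c : Bor p) : SLp p))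
        (fun j => ((em n j : Bor p) : SLp p)) u := by
      have h2 : Sol k β _ _ u := hs
      rwa [bs_map _ _ _ (ym_map _ n), funext (em_map _ n)] at h2
    obtain ⟨v, hv⟩ := sol_restrict hβ _ hf h1
    have h3 : Commute n.1 (lam n) := by
      rw [lam_map] at hc
      exact Subtype.ext hc
    intro j
    rw [ym_map, hA _ bor_mab n v h3 hv j, map_one]
  · let L1 : Bor p := ⟨l1, a1⟩
    let L2 : Bor p := ⟨l2, a2⟩
    let L3 : Bor p := ⟨l3, a3⟩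
    let L4 : Bor p := ⟨l4, a4⟩
    have c1 : L1 ∈ Tor t := mem_tor.2 b1
    have c2 : L2 ∈ Tor t := mem_tor.2 b2
    have c3 : L3 ∈ Tor t := mem_tor.2 b3
    have c4 : L4 ∈ Tor t := mem_tor.2 b4
    have d0 : L1 * L2⁻¹ ∈ Tor t := mul_mem c1 (inv_mem c2)
    have d1 : L1 * L2⁻¹ * L1⁻¹ ∈ Tor t := mul_mem d0 (inv_mem c1)
    have d2 : cm (L1, L2) ∈ Tor t := mul_mem d1 c2
    have d3 : cm (L1, L2) * (L3 * L4⁻¹) ∈ Tor t := mul_mem d2 (mul_mem c3 (inv_mem c4))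
    have d4 : cm (L1, L2) * (L3 * L4⁻¹ * L3⁻¹) ∈ Tor t :=
      mul_mem d2 (mul_mem (mul_mem c3 (inv_mem c4)) (inv_mem c3))
    let y : Fin 4 → Bor p := ![yy d1 (one_mem _), yy d0 d1, yy d4 d2, yy d3 d4]
    have hy : ∀ j, ym (t, (l1, l2), l3, l4) j = (Bor p).subtype (y j) := fun j => by
      fin_cases j <;> simp [y, yy_val, ym, zz, cm, L1, L2, L3, L4]
    let e : ℕ → Bor p := fun j => match j with
      | 0 => y 0 ^ Fr.n 0 * (L1 * y 1)
      | 1 => y 1 ^ Fr.n 1 * L2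
      | 2 => y 2 ^ Fr.n 2 * (L3 * y 3)
      | j + 3 => y 3 ^ Fr.n (j + 3) * L4
    have he : em (t, (l1, l2), l3, l4) = fun j => (e j : SLp p) := funext fun j =>
      match j with
      | 0 => by simp only [em, yn, Q258D.em, hy]; rfl
      | 1 => by simp only [em, yn, Q258D.em, hy]; rfl
      | 2 => by simp only [em, yn, Q258D.em, hy]; rfl
      | _ + 3 => by simp only [em, yn, Q258D.em, hy]; rfl
    have h1 : Sol k β (fun c => ((bs y c : Bor p) : SLp p)) (fun j => (e j : SLp p)) u := by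
      have h2 : Sol k β _ _ u := hs
      rwa [bs_map _ _ _ hy, he] at h2
    obtain ⟨v, hv⟩ := sol_restrict hβ _ hf h1
    let f : Bor p →* Dih (ZMod p)ˣ := SemidirectProduct.inl.comp chi
    let n : Mk (Dih (ZMod p)ˣ) := (Q258D.F4.refl _, (f L1, f L2), f L3, f L4)
    have hY : ∀ {g h : Bor p} (hg : g ∈ Tor t) (hh : h ∈ Tor t),
        f (yy hg hh) = ((f g)⁻¹ * Q258D.F4.refl _ * f g)⁻¹ * ((f h)⁻¹ * Q258D.F4.refl _ * f h) := fun hg hh => by
      simp only [f, MonoidHom.comp_apply]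
      rw [dih_y, yy_chi ht]
    have hy' : ∀ j, ym n j = f (y j) := fun j => by
      fin_cases j <;> simp [y, hY, ym, zz, cm, n]
    have he' : em n = fun j => f (e j) := funext fun j =>
      match j with
      | 0 => by simp only [em, yn, Q258D.em, hy', e, map_mul, map_zpow]; rfl
      | 1 => by simp only [em, yn, Q258D.em, hy', e, map_mul, map_zpow]; rfl
      | 2 => by simp only [em, yn, Q258D.em, hy', e, map_mul, map_zpow]; rfl
      | _ + 3 => by simp only [em, yn, Q258D.em, hy', e, map_mul, map_zpow]; rfl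
    have h4 := sol_map f hv
    rw [← bs_map f _ _ hy', ← he'] at h4
    have h5 : ∀ a b : Bor p, cm (f a, f b) = 1 := fun a b => by
      have : Commute (f a) (f b) := (Commute.all (chi a) (chi b)).map SemidirectProduct.inl
      simp only [cm]
      rw [this.inv_right.eq]
      group
    have h6 : Commute n.1 (lam n) := by
      have : lam n = 1 := by simp only [lam, n, h5, mul_one]
      rw [this]
      exact Commute.one_right _
    have h7 : ∀ j, chi (y j) = 1 := fun j => by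
      have := hA _ (dih_mab _) n _ h6 h4 j
      rw [hy'] at this
      exact SemidirectProduct.inl_injective (this.trans (map_one _).symm)
    intro j
    have h8 : y j = 1 := by
      have := h7 j
      fin_cases j
      · exact yy_one ht d1 (one_mem _) this
      · exact yy_one ht d0 d1 this
      · exact yy_one ht d4 d2 this
      · exact yy_one ht d3 d4 this
    rw [hy, h8, map_one]

omit [Fact p.Prime] in
theorem rowF4 (h1 : RowD1) (h2 : RowF2) : RowF4 := by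
  intro p _ hp k hk β hβ hA m u hc hs hd
  rcases (h1 p hp).2.2.1 _ hd with h | ⟨x, hx⟩
  · exact h
  exfalso
  obtain ⟨e1, -, e3⟩ := (h2 (SLp p) k hk β hβ).1 m u hs
  let f : SLp p →* SLp p := (MulAut.conj x⁻¹).toMonoidHom
  have hB : ∀ a ∈ span u, f a ∈ Bor p := fun a ha => by
    have := hx a ha
    change (x⁻¹ * a * x⁻¹⁻¹).1 1 0 = 0
    rwa [inv_inv]
  have h3 := core hβ hA (m := mmap f m) (by rw [lam_map]; exact hc.map f) (isSol_map f hs)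
    (fun s => by rw [frm_map]; exact hB _ (e1 s)) (fun l hl => by
      have h4 : ∃ l' ∈ [m.2.1.1, m.2.1.2, m.2.2.1, m.2.2.2], f l' = l := by
        rw [← List.mem_map]
        exact hl
      obtain ⟨l', h5, rfl⟩ := h4
      refine ⟨hB _ (e3 l' h5).1, ?_⟩
      have := hB _ (e3 l' h5).2
      rwa [map_mul, map_mul, map_inv] at this)
  have h6 : ∀ j, ym m j = 1 := fun j => by
    have := h3 j
    rw [ym_map] at this
    exact (MulAut.conj x⁻¹).injective (this.trans (map_one _).symm)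
  rw [span_bot hs h6, Subgroup.card_bot, Nat.dvd_one] at hd
  omega

end F4

namespace F5

open Q258D.F5

variable {G H H' : Type} [Group G] [Group H] [Group H']

theorem isSol_map (f : H →* H') {k : ℕ} {β : BraidGroup (8 * k)} {m : Mk H} {u : List (St 8 H)}
    (h : IsSol k β m u) : IsSol k β (mmap f m) (u.map (St.map f)) := F4.isSol_map f h

theorem conj_count [Finite H] [Nontrivial H] {k : ℕ} {β : BraidGroup (8 * k)}
    (hc : Nat.card (Subgroup.center H) ≤ 2) {m : Mk H} {u : List (St 8 H)} (h : IsSol k β m u)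
    (hg : Gen u) : Nat.card H ≤ 2 * Nat.card {x : Mk H × List (St 8 H) //
      (∀ s : ℤ, x.1.1 ^ s * lam x.1 = 1 ↔ m.1 ^ s * lam m = 1) ∧ (Good x.1 ↔ Good m) ∧
      IsSol k β x.1 x.2 ∧ Gen x.2 ∧ ¬ Gen (zip2 u x.2)} := by
  have h1 : Finite {l : List (St 8 H) // l.length = 8 * k} := by
    have := Fintype.ofFinite (St 8 H)
    exact (inferInstance : Finite (List.Vector (St 8 H) (8 * k)))
  have h2 : Finite {x : Mk H × List (St 8 H) //
      (∀ s : ℤ, x.1.1 ^ s * lam x.1 = 1 ↔ m.1 ^ s * lam m = 1) ∧ (Good x.1 ↔ Good m) ∧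
      IsSol k β x.1 x.2 ∧ Gen x.2 ∧ ¬ Gen (zip2 u x.2)} :=
    Finite.of_injective (β := Mk H × {l : List (St 8 H) // l.length = 8 * k})
      (fun x => (x.1.1, ⟨x.1.2, by obtain ⟨f, e⟩ := x.2.2.2.1.1; rw [e, row_length]⟩))
      fun x y e => Subtype.ext (Prod.ext (congrArg (fun z => z.1) e) (congrArg (fun z => z.2.1) e))
  have h3 := D3.card_le_fib (fun _ : H => True) (fun _ => True)
    (fun x => (⟨(mmap (MulAut.conj x).toMonoidHom m, u.map (St.map (MulAut.conj x).toMonoidHom)),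
      fun s => by
        rw [lam_map, ← (MulAut.conj x).map_eq_one_iff (x := m.1 ^ s * lam m), map_mul, map_zpow]
        rfl,
      good_map _ m, isSol_map _ h, gen_map (MulAut.conj x).surjective hg, not_gen _ u⟩ :
      {x : Mk H × List (St 8 H) //
        (∀ s : ℤ, x.1.1 ^ s * lam x.1 = 1 ↔ m.1 ^ s * lam m = 1) ∧ (Good x.1 ↔ Good m) ∧
        IsSol k β x.1 x.2 ∧ Gen x.2 ∧ ¬ Gen (zip2 u x.2)})) 2 (fun _ _ => trivial) fun y _ => by
      refine le_trans (card_le_of fun ⟨x0, _, e0⟩ => ?_) hc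
      · refine Nat.card_le_card_of_injective (fun x => ⟨x0⁻¹ * x.1, ?_⟩) fun x x' e =>
          Subtype.ext (mul_left_cancel (congrArg Subtype.val e))
        have e1 := List.map_inj_left.1 (congrArg (fun z => z.1.2) (x.2.2.trans e0.symm))
        have e2 : span u ≤ Subgroup.centralizer {x0⁻¹ * x.1} := span_le.2 fun s hs => by
          have e3 : x.1 * s.col * x.1⁻¹ = x0 * s.col * x0⁻¹ := congrArg St.col (e1 s hs)
          rw [Subgroup.mem_centralizer_singleton_iff]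
          calc s.col * (x0⁻¹ * x.1) = x0⁻¹ * (x0 * s.col * x0⁻¹) * x.1 := by group
            _ = _ := by rw [← e3]; group
        exact Subgroup.mem_center_iff.2 fun g =>
          Subgroup.mem_centralizer_singleton_iff.1 (e2 (hg ▸ Subgroup.mem_top g))
  simpa using h3

theorem isSol_zip {k : ℕ} {m : Mk H} {m' : Mk H'} {u : List (St 8 H)} {u' : List (St 8 H')}
    (h : InT k (bs (ym m)) u) (h' : InT k (bs (ym m')) u') (β : BraidGroup (8 * k)) :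
    IsSol k β (pm m m') (zip2 u u') ↔ IsSol k β m u ∧ IsSol k β m' u' := by
  have e := (inT_labs h).2.trans (inT_labs h').2.symm
  constructor
  · intro h1
    have h2 := isSol_map (MonoidHom.fst H H') h1
    have h3 := isSol_map (MonoidHom.snd H H') h1
    rw [zip2_fst (len_of e)] at h2
    rw [zip2_snd e] at h3
    exact ⟨h2, h3⟩
  · rintro ⟨⟨-, f, a1, a2⟩, -, f', b1, b2⟩
    refine ⟨bs_pm m m' ▸ inT_zip h h', fun s => (f s, f' s), fun j => Prod.ext (a1 j) (b1 j), ?_⟩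
    rw [bact_zip2 β e, a2, b2, zip2_row, bs_pm]
    congr 1
    funext s
    split_ifs
    · exact (em_pair m m' _).symm
    · rfl

theorem rowF5 : RowF5 :=
  ⟨fun _ _ _ _ _ _ hc _ _ h hg => conj_count hc h hg,
    fun _ _ hp _ _ _ e1 e2 => gen3 hp e1 e2, fun _ _ _ _ => gen_swap, fun _ _ _ _ => ngen_of,
    fun _ _ _ _ _ m m' _ _ h h' => ⟨bs_pm m m' ▸ inT_zip h h', isSol_zip h h'⟩,
    fun _ _ _ hp hB _ hη => pair_count hp hB hη⟩

end F5

namespace RG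

open Q258D.RG

variable {H H' : Type} [Group H] [Group H'] {N k : ℕ}

theorem isSol_congr {β β' : BraidGroup (8 * k)} {u : List (St 8 H)}
    (h : bact H (8 * k) β u = bact H (8 * k) β' u) (m : Mk H) :
    IsSol k β m u ↔ IsSol k β' m u := by
  unfold IsSol; rw [h]

/-- the probability of a colouring is close to its mean -/
def Prob (H : Type) [Group H] (k : ℕ) (S Γ : Subgroup (BraidGroup (8 * k)))
    (β : BraidGroup (8 * k)) (η : ℝ) : Prop :=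
  ∀ (m : Mk H) (u : List (St 8 H)), Commute m.1 (lam m) → InT k (bs (ym m)) u → Gen u →
    (1 - η) * Nat.card (Om S Γ β) ≤
      (Nat.card H : ℝ) ^ (4 * k + 3) * Nat.card {ω : Om S Γ β // IsSol k ω.1.out m u} ∧
    (Nat.card H : ℝ) ^ (4 * k + 3) * Nat.card {ω : Om S Γ β // IsSol k ω.1.out m u} ≤
      (1 + η) * Nat.card (Om S Γ β)

theorem finSol [Finite H] (hB : RowB3) (hk : 0 < k) (β : BraidGroup (8 * k)) :
    Finite {x : Mk H × List (St 8 H) // IsSol k β x.1 x.2} :=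
  fin_mono (fin_pair (fun _ => True) (fun m u => InT k (bs (ym m)) u) fun _ => finT hB hk _)
    fun _ h => ⟨trivial, h.1⟩

/-- the conjugates of a colouring in the index set -/
theorem orbit_ge [Finite H] [Nontrivial H] (hB : RowB3) (hF : RowF5) (hk : 0 < k)
    (hZ : Nat.card (Subgroup.center H) ≤ 2) (P : Mk H → Prop)
    (hP : ∀ m m', (Good m' ↔ Good m) → P m → P m') (β : BraidGroup (8 * k)) (v : VV H k P)
    (hv : IsSol k β v.1.1 v.1.2) :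
    Nat.card H ≤ 2 * Nat.card {v' : VV H k P //
      ¬ Gen (zip2 v.1.2 v'.1.2) ∧ IsSol k β v'.1.1 v'.1.2} := by
  haveI := finVV hB hk P
  refine (hF.1 H k β hZ _ _ hv v.2.2.2).trans (Nat.mul_le_mul_left _ ?_)
  refine Nat.card_le_card_of_injective (fun x => ⟨⟨x.1, ⟨hP _ _ x.2.2.1 v.2.1.1,
    v.2.1.2.imp (x.2.1 _).2 (x.2.1 _).2⟩, x.2.2.2.1.1, x.2.2.2.2.1⟩, x.2.2.2.2.2, x.2.2.2.1⟩)
    fun _ _ e => Subtype.ext (congrArg (fun z => z.1.1) e)

/-- the decomposition of the number of colourings -/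
theorem ns_eq [Finite H] (hB : RowB3) (hk : 0 < k) {β β' : BraidGroup (8 * k)}
    (hr : ∀ (m : Mk H) u, Commute m.1 (lam m) → ¬ Gen u → (IsSol k β' m u ↔ IsSol k β m u))
    (hb : ∀ w : VV H k fun m => ¬ Good m, ¬ IsSol k β' w.1.1 w.1.2) (s : ℤ) (hs : s = 2 ∨ s = -2)
    (σ : VV H k Good → Prop) (hσ : ∀ v, σ v ↔ v.1.1.1 ^ s * lam v.1.1 = 1) :
    NS k H β' s = Nat.card {v : VV H k Good // σ v ∧ IsSol k β' v.1.1 v.1.2} +
      Nat.card {x : Mk H × List (St 8 H) //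
        (x.1.1 ^ s * lam x.1 = 1 ∧ IsSol k β x.1 x.2) ∧ ¬ Gen x.2} := by
  haveI : Finite {x : Mk H × List (St 8 H) // x.1.1 ^ s * lam x.1 = 1 ∧ IsSol k β' x.1 x.2} :=
    fin_mono (finSol hB hk β') fun _ h => h.2
  have he : ∀ m : Mk H, m.1 ^ s * lam m = 1 → Eqn m := fun m h => by
    rcases hs with rfl | rfl
    · exact Or.inl h
    · exact Or.inr h
  rw [NS, card_split _ fun x => Gen x.2]
  congr 1
  · refine Nat.card_congr
      { toFun := fun x => ⟨⟨x.1, ⟨by_contra fun hg =>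
            hb ⟨x.1, ⟨hg, he _ x.2.1.1⟩, x.2.1.2.1, x.2.2⟩ x.2.1.2, he _ x.2.1.1⟩,
            x.2.1.2.1, x.2.2⟩, (hσ _).2 x.2.1.1, x.2.1.2⟩
        invFun := fun v => ⟨v.1.1, ⟨(hσ _).1 v.2.1, v.2.2⟩, v.1.2.2.2⟩
        left_inv := fun _ => rfl
        right_inv := fun _ => rfl }
  · exact Nat.card_congr (Equiv.subtypeEquivRight fun x =>
      ⟨fun h => ⟨⟨h.1.1, (hr _ _ (comm_of h.1.1) h.2).1 h.1.2⟩, h.2⟩,
        fun h => ⟨⟨h.1.1, (hr _ _ (comm_of h.1.1) h.2).2 h.1.2⟩, h.2⟩⟩)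

theorem prob_two (hF : RowF5) {S Γ : Subgroup (BraidGroup (8 * k))} {β : BraidGroup (8 * k)}
    {η : ℝ} (g : Prob (H × H) k S Γ β η) (v v' : VV H k Good) (h : Gen (zip2 v.1.2 v'.1.2)) :
    (1 - η) * Nat.card (Om S Γ β) ≤ ((Nat.card H : ℝ) ^ (4 * k + 3)) ^ 2 *
      Nat.card {ω : Om S Γ β // IsSol k ω.1.out v.1.1 v.1.2 ∧ IsSol k ω.1.out v'.1.1 v'.1.2} ∧
    ((Nat.card H : ℝ) ^ (4 * k + 3)) ^ 2 *
      Nat.card {ω : Om S Γ β // IsSol k ω.1.out v.1.1 v.1.2 ∧ IsSol k ω.1.out v'.1.1 v'.1.2} ≤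
        (1 + η) * Nat.card (Om S Γ β) := by
  have h5 := hF.2.2.2.2.1 H H k _ _ _ _ v.2.2.1 v'.2.2.1
  have := g _ _ (comm_pm v.2.1.2.comm v'.2.1.2.comm) h5.1 h
  simp only [h5.2, Nat.card_prod, Nat.cast_mul, mul_pow] at this
  simpa only [pow_two] using this

theorem prob_three (hF : RowF5) (hp : commutator H = ⊤)
    {S Γ : Subgroup (BraidGroup (8 * k))} {β : BraidGroup (8 * k)}
    {η : ℝ} (g : Prob ((H × H) × H) k S Γ β η) (v v' v'' : VV H k Good)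
    (h : Gen (zip2 v.1.2 v'.1.2)) (h' : Gen (zip2 v.1.2 v''.1.2))
    (h'' : Gen (zip2 v'.1.2 v''.1.2)) :
    ((Nat.card H : ℝ) ^ (4 * k + 3)) ^ 3 *
      Nat.card {ω : Om S Γ β // (IsSol k ω.1.out v.1.1 v.1.2 ∧ IsSol k ω.1.out v'.1.1 v'.1.2) ∧
        IsSol k ω.1.out v''.1.1 v''.1.2} ≤ (1 + η) * Nat.card (Om S Γ β) := by
  have h5 := hF.2.2.2.2.1 H H k _ _ _ _ v.2.2.1 v'.2.2.1
  have h6 := hF.2.2.2.2.1 (H × H) H k _ _ _ _ h5.1 v''.2.2.1
  have := (g _ _ (comm_pm (comm_pm v.2.1.2.comm v'.2.1.2.comm) v''.2.1.2.comm) h6.1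
    (hF.2.1 H hp _ _ _ (labs_T v.2.2.1 v'.2.2.1) (labs_T v.2.2.1 v''.2.2.1) h h' h'')).2
  simp only [h6.2, h5.2, Nat.card_prod, Nat.cast_mul, mul_pow] at this
  simpa only [pow_succ, pow_zero, one_mul] using this

theorem partners_le [Finite H] (hB : RowB3) (hF3 : RowF3) (hk : 0 < k)
    (hZ : Nat.card (Subgroup.center H) ≤ 2) {F : Finset (Subgroup (H × H))} (hF : Fam F)
    {β : BraidGroup (8 * k)} (hβ : β ∈ Tw (8 * k) 1) (v : VV H k Good)
    (hv : IsSol k β v.1.1 v.1.2) :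
    Nat.card {v' : VV H k Good // ¬ Gen (zip2 v.1.2 v'.1.2) ∧ IsSol k β v'.1.1 v'.1.2} ≤
      2 * F.card := by
  haveI : Finite {x : Mk H × List (St 8 H) //
      IsSol k β x.1 x.2 ∧ Gen x.2 ∧ ¬ Gen (zip2 v.1.2 x.2)} :=
    fin_mono (finSol hB hk β) fun _ h => h.1
  refine le_trans ?_ (hF3 H k hk hZ F hF β hβ _ _ v.2.1.1 hv v.2.2.2).1
  exact Nat.card_le_card_of_injective (fun x => ⟨x.1.1, x.2.2, x.1.2.2.2, x.2.1⟩)
    fun _ _ e => Subtype.ext (Subtype.ext (Subtype.mk.inj e))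

theorem same_sign [Finite H] (hF3 : RowF3) (hF5 : RowF5) (hk : 0 < k)
    (hZ : Nat.card (Subgroup.center H) ≤ 2) {F : Finset (Subgroup (H × H))} (hF : Fam F)
    {β : BraidGroup (8 * k)} (hβ : β ∈ Tw (8 * k) 1) (v v' : VV H k Good)
    (hv : IsSol k β v.1.1 v.1.2) (hv' : IsSol k β v'.1.1 v'.1.2)
    (h : ¬ Gen (zip2 v.1.2 v'.1.2)) :
    v.1.1.1 ^ (2 : ℤ) * lam v.1.1 = 1 ↔ v'.1.1.1 ^ (2 : ℤ) * lam v'.1.1 = 1 :=
  ⟨fun e => v'.2.1.2.resolve_right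
      ((hF3 H k hk hZ F hF β hβ _ _ v.2.1.1 hv v.2.2.2).2 e _ _ hv' v'.2.2.2 h),
    fun e => v.2.1.2.resolve_right
      ((hF3 H k hk hZ F hF β hβ _ _ v'.2.1.1 hv' v'.2.2.2).2 e _ _ hv v.2.2.2
        fun g => h (hF5.2.2.1 H _ _ (labs_T v'.2.2.1 v.2.2.1) g))⟩

/-- colourings that do not generate are rigid -/
theorem rigid (h1 : RowD1) (hF1 : RowF1) (hF4 : RowF4) {p : ℕ} [Fact p.Prime] (hp : 5 ≤ p)
    (hk : 0 < k) {M j : ℕ} (hM : p ^ 2 - 1 ∣ M) {β γ : BraidGroup (8 * k)}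
    (hβ : β ∈ Tw (8 * k) 1) (hA : AM k β) (hγ : γ ∈ Der (8 * k) M (j + 1)) (m : Mk (SLp p))
    (u : List (St 8 (SLp p))) (hc : Commute m.1 (lam m)) (hu : ¬ Gen u) :
    IsSol k (β * γ) m u ↔ IsSol k β m u := by
  have key : ¬ p ∣ Nat.card (span u) → (IsSol k (β * γ) m u ↔ IsSol k β m u) := fun h => by
    refine isSol_congr ?_ m
    rw [map_mul, Equiv.Perm.mul_apply, hF1.2.2.2.2 _ _ M u ?_ γ (der_le_tw _ _ _ hγ)]
    intro a ha
    have e1 : orderOf a ∣ Nat.card (span u) := Subgroup.orderOf_dvd_natCard _ ha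
    have e2 : orderOf a ∣ p * (p ^ 2 - 1) := (h1 p hp).1 ▸ orderOf_dvd_natCard a
    have e3 : (orderOf a).Coprime p :=
      ((Nat.Prime.coprime_iff_not_dvd Fact.out).2 fun d => h (d.trans e1)).symm
    exact orderOf_dvd_iff_pow_eq_one.1 ((e3.dvd_of_dvd_mul_left e2).trans hM)
  refine ⟨fun h => (key fun d => hu ?_).1 h, fun h => (key fun d => hu ?_).2 h⟩
  · exact hF4 p hp k hk _ (mul_mem hβ (der_le _ _ _ hγ))
      (F1.part4 k β γ (der_succ_le _ _ _ hγ) hA) m u hc h d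
  · exact hF4 p hp k hk _ hβ hA m u hc h d

theorem ns_ker {H : Type} [Group H] {k : ℕ} (β : BraidGroup (8 * k)) {g : BraidGroup (8 * k)}
    (hg : g ∈ (bact H (8 * k)).ker) (s : ℤ) : NS k H (β * g) s = NS k H β s := by
  unfold NS IsSol
  rw [map_mul, MonoidHom.mem_ker.1 hg, mul_one]

end RG

end Vale.Agent.Q258U.N
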