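import Vale.Agent.Q258U.NF
import Vale.Agent.Q258D.E2

/-!
# One prime, many primes, and the topological meaning, for surfaces whose bands have curls
-/

set_option linter.all false

namespace Vale.Agent.Q258U.N

open Vale.Agent.P258.Braid Vale.Agent.N258B Vale.Agent.Q258D Vale.Agent.Q258D.RA Vale.Agent.Q258E

namespace GP

open Q258D.G1 Q258E.GP

/-- the probability of one colouring -/
theorem prob (hU2 : RowU2) (hU3 : RowU3) (m j : ℕ) : ∃ k0, ∀ k ≥ k0, ∀ η : ℝ, 0 < η → ∃ p0,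
    ∀ p : ℕ, p.Prime → p0 ≤ p → p % 4 = 1 → ∀ M : ℕ, ¬ p ∣ M → ∀ (H : Type) [Group H], Pw p m H →
      ∀ (S : Subgroup (BraidGroup (8 * k))) [S.Normal] [S.FiniteIndex],
        S ≤ (bact H (8 * k)).ker → ∀ [Fr], ∀ β ∈ Tw (8 * k) 1,
          RG.Prob H k S (Der (8 * k) M j) β η := by
  obtain ⟨k1, hk1⟩ := hU2 m
  obtain ⟨k2, hk2⟩ := hU3 j m
  refine ⟨k1 + k2 + 1, fun k hk η hη => ?_⟩
  obtain ⟨ε, hε, hε1, h1, h2⟩ :
      ∃ ε : ℝ, 0 < ε ∧ ε < 1 ∧ 2 * ε ≤ η ∧ 1 ≤ (1 + η) * (1 - ε) := by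
    have hp : (0 : ℝ) < 2 + 2 * η := by linarith
    refine ⟨η / (2 + 2 * η), div_pos hη hp, (div_lt_one hp).2 (by linarith), ?_, ?_⟩
    · rw [← mul_div_assoc, div_le_iff₀ hp]
      nlinarith
    · have : (1 + η) * (1 - η / (2 + 2 * η)) = 1 + η / 2 := by field_simp; ring
      rw [this]
      linarith
  obtain ⟨p1, hp1⟩ := hk1 k (by omega) ε hε
  obtain ⟨p2, hp2⟩ := hk2 k (by omega)
  refine ⟨p1 + p2, fun p hp hp0 hp4 M hM H _ hH S _ _ hS _ β hβ mk u hm hu hg => ?_⟩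
  haveI := hH.finite hp
  obtain ⟨hc, -⟩ := rowB3 H
  have hb : OddB (bs (ym mk)) := oddB_bs _
  have huX : InX (bs (ym mk)) (cs k) u := Q258D.RG.InT.inX hu
  have hN : NGen (bs (ym mk)) := Q258D.F5.ngen_of huX.1 hg
  obtain ⟨ho1, ho2, hT, hB, hn1, -⟩ := hp1 p hp (by omega) H hH _ hb hN
  have hn1 := hn1 (em mk)
  have huO : InC (bs (ym mk)) (cs k) u := hT u hu hg
  obtain ⟨hfin, hA, -⟩ := hc k (by omega) (bs (ym mk)) (em mk)
  have hBX : ∀ v, InB k (bs (ym mk)) (em mk) v → InX (bs (ym mk)) (cs k) v := by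
    rintro v ⟨f, -, rfl⟩
    exact inX_row _ _ _
  haveI : Finite {l // InC (bs (ym mk)) (cs k) l} := Q258D.RG.fin_mono hfin fun _ h => h.1
  haveI : Finite {v // InB k (bs (ym mk)) (em mk) v} := Q258D.RG.fin_mono hfin hBX
  have horb := Q258E.GP.orbit S (Der (8 * k) M j) hS (der_le _ _ _) _
    (hp2 p hp (by omega) hp4 M hM H hH _ hb hN) hβ huO (InB k (bs (ym mk)) (em mk))
  have e1 : Nat.card {ω : Om S (Der (8 * k) M j) β // IsSol k ω.1.out mk u} =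
      Nat.card {ω : Om S (Der (8 * k) M j) β //
        InB k (bs (ym mk)) (em mk) (bact H (8 * k) ω.1.out u)} :=
    Nat.card_congr (Equiv.subtypeEquivRight fun ω => ⟨fun h => h.2, fun h => ⟨hu, h⟩⟩)
  have e2 : Nat.card {l // InC (bs (ym mk)) (cs k) l ∧ InB k (bs (ym mk)) (em mk) l} =
      Nat.card {l // InB k (bs (ym mk)) (em mk) l ∧ Gen l} :=
    Nat.card_congr (Equiv.subtypeEquivRight fun l => ⟨fun h => ⟨h.2, (h.1.inO hb).2.1⟩, fun h =>
      ⟨hB _ _ h.1 (F1.part2 k (by omega) mk hm l h.1) h.2, h.1⟩⟩)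
  rw [← e1, e2] at horb
  have hsp := card_split (InB k (bs (ym mk)) (em mk)) Gen
  generalize Nat.card {ω : Om S (Der (8 * k) M j) β // IsSol k ω.1.out mk u} = P at *
  generalize Nat.card (Om S (Der (8 * k) M j) β) = W at *
  generalize Nat.card {l // InC (bs (ym mk)) (cs k) l} = o at *
  generalize Nat.card {l // InB k (bs (ym mk)) (em mk) l ∧ Gen l} = a' at *
  generalize Nat.card {l // InB k (bs (ym mk)) (em mk) l ∧ ¬ Gen l} = n at *
  generalize Nat.card {l // InB k (bs (ym mk)) (em mk) l} = a at *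
  have hh : (0 : ℝ) < Nat.card H := by exact_mod_cast Nat.card_pos
  generalize Nat.card H = h at *
  have r1 : (P : ℝ) * o = W * a' := by exact_mod_cast horb
  have r2 : (a : ℝ) = a' + n := by exact_mod_cast hsp
  have r3 : (h : ℝ) ^ 4 * a = h ^ (4 * k) := by exact_mod_cast hA
  have r4 : (h : ℝ) ^ (8 * k) = h ^ (4 * k + 4) * a := by
    rw [pow_add, mul_assoc, r3, ← pow_add]
    congr 1
    ring
  have hq : (0 : ℝ) < (h : ℝ) ^ (4 * k + 4) := pow_pos hh _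
  refine arith (a := (h : ℝ) ^ (4 * k + 4) * a') hε hε1 h1 h2 (by positivity) (by positivity)
    (pow_pos hh (8 * k)) ho1 ho2 ?_ ?_ ?_
  · rw [r4]
    have : (1 - ε) * a ≤ a' := by linarith
    nlinarith [mul_le_mul_of_nonneg_left this hq.le]
  · rw [r4]
    have : (a' : ℝ) ≤ a := by
      have : (0 : ℝ) ≤ n := by positivity
      linarith
    exact mul_le_mul_of_nonneg_left this hq.le
  · calc (h : ℝ) ^ (4 * k + 3) * P * (h * o) = h ^ (4 * k + 4) * (P * o) := by ring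
      _ = _ := by rw [r1]; ring

end GP

/-- one prime -/
def RowG2 : Prop :=
  ∃ δ : ℝ, 0 < δ ∧ δ < 1 ∧ ∀ j : ℕ, ∃ k0, ∀ k ≥ k0, ∃ p0, ∀ (p : ℕ) [Fact p.Prime], p0 ≤ p →
    p % 4 = 1 → ∀ M : ℕ, ¬ p ∣ M → p ^ 2 - 1 ∣ M →
      ∀ (S : Subgroup (BraidGroup (8 * k))) [S.Normal] [S.FiniteIndex],
        S ≤ (bact (SLp p) (8 * k)).ker → ∀ [Fr], ∀ β ∈ Tw (8 * k) 1, AM k β →
        (Nat.card {ω : Om S (Der (8 * k) M (j + 1)) β //
          NS k (SLp p) ω.1.out 2 = NS k (SLp p) ω.1.out (-2)} : ℝ) ≤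
            (1 - δ) * Nat.card (Om S (Der (8 * k) M (j + 1)) β)

namespace RG

open Q258D.RG

theorem rowG2 (hU2 : RowU2) (hU3 : RowU3) : RowG2 := by
  have hB := rowB3
  have h1 := rowD1
  have h3 := rowD3 h1
  have h4 := rowD4 h1 h3
  have hF1 := rowF1
  obtain ⟨C4, h4c⟩ := h4.2
  obtain ⟨C6, p6, h6⟩ := rowD6 h1 h3 (rowD5 h1 h3)
  obtain ⟨C5, h5⟩ := rowD5 h1 h3
  obtain ⟨δ, η, hδ, hδ1, hη, hη1, hP⟩ := rowP (1 + 2 * C4 + 2 * C5 + 2 * C6) (by
    have : (0 : ℝ) ≤ 2 * C4 + 2 * C5 + 2 * C6 := by positivity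
    linarith)
  obtain ⟨p7, hp7⟩ := exists_nat_ge (16 * C5 / δ)
  refine ⟨δ / 2, by positivity, by linarith, fun j => ?_⟩
  obtain ⟨k1, g1⟩ := GP.prob hU2 hU3 1 (j + 1)
  obtain ⟨k2, g2⟩ := GP.prob hU2 hU3 (1 + 1) (j + 1)
  obtain ⟨k3, g3⟩ := GP.prob hU2 hU3 (1 + 1 + 1) (j + 1)
  obtain ⟨k4, g4⟩ := Q258E.GP.top_count hU2 1
  obtain ⟨k5, g5⟩ := Q258E.GP.pair_count hU2
  refine ⟨1 + k1 + k2 + k3 + k4 + k5, fun k hk0 => ?_⟩
  have hk : 0 < k := by omega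
  obtain ⟨p1, g1⟩ := g1 k (by omega) η hη
  obtain ⟨p2, g2⟩ := g2 k (by omega) η hη
  obtain ⟨p3, g3⟩ := g3 k (by omega) η hη
  obtain ⟨p4, g4⟩ := g4 k (by omega) (1 / 2) (by norm_num)
  obtain ⟨p5, g5⟩ := g5 k (by omega) (η / (1 + 2 * C5) ^ 2) (by positivity)
  refine ⟨5 + p1 + p2 + p3 + p4 + p5 + p6 + p7, fun p _ hp0 hp4 M hM hM' S _ _ hS _ β hβ hA => ?_⟩
  have hF3 := F2.rowF3'
  have hF4 := F4.rowF4 h1 F2.rowF2
  have hF5 := F5.rowF5
  have hp : 5 ≤ p := by omega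
  obtain ⟨hng, hlo⟩ := h6 p (by omega)
  have hp7' : (16 * C5 : ℝ) ≤ p * δ := (div_le_iff₀ hδ).1 (hp7.trans
    (Nat.cast_le.2 (by omega)))
  obtain ⟨F, hF, hFc⟩ := h4c p hp
  have hperf := (h1 p hp).2.2.2.2.1
  have hZ : Nat.card (Subgroup.center (SLp p)) ≤ 2 := by
    have : Nat.card (Subgroup.center (SLp p)) ≤ Nat.card ({1, -1} : Set (SLp p)) :=
      card_mono fun a ha => ((h1 p hp).2.1 a).1 ha
    exact this.trans (by
      rw [Nat.card_coe_set_eq]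
      exact (Set.ncard_insert_le _ _).trans (by rw [Set.ncard_singleton]))
  have hpos : (0 : ℝ) < Nat.card (SLp p) := Nat.cast_pos.2 Nat.card_pos
  haveI : Nontrivial (SLp p) := by
    rw [← Finite.one_lt_card_iff_nontrivial, (h1 p hp).1]
    have : 25 ≤ p ^ 2 := Nat.pow_le_pow_left hp 2
    calc 1 < 5 * 24 := by norm_num
      _ ≤ _ := Nat.mul_le_mul hp (by omega)
  have w1 := Pw.one p
  have g1 := g1 p Fact.out (by omega) hp4 M hM _ w1 S hS β hβ
  have g2 := g2 p Fact.out (by omega) hp4 M hM _ (w1.prod w1) S (ker_prod hS hS) β hβ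
  have g3 := g3 p Fact.out (by omega) hp4 M hM _ ((w1.prod w1).prod w1) S
    (ker_prod (ker_prod hS hS) hS) β hβ
  have g4 := g4 p Fact.out (by omega) _ w1
  have g5 := g5 p (by omega)
  haveI := finVV (H := SLp p) hB hk Good
  haveI := finVV (H := SLp p) hB hk fun m => ¬ Good m
  choose γ hγ hr using fun ω : Om S (Der (8 * k) M (j + 1)) β => om_rep hS ω
  have hs : ∀ (ω : Om S (Der (8 * k) M (j + 1)) β) (m : Mk (SLp p)) u,
      IsSol k ω.1.out m u ↔ IsSol k (β * γ ω) m u := fun ω m u => isSol_congr (by rw [hr]) m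
  have ht : ∀ ω, β * γ ω ∈ Tw (8 * k) 1 := fun ω => mul_mem hβ (der_le _ _ _ (hγ ω))
  have hge : (Nat.card {m : Mk (SLp p) // Good m ∧ Eqn m} : ℝ) ≤
      2 * C5 * (Nat.card (SLp p) : ℝ) ^ 4 := by
    have e : ∀ s : ℤ, s = 2 ∨ s = -2 → Nat.card {m : Mk (SLp p) // m.1 ^ s * lam m = 1 ∧ Good m} ≤
        C5 * Nat.card (SLp p) ^ 4 := fun s hs => (card_mono fun _ h => h.1).trans (h5 p hp s hs).1
    have := (card_eqn Good).trans (Nat.add_le_add (e 2 (Or.inl rfl)) (e _ (Or.inr rfl)))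
    have : (Nat.card {m : Mk (SLp p) // Good m ∧ Eqn m} : ℝ) ≤
      C5 * (Nat.card (SLp p) : ℝ) ^ 4 + C5 * (Nat.card (SLp p) : ℝ) ^ 4 := by exact_mod_cast this
    linarith
  have hbe : (p * Nat.card {m : Mk (SLp p) // ¬ Good m ∧ Eqn m} : ℝ) ≤
      2 * C5 * (Nat.card (SLp p) : ℝ) ^ 4 := by
    have := (Nat.mul_le_mul_left p (card_eqn fun m : Mk (SLp p) => ¬ Good m)).trans
      ((Nat.mul_add _ _ _).le.trans
        (Nat.add_le_add (h5 p hp 2 (Or.inl rfl)).2 (h5 p hp _ (Or.inr rfl)).2))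
    have : (p * Nat.card {m : Mk (SLp p) // ¬ Good m ∧ Eqn m} : ℝ) ≤
      C5 * (Nat.card (SLp p) : ℝ) ^ 4 + C5 * (Nat.card (SLp p) : ℝ) ^ 4 := by exact_mod_cast this
    linarith
  have hlo' : (Nat.card (SLp p) : ℝ) ^ 4 ≤
      C6 * Nat.card {m : Mk (SLp p) // Good m ∧ Eqn m} := by
    exact_mod_cast hlo.trans (Nat.mul_le_mul_left _ (card_mono
      (Q := fun m => Good m ∧ Eqn m) fun _ h => ⟨h.2, Or.inl h.1⟩))
  have hvlo : (Nat.card {m : Mk (SLp p) // Good m ∧ Eqn m} : ℝ) *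
      (1 / 2 * (Nat.card (SLp p) : ℝ) ^ (4 * k)) ≤ Nat.card (VV (SLp p) k Good) :=
    le_pair (fun m => Good m ∧ Eqn m) (TG k) (finTG hB hk) _ fun m hm => by
      haveI := finT hB hk (bs (ym m))
      have e1 := g4 _ (oddB_bs _) (hng m hm.1)
      beta_reduce at e1
      have e2 := card_split (InT k (bs (ym m))) Gen
      rw [((hB _).1 k hk _ fun _ => 1).2.2] at e1 e2
      have e3 : ((Nat.card (SLp p) : ℝ)) ^ (4 * k) = Nat.card {u // TG k m u} +
        Nat.card {u // InT k (bs (ym m)) u ∧ ¬ Gen u} := by exact_mod_cast e2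
      push_cast at e1
      linarith
  have hvhi := card_VV_le (H := SLp p) hB hk Good
  have hwhi := card_VV_le (H := SLp p) hB hk fun m => ¬ Good m
  have hrel := rel_le (H := SLp p) hB hk _ fun m m' hm hm' =>
    g5 _ _ (oddB_bs _) (oddB_bs _) (hng m hm) (hng m' hm')
  have hmk := markov (fun (w : VV (SLp p) k fun m => ¬ Good m)
      (ω : Om S (Der (8 * k) M (j + 1)) β) => IsSol k ω.1.out w.1.1 w.1.2)
    (fun ω => ∃ w : VV (SLp p) k fun m => ¬ Good m, IsSol k ω.1.out w.1.1 w.1.2)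
    (Nat.card (SLp p) / 2)
    (2 * Nat.card (Om S (Der (8 * k) M (j + 1)) β) / (Nat.card (SLp p) : ℝ) ^ (4 * k + 3))
    (fun ω ⟨w, hw⟩ => by
      have := (orbit_ge hB hF5 hk hZ _ (fun _ _ e => mt e.1) _ w hw).trans
        (Nat.mul_le_mul_left _ (card_mono fun _ h => h.2))
      rw [div_le_iff₀' two_pos]
      exact_mod_cast this)
    fun w => by
      rw [le_div_iff₀' (by positivity)]
      refine (g1 _ _ w.2.1.2.comm w.2.2.1 w.2.2.2).2.trans ?_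
      gcongr
      linarith
  have hmain := hP (Om S (Der (8 * k) M (j + 1)) β) (VV (SLp p) k Good)
    (fun v ω => IsSol k ω.1.out v.1.1 v.1.2) (fun v => v.1.1.1 ^ (2 : ℤ) * lam v.1.1 = 1)
    (fun v v' => ¬ Gen (zip2 v.1.2 v'.1.2)) (Nat.card (SLp p))
    ((Nat.card (SLp p) : ℝ) ^ (4 * k + 3)) hpos (by positivity)
    (fun v => g1 _ _ v.2.1.2.comm v.2.2.1 v.2.2.2)
    (fun v v' h => prob_two hF5 g2 v v' (not_not.1 h))
    (fun v v' v'' h h' h'' =>
      prob_three hF5 hperf g3 v v' v'' (not_not.1 h) (not_not.1 h') (not_not.1 h''))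
    (fun v ω hv => ⟨by exact_mod_cast orbit_ge hB hF5 hk hZ _ (fun _ _ e => e.2) _ v hv, by
      have e := (partners_le hB hF3 hk hZ hF (ht ω) v ((hs _ _ _).1 hv)).trans
        (Nat.mul_le_mul_left _ hFc)
      simp only [hs]
      refine (Nat.cast_le.2 e).trans ?_
      push_cast
      rw [← mul_assoc]
      gcongr
      have : (0 : ℝ) ≤ 1 + 2 * C5 + 2 * C6 := by positivity
      linarith⟩)
    (fun v v' ω hv hv' h =>
      same_sign hF3 hF5 hk hZ hF (ht ω) v v' ((hs _ _ _).1 hv) ((hs _ _ _).1 hv') h)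
    (by
      calc _ = (Nat.card (SLp p) : ℝ) ^ 4 * (Nat.card (SLp p) : ℝ) ^ (4 * k) := by ring
        _ ≤ C6 * Nat.card {m : Mk (SLp p) // Good m ∧ Eqn m} *
            (Nat.card (SLp p) : ℝ) ^ (4 * k) := by gcongr
        _ = 2 * C6 * (Nat.card {m : Mk (SLp p) // Good m ∧ Eqn m} *
            (1 / 2 * (Nat.card (SLp p) : ℝ) ^ (4 * k))) := by ring
        _ ≤ _ := by
          gcongr
          have : (0 : ℝ) ≤ 1 + 2 * C4 + 2 * C5 := by positivity
          linarith)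
    (by
      calc _ ≤ 2 * C5 * (Nat.card (SLp p) : ℝ) ^ 4 * (Nat.card (SLp p) : ℝ) ^ (4 * k) :=
            hvhi.trans (by gcongr)
        _ = 2 * C5 * (Nat.card (SLp p) * (Nat.card (SLp p) : ℝ) ^ (4 * k + 3)) := by ring
        _ ≤ _ := by
          gcongr
          have : (0 : ℝ) ≤ 1 + 2 * C4 + 2 * C6 := by positivity
          linarith)
    (by
      calc _ ≤ ((1 + 2 * C5) * (Nat.card (SLp p) : ℝ) ^ 4) ^ 2 *
            (η / (1 + 2 * C5) ^ 2 * (Nat.card (SLp p) : ℝ) ^ (8 * k)) := by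
            refine hrel.trans ?_
            gcongr
            refine hge.trans ?_
            gcongr
            linarith
        _ = _ := by field_simp; ring)
    ((Nat.card {x : Mk (SLp p) × List (St 8 (SLp p)) //
        (x.1.1 ^ (-2 : ℤ) * lam x.1 = 1 ∧ IsSol k β x.1 x.2) ∧ ¬ Gen x.2} : ℤ) -
      Nat.card {x : Mk (SLp p) × List (St 8 (SLp p)) //
        (x.1.1 ^ (2 : ℤ) * lam x.1 = 1 ∧ IsSol k β x.1 x.2) ∧ ¬ Gen x.2})
  have hbad : (Nat.card {ω : Om S (Der (8 * k) M (j + 1)) β //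
      ∃ w : VV (SLp p) k fun m => ¬ Good m, IsSol k ω.1.out w.1.1 w.1.2} : ℝ) ≤
      δ / 2 * Nat.card (Om S (Der (8 * k) M (j + 1)) β) := by
    have hp' : (0 : ℝ) < p := by exact_mod_cast (by omega : 0 < p)
    have e1 : (Nat.card (VV (SLp p) k fun m => ¬ Good m) : ℝ) ≤
        δ / 8 * (Nat.card (SLp p) : ℝ) ^ 4 * (Nat.card (SLp p) : ℝ) ^ (4 * k) := by
      refine hwhi.trans ?_
      gcongr
      refine le_of_mul_le_mul_left (hbe.trans ?_) hp'
      rw [← mul_assoc]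
      exact mul_le_mul_of_nonneg_right (by linarith) (by positivity)
    refine le_of_mul_le_mul_right (hmk.trans ?_) (half_pos hpos)
    calc _ ≤ δ / 8 * (Nat.card (SLp p) : ℝ) ^ 4 * (Nat.card (SLp p) : ℝ) ^ (4 * k) *
          (2 * Nat.card (Om S (Der (8 * k) M (j + 1)) β) /
            (Nat.card (SLp p) : ℝ) ^ (4 * k + 3)) := by gcongr
      _ = _ := by field_simp; ring
  have hsum := add_le_add hmain hbad
  rw [← Nat.cast_add] at hsum
  refine le_trans (Nat.cast_le.2 ((card_mono fun ω h => ?_).trans (card_or _ _)))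
    (hsum.trans_eq (by ring))
  refine or_iff_not_imp_right.2 fun hb => ?_
  have hrg : ∀ (m : Mk (SLp p)) u, Commute m.1 (lam m) → ¬ Gen u →
      (IsSol k ω.1.out m u ↔ IsSol k β m u) := fun m u hc hu =>
    (hs ω m u).trans (rigid h1 hF1 hF4 hp hk hM' hβ hA (hγ ω) m u hc hu)
  rw [ns_eq hB hk hrg (not_exists.1 hb) 2 (Or.inl rfl) _ fun _ => Iff.rfl,
    ns_eq hB hk hrg (not_exists.1 hb) (-2) (Or.inr rfl)
      (fun v => ¬ v.1.1.1 ^ (2 : ℤ) * lam v.1.1 = 1)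
      fun v => Iff.intro v.2.1.2.resolve_left fun e e' => not_both v.2.1.1 e' e] at h
  omega

end RG

/-- many primes -/
def RowH2 : Prop :=
  ∀ j : ℕ, ∃ k0, ∀ k ≥ k0, ∀ M : ℕ, 0 < M → ∀ ε : ℝ, 0 < ε →
    ∃ S : Subgroup (BraidGroup (8 * k)), S.Normal ∧ S.FiniteIndex ∧
      ∀ [Fr], ∀ β ∈ Tw (8 * k) 1, AM k β →
        (Nat.card {q : BraidGroup (8 * k) ⧸ S // ∃ γ ∈ Der (8 * k) M (j + 1),
          (∀ (G : Type) [Group G] [Finite G], NS k G (β * γ) 2 = NS k G (β * γ) (-2)) ∧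
          ((β * γ : BraidGroup (8 * k)) : _ ⧸ S) = q} : ℝ) ≤
            ε * Nat.card (Om S (Der (8 * k) M (j + 1)) β)

/-- the statement for several primes -/
def Cl (k M j : ℕ) (c : ℝ) : Prop :=
  ∃ L, 0 < L ∧ M ∣ L ∧ ∃ (S0 : Subgroup (BraidGroup (8 * k)))
    (P : Fr → BraidGroup (8 * k) → Prop), S0.Normal ∧ S0.FiniteIndex ∧
    (∀ [fr : Fr] β, (∀ (G : Type) [Group G] [Finite G], NS k G β 2 = NS k G β (-2)) → P fr β) ∧
    (∀ fr β, ∀ s ∈ S0, P fr (β * s) ↔ P fr β) ∧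
    (∀ fr β, ∀ g ∈ Tw (8 * k) L, P fr (β * g) ↔ P fr β) ∧
    ∀ (S : Subgroup (BraidGroup (8 * k))) [S.Normal] [S.FiniteIndex], S ≤ S0 →
      ∀ [fr : Fr], ∀ β ∈ Tw (8 * k) 1, AM k β →
        (Nat.card {ω : Om S (Der (8 * k) M (j + 1)) β // P fr ω.1.out} : ℝ) ≤
          c * Nat.card (Om S (Der (8 * k) M (j + 1)) β)

open Q258D.RH in
theorem rowH2 (hG : RowG2) : RowH2 := by
  have hF1 := rowF1
  obtain ⟨δ, d0, d1, hG⟩ := hG
  intro j
  obtain ⟨k0, hG⟩ := hG j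
  refine ⟨k0, fun k hk M hM ε hε => ?_⟩
  obtain ⟨p0, hG⟩ := hG k hk
  have key : ∀ n : ℕ, Cl k M j ((1 - δ) ^ n) := by
    intro n
    induction n with
    | zero =>
      refine ⟨M, hM, dvd_rfl, ⊤, fun _ _ => True, inferInstance, inferInstance,
        fun _ _ => trivial, fun _ _ _ _ => Iff.rfl, fun _ _ _ _ => Iff.rfl,
        fun S _ _ _ _ β _ _ => ?_⟩
      rw [pow_zero, one_mul]
      exact (Nat.cast_inj.2 (Nat.card_congr (Equiv.subtypeUnivEquiv fun _ => trivial))).le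
    | succ n ih =>
      obtain ⟨L, L0, ML, S0, P, hS1, hS2, i1, i2, i3, i4⟩ := ih
      obtain ⟨p, hp, hlt, h4⟩ := Nat.exists_prime_gt_modEq_one (k := 4) (L + p0) (by norm_num)
      have : Fact p.Prime := ⟨hp⟩
      have nd : ¬ p ∣ L * (p ^ 2 - 1) := by
        intro h
        rcases (Nat.Prime.dvd_mul hp).1 h with h | h
        · have := Nat.le_of_dvd L0 h
          omega
        · have h2 : p ∣ p ^ 2 := dvd_pow_self p (by norm_num)
          have h3 : 1 ≤ p ^ 2 := Nat.one_le_pow _ _ hp.pos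
          have h5 := Nat.dvd_sub h2 h
          rw [Nat.sub_sub_self h3] at h5
          exact hp.one_lt.ne' (Nat.dvd_one.1 h5)
      have hk1 := hG p (by omega) h4 (L * (p ^ 2 - 1)) nd (Dvd.intro_left _ rfl)
      have := bact_ker_finiteIndex (SLp p) (8 * k)
      refine ⟨L * Nat.card (SLp p), Nat.mul_pos L0 Nat.card_pos, ML.mul_right _,
        S0 ⊓ (bact (SLp p) (8 * k)).ker,
        fun fr β => P fr β ∧ NS k (SLp p) β 2 = NS k (SLp p) β (-2), inferInstance, inferInstance,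
        fun β h => ⟨i1 β h, h _⟩, fun fr β s hs => ?_, fun fr β g hg => ?_,
        fun S _ _ hS' fr β hβ hA => ?_⟩
      · beta_reduce
        rw [i2 fr β s hs.1, RG.ns_ker β hs.2, RG.ns_ker β hs.2]
      · have h2 := tw_ker hF1 (SLp p) _ (tw_mono _ (Dvd.intro_left L rfl) hg)
        beta_reduce
        rw [i3 fr β g (tw_mono _ (Dvd.intro _ rfl) hg), RG.ns_ker β h2, RG.ns_ker β h2]
      · have h1 := step (S := S) (der_mono (8 * k) (ML.mul_right (p ^ 2 - 1)) (j + 1)) (P := P fr)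
          (Bd := fun β => NS k (SLp p) β 2 = NS k (SLp p) β (-2)) (β := β) (c := 1 - δ)
          (fun β s hs => i2 fr β s (hS' hs).1)
          (fun β g hg => i3 fr β g (tw_mono _ (Dvd.intro _ rfl) (der_le_tw _ _ _ hg)))
          fun γ hγ => hk1 S (fun s hs => (hS' hs).2) _
            ((Tw _ 1).mul_mem hβ (der_le _ _ _ hγ))
            (F1.part4 k β γ (der_succ_le _ _ _ hγ) hA)
        have h2 := i4 S (fun s hs => (hS' hs).1) β hβ hA
        refine h1.trans ?_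
        rw [pow_succ', mul_assoc]
        exact mul_le_mul_of_nonneg_left h2 (by linarith)
  obtain ⟨n, hn⟩ := exists_pow_lt_of_lt_one hε (show 1 - δ < 1 by linarith)
  obtain ⟨L, -, -, S0, P, hS1, hS2, i1, i2, -, i4⟩ := key n
  refine ⟨S0, hS1, hS2, fun {fr} β hβ hA => ?_⟩
  have h2 := i4 S0 le_rfl β hβ hA
  rw [card_om _ _ β fun q => P fr q.out] at h2
  refine le_trans (le_trans ?_ h2) (mul_le_mul_of_nonneg_right hn.le (Nat.cast_nonneg _))
  refine Nat.cast_le.2 (Nat.card_le_card_of_injective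
    (Subtype.map id ?_) (Subtype.map_injective _ Function.injective_id))
  rintro _ ⟨γ, hγ, h, rfl⟩
  exact ⟨⟨γ, hγ, rfl⟩, (out_iff (i2 fr) _).2 (i1 _ h)⟩

open Set Filter Topology Vale.Agent.P002Z

/-- the topological meaning -/
def RowE2N : Prop :=
  ∀ (k : ℕ), 0 < k → ∀ I : List ℕ, I.Nodup → (∀ i ∈ I, i < 4 * k) → ∃ fr : Fr,
    ∀ w : Word, (∀ x ∈ w, x.1 + 1 < 8 * k) → ∀ β ∈ Tw (8 * k) 1,
      toBraid (8 * k) w = β * toBraid (8 * k) (kap I) →
    ∀ e : ↥(pattern (8 * k) 0 (surf k w)) → S3,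
      (IsOpenEmbedding e → ∃ ν, Framed (8 * k) 0 (surf k w) e ν) ∧
      ∀ ν, Framed (8 * k) 0 (surf k w) e ν →
        (GenusTwoAlexOne ν ↔ AM k β) ∧
        ∀ (G : Type) [Group G] [Finite G], NS k G β 2 ≠ NS k G β (-2) →
          Distinct (Surgery ν 2) (Surgery ν (-2))

open Q258D.E2 in
theorem rowE2N (h1 : RowE1N) : RowE2N := by
  intro k hk I hI hI'
  obtain ⟨fr, h1⟩ := h1 k hk I hI hI'
  refine ⟨fr, fun w hw β hβ hp e => ?_⟩
  obtain ⟨hr, hΦ⟩ := h1 w hw β hβ hp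
  have ok := ok_of_small (by omega : 0 < 8 * k) hr 0
  refine ⟨exists_framed ok (per_of_col ok fun c hc h0 i => ?_), ?_⟩
  · obtain ⟨Φ, hΦ⟩ := hΦ (Multiplicative (ZMod 2))
    obtain ⟨a1, -, a3, a4⟩ := hΦ ⟨c, hc⟩
    have := a4 (a3 fun _ _ => Commute.all _ _) i
    rw [a1, h0, Subgroup.zpowers_one_eq_bot, Subgroup.mem_bot] at this
    exact this
  rintro ν ⟨he, hν, hcore, hpref⟩
  obtain ⟨eX, E⟩ := exists_emb ok he hν hcore
  have hj : ∀ (G : Type) [Group G] (c : Fin (2 * (8 * k)) → G), Capd (8 * k) (surf k w) (Pc c) →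
      ∃ m : Mk G, Raw (surf k w) (Pc c) = lam m := fun G _ c hc => by
    obtain ⟨Φ, hΦ⟩ := hΦ G
    exact ⟨_, (hΦ ⟨c, hc⟩).2.1.symm⟩
  refine ⟨⟨fun hA H _ hH m u h2 h4 => ?_, fun hA x l hl =>
    ⟨two_comm hr E hpref hj x l hl, perfect_of hr E (fun G _ hG c hc => ?_) x⟩⟩,
    fun G _ _ hne => ?_⟩
  · obtain ⟨Φ, hΦ⟩ := hΦ H
    have := (hΦ (Φ.symm ⟨(m, u), h2, h4⟩)).2.2.1 (col_comm hr E hA hH _ (Φ.symm _).2)
    rwa [Equiv.apply_symm_apply] at this
  · obtain ⟨Φ, hΦ⟩ := hΦ G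
    exact ⟨_, (hΦ ⟨c, hc⟩).2.2.2 (hA G hG _ _ (Φ ⟨c, hc⟩).2.1 (Φ ⟨c, hc⟩).2.2)⟩
  · have hN : ∀ g : G, g ^ Nat.card G = 1 := fun _ => pow_card_eq_one'
    obtain ⟨c0, c1, c2⟩ := exists_col ok (Multiplicative.ofAdd (1 : ZMod (Nat.card G)))
    obtain ⟨ε, hε, h⟩ := count E hpref hN (split_of_small hr 0 _) (split_of_small hr 0 _) c1 c2
      (x := 0) (by
        obtain ⟨m, h⟩ := hj _ _ c1
        rw [h, lam_comm, Int.cast_zero]
        rfl)
    have hS : ∀ s, Nat.card (Sol (8 * k) (surf k w) G 0 s) = NS k G β s := by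
      intro s
      obtain ⟨Φ, hΦ⟩ := hΦ G
      have hc : ∀ m : Mk G, m.1 ^ s * lam m = 1 → Commute m.1 (lam m) := fun m hm => by
        rw [eq_inv_of_mul_eq_one_right hm]
        exact ((Commute.refl m.1).zpow_right s).inv_right
      have hq : ∀ c, (Pc c.1 1)⁻¹ ^ s * (Raw (surf k w) (Pc c.1) * (Pc c.1 1)⁻¹ ^ (-(0 : ℤ))) ^
          (1 : ℤ) = (Φ c).1.1.1 ^ s * lam (Φ c).1.1 := fun c => by
        rw [(hΦ c).1, (hΦ c).2.1, neg_zero, zpow_zero, mul_one, zpow_one]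
      refine Nat.card_congr
        { toFun := fun c => ⟨(Φ ⟨c.1, c.2.1⟩).1, (hq ⟨c.1, c.2.1⟩).symm.trans c.2.2,
            (Φ ⟨c.1, c.2.1⟩).2.2⟩
          invFun := fun x => ⟨(Φ.symm ⟨x.1, hc _ x.2.1, x.2.2⟩).1, (Φ.symm _).2, by
            rw [hq, Equiv.apply_symm_apply]
            exact x.2.1⟩
          left_inv := fun c => Subtype.ext ?_
          right_inv := fun x => Subtype.ext ?_ }
      · have := congrArg Subtype.val (Φ.symm_apply_apply ⟨c.1, c.2.1⟩)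
        exact this
      · have := congrArg Subtype.val (Φ.apply_symm_apply ⟨x.1, hc _ x.2.1, x.2.2⟩)
        exact this
    refine distinct_of (fun hc => hne ?_) (pathConnected_surgery hν 2)
      (pathConnected_surgery hν (-2))
    obtain ⟨z⟩ := nonempty_surgery ν 2
    obtain ⟨z'⟩ := nonempty_surgery ν (-2)
    have h5 := hc G z z'
    rw [h 2 z, h (-2) z', hS, hS] at h5
    rcases hε with rfl | rfl
    · exact h5
    · exact h5.symm

end Vale.Agent.Q258U.N
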