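import Vale.Agent.Q258U.NG
import Vale.Agent.Q258U.Core
import Vale.Agent.Q258D.E1a
import Vale.Agent.Q258E.WG

/-!
# The density among words that keep the pairs of strands
-/

set_option linter.all false

namespace Vale.Agent.Q258U.N

open Vale.Agent.P258.Braid Vale.Agent.N258B Vale.Agent.Q258D Vale.Agent.Q258E Filter Topology
open Vale.Agent.Q258D.E1 (ps ps_append ps_pure ps_ge ps_cons)

theorem ps_inv (w : Word) : ∀ s, ps (inverse w) (ps w s) = s := by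
  induction w with
  | nil => intro s; rfl
  | cons x w ih =>
    intro s
    rw [E1.inverse_cons, ps_append, ps_cons x w, ih]
    exact sw_sw x s

theorem ps_curl (e : Bool) (L : List ℕ) (hL : L.Nodup) : ∀ s, ps (L.map fun i => (2 * i, e)) s =
    if s / 2 ∈ L then (if s % 2 = 0 then s + 1 else s - 1) else s := by
  induction L with
  | nil => intro s; rfl
  | cons a L ih =>
    intro s
    obtain ⟨h1, h2⟩ := List.nodup_cons.1 hL
    rw [List.map_cons, ps_cons, ih h2]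
    have h3 : sw (2 * a, e) s / 2 = s / 2 := by unfold sw; split_ifs <;> omega
    rw [h3]
    by_cases h4 : s / 2 = a
    · rw [if_neg (h4 ▸ h1), if_pos (h4 ▸ List.mem_cons_self)]
      unfold sw; split_ifs <;> omega
    · have h5 : sw (2 * a, e) s = s := by unfold sw; split_ifs <;> omega
      simp only [h5, List.mem_cons, h4, false_or]

theorem split (h4 : RowW4) {k : ℕ} {w : Word} (hw : Prs (8 * k) w) :
    ∃ I : List ℕ, I.Nodup ∧ (∀ i ∈ I, i < 4 * k) ∧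
      toBraid (8 * k) w * (toBraid (8 * k) (kap I))⁻¹ ∈ Tw (8 * k) 1 := by
  let I := (List.range (4 * k)).filter fun i => ps w (2 * i) = 2 * i + 1
  have hI : I.Nodup := List.nodup_range.filter _
  have hm : ∀ i, i ∈ I ↔ i < 4 * k ∧ ps w (2 * i) = 2 * i + 1 := fun i => by simp [I]
  refine ⟨I, hI, fun i hi => ((hm i).1 hi).1, ?_⟩
  rw [← toBraid_inverse, ← toBraid_append]
  refine h4.1 _ _ (rng_append.2 ⟨hw.1, Rng.inverse fun x hx => ?_⟩) fun s => ?_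
  · obtain ⟨i, hi, rfl⟩ := List.mem_map.1 hx
    have := ((hm i).1 hi).1
    simp only
    omega
  · change ps _ s = s
    have e : inverse (kap I) = I.reverse.map fun i => (2 * i, false) := by
      simp [inverse, kap, List.map_reverse, Function.comp_def]
    have inj : ∀ a b, ps w a = ps w b → a = b := fun a b h => by
      rw [← ps_inv w a, h, ps_inv]
    have p : ∀ s, ps w s / 2 = s / 2 := hw.2
    rw [ps_append, e, ps_curl _ _ (List.nodup_reverse.2 hI)]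
    simp only [List.mem_reverse, hm, p]
    have p0 := p (2 * (s / 2))
    have p1 := p (2 * (s / 2) + 1)
    have p2 := mt (inj (2 * (s / 2)) (2 * (s / 2) + 1)) (by omega)
    have p3 : 8 * k ≤ s → ps w s = s := ps_ge hw.1
    have p4 : s = 2 * (s / 2) ∨ s = 2 * (s / 2) + 1 := by omega
    generalize s / 2 = i at *
    rcases p4 with rfl | rfl <;> split_ifs <;> omega

theorem prs_coset {N : ℕ} {D : Subgroup (BraidGroup N)} (hD : D ≤ Tw N 1) {w0 w : Word}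
    (h0 : Prs N w0) (hw : InCoset D w0 w) : Prs N w := by
  refine ⟨hw.1, fun s => ?_⟩
  have h1 := ps_pure (w := inverse w0 ++ w) (rng_append.2 ⟨Rng.inverse h0.1, hw.1⟩)
    (by rw [toBraid_append, toBraid_inverse]; exact hD hw.2) (ps w0 s)
  rw [ps_append, ps_inv] at h1
  exact (congrArg (· / 2) h1).trans (h0.2 s)

/-- the words of a coset, in terms of pure braids -/
theorem coset_eq {N : ℕ} {D : Subgroup (BraidGroup N)} [hD : D.Normal] {w0 w : Word}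
    (hw : InCoset D w0 w) (κ : BraidGroup N) :
    ∃ γ ∈ D, toBraid N w = toBraid N w0 * κ⁻¹ * γ * κ :=
  ⟨_, hD.conj_mem _ hw.2 κ, by group⟩

theorem alex_coset (h2 : RowE2N) (h4 : RowW4) {k : ℕ} (hk0 : 0 < k) (M j : ℕ) {w0 w : Word}
    (hw0 : Prs (8 * k) w0) (h0 : ForSome k w0 Alex)
    (hw : InCoset (Der (8 * k) M (j + 1)) w0 w) : ForAll k w Alex := by
  obtain ⟨I, i1, i2, p0⟩ := split h4 hw0
  obtain ⟨fr, h2⟩ := h2 k hk0 I i1 i2
  obtain ⟨e0, ν0, f0, g0⟩ := h0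
  have a0 := ((h2 w0 hw0.1 _ p0 (by group) e0).2 ν0 f0).1.1 g0
  obtain ⟨γ, hγ, e⟩ := coset_eq hw (toBraid (8 * k) (kap I))
  have h3 := h2 w hw.1 _ (mul_mem p0 (der_le _ _ _ hγ)) e
  exact fun e => ⟨(h3 e).1, fun ν hν => ((h3 e).2 ν hν).1.2
    (F1.part4 k _ _ (der_succ_le _ _ _ hγ) a0)⟩

/-- the count of cosets -/
theorem coset_count (h2 : RowE2N) (h4 : RowW4) (hH : RowH2) (j : ℕ) :
    ∃ k0, ∀ k ≥ k0, ∀ M : ℕ, 0 < M → ∀ ε : ℝ, 0 < ε →
      ∃ S : Subgroup (BraidGroup (8 * k)), S.Normal ∧ S.FiniteIndex ∧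
      ∀ w0 : Word, Prs (8 * k) w0 → ForSome k w0 Alex →
        (cosets S (Der (8 * k) M (j + 1)) w0 fun w => ForSome k w Bad : ℝ) ≤
          ε * cosets S (Der (8 * k) M (j + 1)) w0 fun _ => True := by
  obtain ⟨k0, hH⟩ := hH j
  refine ⟨k0 + 1, fun k hk M hM ε hε => ?_⟩
  have hk0 : 0 < k := by omega
  obtain ⟨S, s1, s2, hS⟩ := hH k (by omega) M hM ε hε
  refine ⟨S, s1, s2, fun w0 hw0 ⟨e0, ν0, f0, g0⟩ => ?_⟩
  obtain ⟨I, i1, i2, p0⟩ := split h4 hw0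
  obtain ⟨fr, h2⟩ := h2 k hk0 I i1 i2
  have a0 := ((h2 w0 hw0.1 _ p0 (by group) e0).2 ν0 f0).1.1 g0
  generalize toBraid (8 * k) (kap I) = κ at *
  rw [cosets_true]
  refine le_trans (Nat.cast_le.2 ?_) ((hS _ p0 a0).trans
    (mul_le_mul_of_nonneg_left (Nat.cast_le.2 ?_) hε.le))
  · refine Nat.card_le_card_of_injective
      (fun q => ⟨q.1 * ((κ⁻¹ : BraidGroup (8 * k)) : _ ⧸ S), ?_⟩)
      fun q q' e => Subtype.ext (mul_right_cancel (congrArg Subtype.val e))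
    obtain ⟨q, w, hw, ⟨e, ν, hν, hd⟩, rfl⟩ := q
    obtain ⟨γ, hγ, e1⟩ := coset_eq hw κ
    refine ⟨γ, hγ, fun G _ _ => by_contra fun h => hd
      (((h2 w hw.1 _ (mul_mem p0 (der_le _ _ _ hγ)) e1 e).2 ν hν).2 G h), ?_⟩
    rw [← QuotientGroup.mk_mul, e1, mul_inv_cancel_right]
  · refine Nat.card_le_card_of_injective (fun q => ⟨q.1 * (κ : _ ⧸ S), ?_⟩)
      fun q q' e => Subtype.ext (mul_right_cancel (congrArg Subtype.val e))
    obtain ⟨q, γ, hγ, rfl⟩ := q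
    refine ⟨_, (der_normal _ _ _).conj_mem _ hγ κ⁻¹, ?_⟩
    rw [← QuotientGroup.mk_mul]
    congr 1
    group

theorem wordsP_eq (N n : ℕ) (P : Word → Prop) :
    wordsP N n P = wds N n fun w => Prs N w ∧ P w :=
  Nat.card_congr (Equiv.subtypeEquivRight fun w =>
    ⟨fun h => ⟨h.1, h.2.1.1, h.2⟩, fun h => ⟨h.1, h.2.2⟩⟩)

/-- the words with the property `A` whose knot has Alexander polynomial one -/
def AA (k : ℕ) (A : BraidGroup (8 * k) → Prop) (w : Word) : Prop :=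
  Prs (8 * k) w ∧ A (toBraid (8 * k) w) ∧ ForSome k w Alex

variable (h2 : RowE2N) (h4 : RowW4)
include h2 h4

theorem aa_coset {k j : ℕ} (hk : 0 < k) {A : BraidGroup (8 * k) → Prop}
    (hA : ∀ β, A β → ∀ γ ∈ Der (8 * k) 1 (j + 1), A (β * γ)) {w0 w : Word}
    (hw : InCoset (Der (8 * k) 1 (j + 1)) w0 w) (h0 : AA k A w0) : AA k A w :=
  ⟨prs_coset (der_le _ _ _) h0.1 hw, by simpa using hA _ h0.2.1 _ hw.2,
    some_of_all (alex_coset h2 h4 hk 1 j h0.1 h0.2.2 hw)⟩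

theorem aa_lower {k j : ℕ} (hW : RowW3) (hk : 0 < k) {A : BraidGroup (8 * k) → Prop}
    (hA : ∀ β, A β → ∀ γ ∈ Der (8 * k) 1 (j + 1), A (β * γ)) {w0 : Word}
    (h0 : AA k A w0) {θ : ℝ} (t0 : 0 ≤ θ) (t1 : θ < 1) :
    ∃ c : ℝ, 0 < c ∧ ∀ n : ℕ, c * (θ * (2 * (8 * k - 1 : ℕ))) ^ (2 * n) ≤
      wds (8 * k) (w0.length + 2 * n) (AA k A) := by
  obtain ⟨c, hc, h⟩ := hW (8 * k) (j + 1) θ t0 t1
  refine ⟨c, hc, fun n => (h n).trans (Nat.cast_le.2 (wds_append h0.1.1 fun w hw hd => ?_))⟩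
  refine aa_coset h2 h4 hk hA ⟨fun x hx => (List.mem_append.1 hx).elim (h0.1.1 x) (hw x), ?_⟩ h0
  rwa [toBraid_append, inv_mul_cancel_left]

theorem aa_pos {k j : ℕ} (hW : RowW3) (hk : 0 < k) {A : BraidGroup (8 * k) → Prop}
    (hA : ∀ β, A β → ∀ γ ∈ Der (8 * k) 1 (j + 1), A (β * γ)) {w0 : Word}
    (hw0 : Prs (8 * k) w0) (h0 : A (toBraid (8 * k) w0) ∧ ForSome k w0 Alex) (n : ℕ) :
    0 < wordsP (8 * k) (w0.length + 2 * n) fun w => A (toBraid (8 * k) w) ∧ ForSome k w Alex := by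
  obtain ⟨c, hc, h⟩ := aa_lower h2 h4 hW hk hA ⟨hw0, h0⟩ (θ := 1 / 2) (by norm_num) (by norm_num)
  have h2 : (0 : ℝ) < (8 * k - 1 : ℕ) := by exact_mod_cast (by omega : 0 < 8 * k - 1)
  have h3 : (0 : ℝ) < wds (8 * k) (w0.length + 2 * n) (AA k A) :=
    lt_of_lt_of_le (by positivity) (h n)
  rw [wordsP_eq]
  exact Nat.cast_pos.1 h3

/-- the density among words -/
theorem word_count (hH : RowH2) (hW3 : RowW3) (j : ℕ) : ∃ k0, ∀ k ≥ k0,
    ∀ A : BraidGroup (8 * k) → Prop, (∀ β, A β → ∀ γ ∈ Der (8 * k) 1 (j + 1), A (β * γ)) →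
      ∀ ε : ℝ, 0 < ε → ∃ n0, ∀ n ≥ n0,
        (wordsP (8 * k) n fun w =>
          (A (toBraid (8 * k) w) ∧ ForSome k w Alex) ∧ ForSome k w Bad : ℝ) ≤
        ε * wordsP (8 * k) n fun w => A (toBraid (8 * k) w) ∧ ForSome k w Alex := by
  obtain ⟨k0, h⟩ := coset_count h2 h4 hH j
  refine ⟨k0 + 1, fun k hk A hA ε hε => ?_⟩
  have hk0 : 0 < k := by omega
  obtain ⟨S, s1, s2, hS⟩ := h k (by omega) 1 one_pos (ε / 2) (half_pos hε)
  obtain ⟨C, θ, t0, t1, hW⟩ := rowW2 (8 * k) (by omega) S (Der (8 * k) 1 (j + 1)) (der_le _ _ _)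
    (AA k A) (fun w => ForSome k w Bad) (ε / 2) (half_pos hε).le
    (fun w0 w _ hw h0 => aa_coset h2 h4 hk0 hA hw h0)
    fun w0 _ h0 => hS w0 h0.1 h0.2.2
  have key : ∀ a : ℕ, ∃ n0, ∀ n ≥ n0, n % 2 = a →
      (wds (8 * k) n fun w => AA k A w ∧ ForSome k w Bad : ℝ) ≤ ε * wds (8 * k) n (AA k A) := by
    intro a
    by_cases hex : ∃ w0 : Word, w0.length % 2 = a ∧ AA k A w0
    swap
    · refine ⟨0, fun n _ hn => ?_⟩
      haveI : IsEmpty {w : Word // w.length = n ∧ (∀ x ∈ w, x.1 + 1 < 8 * k) ∧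
          AA k A w ∧ ForSome k w Bad} := ⟨fun w => hex ⟨w.1, by rw [w.2.1, hn], w.2.2.2.1⟩⟩
      rw [wds, Nat.card_of_isEmpty, Nat.cast_zero]
      positivity
    obtain ⟨w0, ha, h0⟩ := hex
    obtain ⟨c, hc, hl⟩ := aa_lower h2 h4 hW3 hk0 hA h0 (θ := (1 + θ) / 2) (by linarith)
      (by linarith)
    set q : ℝ := 2 * ((8 * k - 1 : ℕ) : ℝ) with hq
    have q0 : 0 ≤ q := by positivity
    have hτ : 0 < (1 + θ) / 2 := by linarith
    have hρ0 : 0 ≤ θ / ((1 + θ) / 2) := by positivity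
    have hρ1 : θ / ((1 + θ) / 2) < 1 := (div_lt_one hτ).2 (by linarith)
    have hρ2 : (θ / ((1 + θ) / 2)) ^ 2 < 1 := by nlinarith
    have h3 : Tendsto (fun r : ℕ => |C| * (θ * q) ^ w0.length * ((θ / ((1 + θ) / 2)) ^ 2) ^ r)
        atTop (𝓝 (|C| * (θ * q) ^ w0.length * 0)) :=
      (tendsto_pow_atTop_nhds_zero_of_lt_one (sq_nonneg _) hρ2).const_mul _
    rw [mul_zero] at h3
    obtain ⟨n0, hn0⟩ := eventually_atTop.1
      (h3.eventually (gt_mem_nhds (mul_pos (half_pos hε) hc)))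
    refine ⟨w0.length + 2 * n0, fun n hn hev => ?_⟩
    obtain ⟨r, rfl⟩ : ∃ r, n = w0.length + 2 * r := ⟨(n - w0.length) / 2, by omega⟩
    have a1 := hW (w0.length + 2 * r)
    have a2 := (hn0 r (by omega)).le
    have a3 := hl r
    refine le_trans a1 ?_
    generalize wds (8 * k) (w0.length + 2 * r) (AA k A) = x at a3 ⊢
    have a4 : C * (θ * q) ^ (w0.length + 2 * r) ≤ ε / 2 * x := by
      calc _ ≤ |C| * (θ * q) ^ (w0.length + 2 * r) :=
            mul_le_mul_of_nonneg_right (le_abs_self C) (by positivity)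
        _ = |C| * (θ * q) ^ w0.length * ((θ / ((1 + θ) / 2)) ^ 2) ^ r *
            ((1 + θ) / 2 * q) ^ (2 * r) := by
            rw [← pow_mul, mul_assoc (|C| * _), ← mul_pow, pow_add, ← mul_assoc |C|,
              ← mul_assoc (θ / _), div_mul_cancel₀ _ hτ.ne']
        _ ≤ ε / 2 * c * ((1 + θ) / 2 * q) ^ (2 * r) := by gcongr
        _ ≤ _ := by rw [mul_assoc]; gcongr
    linarith
  obtain ⟨n0, k0⟩ := key 0
  obtain ⟨n1, k1⟩ := key 1
  refine ⟨n0 + n1, fun n hn => ?_⟩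
  simp only [wordsP_eq, ← and_assoc (a := Prs (8 * k) _)]
  simp only [and_assoc (a := Prs (8 * k) _) (b := A _)]
  rcases Nat.mod_two_eq_zero_or_one n with e | e
  · exact k0 n (by omega) e
  · exact k1 n (by omega) e

end Vale.Agent.Q258U.N
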