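import Vale.Agent.Q258U.Defs
import Mathlib.Topology.Homotopy.Path
import Mathlib.Analysis.Convex.Segment
import Mathlib.Analysis.Convex.Basic

/-!
# Every knot of genus at most two is the knot of a word: definitions and statements of the parts
-/

set_option linter.all false

namespace Vale.Agent.Q258U

open Vale.Agent.P258.Braid Vale.Agent.N258B Vale.Agent.Q258D Set Complex

/-- the space -/
abbrev E3 : Type := ℂ × ℝ

/-- equivalent subsets of the space -/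
def Eqv (K K' : Set E3) : Prop := ∃ h : E3 ≃ₜ E3, h '' K = K'

/-- the determinant of two vectors of the plane -/
def det (a b : ℂ) : ℝ := a.re * b.im - a.im * b.re

/-- a box in the plane that contains the shadow of the disc -/
def Box : Set ℂ := {z | -4 ≤ z.re ∧ z.re ≤ 64 ∧ -1 ≤ z.im ∧ z.im ≤ 2}

/-! ## Part A: from surfaces to framed polygons -/

/-- extension of a small displacement (no inputs) -/
def RowM : Prop :=
  ∀ (α : Type) (F G : α → E3),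
    (∀ x y, ‖(G x - F x) - (G y - F y)‖ ≤ 1 / 4 * ‖F x - F y‖) →
      ∃ h : E3 ≃ₜ E3, ∀ x, h (F x) = G x

/-- a longer part of a band -/
def wide : Set (ℝ × ℝ) := Icc (1, -1) (4, 1)

/-- lower bounds for distances on a surface (no inputs) -/
def RowSB : Prop :=
  ∀ f g, Surface f g → ∃ c : ℝ, 0 < c ∧
    (∀ x ∈ tri, ∀ y ∈ tri, c * ‖x - y‖ ≤ ‖f x - f y‖) ∧
    (∀ j, ∀ x ∈ wide, ∀ y ∈ wide, c * ‖x - y‖ ≤ ‖g j x - g j y‖) ∧
    (∀ i j, i ≠ j → ∀ x ∈ wide, ∀ y ∈ wide, c ≤ ‖g i x - g j y‖) ∧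
    ∀ j, ∀ x ∈ tri, x.2 ≤ 1 → ∀ y ∈ mid, c ≤ ‖f x - g j y‖

/-- the boundary of a smaller surface: the disc is cut at the level `l`, the bands have the
width `e` -/
def bdry (f : ℝ × ℝ → E3) (g : Fin 4 → ℝ × ℝ → E3) (l e : ℝ) : Set E3 :=
  {y | (∃ t ∈ Icc (0 : ℝ) l, y = f (-(t * e), t) ∨ y = f (t * (28 + e), t)) ∨
    (∃ p : Fin 7, ∃ x ∈ Icc (4 * p + e : ℝ) (4 * p + 4 - e), y = f (l * x, l)) ∨
    ∃ j, ∃ t ∈ Icc l (5 - l), y = g j (t, e) ∨ y = g j (t, -e)}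

/-- shrinking (inputs: `RowM`, `RowSB`) -/
def RowS1 : Prop :=
  ∀ f g, Surface f g → ∀ l ∈ Ioc (0 : ℝ) 1, ∀ e ∈ Ioc (0 : ℝ) 1, Eqv (rim f g) (bdry f g l e)

/-- the apex is the origin, the differential there is standard, the vertical line through the
apex does not meet the cores of the bands -/
def Nrm (f : ℝ × ℝ → E3) (g : Fin 4 → ℝ × ℝ → E3) : Prop :=
  f 0 = 0 ∧ (∀ x : ℝ × ℝ, fderiv ℝ f 0 x = ((x.1 : ℂ) + (x.2 : ℂ) * I, x.2)) ∧
    ∀ j t, 0 < t → t < 5 → (g j (t, 0)).1 ≠ 0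

/-- an affine change of coordinates (no inputs) -/
def RowS2 : Prop :=
  ∀ f g, Surface f g → ∃ f' g', Surface f' g' ∧ Nrm f' g' ∧ Eqv (rim f g) (rim f' g')

/-- four framed polygonal arcs with `N` edges: vertices `a j 0, …, a j N`, and the framing
`v j i μ` at the point `μ ∈ [0, 1]` of the edge `i` -/
structure FP where
  N : ℕ
  a : Fin 4 → ℕ → E3
  v : Fin 4 → ℕ → ℝ → E3

/-- the vector of an edge -/
def FP.ed (P : FP) (j : Fin 4) (i : ℕ) : E3 := P.a j (i + 1) - P.a j i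

/-- a point of an edge -/
noncomputable def FP.pt (P : FP) (j : Fin 4) (i : ℕ) (μ : ℝ) : E3 := P.a j i + μ • P.ed j i

/-- `V` is transverse to the cone of `e1` and `e2` -/
def Ind (e1 e2 V : E3) : Prop :=
  ∀ a b c : ℝ, 0 ≤ a → 0 ≤ b → a • e1 + b • e2 + c • V = 0 → a = 0 ∧ b = 0 ∧ c = 0

/-- standard ends; the framing is continuous and Lipschitz -/
structure Std (P : FP) : Prop where
  N4 : 4 ≤ P.N
  s0 : ∀ j, P.a j 0 = ((pS j : ℂ) + I, 1)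
  s1 : ∀ j, (P.a j 1).1 = 2 * (pS j : ℂ) + 2 * I
  s1h : ∀ j, 1 < (P.a j 1).2
  s2h : ∀ j, (P.a j 1).2 < (P.a j 2).2
  s2i : ∀ j, 2 < (P.a j 2).1.im
  e0 : ∀ j, P.a j P.N = ((pE j : ℂ) + I, 1)
  e1 : ∀ j, (P.a j (P.N - 1)).1 = 2 * (pE j : ℂ) + 2 * I
  e1h : ∀ j, 1 < (P.a j (P.N - 1)).2
  e2h : ∀ j, (P.a j (P.N - 1)).2 < (P.a j (P.N - 2)).2
  e2i : ∀ j, 2 < (P.a j (P.N - 2)).1.im
  vs : ∀ j, ∀ μ ∈ Icc (0 : ℝ) 1, P.v j 0 μ = (((1 + μ : ℝ) : ℂ), 0)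
  ve : ∀ j, ∀ μ ∈ Icc (0 : ℝ) 1, P.v j (P.N - 1) μ = (((μ - 2 : ℝ) : ℂ), 0)
  glue : ∀ j i, i + 1 < P.N → P.v j i 1 = P.v j (i + 1) 0
  lip : ∃ L : ℝ, ∀ j, ∀ i < P.N, ∀ μ ∈ Icc (0 : ℝ) 1, ∀ μ' ∈ Icc (0 : ℝ) 1,
    ‖P.v j i μ - P.v j i μ'‖ ≤ L * |μ - μ'|

/-- embedded framed arcs -/
structure Emb (P : FP) : Prop where
  std : Std P
  edge : ∀ j, ∀ i < P.N, ∀ μ ∈ Icc (0 : ℝ) 1, Ind (P.ed j i) (P.ed j i) (P.v j i μ)
  vert : ∀ j i, i + 1 < P.N → Ind (P.ed j i) (P.ed j (i + 1)) (P.v j i 1)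
  disj : ∀ j i j' i', 1 ≤ i → i + 2 ≤ P.N → 1 ≤ i' → i' + 2 ≤ P.N → (j ≠ j' ∨ i + 2 ≤ i') →
    ∀ μ ∈ Icc (0 : ℝ) 1, ∀ μ' ∈ Icc (0 : ℝ) 1, P.pt j i μ ≠ P.pt j' i' μ'
  box : ∀ j i, 2 ≤ i → i + 3 ≤ P.N → ∀ μ ∈ Icc (0 : ℝ) 1, (P.pt j i μ).1 ∉ Box

/-- the edges of the thin bands -/
def Bd (P : FP) (ε : ℝ) : Set E3 :=
  {y | ∃ j, ∃ i < P.N, ∃ μ ∈ Icc (0 : ℝ) 1,
    y = P.pt j i μ + ε • P.v j i μ ∨ y = P.pt j i μ - ε • P.v j i μ}

/-- the two sides of the disc -/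
def sides (ε : ℝ) : Set E3 :=
  {y | ∃ t ∈ Icc (0 : ℝ) 1, y = (((-(t * ε) : ℝ) : ℂ) + (t : ℂ) * I, t) ∨
    y = (((t * (28 + ε) : ℝ) : ℂ) + (t : ℂ) * I, t)}

/-- the gaps between the ends of the bands -/
def flat (ε : ℝ) : Set E3 :=
  {y | ∃ p : Fin 7, ∃ x ∈ Icc (4 * p + ε : ℝ) (4 * p + 4 - ε), y = ((x : ℂ) + I, 1)}

/-- the gaps, pushed down -/
def wedge (ε : ℝ) : Set E3 :=
  {y | ∃ p : Fin 7, ∃ t ∈ Icc (0 : ℝ) 1, y = (((4 * p + 2 - t * (2 - ε) : ℝ) : ℂ) + I, t) ∨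
    y = (((4 * p + 2 + t * (2 - ε) : ℝ) : ℂ) + I, t)}

/-- the knot of a framed polygon, with flat gaps -/
def Kn0 (P : FP) (ε : ℝ) : Set E3 := sides ε ∪ flat ε ∪ Bd P ε

/-- the knot of a framed polygon -/
def Kn (P : FP) (ε : ℝ) : Set E3 := sides ε ∪ wedge ε ∪ Bd P ε

/-- the mesh -/
noncomputable def msh (N : ℕ) : ℝ := 5 / (N + 2)

/-- the vertices of the approximating polygon -/
noncomputable def apxA (g : Fin 4 → ℝ × ℝ → E3) (N : ℕ) (j : Fin 4) (n : ℕ) : E3 :=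
  if n = 0 then ((pS j : ℂ) + I, 1) else if n = 1 then (2 * (pS j : ℂ) + 2 * I, 2)
  else if n = N - 1 then (2 * (pE j : ℂ) + 2 * I, 2) else if n = N then ((pE j : ℂ) + I, 1)
  else (msh N)⁻¹ • g j ((n + 1) * msh N, 0)

/-- the framing at the vertices -/
noncomputable def apxV (g : Fin 4 → ℝ × ℝ → E3) (N : ℕ) (j : Fin 4) (n : ℕ) : E3 :=
  if n = 0 then (1, 0) else if n = 1 then (2, 0)
  else if n = N - 1 then (-2, 0) else if n = N then (-1, 0)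
  else (msh N)⁻¹ • fderiv ℝ (g j) ((n + 1) * msh N, 0) (0, 1)

/-- the approximating polygon -/
noncomputable def apx (g : Fin 4 → ℝ × ℝ → E3) (N : ℕ) : FP :=
  ⟨N, apxA g N, fun j i μ => (1 - μ) • apxV g N j i + μ • apxV g N j (i + 1)⟩

/-- the approximating polygon is embedded (input: `RowSB`) -/
def RowS3a : Prop :=
  ∀ f g, Surface f g → Nrm f g → ∃ N0, ∀ N ≥ N0, Emb (apx g N)

/-- the approximating polygon gives the same knot (inputs: `RowM`, `RowSB`) -/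
def RowS3b : Prop :=
  ∀ f g, Surface f g → Nrm f g → ∃ N0, ∀ N ≥ N0, ∃ ε0 : ℝ, 0 < ε0 ∧ ∀ ε ∈ Ioc (0 : ℝ) ε0,
    Eqv (bdry f g (msh N) ε) (Kn0 (apx g N) ε)

/-- the gaps are pushed down (no inputs) -/
def RowS4 : Prop :=
  ∀ P, Emb P → ∃ ε0 : ℝ, 0 < ε0 ∧ ∀ ε ∈ Ioc (0 : ℝ) ε0, Eqv (Kn0 P ε) (Kn P ε)

/-- there are surfaces (no inputs) -/
def RowEx : Prop := ∃ f g, Surface f g

/-! ## Part B: moves of framed polygons -/

/-- close polygons -/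
def Close (ρ : ℝ) (P P' : FP) : Prop :=
  P'.N = P.N ∧ ∀ j, (∀ i ≤ P.N, ‖P'.a j i - P.a j i‖ ≤ ρ) ∧
    ∀ i < P.N, ∀ μ ∈ Icc (0 : ℝ) 1, ‖P'.v j i μ - P.v j i μ‖ ≤ ρ

/-- the same knot for thin bands -/
def Sim (P P' : FP) : Prop := ∃ ε0 : ℝ, 0 < ε0 ∧ ∀ ε ∈ Ioc (0 : ℝ) ε0, Eqv (Kn P ε) (Kn P' ε)

/-- local constancy (input: `RowM`) -/
def RowL : Prop := ∀ P, Emb P → ∃ ρ : ℝ, 0 < ρ ∧ ∀ P', Std P' → Close ρ P P' → Sim P P'

/-- openness (no inputs) -/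
def RowO : Prop := ∀ P, Emb P → ∃ ρ : ℝ, 0 < ρ ∧ ∀ P', Std P' → Close ρ P P' → Emb P'

/-- families (input: `RowL`) -/
def RowFam : Prop :=
  ∀ (N : ℕ) (a : ℝ → Fin 4 → ℕ → E3) (v : ℝ → Fin 4 → ℕ → ℝ → E3),
    (∀ s ∈ Icc (0 : ℝ) 1, Emb ⟨N, a s, v s⟩) →
    (∀ j, ∀ i ≤ N, ContinuousOn (fun s => a s j i) (Icc 0 1)) →
    (∀ j, ∀ i < N, ContinuousOn (fun p : ℝ × ℝ => v p.1 j i p.2) (Icc 0 1 ×ˢ Icc 0 1)) →
    Sim ⟨N, a 0, v 0⟩ ⟨N, a 1, v 1⟩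

/-- no horizontal edges -/
def NH (P : FP) : Prop := ∀ j, ∀ i < P.N, (P.ed j i).2 ≠ 0

/-- the vertex `i + 1` is a maximum or a minimum of the height -/
def Crit (P : FP) (j : Fin 4) (i : ℕ) : Prop :=
  i + 1 < P.N ∧ (P.ed j i).2 * (P.ed j (i + 1)).2 < 0

open Classical in
/-- the number of maxima and minima -/
noncomputable def cnt (P : FP) (j : Fin 4) : ℕ := ((Finset.range P.N).filter (Crit P j)).card

/-- the parameters of the points of subdivision -/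
def al (μ : ℝ) (r : ℕ) : ℝ := if r = 0 then 0 else if r = 1 then μ else if r = 2 then 1 - μ else 1

/-- every inner edge is cut into three parts; the vertex `q + 1` gets the number `3 q + 1` -/
noncomputable def tri3 (μ : ℝ) (P : FP) : FP where
  N := 3 * P.N - 4
  a j n := if n = 0 then P.a j 0 else if n = 3 * P.N - 4 then P.a j P.N
    else P.pt j ((n - 1) / 3 + 1) (al μ ((n - 1) % 3))
  v j n ν := if n = 0 then P.v j 0 ν else if n = 3 * P.N - 5 then P.v j (P.N - 1) ν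
    else P.v j ((n - 1) / 3 + 1)
      (al μ ((n - 1) % 3) + ν * (al μ ((n - 1) % 3 + 1) - al μ ((n - 1) % 3)))

/-- subdivision; parity of the number of critical points (no inputs) -/
def RowT : Prop :=
  (∀ P, Emb P → ∀ μ : ℝ, 0 < μ → μ < 1 / 2 →
    Emb (tri3 μ P) ∧ (∀ ε, Bd (tri3 μ P) ε = Bd P ε) ∧
    (NH P → NH (tri3 μ P) ∧ (∀ j, cnt (tri3 μ P) j = cnt P j) ∧
      ∀ j n, Crit (tri3 μ P) j n ↔ ∃ i, n = 3 * i ∧ Crit P j i)) ∧
  (∀ P, Std P → NH P → ∀ j, Odd (cnt P j)) ∧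
  ∀ P, NH P → ∃ ρ : ℝ, 0 < ρ ∧ ∀ P', Close ρ P P' → NH P' ∧ ∀ j, cnt P' j = cnt P j

/-- a zigzag (inputs: `RowT`, `RowFam`) -/
def RowZ : Prop :=
  ∀ P, Emb P → NH P → ∀ j0, ∃ P', Emb P' ∧ NH P' ∧ Sim P P' ∧
    ∀ j, cnt P' j = cnt P j + if j = j0 then 2 else 0

/-- general position of the shadow -/
def GenP (P : FP) : Prop :=
  ∀ j i, 1 ≤ i → i + 3 ≤ P.N → det (P.ed j i).1 (P.ed j (i + 1)).1 ≠ 0 ∧
    ∀ j' i', 1 ≤ i' → i' + 2 ≤ P.N → (j' ≠ j ∨ (i' ≠ i ∧ i' ≠ i + 1)) →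
      ∀ μ ∈ Icc (0 : ℝ) 1, (P.pt j' i' μ).1 ≠ (P.a j (i + 1)).1

/-- generic polygons are dense (no inputs) -/
def RowGen : Prop :=
  ∀ P, Std P → ∀ ρ : ℝ, 0 < ρ → ∃ P', Close ρ P P' ∧ Std P' ∧ NH P' ∧ GenP P'

/-- the framing is horizontal -/
def HV (P : FP) : Prop := ∀ j, ∀ i < P.N, ∀ μ ∈ Icc (0 : ℝ) 1, (P.v j i μ).2 = 0

/-- the side of the framing at the critical points -/
def Sgn (P : FP) : Prop :=
  ∀ j i, Crit P j i → 0 < (P.ed j i).2 * det (P.ed j i).1 (P.v j i 1).1 ∧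
    0 < (P.ed j i).2 * det (P.ed j (i + 1)).1 (P.v j i 1).1

/-- the framing is constant near the ends of the inner edges -/
def Cst (P : FP) : Prop :=
  ∀ j i, 1 ≤ i → i + 2 ≤ P.N → ∀ μ ∈ Icc (0 : ℝ) (1 / 3),
    P.v j i μ = P.v j i 0 ∧ P.v j i (1 - μ) = P.v j i 1

/-- normal form of the framing (input: `RowFam`) -/
def RowV : Prop :=
  ∀ P, Emb P → NH P → GenP P → ∃ v', Emb ⟨P.N, P.a, v'⟩ ∧ Sim P ⟨P.N, P.a, v'⟩ ∧
    HV ⟨P.N, P.a, v'⟩ ∧ Sgn ⟨P.N, P.a, v'⟩ ∧ Cst ⟨P.N, P.a, v'⟩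

/-- the framing is constant on the edges at a critical point -/
def CN (P : FP) : Prop :=
  ∀ j i, Crit P j i → ∀ μ ∈ Icc (0 : ℝ) 1, P.v j i μ = P.v j i 1 ∧ P.v j (i + 1) μ = P.v j i 1

/-- nothing is above or below the edges at a critical point -/
def CF (P : FP) : Prop :=
  ∀ j i, Crit P j i → ¬ Crit P j (i + 1) ∧ ∀ i0, (i0 = i ∨ i0 = i + 1) → ∀ μ ∈ Icc (0 : ℝ) 1,
    ∀ j' i', 1 ≤ i' → i' + 2 ≤ P.N → ∀ μ' ∈ Icc (0 : ℝ) 1,
      (P.pt j i0 μ).1 = (P.pt j' i' μ').1 → P.pt j i0 μ = P.pt j' i' μ'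

/-- short edges at the critical points (input: `RowT`) -/
def RowR : Prop :=
  ∀ P, Emb P → NH P → GenP P → HV P → Sgn P → Cst P → ∃ P', Emb P' ∧ (∀ ε, Bd P' ε = Bd P ε) ∧
    NH P' ∧ (∀ j, cnt P' j = cnt P j) ∧ HV P' ∧ Sgn P' ∧ CN P' ∧ CF P'

/-- maxima at the level `T`, minima at the level `0`, the other inner vertices in between -/
def Lev (T : ℝ) (P : FP) : Prop :=
  4 ≤ T ∧ ∀ j i, i + 1 < P.N →
    (Crit P j i → 0 < (P.ed j i).2 → (P.a j (i + 1)).2 = T) ∧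
    (Crit P j i → (P.ed j i).2 < 0 → (P.a j (i + 1)).2 = 0) ∧
    (¬ Crit P j i → 2 ≤ (P.a j (i + 1)).2 ∧ (P.a j (i + 1)).2 ≤ T - 2)

/-- the critical points are pushed up and down (input: `RowFam`) -/
def RowPu : Prop :=
  ∀ P, Emb P → NH P → HV P → Sgn P → CN P → CF P → ∃ P' T, Emb P' ∧ Sim P P' ∧ NH P' ∧
    (∀ j, cnt P' j = cnt P j) ∧ HV P' ∧ Sgn P' ∧ CN P' ∧ Lev T P'

/-- the lowest level of the piece `r` of a band -/
def lo (k r : ℕ) : ℝ := if r = 0 ∨ r + 1 = 2 * k then 1 else 0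

/-- the monotone pieces of the bands: cores `c j r t` and framings `u j r t` at the level `t` -/
structure SD (k : ℕ) (T : ℝ) (c u : Fin 4 → ℕ → ℝ → ℂ) : Prop where
  hT : 4 ≤ T
  cc : ∀ j r, Continuous (c j r)
  cu : ∀ j r, Continuous (u j r)
  une : ∀ j, ∀ r < 2 * k, ∀ t, lo k r ≤ t → t ≤ T → u j r t ≠ 0
  dis : ∀ j, ∀ r < 2 * k, ∀ j', ∀ r' < 2 * k, ∀ t, lo k r ≤ t → lo k r' ≤ t → t ≤ T →
    c j r t = c j' r' t → j = j' ∧
      (r = r' ∨ (t = T ∧ r / 2 = r' / 2) ∨ (t = 0 ∧ (r + 1) / 2 = (r' + 1) / 2))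
  fs : ∀ j, c j 0 1 = (pS j : ℂ) + I ∧ u j 0 1 = 1
  fe : ∀ j, c j (2 * k - 1) 1 = (pE j : ℂ) + I ∧ u j (2 * k - 1) 1 = 1
  box : ∀ j r, 0 < r → r + 1 < 2 * k → ∀ t ∈ Icc (0 : ℝ) 1, c j r t ∉ Box
  top : ∀ j, ∀ i < k, ∃ z dL dR m : ℂ, 0 < det (dR - dL) m ∧ ∀ s ∈ Icc (0 : ℝ) 1,
    c j (2 * i) (T - s) = z + s * dL ∧ c j (2 * i + 1) (T - s) = z + s * dR ∧
    u j (2 * i) (T - s) = m ∧ u j (2 * i + 1) (T - s) = -m
  bot : ∀ j i, i + 1 < k → ∃ z dL dR m : ℂ, 0 < det (dR - dL) m ∧ ∀ s ∈ Icc (0 : ℝ) 1,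
    c j (2 * i + 1) s = z + s * dL ∧ c j (2 * i + 2) s = z + s * dR ∧
    u j (2 * i + 1) s = m ∧ u j (2 * i + 2) s = -m

/-- the edges of the pieces -/
def BS (k : ℕ) (T : ℝ) (c u : Fin 4 → ℕ → ℝ → ℂ) (ε : ℝ) : Set E3 :=
  {y | ∃ j, ∃ r < 2 * k, lo k r ≤ y.2 ∧ y.2 ≤ T ∧
    (y.1 = c j r y.2 + ε * u j r y.2 ∨ y.1 = c j r y.2 - ε * u j r y.2)}

/-- the monotone pieces (no inputs) -/
def RowX1 : Prop :=
  ∀ P T k, Emb P → NH P → HV P → Sgn P → CN P → Lev T P → (∀ j, cnt P j + 1 = 2 * k) →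
    ∃ c u, SD k T c u ∧ ∀ ε, Bd P ε = BS k T c u ε

/-! ## Part C: paths of configurations and plats -/

/-- configurations -/
abbrev X (ι : Type) : Type := {y : ι → ℂ // Function.Injective y}

variable {ι : Type}

/-- the configuration of natural numbers -/
def cfg (l : ι ↪ ℕ) : X ι := ⟨fun i => (l i : ℂ), fun _ _ h => l.injective (Nat.cast_injective h)⟩

theorem sw_sw (x : ℕ × Bool) (q : ℕ) : sw x (sw x q) = q := by
  unfold sw; split_ifs <;> omega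

/-- the positions after a crossing -/
def swE (x : ℕ × Bool) (l : ι ↪ ℕ) : ι ↪ ℕ :=
  ⟨fun i => sw x (l i), fun _ _ h => l.injective (by
    have := congrArg (sw x) h
    rwa [sw_sw, sw_sw] at this)⟩

theorem mv_zero (x : ℕ × Bool) (q : ℕ) : mv x q 0 = q := by
  unfold mv; split_ifs <;> apply Complex.ext <;> simp

theorem mv_one (x : ℕ × Bool) (q : ℕ) : mv x q 1 = (sw x q : ℕ) := by
  unfold mv sw
  split_ifs with h1 h2 <;> apply Complex.ext <;> simp [*]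

theorem cont_mv (x : ℕ × Bool) (q : ℕ) : Continuous (mv x q) := by
  unfold mv
  have h : ∀ a b : ℝ → ℝ, Continuous a → Continuous b →
      Continuous fun s => (⟨a s, b s⟩ : ℂ) := fun a b ha hb =>
    equivRealProdCLM.symm.continuous.comp (ha.prodMk hb)
  split_ifs
  · exact h _ _ (by fun_prop) (by fun_prop)
  · exact h _ _ (by fun_prop) (by fun_prop)
  · exact continuous_const

theorem mv_inj (x : ℕ × Bool) {a b : ℕ} {s : ℝ} (s0 : 0 ≤ s) (s1 : s ≤ 1)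
    (h : mv x a s = mv x b s) : a = b := by
  have hs : sg x.2 ≠ 0 := by unfold sg; split_ifs <;> norm_num
  have key : ∀ {a b : ℕ} {s : ℝ}, 0 ≤ s → s ≤ 1 → (a : ℝ) + s = b → s * (1 - s) = 0 →
      b = a ∨ b = a + 1 := fun {a b s} _ _ h1 h2 => by
    rcases mul_eq_zero.1 h2 with h | h
    · left; exact_mod_cast (by linarith : (b : ℝ) = a)
    · right; exact_mod_cast (by linarith : (b : ℝ) = a + 1)
  have h1 := congrArg Complex.re h
  have h2 := congrArg Complex.im h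
  unfold mv at h1 h2
  split_ifs at h1 h2 with c1 c2 c3 c4 c5 c6 c7 c8 <;> simp only [natCast_re, natCast_im] at h1 h2
  · omega
  · exfalso
    have e : s = 1 / 2 := by rw [c1, c3] at h1; push_cast at h1; linarith
    rw [e] at h2
    apply hs; linarith
  · have := key s0 s1 h1 ((mul_eq_zero.1 h2).resolve_left hs)
    omega
  · exfalso
    have e : s = 1 / 2 := by rw [c4, c5] at h1; push_cast at h1; linarith
    rw [e] at h2
    apply hs; linarith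
  · omega
  · have := key (a := b) (b := a) s0 s1 (by linarith)
      ((mul_eq_zero.1 (neg_eq_zero.1 h2)).resolve_left hs)
    omega
  · have := key s0 s1 h1.symm ((mul_eq_zero.1 h2.symm).resolve_left hs)
    omega
  · have := key (a := a) (b := b) s0 s1 (by linarith)
      ((mul_eq_zero.1 (neg_eq_zero.1 h2.symm)).resolve_left hs)
    omega
  · exact_mod_cast h1

/-- the path of a letter -/
def lp (l : ι ↪ ℕ) (x : ℕ × Bool) : Path (cfg l) (cfg (swE x l)) where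
  toFun t := ⟨fun i => mv x (l i) t, fun _ _ h => l.injective (mv_inj x t.2.1 t.2.2 h)⟩
  continuous_toFun :=
    (continuous_pi fun i => (cont_mv x (l i)).comp continuous_subtype_val).subtype_mk _
  source' := Subtype.ext (funext fun i => mv_zero x (l i))
  target' := Subtype.ext (funext fun i => mv_one x (l i))

/-- the path `γ` is homotopic to the path of the word `w` -/
inductive IsW : (l l' : ι ↪ ℕ) → Word → Path (cfg l) (cfg l') → Prop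
  | nil (l : ι ↪ ℕ) (γ : Path (cfg l) (cfg l)) : γ.Homotopic (Path.refl _) → IsW l l [] γ
  | cons (l l' : ι ↪ ℕ) (x : ℕ × Bool) (w : Word) (δ : Path (cfg (swE x l)) (cfg l'))
      (γ : Path (cfg l) (cfg l')) : IsW (swE x l) l' w δ → γ.Homotopic ((lp l x).trans δ) →
      IsW l l' (x :: w) γ

/-- the positions after a word -/
def fin (l : ι ↪ ℕ) (w : Word) : ι ↪ ℕ := w.foldl (fun l x => swE x l) l

/-- the positions are the numbers less than `n` -/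
def Bij (n : ℕ) (l : ι ↪ ℕ) : Prop := ∀ q, q < n ↔ ∃ i, l i = q

/-- the letters are in range -/
def Rng (n : ℕ) (w : Word) : Prop := ∀ x ∈ w, x.1 + 1 < n

/-- `μ` is a perfect matching: its fibres have two elements -/
def Two (μ : ι → ℕ) : Prop := ∀ i, ∃ j, j ≠ i ∧ μ j = μ i ∧ ∀ j', μ j' = μ i → j' = i ∨ j' = j

/-- the segments of the matching are disjoint -/
def SC (μ : ι → ℕ) (y : X ι) : Prop :=
  ∀ i j i' j', μ i = μ j → μ i' = μ j' → μ i ≠ μ i' →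
    Disjoint (segment ℝ (y.1 i) (y.1 j)) (segment ℝ (y.1 i') (y.1 j'))

/-- the plat closure of a path: caps with tips over the midpoints -/
def plat (μb μt : ι → ℕ) {x y : X ι} (γ : Path x y) : Set E3 :=
  {p | (∃ i, ∃ t : unitInterval, p = ((γ t).1 i, (t : ℝ))) ∨
    (∃ i j, i ≠ j ∧ μb i = μb j ∧ ∃ s ∈ Icc (0 : ℝ) 1,
      p = (x.1 i + (s / 2 : ℝ) * (x.1 j - x.1 i), -s)) ∨
    ∃ i j, i ≠ j ∧ μt i = μt j ∧ ∃ s ∈ Icc (0 : ℝ) 1,
      p = (y.1 i + (s / 2 : ℝ) * (y.1 j - y.1 i), 1 + s)}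

/-- families of strands (no inputs) -/
def RowC1 : Prop :=
  ∀ (ι : Type) [Finite ι] (a b : ℝ) (Y : ι → ℝ × ℝ → ℂ), a ≤ b →
    (∀ i, ContinuousOn (Y i) (Icc 0 1 ×ˢ Icc a b)) →
    (∀ i j, ∃ (φ : ℝ → ℝ) (D : ℝ × ℝ → ℂ), ContinuousOn D (Icc 0 1 ×ˢ Icc a b) ∧
      ∀ s ∈ Icc (0 : ℝ) 1, ∀ t ∈ Icc a b, D (s, t) ≠ 0 ∧ Y i (s, t) - Y j (s, t) = φ t * D (s, t)) →
    ∃ h : E3 ≃ₜ E3, ∀ i, ∀ t ∈ Icc a b, h (Y i (0, t), t) = (Y i (1, t), t)

/-- invariance of plats (input: `RowC1`) -/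
def RowC3 : Prop :=
  ∀ (ι : Type) [Finite ι] (μb μt : ι → ℕ), Two μb → Two μt →
    (∀ (x y : X ι) (γ γ' : Path x y), SC μb x → SC μt y → γ.Homotopic γ' →
      Eqv (plat μb μt γ) (plat μb μt γ')) ∧
    (∀ (x' x y : X ι) (σ : Path x' x) (γ : Path x y), (∀ t, SC μb (σ t)) → SC μt y →
      Eqv (plat μb μt (σ.trans γ)) (plat μb μt γ)) ∧
    ∀ (x y y' : X ι) (γ : Path x y) (σ : Path y y'), SC μb x → (∀ t, SC μt (σ t)) →
      Eqv (plat μb μt (γ.trans σ)) (plat μb μt γ)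

/-- plats of words (input: `RowC3`) -/
def RowC2 : Prop :=
  ∀ (ι : Type) [Finite ι] (b : ℕ) (l l' : ι ↪ ℕ) (w : Word) (γ : Path (cfg l) (cfg l')),
    Bij (2 * b) l → Rng (2 * b) w → w ≠ [] → IsW l l' w γ →
      Eqv (plat (fun i => l i / 2) (fun i => l' i / 2) γ) (knot b w)

/-- layered configurations: points with the same real part are in different layers, in the order
of the imaginary parts -/
def Lay (la : ι → ℝ) : Set (X ι) :=
  {y | ∀ i j, i ≠ j → (y.1 i).re = (y.1 j).re → la i ≠ la j ∧ (la i < la j → (y.1 i).im < (y.1 j).im)}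

/-- the crossings of the word respect the layers -/
def Resp (la : ι → ℝ) : (ι ↪ ℕ) → Word → Prop
  | _, [] => True
  | l, x :: w => (∀ i j, l i = x.1 → l j = x.1 + 1 → if x.2 then la j < la i else la i < la j) ∧
      Resp la (swE x l) w

/-- paths of layered configurations (no inputs) -/
def RowW : Prop :=
  ∀ (ι : Type) [Finite ι] (la : ι → ℝ),
    (∀ (x y : X ι) (γ γ' : Path x y), (∀ t, γ t ∈ Lay la) → (∀ t, γ' t ∈ Lay la) →
      γ.Homotopic γ') ∧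
    ∀ (l l' : ι ↪ ℕ) (w : Word), Resp la l w → l' = fin l w →
      ∀ γ : Path (cfg l) (cfg l'), (∀ t, γ t ∈ Lay la) → IsW l l' w γ

/-- every path is the path of a word (input: `RowW`) -/
def RowG : Prop :=
  ∀ (ι : Type) [Finite ι] (n : ℕ) (l l' : ι ↪ ℕ), Bij n l → Bij n l' →
    ∀ γ : Path (cfg l) (cfg l'), ∃ w, Rng n w ∧ IsW l l' w γ

/-- the positions of the edges of the bands -/
def dbl (l : ι ↪ ℕ) : ι × Bool ↪ ℕ :=
  ⟨fun a => 2 * l a.1 + a.2.toNat, by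
    rintro ⟨i, e⟩ ⟨j, e'⟩ h
    have h' : 2 * l i + e.toNat = 2 * l j + e'.toNat := h
    clear h
    have h1 : l i = l j := by
      have := Bool.toNat_le e
      have := Bool.toNat_le e'
      omega
    have h2 : e = e' := by cases e <;> cases e' <;> simp at h' ⊢ <;> omega
    rw [l.injective h1, h2]⟩

/-- pairs of half twists of bands -/
def twists (T : List (ℕ × Bool × Bool)) : Word :=
  T.flatMap fun x => [(2 * x.1, x.2.1), (2 * x.1, x.2.2)]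

/-- a path of configurations, with a constant small vector -/
def ParP (γ : unitInterval → X ι) (δ : ℝ) (Γ : unitInterval → X (ι × Bool)) : Prop :=
  ∀ t i, (Γ t).1 (i, false) = 2 * (γ t).1 i + (1 / 2 - δ : ℝ) ∧
    (Γ t).1 (i, true) = 2 * (γ t).1 i + (1 / 2 + δ : ℝ)

/-- the path that makes the bands thin -/
def Thin (l : ι ↪ ℕ) (δ : ℝ) (σ : unitInterval → X (ι × Bool)) : Prop :=
  ∀ t i, (σ t).1 (i, false) = ((2 * l i + t * (1 / 2 - δ) : ℝ) : ℂ) ∧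
    (σ t).1 (i, true) = ((2 * l i + 1 - t * (1 / 2 - δ) : ℝ) : ℂ)

/-- parallel copies of a path (input: `RowW`) -/
def RowD1 : Prop :=
  ∀ (ι : Type) [Finite ι] (n : ℕ) (l l' : ι ↪ ℕ) (w : Word) (γ : Path (cfg l) (cfg l')),
    Bij n l → Rng n w → IsW l l' w γ → ∃ δ0 : ℝ, 0 < δ0 ∧ ∀ δ ∈ Ioc (0 : ℝ) δ0,
      ∀ (x y : X (ι × Bool)) (σ : Path (cfg (dbl l)) x) (Γ : Path x y) (σ' : Path (cfg (dbl l')) y),
        Thin l δ σ → ParP γ δ Γ → Thin l' δ σ' →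
          IsW (dbl l) (dbl l') (cable w) (σ.trans (Γ.trans σ'.symm))

/-- paths of bands (inputs: `RowW`, `RowG`, `RowD1`) -/
def RowD : Prop :=
  ∀ (ι : Type) [Finite ι] (n : ℕ) (l l' : ι ↪ ℕ), Bij n l → Bij n l' →
    ∀ γ : Path (cfg (dbl l)) (cfg (dbl l')), (∀ t, SC (fun a => l a.1) (γ t)) →
      ∃ W T, Rng n W ∧ fin l W = l' ∧ (∀ x ∈ T, x.1 < n) ∧
        IsW (dbl l) (dbl l') (cable W ++ twists T) γ

/-- the knot depends only on the braid (inputs: `RowW`, `RowC2`) -/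
def RowBr : Prop :=
  ∀ (b : ℕ) (w w' : Word), Rng (2 * b) w → Rng (2 * b) w' → w ≠ [] → w' ≠ [] →
    toBraid (2 * b) w = toBraid (2 * b) w' → Eqv (knot b w) (knot b w')

/-- a cap is turned, two caps are exchanged (inputs: `RowW`, `RowC2`, `RowC3`) -/
def RowF1 : Prop :=
  ∀ (b : ℕ) (u : Word) (q : ℕ) (e : Bool), Rng (2 * b) u → u ≠ [] → q % 2 = 0 →
    (q + 1 < 2 * b → Eqv (knot b (u ++ [(q, e)])) (knot b u)) ∧
    (q + 3 < 2 * b → Eqv (knot b (u ++ [(q + 1, e), (q + 2, e), (q, e), (q + 1, e)])) (knot b u))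

/-- a finger is pulled back: all points but `a` are fixed, `a` moves in a convex set that contains
only the points of one cap (inputs: `RowC1`, `RowC3`) -/
def RowF0 : Prop :=
  ∀ (ι : Type) [Finite ι] (μb μt : ι → ℕ), Two μb → Two μt →
    ∀ (x y : X ι) (γ : Path x y) (δ : Path y y) (a b b' : ι) (R : Set ℂ), SC μb x → SC μt y →
      μt b = μt b' → b ≠ b' → μt a ≠ μt b → Convex ℝ R → IsCompact R →
      (∀ t i, i ≠ a → (δ t).1 i = y.1 i) → (∀ t, (δ t).1 a ∈ R) →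
      (∀ t, (δ t).1 a ∉ segment ℝ (y.1 b) (y.1 b')) →
      (∀ i, y.1 i ∈ R → i = a ∨ i = b ∨ i = b') →
      Eqv (plat μb μt (γ.trans δ)) (plat μb μt γ)

/-- a strand turns around a cap (inputs: `RowW`, `RowC2`, `RowF0`) -/
def RowF2 : Prop :=
  ∀ (b : ℕ) (u : Word) (q : ℕ) (e : Bool), Rng (2 * b) u → u ≠ [] → q % 2 = 0 → q + 3 < 2 * b →
    Eqv (knot b (u ++ [(q + 1, e), (q + 2, e), (q + 2, e), (q + 1, e)])) (knot b u)

/-- full twists of the bands become curls (inputs: `RowBr`, `RowF1`, `RowF2`) -/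
def RowK : Prop :=
  ∀ (n : ℕ) (T : List (ℕ × Bool × Bool)), 0 < n → (∀ x ∈ T, x.1 < 2 * n) →
    ∃ κ : Word, (∀ x ∈ κ, x.1 % 2 = 0 ∧ x.1 + 1 < 2 * n) ∧ ∀ u, Rng (4 * n) u →
      Eqv (knot (2 * n) (u ++ (twists T ++ inverse (nest 0 n))))
        (knot (2 * n) (u ++ (cable κ ++ inverse (nest 0 n))))

/-- a parallelogram -/
def par (p : ℂ × ℂ × ℂ) : Set ℂ :=
  {z | ∃ s ∈ Icc (0 : ℝ) 1, ∃ r ∈ Icc (-1 : ℝ) 1, z = p.1 + s * (p.2.1 - p.1) + r * p.2.2}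

/-- disjoint parallelograms outside `B` -/
def PC (ι : Type) (B : Set ℂ) : Set (ι → ℂ × ℂ × ℂ) :=
  {p | (∀ i, 0 < det ((p i).2.1 - (p i).1) (p i).2.2) ∧ (∀ i, Disjoint (par (p i)) B) ∧
    ∀ i j, i ≠ j → Disjoint (par (p i)) (par (p j))}

/-- the space of parallelograms is connected (no inputs) -/
def RowCl : Prop :=
  ∀ (ι : Type) [Finite ι] (B : Set ℂ), IsCompact B → Convex ℝ B →
    ∀ p ∈ PC ι B, ∀ q ∈ PC ι B, JoinedIn (PC ι B) p q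

/-- the pieces of the bands -/
abbrev Bn (k : ℕ) : Type := Fin 4 × Fin (2 * k)

/-- the strands -/
abbrev Lb (k : ℕ) : Type := Bn k × Bool

/-- the positions of the pieces at the top -/
def lT (k : ℕ) : Bn k ↪ ℕ :=
  ⟨fun b => 2 * k * b.1.val + b.2.val, by
    rintro ⟨j, r⟩ ⟨j', r'⟩ h
    have h' : 2 * k * j.val + r.val = 2 * k * j'.val + r'.val := h
    have h1 := r.2
    have h2 := r'.2
    have h3 : j = j' := by
      fin_cases j <;> fin_cases j' <;> simp at h' ⊢ <;> omega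
    subst h3
    exact Prod.ext rfl (Fin.ext (by simpa using h'))⟩

/-- the positions of the pieces at the bottom -/
def lB (k : ℕ) : Bn k ↪ ℕ := swE (2 * k - 1, false) (swE (6 * k - 1, false) (lT k))

/-- the matching at the top -/
def mT (k : ℕ) (a : Lb k) : ℕ :=
  2 * (k * a.1.1.val + a.1.2.val / 2) + (a.1.2.val + a.2.toNat) % 2

/-- the numbers of the ends of the bands on the disc -/
def fS : Fin 4 → ℕ := ![0, 1, 4, 5]

/-- the numbers of the ends of the bands on the disc -/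
def fE : Fin 4 → ℕ := ![2, 3, 6, 7]

/-- the matching at the bottom -/
def mB (k : ℕ) (a : Lb k) : ℕ :=
  if a.1.2.val = 0 then (2 * fS a.1.1 + a.2.toNat + 1) / 2 % 8
  else if a.1.2.val + 1 = 2 * k then (2 * fE a.1.1 + a.2.toNat + 1) / 2 % 8
  else 8 + 2 * (k * a.1.1.val + (a.1.2.val + 1) / 2) + (a.1.2.val + a.2.toNat) % 2

/-- the four strands of the pieces `b`, `b'` are at the corners of the parallelogram `p` -/
def Cor {k : ℕ} (y : X (Lb k)) (b b' : Bn k) (p : ℂ × ℂ × ℂ) : Prop :=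
  y.1 (b, false) = p.1 - p.2.2 ∧ y.1 (b, true) = p.1 + p.2.2 ∧
    y.1 (b', false) = p.2.1 + p.2.2 ∧ y.1 (b', true) = p.2.1 - p.2.2

/-- the shape at the top -/
def Top (k : ℕ) (y : X (Lb k)) : Prop :=
  ∃ p ∈ PC (Fin 4 × Fin k) ∅, ∀ j (i : Fin k) (r r' : Fin (2 * k)), r.val = 2 * i.val →
    r'.val = 2 * i.val + 1 → Cor y (j, r) (j, r') (p (j, i))

/-- the shape of the sixteen points on the boundary of the disc -/
def DS (s : ℕ → ℂ) : Prop :=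
  (s 0).im = (s 15).im ∧ (s 0).re < (s 15).re ∧ (s 0).im < (s 1).im ∧
    ∀ n, 1 ≤ n → n < 14 → (s n).im = (s (n + 1)).im ∧ (s n).re < (s (n + 1)).re

/-- the shape at the bottom -/
def Bot (k : ℕ) (y : X (Lb k)) : Prop :=
  ∃ s : ℕ → ℂ, DS s ∧ (∀ n < 16, s n ∈ Box) ∧
    (∀ j (r : Fin (2 * k)) (e : Bool), (r.val = 0 → y.1 ((j, r), e) = s (2 * fS j + e.toNat)) ∧
      (r.val + 1 = 2 * k → y.1 ((j, r), e) = s (2 * fE j + e.toNat))) ∧
    ∃ p ∈ PC (Fin 4 × Fin (k - 1)) Box, ∀ j (i : Fin (k - 1)) (r r' : Fin (2 * k)),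
      r.val = 2 * i.val + 1 → r'.val = 2 * i.val + 2 → Cor y (j, r) (j, r') (p (j, i))

/-- the knot is a plat (input: `RowC1`) -/
def RowX2 : Prop :=
  ∀ k T c u, 0 < k → SD k T c u → ∀ ε0 : ℝ, 0 < ε0 → ∃ ε ∈ Ioc (0 : ℝ) ε0,
    ∃ (x y : X (Lb k)) (γ : Path x y), Eqv (sides ε ∪ wedge ε ∪ BS k T c u ε)
      (plat (mB k) (mT k) γ) ∧ (∀ t, SC (fun a => lT k a.1) (γ t)) ∧ Bot k x ∧ Top k y

/-- the layers at the top -/
def laT (k : ℕ) (a : Lb k) : ℝ := if (a.1.2.val + a.2.toNat) % 2 = 0 then -1 else 1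

/-- the layers at the bottom -/
def laB (k : ℕ) (a : Lb k) : ℝ :=
  if mB k a = 0 then -3 else if mB k a < 8 then -2
  else if (a.1.2.val + a.2.toNat) % 2 = 1 then -1 else 1

/-- positions along the words at the top and at the bottom (no inputs) -/
def RowTB : Prop :=
  ∀ k, 0 < k → Bij (8 * k) (lT k) ∧ Bij (8 * k) (lB k) ∧ Bij (16 * k) (dbl (lT k)) ∧
    Bij (16 * k) (dbl (lB k)) ∧ Rng (16 * k) (bottom k) ∧ Rng (16 * k) (inverse (nest 0 (4 * k))) ∧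
    (∃ l1 : Lb k ↪ ℕ, Bij (16 * k) l1 ∧ l1 = fin (dbl (lT k)) (inverse (nest 0 (4 * k))) ∧
      Resp (laT k) (dbl (lT k)) (inverse (nest 0 (4 * k))) ∧
      (∀ a a', l1 a / 2 = l1 a' / 2 ↔ mT k a = mT k a') ∧
      ∀ a a', laT k a = laT k a' → (l1 a < l1 a' ↔ dbl (lT k) a < dbl (lT k) a')) ∧
    ∃ l0 : Lb k ↪ ℕ, Bij (16 * k) l0 ∧ dbl (lB k) = fin l0 (bottom k) ∧
      Resp (laB k) l0 (bottom k) ∧ (∀ a a', l0 a / 2 = l0 a' / 2 ↔ mB k a = mB k a') ∧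
      ∀ a a', laB k a = laB k a' → (l0 a < l0 a' ↔ dbl (lB k) a < dbl (lB k) a')

/-- the top (inputs: `RowW`, `RowCl`, `RowTB`) -/
def RowTop : Prop :=
  ∀ k, 0 < k → ∀ y : X (Lb k), Top k y → ∃ (l1 : Lb k ↪ ℕ) (σ : Path y (cfg l1))
    (δ : Path y (cfg (dbl (lT k)))), Bij (16 * k) l1 ∧
      (∀ a a', l1 a / 2 = l1 a' / 2 ↔ mT k a = mT k a') ∧ (∀ t, SC (mT k) (σ t)) ∧
      (∀ t, SC (fun a => lT k a.1) (δ t)) ∧
      IsW (dbl (lT k)) l1 (inverse (nest 0 (4 * k))) (δ.symm.trans σ)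

/-- the bottom (inputs: `RowW`, `RowCl`, `RowTB`) -/
def RowBot : Prop :=
  ∀ k, 0 < k → ∀ x : X (Lb k), Bot k x → ∃ (l0 : Lb k ↪ ℕ) (σ : Path (cfg l0) x)
    (δ : Path (cfg (dbl (lB k))) x), Bij (16 * k) l0 ∧
      (∀ a a', l0 a / 2 = l0 a' / 2 ↔ mB k a = mB k a') ∧ (∀ t, SC (mB k) (σ t)) ∧
      (∀ t, SC (fun a => lT k a.1) (δ t)) ∧
      IsW l0 (dbl (lB k)) (bottom k) (σ.trans δ.symm)

/-- words with the trivial permutation are pure braids; cables (no inputs) -/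
def RowW4 : Prop :=
  (∀ (N : ℕ) (w : Word), Rng N w → (∀ s, w.foldl (fun q x => sw x q) s = s) →
    toBraid N w ∈ Tw N 1) ∧
  ∀ (N : ℕ) (w : Word), Rng N w → Rng (2 * N) (cable w) ∧
    toBraid (2 * N) (cable (inverse w)) = (toBraid (2 * N) (cable w))⁻¹

end Vale.Agent.Q258U
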