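import Vale.Agent.Q258U.S3b

/-!
# Row S3a, first part: transversality and injectivity
-/

set_option linter.all false

namespace Vale.Agent.Q258U.S3a

open Set Complex S3b

/-- a quantitative frame -/
def Fr (c : ℝ) (Q1 Q2 : E3) : Prop := ∀ a b : ℝ, c * (|a| + |b|) ≤ 30 * ‖a • Q1 + b • Q2‖

theorem ind_of {c η r1 r2 r3 : ℝ} {Q1 Q2 e1 e2 V : E3} (H : Fr c Q1 Q2) (hc : 30 * η < c)
    (p1 : 0 < r1) (p2 : 0 < r2) (p3 : 0 < r3) (h1 : ‖e1 - r1 • Q1‖ ≤ η * r1)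
    (h2 : ‖e2 - r2 • Q1‖ ≤ η * r2) (h3 : ‖V - r3 • Q2‖ ≤ η * r3) : Ind e1 e2 V := by
  intro a b d a0 b0 h
  have k := H (a * r1 + b * r2) (d * r3)
  have e : (a * r1 + b * r2) • Q1 + (d * r3) • Q2 =
      (a • e1 + b • e2 + d • V) - (a • (e1 - r1 • Q1) + b • (e2 - r2 • Q1) + d • (V - r3 • Q2)) := by
    module
  have A0 : 0 ≤ a * r1 := by positivity
  have B0 : 0 ≤ b * r2 := by positivity
  have D0 : 0 ≤ |d| * r3 := by positivity
  rw [e, h, zero_sub, norm_neg, abs_of_nonneg (by positivity), abs_mul, abs_of_pos p3] at k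
  have n : ‖a • (e1 - r1 • Q1) + b • (e2 - r2 • Q1) + d • (V - r3 • Q2)‖ ≤
      η * (a * r1 + b * r2 + |d| * r3) := by
    refine (norm_add₃_le).trans ?_
    rw [norm_smul, norm_smul, norm_smul, Real.norm_of_nonneg a0, Real.norm_of_nonneg b0,
      Real.norm_eq_abs]
    nlinarith [mul_le_mul_of_nonneg_left h1 a0, mul_le_mul_of_nonneg_left h2 b0,
      mul_le_mul_of_nonneg_left h3 (abs_nonneg d)]
  have z : a * r1 + b * r2 + |d| * r3 ≤ 0 := by
    by_contra hz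
    push Not at hz
    nlinarith [mul_lt_mul_of_pos_right hc hz]
  refine ⟨?_, ?_, ?_⟩
  · exact (mul_eq_zero.1 (by linarith : a * r1 = 0)).resolve_right p1.ne'
  · exact (mul_eq_zero.1 (by linarith : b * r2 = 0)).resolve_right p2.ne'
  · exact abs_eq_zero.1 ((mul_eq_zero.1 (by linarith : |d| * r3 = 0)).resolve_right p3.ne')

theorem ind_smul {l : ℝ} {e1 e2 V : E3} (h : Ind (l • e1) (l • e2) (l • V)) : Ind e1 e2 V := by
  intro a b d a0 b0 k
  refine h a b d a0 b0 ?_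
  have : a • l • e1 + b • l • e2 + d • l • V = l • (a • e1 + b • e2 + d • V) := by module
  rw [this, k, smul_zero]

/-- a lower bound for the differential -/
theorem low {F : ℝ × ℝ → E3} {S : Set (ℝ × ℝ)} {c η δ ρ : ℝ} (hU : US F η δ)
    (b : ∀ x ∈ S, ∀ y ∈ S, c * ‖x - y‖ ≤ ‖F x - F y‖) {x : ℝ × ℝ} (hx : ‖x‖ ≤ 60) (ρ0 : 0 < ρ)
    (ρδ : ρ ≤ δ) (hS : ∀ y, ‖y - x‖ ≤ ρ → y ∈ S) (v : ℝ × ℝ) :
    (c - η) * ‖v‖ ≤ ‖fderiv ℝ F x v‖ := by
  by_cases hv : v = 0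
  · simp [hv]
  have v0 : 0 < ‖v‖ := norm_pos_iff.2 hv
  have s0 : 0 < ρ / ‖v‖ := by positivity
  have n : ‖x + (ρ / ‖v‖) • v - x‖ ≤ ρ := by
    rw [add_sub_cancel_left, norm_smul, Real.norm_of_nonneg s0.le, div_mul_cancel₀ _ v0.ne']
  have z : ‖x - x‖ ≤ ρ := by simp [ρ0.le]
  have k1 := (hU x hx).2 _ _ (n.trans ρδ) (z.trans ρδ)
  have k2 := b _ (hS _ n) _ (hS _ z)
  rw [add_sub_cancel_left] at k1 k2
  rw [map_smul] at k1
  have k3 := norm_sub_norm_le (F (x + (ρ / ‖v‖) • v) - F x) ((ρ / ‖v‖) • fderiv ℝ F x v)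
  rw [norm_smul, Real.norm_of_nonneg s0.le] at k1 k2 k3
  refine le_of_mul_le_mul_left ?_ s0
  nlinarith

theorem fr_end {A : ℝ × ℝ →L[ℝ] E3} {c p κ : ℝ} (c0 : 0 ≤ c) (h : ∀ v, c * ‖v‖ ≤ ‖A v‖)
    (p0 : 0 ≤ p) (p1 : p ≤ 28) (hκ : |κ| = 1) : Fr c (A (κ * p, κ)) (κ • A (1, 0)) := by
  intro a b
  have e : a • A (κ * p, κ) + b • κ • A (1, 0) = A (κ * (a * p + b), κ * a) := by
    rw [← map_smul, ← map_smul, ← map_smul, ← map_add]
    congr 1
    ext <;> simp <;> ring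
  have k := h (κ * (a * p + b), κ * a)
  rw [norm_pr, abs_mul, abs_mul, hκ, one_mul, one_mul] at k
  have m1 := le_max_left |a * p + b| |a|
  have m2 := le_max_right |a * p + b| |a|
  have m3 : |b| ≤ |a * p + b| + |a| * 28 := by
    have := abs_sub (a * p + b) (a * p)
    rw [add_sub_cancel_left, abs_mul, abs_of_nonneg p0] at this
    nlinarith [abs_nonneg a]
  rw [e]
  nlinarith [mul_le_mul_of_nonneg_left (by linarith : |a| + |b| ≤ 30 * max |a * p + b| |a|) c0]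

theorem fr_mid {A : ℝ × ℝ →L[ℝ] E3} {c : ℝ} (c0 : 0 ≤ c) (h : ∀ v, c * ‖v‖ ≤ ‖A v‖) :
    Fr c (A (1, 0)) (A (0, 1)) := by
  intro a b
  have e : a • A (1, 0) + b • A (0, 1) = A (a, b) := by
    rw [← map_smul, ← map_smul, ← map_add]
    congr 1
    ext <;> simp
  have k := h (a, b)
  rw [norm_pr] at k
  have m1 := le_max_left |a| |b|
  have m2 := le_max_right |a| |b|
  have := abs_nonneg a
  rw [e]
  nlinarith [mul_le_mul_of_nonneg_left (by linarith : |a| + |b| ≤ 30 * max |a| |b|) c0]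

theorem edge_est {F : ℝ × ℝ → E3} {η δ l : ℝ} (hU : US F η δ) (hη : 0 ≤ η) (l0 : 0 < l)
    {x y z u : ℝ × ℝ} (hx : ‖x‖ ≤ 60) (hy : ‖y - x‖ ≤ δ) (hz : ‖z - x‖ ≤ δ) (e : y - z = l • u)
    (hu : ‖u‖ ≤ 29) {c0 c1 : E3} (h0 : ‖c0 - F z‖ ≤ η * (60 * l)) (h1 : ‖c1 - F y‖ ≤ η * (60 * l)) :
    ‖c1 - c0 - l • fderiv ℝ F x u‖ ≤ 149 * η * l := by
  have k := (hU x hx).2 y z hy hz
  rw [e, map_smul, norm_smul l u, Real.norm_of_nonneg l0.le] at k
  have e2 : c1 - c0 - l • fderiv ℝ F x u =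
      (c1 - F y) - (c0 - F z) + (F y - F z - l • fderiv ℝ F x u) := by abel
  rw [e2]
  have k2 : η * (l * ‖u‖) ≤ η * (l * 29) := by gcongr
  linarith [norm_add_le ((c1 - F y) - (c0 - F z)) (F y - F z - l • fderiv ℝ F x u),
    norm_sub_le (c1 - F y) (c0 - F z)]

theorem ball_tri {p t δ : ℝ} (p0 : 0 ≤ p) (p1 : p ≤ 28) (t0 : 0 < t) (t1 : t ≤ 1) (y : ℝ × ℝ)
    (hy : ‖y - (t * p, t)‖ ≤ min (t / 30) δ) : y ∈ tri := by
  obtain ⟨a, b⟩ := y
  rw [Prod.mk_sub_mk, norm_pr] at hy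
  have h1 := abs_le.1 ((le_max_left _ _).trans (hy.trans (min_le_left _ _)))
  have h2 := abs_le.1 ((le_max_right _ _).trans (hy.trans (min_le_left _ _)))
  refine ⟨?_, ?_, ?_⟩ <;> dsimp only <;> nlinarith

theorem near_ray {p a t l δ : ℝ} (p0 : 0 ≤ p) (p1 : p ≤ 28) (lδ : 100 * l ≤ δ)
    (h : |a - t| ≤ 3 * l) : ‖((a * p, a) : ℝ × ℝ) - (t * p, t)‖ ≤ δ := by
  rw [Prod.mk_sub_mk, norm_pr, ← sub_mul, abs_mul, abs_of_nonneg p0]
  have := abs_nonneg (a - t)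
  exact max_le (by nlinarith) (by linarith)

variable {f : ℝ × ℝ → E3} {g : Fin 4 → ℝ × ℝ → E3} {N : ℕ}

theorem frame (hS : Surface f g) (hn : Nrm f g) (hN : 4 ≤ N) {c η δ : ℝ} (hη : 0 ≤ η)
    (hc : η ≤ c) (hU : US f η δ) (hV : ∀ j, US (g j) η δ) (lδ : 100 * msh N ≤ δ) (δ1 : δ ≤ 1)
    (b1 : ∀ x ∈ tri, ∀ y ∈ tri, c * ‖x - y‖ ≤ ‖f x - f y‖)
    (b2 : ∀ j, ∀ x ∈ wide, ∀ y ∈ wide, c * ‖x - y‖ ≤ ‖g j x - g j y‖)
    (j : Fin 4) {t : ℝ} (t0 : 0 < t) (t5 : t < 5) : ∃ Q1 Q2, Fr (c - η) Q1 Q2 ∧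
      (∀ k ≤ N + 1, |k * msh N - t| ≤ msh N →
        ‖cc g N j (k + 1) - cc g N j k - msh N • Q1‖ ≤ 149 * η * msh N) ∧
      ∀ k, 1 ≤ k → k ≤ N + 1 → |k * msh N - t| ≤ msh N →
        ∃ r, 0 < r ∧ ‖ww g N j k - r • Q2‖ ≤ η * r := by
  have l0 := msh_pos N
  have e5 := msh_mul N
  have δ0 : 0 < δ := by linarith
  have ov := (hS.2.2.2 j).2.2.1
  have z : (0 : ℝ) ∈ Icc (-1 : ℝ) 1 := ⟨by norm_num, by norm_num⟩
  have a2 : ∀ k : ℕ, ((k + 1 : ℕ) : ℝ) * msh N = k * msh N + msh N := fun k => by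
    push_cast; ring
  have a3 : ∀ k : ℕ, 0 ≤ k * msh N := fun k => by positivity
  have a4 : ∀ k ≤ N + 1, k * msh N + msh N ≤ 5 := fun k hk => by
    rw [← a2, ← e5]
    exact mul_le_mul_of_nonneg_right (Nat.cast_le.2 (by omega)) l0.le
  have cn := fun k hk => cc_near hS hn hN hη hU lδ (by linarith) j (k := k) hk
  by_cases h1 : t ≤ 1
  · have p := pS_mem j
    have hx : ‖((t * pS j, t) : ℝ × ℝ)‖ ≤ 60 :=
      (ray_norm (by linarith) (by linarith) t0.le).trans (by linarith)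
    refine ⟨_, _, fr_end (κ := 1) (by linarith) (low hU b1 hx (lt_min (by positivity) δ0)
      (min_le_right _ _) (ball_tri p.1 p.2 t0 h1)) p.1 p.2 abs_one, fun k hk h => ?_,
      fun k k1 hk h => ?_⟩
    · have h' := abs_le.1 h
      have c0 := cn k (by omega)
      have c1 := cn (k + 1) (by omega)
      rw [(ov _ ⟨a3 _, by linarith⟩ 0 z).1, add_zero] at c0
      rw [(ov _ ⟨a3 _, by rw [a2]; linarith⟩ 0 z).1, add_zero, a2] at c1
      refine edge_est hU hη l0 hx (near_ray p.1 p.2 lδ (abs_le.2 ⟨by linarith, by linarith⟩))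
        (near_ray p.1 p.2 lδ (abs_le.2 ⟨by linarith, by linarith⟩)) ?_ ?_ c0 c1
      · ext <;> simp <;> ring
      · rw [norm_pr]
        exact max_le (abs_le.2 ⟨by linarith, by linarith⟩) (by norm_num)
    · have h' := abs_le.1 h
      obtain ⟨τ, d1, d2, d3⟩ := ww_S hS hn hN j (k := k) (by linarith)
      have k0 : (0 : ℝ) < k := by exact_mod_cast k1
      exact ⟨k * msh N, by positivity, wnear hU lδ p.1 p.2 t0.le h1 (a3 k)
        (abs_le.2 ⟨by linarith, by linarith⟩) abs_one d3⟩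
  by_cases h2 : 4 ≤ t
  · have p := pE_mem j
    have s0 : 0 < 5 - t := by linarith
    have s1 : 5 - t ≤ 1 := by linarith
    have κ : |(-1 : ℝ)| = 1 := by simp
    have hx : ‖(((5 - t) * pE j, 5 - t) : ℝ × ℝ)‖ ≤ 60 :=
      (ray_norm (by linarith) (by linarith) s0.le).trans (by linarith)
    refine ⟨_, _, fr_end (κ := -1) (by linarith) (low hU b1 hx (lt_min (by positivity) δ0)
      (min_le_right _ _) (ball_tri p.1 p.2 s0 s1)) p.1 p.2 κ, fun k hk h => ?_,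
      fun k k1 hk h => ?_⟩
    · have h' := abs_le.1 h
      have a5 := a4 k hk
      have c0 := cn k (by omega)
      have c1 := cn (k + 1) (by omega)
      have o0 := (ov (5 - k * msh N) ⟨by linarith, by linarith⟩ 0 z).2
      have o1 := (ov (5 - (k * msh N + msh N)) ⟨by linarith, by linarith⟩ 0 z).2
      rw [sub_sub_cancel, sub_zero] at o0 o1
      rw [o0] at c0
      rw [a2, o1] at c1
      refine edge_est hU hη l0 hx (near_ray p.1 p.2 lδ (abs_le.2 ⟨by linarith, by linarith⟩))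
        (near_ray p.1 p.2 lδ (abs_le.2 ⟨by linarith, by linarith⟩)) ?_ ?_ c0 c1
      · ext <;> simp <;> ring
      · rw [norm_pr]
        exact max_le (abs_le.2 ⟨by linarith, by linarith⟩) (by norm_num)
    · have h' := abs_le.1 h
      have a5 := a4 k hk
      obtain ⟨τ, d1, d2, d3⟩ := ww_E hS hn hN j (k := k) (by omega) (by linarith)
      exact ⟨5 - k * msh N, by linarith, wnear hU lδ p.1 p.2 s0.le s1 (by linarith)
        (abs_le.2 ⟨by linarith, by linarith⟩) κ d3⟩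
  · push Not at h1 h2
    have t60 : |t| ≤ 60 := abs_le.2 ⟨by linarith, by linarith⟩
    have hx : ‖((t, 0) : ℝ × ℝ)‖ ≤ 60 := by
      rw [norm_pr, abs_zero]; exact max_le t60 (by norm_num)
    have nr : ∀ a : ℝ, |a - t| ≤ δ → ‖((a, 0) : ℝ × ℝ) - (t, 0)‖ ≤ δ := fun a ha => by
      rw [Prod.mk_sub_mk, norm_pr, sub_self, abs_zero]
      exact max_le ha δ0.le
    refine ⟨_, _, fr_mid (by linarith) (low (ρ := min (min (t - 1) (4 - t)) δ) (hV j) (b2 j) hx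
      (lt_min (lt_min (by linarith) (by linarith)) δ0) (min_le_right _ _) ?_), fun k hk h => ?_,
      fun k k1 hk h => ?_⟩
    · rintro ⟨a, b⟩ hy
      rw [Prod.mk_sub_mk, norm_pr, sub_zero] at hy
      have u1 := abs_le.1 ((le_max_left _ _).trans (hy.trans
        ((min_le_left _ _).trans (min_le_left _ _))))
      have u2 := abs_le.1 ((le_max_left _ _).trans (hy.trans
        ((min_le_left _ _).trans (min_le_right _ _))))
      have u3 := abs_le.1 ((le_max_right _ _).trans (hy.trans (min_le_right _ _)))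
      exact ⟨⟨by dsimp only; linarith, by dsimp only; linarith⟩,
        ⟨by dsimp only; linarith, by dsimp only; linarith⟩⟩
    · have h' := abs_le.1 h
      have c0 := cn k (by omega)
      have c1 := cn (k + 1) (by omega)
      rw [a2] at c1
      refine edge_est (hV j) hη l0 hx (nr _ (abs_le.2 ⟨by linarith, by linarith⟩))
        (nr _ (abs_le.2 ⟨by linarith, by linarith⟩)) ?_ (by rw [n10]; norm_num) c0 c1
      ext <;> simp
    · have h' := abs_le.1 h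
      have k3 : 3 ≤ k := by
        have : (3 : ℝ) ≤ k := by
          refine le_of_mul_le_mul_right ?_ l0
          linarith
        exact_mod_cast this
      have k4 : k + 1 ≤ N := by
        have : (k + 4 : ℝ) ≤ (N + 2 : ℕ) := by
          refine le_of_mul_le_mul_right ?_ l0
          linarith
        have : k + 4 ≤ N + 2 := by exact_mod_cast this
        omega
      rw [ww_in j k3 k4]
      exact ⟨1, one_pos, wmid (hV j) t60 (abs_le.2 ⟨by linarith, by linarith⟩)⟩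

/-- the perturbed cores are disjoint and embedded -/
theorem inj_core (hS : Surface f g) {c η : ℝ} (hη : 0 ≤ η) (hc : 20 * η < c)
    (b1 : ∀ x ∈ tri, ∀ y ∈ tri, c * ‖x - y‖ ≤ ‖f x - f y‖)
    (b2 : ∀ j, ∀ x ∈ wide, ∀ y ∈ wide, c * ‖x - y‖ ≤ ‖g j x - g j y‖)
    (b3 : ∀ i j, i ≠ j → ∀ x ∈ wide, ∀ y ∈ wide, c ≤ ‖g i x - g j y‖)
    (b4 : ∀ j, ∀ x ∈ tri, x.2 ≤ 1 → ∀ y ∈ mid, c ≤ ‖f x - g j y‖) {E : Fin 4 → ℝ → E3}
    (p1 : ∀ j, ∀ t ∈ Icc (0 : ℝ) 5, ∀ t' ∈ Icc (0 : ℝ) 5, ‖E j t - E j t'‖ ≤ η * |t - t'|)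
    (p0 : ∀ j, E j 0 = 0 ∧ E j 5 = 0) {i j : Fin 4} {t t' : ℝ} (ht : t ∈ Ioo (0 : ℝ) 5)
    (ht' : t' ∈ Ioo (0 : ℝ) 5) (h : ‖g i (t, 0) - g j (t', 0)‖ = ‖E i t - E j t'‖) :
    i = j ∧ t = t' := by
  have z : (0 : ℝ) ∈ Icc (-1 : ℝ) 1 := ⟨by norm_num, by norm_num⟩
  have I0 : (0 : ℝ) ∈ Icc (0 : ℝ) 5 := ⟨le_rfl, by norm_num⟩
  have I5 : (5 : ℝ) ∈ Icc (0 : ℝ) 5 := ⟨by norm_num, le_rfl⟩
  have n0 : ∀ j, ∀ t ∈ Ioo (0 : ℝ) 5, ‖E j t‖ ≤ η * t := fun j t ht => by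
    have := p1 j t (Ioo_subset_Icc_self ht) 0 I0
    rwa [(p0 j).1, sub_zero, sub_zero, abs_of_pos ht.1] at this
  have n5 : ∀ j, ∀ t ∈ Ioo (0 : ℝ) 5, ‖E j t‖ ≤ η * (5 - t) := fun j t ht => by
    have := p1 j t (Ioo_subset_Icc_self ht) 5 I5
    rwa [(p0 j).2, sub_zero, abs_sub_comm, abs_of_pos (by linarith [ht.2])] at this
  have ends : ∀ j, ∀ t ∈ Ioo (0 : ℝ) 5, ∀ a ≤ (2 : ℝ), t ≤ a ∨ 5 - a ≤ t →
      ∃ b τ, 0 < τ ∧ τ ≤ a ∧ g j (t, 0) = f (τ * pos (j, b), τ) ∧ ‖E j t‖ ≤ η * τ ∧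
        t = if b then 5 - τ else τ := fun j t ht a a2 h => by
    rcases h with h | h
    · refine ⟨false, t, ht.1, h, ?_, n0 j t ht, rfl⟩
      rw [((hS.2.2.2 j).2.2.1 t ⟨ht.1.le, h.trans a2⟩ 0 z).1, add_zero]; rfl
    · refine ⟨true, 5 - t, by linarith [ht.2], by linarith, ?_, n5 j t ht, by simp⟩
      have := ((hS.2.2.2 j).2.2.1 (5 - t) ⟨by linarith [ht.2], by linarith⟩ 0 z).2
      rw [sub_sub_cancel, sub_zero] at this
      rw [this]; rfl
  have same : ∀ j, ∀ t ∈ Ioo (0 : ℝ) 5, ∀ t' ∈ Ioo (0 : ℝ) 5, c * |t - t'| ≤ ‖E j t - E j t'‖ →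
      t = t' := fun j t ht t' ht' k => by
    have k2 := p1 j t (Ioo_subset_Icc_self ht) t' (Ioo_subset_Icc_self ht')
    by_contra hne
    have := abs_pos.2 (sub_ne_zero.2 hne)
    nlinarith
  have midc : ∀ i j, ∀ t ∈ Ioo (0 : ℝ) 5, ∀ t' ∈ Ioo (0 : ℝ) 5, 2 ≤ t' → t' ≤ 3 →
      ‖g i (t, 0) - g j (t', 0)‖ = ‖E i t - E j t'‖ → i = j ∧ t = t' := by
    intro i j t ht t' ht' t2 t3 h
    have sm : ‖E i t - E j t'‖ < c := by
      have := n0 i t ht
      have := n0 j t' ht'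
      nlinarith [norm_sub_le (E i t) (E j t'), ht.2, ht'.2]
    by_cases hh : t ≤ 1 ∨ 5 - 1 ≤ t
    · obtain ⟨b, τ, τ0, τ1, e, -⟩ := ends i t ht 1 (by norm_num) hh
      have p := pos_mem (i, b)
      have := b4 j _ (ray_tri (u := pos (i, b)) (by linarith) (by linarith) τ0.le (by linarith)) τ1
        (t', 0) ⟨⟨t2, z.1⟩, ⟨t3, z.2⟩⟩
      rw [← e] at this
      linarith
    · push Not at hh
      have w1 : (t, (0 : ℝ)) ∈ wide := ⟨⟨hh.1.le, z.1⟩, ⟨by dsimp only; linarith [hh.2], z.2⟩⟩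
      have w2 : (t', (0 : ℝ)) ∈ wide :=
        ⟨⟨by dsimp only; linarith, z.1⟩, ⟨by dsimp only; linarith, z.2⟩⟩
      by_cases hij : i = j
      · subst hij
        have k := b2 i _ w1 _ w2
        rw [Prod.mk_sub_mk, norm_pr, sub_self, abs_zero, max_eq_left (abs_nonneg _), h] at k
        exact ⟨rfl, same i t ht t' ht' k⟩
      · linarith [b3 i j hij _ w1 _ w2]
  by_cases h' : t' ≤ 2 ∨ 5 - 2 ≤ t'
  · by_cases hh : t ≤ 2 ∨ 5 - 2 ≤ t
    · obtain ⟨b, τ, τ0, τ1, e, u, v⟩ := ends i t ht 2 le_rfl hh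
      obtain ⟨b', τ', τ0', τ1', e', u', v'⟩ := ends j t' ht' 2 le_rfl h'
      have p := pos_mem (i, b)
      have p' := pos_mem (j, b')
      have k := b1 _ (ray_tri (u := pos (i, b)) (by linarith) (by linarith) τ0.le τ1) _
        (ray_tri (u := pos (j, b')) (by linarith) (by linarith) τ0'.le τ1')
      rw [← e, ← e', h, Prod.mk_sub_mk, norm_pr] at k
      have m1 := le_max_left |τ * pos (i, b) - τ' * pos (j, b')| |τ - τ'|
      have m2 := le_max_right |τ * pos (i, b) - τ' * pos (j, b')| |τ - τ'|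
      set m := max |τ * pos (i, b) - τ' * pos (j, b')| |τ - τ'|
      by_cases he : (i, b) = (j, b')
      · obtain ⟨rfl, rfl⟩ := Prod.mk.inj he
        refine ⟨rfl, same i t ht t' ht' (le_trans ?_ k)⟩
        have : |t - t'| = |τ - τ'| := by
          rw [v, v']
          cases b
          · rfl
          · simp only [if_true]
            rw [abs_sub_comm]; congr 1; ring
        rw [this]
        exact mul_le_mul_of_nonneg_left m2 (by linarith)
      · exfalso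
        have far := pos_far he
        have a1 := abs_le.1 m1
        have a2 := abs_le.1 m2
        have q1 : 4 * τ ≤ 29 * m := by
          rcases le_abs.1 far with far | far <;> nlinarith
        have q2 : τ' ≤ τ + m := by linarith
        have m0 : 0 < m := by linarith
        nlinarith [norm_sub_le (E i t) (E j t'), mul_le_mul_of_nonneg_left q1 hη,
          mul_le_mul_of_nonneg_left q2 hη, mul_lt_mul_of_pos_right hc m0, mul_nonneg hη m0.le]
    · push Not at hh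
      have := midc j i t' ht' t ht hh.1.le (by linarith [hh.2])
        (by rw [norm_sub_rev, h, norm_sub_rev])
      exact ⟨this.1.symm, this.2.symm⟩
  · push Not at h'
    exact midc i j t ht t' ht' h'.1.le (by linarith [h'.2]) h

end Vale.Agent.Q258U.S3a
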