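import Vale.Agent.Q258U.Core

/-!
# Row S3b, first part: the displacement of pairs of points
-/

set_option linter.all false

namespace Vale.Agent.Q258U.S3b

open Set

/-- the places of the ends of the bands -/
def pos (e : Fin 4 × Bool) : ℝ := if e.2 then pE e.1 else pS e.1

theorem pos_mem (e : Fin 4 × Bool) : 0 ≤ pos e ∧ pos e ≤ 28 := by
  obtain ⟨j, b⟩ := e
  fin_cases j <;> cases b <;> simp [pos, pS, pE] <;> norm_num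

theorem pos_far {e e' : Fin 4 × Bool} (h : e ≠ e') : 4 ≤ |pos e - pos e'| := by
  obtain ⟨j, b⟩ := e
  obtain ⟨j', b'⟩ := e'
  fin_cases j <;> cases b <;> fin_cases j' <;> cases b' <;> simp [pos, pS, pE] at h ⊢ <;>
    norm_num [le_abs]

theorem ray_tri {u t : ℝ} (u0 : -1 ≤ u) (u1 : u ≤ 29) (t0 : 0 ≤ t) (t1 : t ≤ 2) :
    (t * u, t) ∈ tri := by
  refine ⟨t1, ?_, ?_⟩ <;> dsimp only <;> nlinarith

theorem norm_pr (a b : ℝ) : ‖(a, b)‖ = max |a| |b| := by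
  simp [Prod.norm_def]

theorem ray_norm {u t : ℝ} (u0 : -1 ≤ u) (u1 : u ≤ 29) (t0 : 0 ≤ t) : ‖(t * u, t)‖ ≤ 29 * t := by
  rw [norm_pr]
  refine max_le (abs_le.2 ⟨?_, ?_⟩) (abs_le.2 ⟨?_, ?_⟩) <;> nlinarith

theorem two_rays {f : ℝ × ℝ → E3} {c η : ℝ} (hη : 0 ≤ η) (hc : 200 * η ≤ c)
    (b1 : ∀ x ∈ tri, ∀ y ∈ tri, c * ‖x - y‖ ≤ ‖f x - f y‖) {u u' t t' : ℝ}
    (u0 : -1 ≤ u) (u1 : u ≤ 29) (u0' : -1 ≤ u') (u1' : u' ≤ 29) (t0 : 0 ≤ t) (tt : t ≤ t')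
    (t1 : t' ≤ 2) {a m b : E3} (h1 : ‖a - m‖ ≤ η * (t * |u - u'|)) (h2 : ‖m - b‖ ≤ η * |t - t'|) :
    ‖a - b‖ ≤ 1 / 4 * ‖f (t * u, t) - f (t' * u', t')‖ := by
  have k := b1 _ (ray_tri u0 u1 t0 (tt.trans t1)) _ (ray_tri u0' u1' (t0.trans tt) t1)
  set n := ‖((t * u, t) : ℝ × ℝ) - (t' * u', t')‖ with hn
  have e : n = max |t * u - t' * u'| |t - t'| := by rw [hn, Prod.mk_sub_mk, norm_pr]
  have n1 : |t * u - t' * u'| ≤ n := e ▸ le_max_left _ _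
  have n2 : |t - t'| ≤ n := e ▸ le_max_right _ _
  have n0 : 0 ≤ n := norm_nonneg _
  have n3 : t * |u - u'| ≤ 30 * n := by
    have e2 : t * |u - u'| = |(t * u - t' * u') + (t' - t) * u'| := by
      rw [← abs_of_nonneg t0, ← abs_mul, abs_of_nonneg t0]; congr 1; ring
    have e3 : |(t' - t) * u'| ≤ 29 * n := by
      rw [abs_mul, abs_sub_comm]
      have : |u'| ≤ 29 := abs_le.2 ⟨by linarith, u1'⟩
      calc _ ≤ n * 29 := by gcongr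
        _ = _ := by ring
    rw [e2]
    linarith [abs_add_le (t * u - t' * u') ((t' - t) * u')]
  calc ‖a - b‖ ≤ ‖a - m‖ + ‖m - b‖ := norm_sub_le_norm_sub_add_norm_sub _ _ _
    _ ≤ η * (30 * n) + η * n := by
        refine add_le_add (h1.trans ?_) (h2.trans ?_) <;> gcongr
    _ ≤ 1 / 4 * (c * n) := by nlinarith [mul_nonneg hη n0, mul_le_mul_of_nonneg_right hc n0]
    _ ≤ _ := by gcongr

/-- the data of the estimate -/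
structure Dat (f : ℝ × ℝ → E3) (g : Fin 4 → ℝ × ℝ → E3) (D : ℝ × ℝ → E3)
    (E : Fin 4 → ℝ → ℝ → E3) (c η l ε : ℝ) : Prop where
  hη : 0 ≤ η
  hc : 200 * η ≤ c
  l0 : 0 < l
  l1 : l ≤ 1
  ε0 : 0 < ε
  ε1 : ε ≤ 1
  ov : ∀ j, ∀ t ∈ Icc (0 : ℝ) 2, ∀ s ∈ Icc (-1 : ℝ) 1,
    g j (t, s) = f (t * (pS j + s), t) ∧ g j (5 - t, s) = f (t * (pE j - s), t)
  b1 : ∀ x ∈ tri, ∀ y ∈ tri, c * ‖x - y‖ ≤ ‖f x - f y‖
  b2 : ∀ j, ∀ x ∈ wide, ∀ y ∈ wide, c * ‖x - y‖ ≤ ‖g j x - g j y‖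
  b3 : ∀ i j, i ≠ j → ∀ x ∈ wide, ∀ y ∈ wide, c ≤ ‖g i x - g j y‖
  b4 : ∀ j, ∀ x ∈ tri, x.2 ≤ 1 → ∀ y ∈ mid, c ≤ ‖f x - g j y‖
  d0 : D 0 = 0
  dL : ∀ x ∈ tri, x.2 ≤ l → ∀ y ∈ tri, y.2 ≤ l → ‖D x - D y‖ ≤ η * ‖x - y‖
  p1 : ∀ j s, |s| = ε → ∀ t ∈ Icc (0 : ℝ) 5, ∀ t' ∈ Icc (0 : ℝ) 5,
    ‖E j s t - E j s t'‖ ≤ η * |t - t'|
  p2 : ∀ j s, |s| = ε → ∀ t ∈ Icc (0 : ℝ) l,
    E j s t = D (t * (pS j + s), t) ∧ E j s (5 - t) = D (t * (pE j - s), t)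
  p3 : ∀ j, ∀ t ∈ Icc (0 : ℝ) 5, ‖E j ε t - E j (-ε) t‖ ≤ η * (ε * min t (5 - t))

/-- the displacement along the edge of a band, seen from one end -/
def ry (E : Fin 4 → ℝ → ℝ → E3) (e : Fin 4 × Bool) (s t : ℝ) : E3 :=
  if e.2 then E e.1 (-s) (5 - t) else E e.1 s t

variable {f : ℝ × ℝ → E3} {g : Fin 4 → ℝ × ℝ → E3} {D : ℝ × ℝ → E3}
  {E : Fin 4 → ℝ → ℝ → E3} {c η l ε : ℝ}

theorem Dat.sl (H : Dat f g D E c η l ε) (e : Fin 4 × Bool) {s : ℝ} (hs : |s| = ε) :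
    -1 ≤ pos e + s ∧ pos e + s ≤ 29 := by
  have h1 := pos_mem e
  have h2 := abs_le.1 (hs.le.trans H.ε1)
  constructor <;> linarith

theorem Dat.r1 (H : Dat f g D E c η l ε) (e : Fin 4 × Bool) {s : ℝ} (hs : |s| = ε) {t t' : ℝ}
    (ht : t ∈ Icc (0 : ℝ) 5) (ht' : t' ∈ Icc (0 : ℝ) 5) :
    ‖ry E e s t - ry E e s t'‖ ≤ η * |t - t'| := by
  obtain ⟨j, b⟩ := e
  cases b
  · exact H.p1 j s hs t ht t' ht'
  · have := H.p1 j (-s) (by rwa [abs_neg]) (5 - t) ⟨by linarith [ht.2], by linarith [ht.1]⟩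
      (5 - t') ⟨by linarith [ht'.2], by linarith [ht'.1]⟩
    rwa [show 5 - t - (5 - t') = t' - t by ring, abs_sub_comm] at this

theorem Dat.r2 (H : Dat f g D E c η l ε) (e : Fin 4 × Bool) {s : ℝ} (hs : |s| = ε) {t : ℝ}
    (ht : t ∈ Icc (0 : ℝ) l) : ry E e s t = D (t * (pos e + s), t) := by
  obtain ⟨j, b⟩ := e
  cases b
  · exact (H.p2 j s hs t ht).1
  · have := (H.p2 j (-s) (by rwa [abs_neg]) t ht).2
    rwa [sub_neg_eq_add] at this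

theorem Dat.r0 (H : Dat f g D E c η l ε) (e : Fin 4 × Bool) {s : ℝ} (hs : |s| = ε) {t : ℝ}
    (ht : t ∈ Icc (0 : ℝ) 5) : ‖ry E e s t‖ ≤ η * t := by
  have h1 := H.r1 e hs ht (⟨le_rfl, by norm_num⟩ : (0 : ℝ) ∈ Icc (0 : ℝ) 5)
  have h2 := H.r2 e hs (⟨le_rfl, H.l0.le⟩ : (0 : ℝ) ∈ Icc (0 : ℝ) l)
  rw [zero_mul, show ((0 : ℝ), (0 : ℝ)) = 0 from rfl, H.d0] at h2
  rwa [h2, sub_zero, sub_zero, abs_of_nonneg ht.1] at h1

theorem Dat.r3 (H : Dat f g D E c η l ε) (e : Fin 4 × Bool) {t : ℝ}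
    (ht : t ∈ Icc (0 : ℝ) 5) : ‖ry E e ε t - ry E e (-ε) t‖ ≤ η * (ε * t) := by
  obtain ⟨j, b⟩ := e
  have h0 := H.hη
  have h1 := H.ε0.le
  cases b
  · exact (H.p3 j t ht).trans (by gcongr; exact min_le_left _ _)
  · have := H.p3 j (5 - t) ⟨by linarith [ht.2], by linarith [ht.1]⟩
    simp only [ry, neg_neg, if_true]
    rw [norm_sub_rev]
    exact this.trans (by gcongr; exact (min_le_right _ _).trans (by linarith))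

theorem Dat.q1 (H : Dat f g D E c η l ε) (e e' : Fin 4 × Bool) {s s' : ℝ} (hs : |s| = ε)
    (hs' : |s'| = ε) {t : ℝ} (ht : t ∈ Icc (0 : ℝ) 5) :
    ‖ry E e s t - ry E e' s' t‖ ≤ η * (t * |pos e + s - (pos e' + s')|) := by
  have h0 := H.hη
  have h1 := H.ε0
  have t0 := ht.1
  by_cases h : e = e'
  · subst h
    have k := H.r3 e ht
    have e1 : |ε - -ε| = 2 * ε := by rw [abs_of_nonneg (by linarith)]; ring
    rw [add_sub_add_left_eq_sub]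
    rcases (abs_eq h1.le).1 hs with rfl | rfl <;> rcases (abs_eq h1.le).1 hs' with h2 | h2 <;>
      rw [h2]
    · simp
    · rw [e1]; exact k.trans (by nlinarith [mul_nonneg h0 (mul_nonneg h1.le t0)])
    · rw [abs_sub_comm, e1, norm_sub_rev]
      exact k.trans (by nlinarith [mul_nonneg h0 (mul_nonneg h1.le t0)])
    · simp
  · have k := pos_far h
    have k2 : 2 ≤ |pos e + s - (pos e' + s')| := by
      have a1 := abs_le.1 (hs.le.trans H.ε1)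
      have a2 := abs_le.1 (hs'.le.trans H.ε1)
      rcases le_abs.1 k with k | k
      · exact le_abs.2 (Or.inl (by linarith))
      · exact le_abs.2 (Or.inr (by linarith))
    calc _ ≤ ‖ry E e s t‖ + ‖ry E e' s' t‖ := norm_sub_le _ _
      _ ≤ η * t + η * t := add_le_add (H.r0 e hs ht) (H.r0 e' hs' ht)
      _ = η * (t * 2) := by ring
      _ ≤ _ := by gcongr

theorem Dat.pp (H : Dat f g D E c η l ε) {u u' t t' : ℝ} (u0 : -1 ≤ u) (u1 : u ≤ 29)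
    (u0' : -1 ≤ u') (u1' : u' ≤ 29) (ht : t ∈ Icc (0 : ℝ) l) (ht' : t' ∈ Icc (0 : ℝ) l) :
    ‖D (t * u, t) - D (t' * u', t')‖ ≤ 1 / 4 * ‖f (t * u, t) - f (t' * u', t')‖ := by
  have a1 := ray_tri u0 u1 ht.1 (by linarith [ht.2, H.l1])
  have a2 := ray_tri u0' u1' ht'.1 (by linarith [ht'.2, H.l1])
  have k := H.dL _ a1 ht.2 _ a2 ht'.2
  have k' := H.b1 _ a1 _ a2
  have n0 := norm_nonneg (((t * u, t) : ℝ × ℝ) - (t' * u', t'))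
  nlinarith [mul_nonneg H.hη n0, mul_le_mul_of_nonneg_right H.hc n0]

theorem Dat.ll (H : Dat f g D E c η l ε) (e e' : Fin 4 × Bool) {s s' : ℝ} (hs : |s| = ε)
    (hs' : |s'| = ε) {t t' : ℝ} (ht : t ∈ Icc (0 : ℝ) 2) (ht' : t' ∈ Icc (0 : ℝ) 2) :
    ‖ry E e s t - ry E e' s' t'‖ ≤
      1 / 4 * ‖f (t * (pos e + s), t) - f (t' * (pos e' + s'), t')‖ := by
  wlog h : t ≤ t' generalizing e e' s s' t t'
  · rw [norm_sub_rev, norm_sub_rev (f _)]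
    exact this e' e hs' hs ht' ht (le_of_not_ge h)
  have a : t ∈ Icc (0 : ℝ) 5 := ⟨ht.1, by linarith [ht.2]⟩
  have a' : t' ∈ Icc (0 : ℝ) 5 := ⟨ht'.1, by linarith [ht'.2]⟩
  exact two_rays H.hη H.hc H.b1 (H.sl e hs).1 (H.sl e hs).2 (H.sl e' hs').1 (H.sl e' hs').2
    ht.1 h ht'.2 (H.q1 e e' hs hs' a) (H.r1 e' hs' a a')

theorem Dat.pl (H : Dat f g D E c η l ε) {u t : ℝ} (u0 : -1 ≤ u) (u1 : u ≤ 29)
    (ht : t ∈ Icc (0 : ℝ) l) (e : Fin 4 × Bool) {s : ℝ} (hs : |s| = ε) {t' : ℝ}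
    (ht' : t' ∈ Icc (0 : ℝ) 2) :
    ‖D (t * u, t) - ry E e s t'‖ ≤ 1 / 4 * ‖f (t * u, t) - f (t' * (pos e + s), t')‖ := by
  have b := H.sl e hs
  rcases le_total t t' with h | h
  · have a : t ∈ Icc (0 : ℝ) 5 := ⟨ht.1, by linarith [ht'.2]⟩
    have a' : t' ∈ Icc (0 : ℝ) 5 := ⟨ht'.1, by linarith [ht'.2]⟩
    refine two_rays H.hη H.hc H.b1 u0 u1 b.1 b.2 ht.1 h ht'.2 ?_ (H.r1 e hs a a')
    rw [H.r2 e hs ht]
    have t2 : t ≤ 2 := h.trans ht'.2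
    refine (H.dL _ (ray_tri u0 u1 ht.1 t2) ht.2 _ (ray_tri b.1 b.2 ht.1 t2) ht.2).trans ?_
    rw [Prod.mk_sub_mk, norm_pr, sub_self, abs_zero, max_eq_left (abs_nonneg _), ← mul_sub,
      abs_mul, abs_of_nonneg ht.1]
  · rw [H.r2 e hs ⟨ht'.1, h.trans ht.2⟩]
    exact H.pp u0 u1 b.1 b.2 ht ⟨ht'.1, h.trans ht.2⟩

theorem Dat.low (H : Dat f g D E c η l ε) (j : Fin 4) {s t a : ℝ} (hs : |s| = ε)
    (ht : t ∈ Icc (0 : ℝ) 5) (a2 : a ≤ 2) (h : t ≤ a ∨ 5 - a ≤ t) :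
    ∃ e σ τ, |σ| = ε ∧ τ ∈ Icc (0 : ℝ) a ∧ E j s t = ry E e σ τ ∧
      g j (t, s) = f (τ * (pos e + σ), τ) := by
  have hs1 : s ∈ Icc (-1 : ℝ) 1 := abs_le.1 (hs.le.trans H.ε1)
  rcases h with h | h
  · exact ⟨(j, false), s, t, hs, ⟨ht.1, h⟩, rfl, (H.ov j t ⟨ht.1, h.trans a2⟩ s hs1).1⟩
  · refine ⟨(j, true), -s, 5 - t, by rwa [abs_neg], ⟨by linarith [ht.2], by linarith⟩,
      by simp [ry], ?_⟩
    have := (H.ov j (5 - t) ⟨by linarith [ht.2], by linarith⟩ s hs1).2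
    rwa [sub_sub_cancel, sub_eq_add_neg (pE j)] at this

theorem Dat.En (H : Dat f g D E c η l ε) (j : Fin 4) {s t : ℝ} (hs : |s| = ε)
    (ht : t ∈ Icc (0 : ℝ) 5) : ‖E j s t‖ ≤ η * 5 :=
  (H.r0 (j, false) hs ht).trans (by gcongr; exacts [H.hη, ht.2])

theorem Dat.far (H : Dat f g D E c η l ε) {a b x : E3} (ha : ‖a‖ ≤ η * 29) (hb : ‖b‖ ≤ η * 5)
    (hx : c ≤ ‖x‖) : ‖a - b‖ ≤ 1 / 4 * ‖x‖ := by
  linarith [norm_sub_le a b, H.hη, H.hc]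

theorem Dat.pb (H : Dat f g D E c η l ε) {u t : ℝ} (u0 : -1 ≤ u) (u1 : u ≤ 29)
    (ht : t ∈ Icc (0 : ℝ) l) (j : Fin 4) {s t' : ℝ} (hs : |s| = ε) (ht' : t' ∈ Icc (0 : ℝ) 5) :
    ‖D (t * u, t) - E j s t'‖ ≤ 1 / 4 * ‖f (t * u, t) - g j (t', s)‖ := by
  by_cases h : t' ≤ 2 ∨ 5 - 2 ≤ t'
  · obtain ⟨e, σ, τ, h1, h2, h3, h4⟩ := H.low j hs ht' le_rfl h
    rw [h3, h4]
    exact H.pl u0 u1 ht e h1 h2
  · push Not at h
    have hs1 := abs_le.1 (hs.le.trans H.ε1)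
    have t1 : t ≤ 1 := ht.2.trans H.l1
    have a := ray_tri u0 u1 ht.1 (by linarith)
    refine H.far ?_ (H.En j hs ht') (H.b4 j _ a t1 _
      ⟨⟨h.1.le, hs1.1⟩, ⟨by dsimp only; linarith [h.2], hs1.2⟩⟩)
    have k := H.dL _ a ht.2 0 ⟨by norm_num, by simp, by simp⟩ H.l0.le
    rw [H.d0, sub_zero, sub_zero] at k
    refine k.trans (mul_le_mul_of_nonneg_left ((ray_norm u0 u1 ht.1).trans (by linarith)) H.hη)

theorem Dat.bm (H : Dat f g D E c η l ε) (i j : Fin 4) {s s' t t' : ℝ} (hs : |s| = ε)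
    (hs' : |s'| = ε) (ht : t ∈ Icc (0 : ℝ) 5) (t2 : 2 ≤ t') (t3 : t' ≤ 3) :
    ‖E i s t - E j s' t'‖ ≤ 1 / 4 * ‖g i (t, s) - g j (t', s')‖ := by
  have hs1 := abs_le.1 (hs.le.trans H.ε1)
  have hs1' := abs_le.1 (hs'.le.trans H.ε1)
  have ht' : t' ∈ Icc (0 : ℝ) 5 := ⟨by linarith, by linarith⟩
  have h0 := H.hη
  have a1 : ‖E i s t‖ ≤ η * 29 := (H.En i hs ht).trans (by linarith)
  by_cases h : t ≤ 1 ∨ 5 - 1 ≤ t
  · obtain ⟨e, σ, τ, h1, h2, -, h4⟩ := H.low i hs ht (by norm_num) h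
    rw [h4]
    exact H.far a1 (H.En j hs' ht') (H.b4 j _ (ray_tri (H.sl e h1).1 (H.sl e h1).2 h2.1
      (by linarith [h2.2])) h2.2 _ ⟨⟨t2, hs1'.1⟩, ⟨t3, hs1'.2⟩⟩)
  · push Not at h
    have w1 : (t, s) ∈ wide := ⟨⟨h.1.le, hs1.1⟩, ⟨by dsimp only; linarith [h.2], hs1.2⟩⟩
    have w2 : (t', s') ∈ wide :=
      ⟨⟨by dsimp only; linarith, hs1'.1⟩, ⟨by dsimp only; linarith, hs1'.2⟩⟩
    by_cases hij : i = j
    · subst hij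
      have k := H.b2 i _ w1 _ w2
      set n := ‖((t, s) : ℝ × ℝ) - (t', s')‖ with hn
      have e : n = max |t - t'| |s - s'| := by rw [hn, Prod.mk_sub_mk, norm_pr]
      have n1 : |t - t'| ≤ n := e ▸ le_max_left _ _
      have n2 : |s - s'| ≤ n := e ▸ le_max_right _ _
      have n0 : 0 ≤ n := norm_nonneg _
      have k1 := H.p1 i s hs t ht t' ht'
      have k2 := H.q1 (i, false) (i, false) hs hs' ht'
      rw [add_sub_add_left_eq_sub] at k2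
      calc _ ≤ ‖E i s t - E i s t'‖ + ‖E i s t' - E i s' t'‖ :=
            norm_sub_le_norm_sub_add_norm_sub _ _ _
        _ ≤ η * n + η * (3 * n) := by
            refine add_le_add (k1.trans ?_) (k2.trans ?_) <;> gcongr
        _ ≤ 1 / 4 * (c * n) := by
            nlinarith [mul_nonneg h0 n0, mul_le_mul_of_nonneg_right H.hc n0]
        _ ≤ _ := by gcongr
    · exact H.far a1 (H.En j hs' ht') (H.b3 i j hij _ w1 _ w2)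

theorem Dat.bb (H : Dat f g D E c η l ε) (i j : Fin 4) {s s' t t' : ℝ} (hs : |s| = ε)
    (hs' : |s'| = ε) (ht : t ∈ Icc (0 : ℝ) 5) (ht' : t' ∈ Icc (0 : ℝ) 5) :
    ‖E i s t - E j s' t'‖ ≤ 1 / 4 * ‖g i (t, s) - g j (t', s')‖ := by
  by_cases h' : t' ≤ 2 ∨ 5 - 2 ≤ t'
  · by_cases h : t ≤ 2 ∨ 5 - 2 ≤ t
    · obtain ⟨e, σ, τ, h1, h2, h3, h4⟩ := H.low i hs ht le_rfl h
      obtain ⟨e', σ', τ', h1', h2', h3', h4'⟩ := H.low j hs' ht' le_rfl h'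
      rw [h3, h4, h3', h4']
      exact H.ll e e' h1 h1' h2 h2'
    · push Not at h
      rw [norm_sub_rev, norm_sub_rev (g _ _)]
      exact H.bm j i hs' hs ht' h.1.le (by linarith [h.2])
  · push Not at h'
    exact H.bm i j hs hs' ht h'.1.le (by linarith [h'.2])

/-- the homeomorphism -/
theorem Dat.homeo (hM : RowM) (H : Dat f g D E c η l ε) : ∃ h : E3 ≃ₜ E3,
    (∀ u t, -1 ≤ u → u ≤ 29 → t ∈ Icc (0 : ℝ) l → h (f (t * u, t)) = f (t * u, t) + D (t * u, t)) ∧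
    ∀ j s t, |s| = ε → t ∈ Icc (0 : ℝ) 5 → h (g j (t, s)) = g j (t, s) + E j s t := by
  let α : Type := {p : ℝ × ℝ // -1 ≤ p.1 ∧ p.1 ≤ 29 ∧ p.2 ∈ Icc (0 : ℝ) l} ⊕
    Fin 4 × {p : ℝ × ℝ // |p.1| = ε ∧ p.2 ∈ Icc (0 : ℝ) 5}
  let F : α → E3 := Sum.elim (fun p => f (p.1.2 * p.1.1, p.1.2)) fun q => g q.1 (q.2.1.2, q.2.1.1)
  let Δ : α → E3 := Sum.elim (fun p => D (p.1.2 * p.1.1, p.1.2)) fun q => E q.1 q.2.1.1 q.2.1.2
  obtain ⟨h, hh⟩ := hM α F (fun x => F x + Δ x) (by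
    intro x y
    simp only [add_sub_cancel_left]
    rcases x with ⟨⟨u, t⟩, h1, h2, h3⟩ | ⟨i, ⟨s, t⟩, h1, h2⟩ <;>
      rcases y with ⟨⟨u', t'⟩, k1, k2, k3⟩ | ⟨j, ⟨s', t'⟩, k1, k2⟩
    · exact H.pp h1 h2 k1 k2 h3 k3
    · exact H.pb h1 h2 h3 j k1 k2
    · rw [norm_sub_rev, norm_sub_rev (F _)]
      exact H.pb k1 k2 k3 i h1 h2
    · exact H.bb i j h1 k1 h2 k2)
  exact ⟨h, fun u t h1 h2 h3 => hh (Sum.inl ⟨(u, t), h1, h2, h3⟩),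
    fun j s t h1 h2 => hh (Sum.inr (j, ⟨(s, t), h1, h2⟩))⟩

end Vale.Agent.Q258U.S3b
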