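import Vale.Agent.Q258U.S3ba
import Mathlib.Analysis.Calculus.MeanValue
import Mathlib.Analysis.Calculus.Deriv.Prod
import Mathlib.Analysis.Calculus.Deriv.Comp
import Mathlib.Analysis.Calculus.Deriv.Mul
import Mathlib.Analysis.Calculus.Deriv.Add

/-!
# Row S3b, second part: interpolation
-/

set_option linter.all false

namespace Vale.Agent.Q258U.S3b

open Set Filter Topology

/-- uniform estimates for a map of class `C¹` -/
def US (F : ℝ × ℝ → E3) (η δ : ℝ) : Prop :=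
  ∀ x : ℝ × ℝ, ‖x‖ ≤ 60 → (∀ y, ‖y - x‖ ≤ δ → ‖fderiv ℝ F y - fderiv ℝ F x‖ ≤ η) ∧
    ∀ y z, ‖y - x‖ ≤ δ → ‖z - x‖ ≤ δ → ‖F y - F z - fderiv ℝ F x (y - z)‖ ≤ η * ‖y - z‖

theorem US.mono {F : ℝ × ℝ → E3} {η δ δ' : ℝ} (h : US F η δ) (e : δ' ≤ δ) : US F η δ' :=
  fun x hx => ⟨fun y hy => (h x hx).1 y (hy.trans e),
    fun y z hy hz => (h x hx).2 y z (hy.trans e) (hz.trans e)⟩

theorem exists_US {F : ℝ × ℝ → E3} (hF : ContDiff ℝ 1 F) {η : ℝ} (hη : 0 < η) :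
    ∃ δ : ℝ, 0 < δ ∧ US F η δ := by
  have hc : Continuous (fderiv ℝ F) := hF.continuous_fderiv one_ne_zero
  have hu := (isCompact_closedBall (0 : ℝ × ℝ) 61).uniformContinuousOn_of_continuous
    hc.continuousOn
  obtain ⟨δ, hδ, h⟩ := Metric.uniformContinuousOn_iff_le.1 hu η hη
  have key : ∀ x : ℝ × ℝ, ‖x‖ ≤ 60 → ∀ y, ‖y - x‖ ≤ min δ 1 →
      ‖fderiv ℝ F y - fderiv ℝ F x‖ ≤ η := fun x hx y hy => by
    rw [← dist_eq_norm]
    refine h y ?_ x ?_ (by rw [dist_eq_norm]; exact hy.trans (min_le_left _ _))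
    · rw [mem_closedBall_zero_iff]
      linarith [norm_sub_norm_le y x, min_le_right δ 1]
    · rw [mem_closedBall_zero_iff]; linarith
  refine ⟨min δ 1, lt_min hδ one_pos, fun x hx => ⟨key x hx, fun y z hy hz => ?_⟩⟩
  exact (convex_closedBall x (min δ 1)).norm_image_sub_le_of_norm_fderiv_le'
    (fun w _ => hF.differentiable one_ne_zero w)
    (fun w hw => key x hx w (mem_closedBall_iff_norm.1 hw))
    (mem_closedBall_iff_norm.2 hz) (mem_closedBall_iff_norm.2 hy)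

/-- interpolation -/
noncomputable def pl (l : ℝ) (a : ℕ → E3) (t : ℝ) : E3 :=
  (1 - (t / l - ⌊t / l⌋₊)) • a ⌊t / l⌋₊ + (t / l - ⌊t / l⌋₊) • a (⌊t / l⌋₊ + 1)

theorem pl_eq {l : ℝ} (l0 : 0 < l) (a : ℕ → E3) (k : ℕ) {μ : ℝ} (h : μ ∈ Icc (0 : ℝ) 1) :
    pl l a ((k + μ) * l) = (1 - μ) • a k + μ • a (k + 1) := by
  rw [pl, mul_div_cancel_right₀ _ l0.ne']
  rcases h.2.lt_or_eq with h1 | h1
  · have : ⌊(k : ℝ) + μ⌋₊ = k := by
      rw [Nat.floor_eq_iff (by have := h.1; positivity)]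
      constructor <;> linarith [h.1]
    rw [this, add_sub_cancel_left]
  · subst h1
    have : ⌊(k : ℝ) + 1⌋₊ = k + 1 := by exact_mod_cast Nat.floor_natCast (R := ℝ) (k + 1)
    rw [this]
    simp

theorem cell {l : ℝ} (l0 : 0 < l) : ∀ (M : ℕ) {t : ℝ}, t ∈ Icc (0 : ℝ) ((M + 1 : ℕ) * l) →
    ∃ k ≤ M, ∃ μ ∈ Icc (0 : ℝ) 1, t = (k + μ) * l := by
  intro M t ht
  have h0 : 0 ≤ t / l := div_nonneg ht.1 l0.le
  have h1 : t / l ≤ (M + 1 : ℕ) := (div_le_iff₀ l0).2 ht.2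
  by_cases h : (M : ℝ) ≤ t / l
  · refine ⟨M, le_rfl, t / l - M, ⟨by linarith, by push_cast at h1; linarith⟩, ?_⟩
    field_simp
    ring
  · refine ⟨⌊t / l⌋₊, Nat.floor_le_of_le (le_of_not_ge h), t / l - ⌊t / l⌋₊,
      ⟨by linarith [Nat.floor_le h0], by linarith [Nat.lt_floor_add_one (t / l)]⟩, ?_⟩
    field_simp
    ring

theorem glue {φ : ℝ → E3} {η l : ℝ} (l0 : 0 < l) : ∀ M : ℕ,
    (∀ k < M, ∀ μ ∈ Icc (0 : ℝ) 1, ∀ μ' ∈ Icc (0 : ℝ) 1,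
      ‖φ ((k + μ) * l) - φ ((k + μ') * l)‖ ≤ η * (|μ - μ'| * l)) →
    ∀ t ∈ Icc (0 : ℝ) (M * l), ∀ t' ∈ Icc (0 : ℝ) (M * l), ‖φ t - φ t'‖ ≤ η * |t - t'| := by
  intro M
  induction M with
  | zero =>
    intro _ t ht t' ht'
    have e : t = t' := by simp at ht ht'; rw [ht, ht']
    simp [e]
  | succ M ih =>
    intro h t ht t' ht'
    have ih' := ih fun k hk => h k (by omega)
    have M0 : (0 : ℝ) ≤ M * l := by positivity
    have last : ∀ a, M * l ≤ a → a ≤ (M + 1 : ℕ) * l → ∀ b, M * l ≤ b → b ≤ (M + 1 : ℕ) * l →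
        ‖φ a - φ b‖ ≤ η * |a - b| := fun a a1 a2 b b1 b2 => by
      have m : ∀ a, M * l ≤ a → a ≤ (M + 1 : ℕ) * l → a / l - M ∈ Icc (0 : ℝ) 1 := fun a a1 a2 => by
        have := (le_div_iff₀ l0).2 a1
        have := (div_le_iff₀ l0).2 a2
        push_cast at this
        constructor <;> linarith
      have k := h M (by omega) _ (m a a1 a2) _ (m b b1 b2)
      have e : ∀ a : ℝ, (M + (a / l - M)) * l = a := fun a => by field_simp; ring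
      rw [e, e] at k
      convert k using 2
      rw [← abs_of_pos l0, ← abs_mul, abs_of_pos l0]
      congr 1
      field_simp
      ring
    have M1 : (M : ℝ) * l ≤ (M + 1 : ℕ) * l := by push_cast; linarith
    wlog tt : t ≤ t' generalizing t t'
    · rw [norm_sub_rev, abs_sub_comm]; exact this t' ht' t ht (le_of_not_ge tt)
    rcases le_total t' (M * l) with h1 | h1
    · exact ih' t ⟨ht.1, tt.trans h1⟩ t' ⟨ht'.1, h1⟩
    rcases le_total (M * l) t with h2 | h2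
    · exact last t h2 ht.2 t' h1 ht'.2
    have k1 := ih' t ⟨ht.1, h2⟩ _ ⟨M0, le_rfl⟩
    have k2 := last _ le_rfl M1 t' h1 ht'.2
    rw [abs_of_nonpos (by linarith)] at k1 k2 ⊢
    linarith [norm_sub_le_norm_sub_add_norm_sub (φ t) (φ (M * l)) (φ t')]

theorem p1cell {γ : ℝ × ℝ → E3} {η δ l s t0 : ℝ} (hU : US γ η δ) (l0 : 0 < l) (lδ : l ≤ δ)
    (hs : |s| ≤ δ) (ht0 : |t0| ≤ 60) {c0 c1 w0 w1 : E3} (h0 : ‖c0 - γ (t0, 0)‖ ≤ η * (60 * l))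
    (h1 : ‖c1 - γ (t0 + l, 0)‖ ≤ η * (60 * l)) (hw : ‖s • (w1 - w0)‖ ≤ η * l) {μ μ' : ℝ}
    (hμ : μ ∈ Icc (0 : ℝ) 1) (hμ' : μ' ∈ Icc (0 : ℝ) 1) :
    ‖((1 - μ) • (c0 + s • w0) + μ • (c1 + s • w1) - γ (t0 + μ * l, s)) -
      ((1 - μ') • (c0 + s • w0) + μ' • (c1 + s • w1) - γ (t0 + μ' * l, s))‖ ≤
      123 * η * (|μ - μ'| * l) := by
  have U := (hU (t0, 0) (by rw [norm_pr, abs_zero]; exact max_le ht0 (by norm_num))).2
  have n : ∀ a ∈ Icc (0 : ℝ) 1, ∀ b : ℝ, |b| ≤ δ →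
      ‖((t0 + a * l, b) : ℝ × ℝ) - (t0, 0)‖ ≤ δ := fun a ha b hb => by
    rw [Prod.mk_sub_mk, norm_pr, add_sub_cancel_left, sub_zero]
    exact max_le (abs_le.2 ⟨by nlinarith [ha.1], by nlinarith [ha.2]⟩) hb
  have z : |(0 : ℝ)| ≤ δ := by rw [abs_zero]; linarith
  have e1 := U _ _ (n μ hμ s hs) (n μ' hμ' s hs)
  have e2 := U _ _ (n 1 ⟨zero_le_one, le_rfl⟩ 0 z) (n 0 ⟨le_rfl, zero_le_one⟩ 0 z)
  have v1 : ((t0 + μ * l, s) : ℝ × ℝ) - (t0 + μ' * l, s) = (μ - μ') • (l, 0) := by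
    ext <;> simp <;> ring
  have v2 : ((t0 + 1 * l, 0) : ℝ × ℝ) - (t0 + 0 * l, 0) = (l, 0) := by ext <;> simp
  have v3 : ‖((l, 0) : ℝ × ℝ)‖ = l := by rw [norm_pr, abs_zero, abs_of_pos l0, max_eq_left l0.le]
  rw [v1, map_smul, norm_smul (μ - μ') ((l, 0) : ℝ × ℝ), v3, Real.norm_eq_abs] at e1
  rw [v2, v3, one_mul, zero_mul, add_zero] at e2
  set A := fderiv ℝ γ (t0, 0) (l, 0)
  have e : ((1 - μ) • (c0 + s • w0) + μ • (c1 + s • w1) - γ (t0 + μ * l, s)) -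
      ((1 - μ') • (c0 + s • w0) + μ' • (c1 + s • w1) - γ (t0 + μ' * l, s)) =
      (μ - μ') • ((c1 - γ (t0 + l, 0)) - (c0 - γ (t0, 0)) + (γ (t0 + l, 0) - γ (t0, 0) - A) +
        s • (w1 - w0)) - (γ (t0 + μ * l, s) - γ (t0 + μ' * l, s) - (μ - μ') • A) := by
    module
  have e3 : ‖(c1 - γ (t0 + l, 0)) - (c0 - γ (t0, 0)) + (γ (t0 + l, 0) - γ (t0, 0) - A) +
      s • (w1 - w0)‖ ≤ 122 * (η * l) := by
    refine (norm_add_le _ _).trans ?_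
    have := norm_add_le ((c1 - γ (t0 + l, 0)) - (c0 - γ (t0, 0))) (γ (t0 + l, 0) - γ (t0, 0) - A)
    linarith [norm_sub_le (c1 - γ (t0 + l, 0)) (c0 - γ (t0, 0))]
  rw [e]
  refine (norm_sub_le _ _).trans ?_
  rw [norm_smul, Real.norm_eq_abs]
  nlinarith [mul_le_mul_of_nonneg_left e3 (abs_nonneg (μ - μ'))]

theorem p3cell {η ε μ a0 a1 : ℝ} (ε0 : 0 ≤ ε) (hμ : μ ∈ Icc (0 : ℝ) 1) {c0 c1 w0 w1 Q y z : E3}
    (h0 : ‖w0 - a0 • Q‖ ≤ η * a0) (h1 : ‖w1 - a1 • Q‖ ≤ η * a1) {a : ℝ}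
    (ha : a = (1 - μ) * a0 + μ * a1) (h : ‖y - z - (2 * ε * a) • Q‖ ≤ η * (2 * ε * a)) :
    ‖((1 - μ) • (c0 + ε • w0) + μ • (c1 + ε • w1) - y) -
      ((1 - μ) • (c0 + (-ε) • w0) + μ • (c1 + (-ε) • w1) - z)‖ ≤ 4 * η * (ε * a) := by
  have e : ((1 - μ) • (c0 + ε • w0) + μ • (c1 + ε • w1) - y) -
      ((1 - μ) • (c0 + (-ε) • w0) + μ • (c1 + (-ε) • w1) - z) =
      (2 * ε * (1 - μ)) • (w0 - a0 • Q) + (2 * ε * μ) • (w1 - a1 • Q) -
        (y - z - (2 * ε * a) • Q) := by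
    rw [ha]; module
  have m0 : 0 ≤ 2 * ε * (1 - μ) := by have := hμ.2; have : 0 ≤ 1 - μ := by linarith
                                      positivity
  have m1 : 0 ≤ 2 * ε * μ := by have := hμ.1; positivity
  rw [e]
  refine (norm_sub_le _ _).trans ?_
  have k := norm_add_le ((2 * ε * (1 - μ)) • (w0 - a0 • Q)) ((2 * ε * μ) • (w1 - a1 • Q))
  rw [norm_smul, norm_smul, Real.norm_of_nonneg m0, Real.norm_of_nonneg m1] at k
  have k0 := mul_le_mul_of_nonneg_left h0 m0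
  have k1 := mul_le_mul_of_nonneg_left h1 m1
  have : 2 * ε * (1 - μ) * (η * a0) + 2 * ε * μ * (η * a1) = η * (2 * ε * a) := by rw [ha]; ring
  linarith

theorem der_ov {f γ : ℝ × ℝ → E3} (hf : ContDiff ℝ 1 f) (hγ : ContDiff ℝ 1 γ) {a t p κ : ℝ}
    (h : ∀ s ∈ Icc (-1 : ℝ) 1, γ (a, s) = f (t * (p + κ * s), t)) :
    fderiv ℝ γ (a, 0) (0, 1) = t • κ • fderiv ℝ f (t * p, t) (1, 0) := by
  have d1 : HasDerivAt (fun s : ℝ => γ (a, s)) (fderiv ℝ γ (a, 0) (0, 1)) 0 :=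
    (hγ.differentiable one_ne_zero (a, 0)).hasFDerivAt.comp_hasDerivAt (0 : ℝ)
      ((hasDerivAt_const (0 : ℝ) a).prodMk (hasDerivAt_id (0 : ℝ)))
  have d2 : HasDerivAt (fun s : ℝ => ((t * (p + κ * s), t) : ℝ × ℝ)) (t * (κ * 1), 0) 0 :=
    (((((hasDerivAt_id (0 : ℝ)).const_mul κ).const_add p).const_mul t)).prodMk
      (hasDerivAt_const (0 : ℝ) t)
  have d3 : HasDerivAt (fun s : ℝ => f (t * (p + κ * s), t))
      (fderiv ℝ f (t * (p + κ * 0), t) (t * (κ * 1), 0)) 0 :=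
    (hf.differentiable one_ne_zero _).hasFDerivAt.comp_hasDerivAt (0 : ℝ) d2
  have ev : (fun s : ℝ => γ (a, s)) =ᶠ[𝓝 0] fun s : ℝ => f (t * (p + κ * s), t) := by
    filter_upwards [Icc_mem_nhds (by norm_num : (-1 : ℝ) < 0) (by norm_num : (0 : ℝ) < 1)] with s hs
    exact h s hs
  rw [d1.unique (d3.congr_of_eventuallyEq ev), mul_zero, add_zero, ← map_smul, ← map_smul]
  congr 1
  ext <;> simp

theorem n10 : ‖((1, 0) : ℝ × ℝ)‖ = 1 := by rw [norm_pr]; simp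

theorem n01 : ‖((0, 1) : ℝ × ℝ)‖ = 1 := by rw [norm_pr]; simp

/-- the framing near an end -/
theorem wnear {f : ℝ × ℝ → E3} {η δ l p t a τ κ : ℝ} (hU : US f η δ) (lδ : 100 * l ≤ δ)
    (p0 : 0 ≤ p) (p1 : p ≤ 28) (t0 : 0 ≤ t) (t1 : t ≤ 1) (a0 : 0 ≤ a) (hτ : |τ - t| ≤ 3 * l)
    (hκ : |κ| = 1) {w : E3} (hw : w = a • κ • fderiv ℝ f (τ * p, τ) (1, 0)) :
    ‖w - a • κ • fderiv ℝ f (t * p, t) (1, 0)‖ ≤ η * a := by
  have k := (hU (t * p, t) ((ray_norm (by linarith) (by linarith) t0).trans (by linarith))).1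
    (τ * p, τ) (by
      rw [Prod.mk_sub_mk, norm_pr, ← sub_mul, abs_mul, abs_of_nonneg p0]
      have := abs_nonneg (τ - t)
      exact max_le (by nlinarith) (by linarith))
  rw [hw, ← smul_sub, ← smul_sub, norm_smul, norm_smul, Real.norm_of_nonneg a0, Real.norm_eq_abs,
    hκ, one_mul, mul_comm]
  refine mul_le_mul_of_nonneg_right ?_ a0
  have := (fderiv ℝ f (τ * p, τ) - fderiv ℝ f (t * p, t)).le_opNorm (1, 0)
  rw [n10, mul_one] at this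
  exact this.trans k

/-- the width near an end -/
theorem gnear {f : ℝ × ℝ → E3} {η δ ε p t κ : ℝ} (hU : US f η δ) (ε0 : 0 ≤ ε) (εδ : ε ≤ δ)
    (p0 : 0 ≤ p) (p1 : p ≤ 28) (t0 : 0 ≤ t) (t1 : t ≤ 1) (hκ : |κ| = 1) :
    ‖f (t * (p + κ * ε), t) - f (t * (p + κ * -ε), t) -
      (2 * ε * t) • κ • fderiv ℝ f (t * p, t) (1, 0)‖ ≤ η * (2 * ε * t) := by
  have n : ∀ b : ℝ, |b| = ε → ‖((t * (p + κ * b), t) : ℝ × ℝ) - (t * p, t)‖ ≤ δ := fun b hb => by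
    rw [Prod.mk_sub_mk, norm_pr, ← mul_sub, add_sub_cancel_left, sub_self, abs_zero, abs_mul,
      abs_mul, hκ, hb, abs_of_nonneg t0]
    exact max_le (by nlinarith) (by linarith)
  have k := (hU (t * p, t) ((ray_norm (by linarith) (by linarith) t0).trans (by linarith))).2
    _ _ (n ε (abs_of_nonneg ε0)) (n (-ε) (by rw [abs_neg, abs_of_nonneg ε0]))
  have v : ((t * (p + κ * ε), t) : ℝ × ℝ) - (t * (p + κ * -ε), t) =
      (2 * ε * t) • κ • (1, 0) := by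
    ext <;> simp <;> ring
  rwa [v, map_smul, map_smul, norm_smul (2 * ε * t) (κ • ((1, 0) : ℝ × ℝ)), norm_smul κ, n10,
    Real.norm_eq_abs κ, hκ, Real.norm_of_nonneg (by positivity), mul_one, mul_one] at k

/-- the width in the middle -/
theorem gmid {γ : ℝ × ℝ → E3} {η δ ε t : ℝ} (hU : US γ η δ) (ε0 : 0 ≤ ε) (εδ : ε ≤ δ)
    (ht : |t| ≤ 60) : ‖γ (t, ε) - γ (t, -ε) - (2 * ε * 1) • fderiv ℝ γ (t, 0) (0, 1)‖ ≤
      η * (2 * ε * 1) := by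
  have n : ∀ b : ℝ, |b| = ε → ‖((t, b) : ℝ × ℝ) - (t, 0)‖ ≤ δ := fun b hb => by
    rw [Prod.mk_sub_mk, norm_pr, sub_self, sub_zero, abs_zero, hb]
    exact max_le (by linarith) εδ
  have k := (hU (t, 0) (by rw [norm_pr, abs_zero]; exact max_le ht (by norm_num))).2
    _ _ (n ε (abs_of_nonneg ε0)) (n (-ε) (by rw [abs_neg, abs_of_nonneg ε0]))
  have v : ((t, ε) : ℝ × ℝ) - (t, -ε) = (2 * ε * 1) • (0, 1) := by
    ext <;> simp <;> ring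
  rwa [v, map_smul, norm_smul (2 * ε * 1) ((0, 1) : ℝ × ℝ), n01,
    Real.norm_of_nonneg (by positivity), mul_one (2 * ε * 1)] at k

theorem wmid {γ : ℝ × ℝ → E3} {η δ t τ : ℝ} (hU : US γ η δ) (ht : |t| ≤ 60) (hτ : |τ - t| ≤ δ) :
    ‖fderiv ℝ γ (τ, 0) (0, 1) - (1 : ℝ) • fderiv ℝ γ (t, 0) (0, 1)‖ ≤ η * 1 := by
  have k := (hU (t, 0) (by rw [norm_pr, abs_zero]; exact max_le ht (by norm_num))).1 (τ, 0) (by
    rw [Prod.mk_sub_mk, norm_pr, sub_self, abs_zero, max_eq_left (abs_nonneg _)]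
    exact hτ)
  have := (fderiv ℝ γ (τ, 0) - fderiv ℝ γ (t, 0)).le_opNorm (0, 1)
  rw [n01, mul_one] at this
  rw [one_smul, mul_one]
  exact this.trans k

end Vale.Agent.Q258U.S3b
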