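import Vale.Agent.Q258U.Core

/-!
# Subdivision: the edges of `tri3 μ P` are parts of the edges of `P`
-/

set_option linter.all false

namespace Vale.Agent.Q258U

open Vale.Agent.P258.Braid Vale.Agent.N258B Vale.Agent.Q258D Set Complex

namespace T

theorem al_zero (μ : ℝ) : al μ 0 = 0 := by simp [al]
theorem al_one (μ : ℝ) : al μ 1 = μ := by simp [al]
theorem al_two (μ : ℝ) : al μ 2 = 1 - μ := by simp [al]
theorem al_three (μ : ℝ) : al μ 3 = 1 := by simp [al]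

theorem pt_zero (P : FP) (j : Fin 4) (i : ℕ) : P.pt j i 0 = P.a j i := by simp [FP.pt]

theorem pt_one (P : FP) (j : Fin 4) (i : ℕ) : P.pt j i 1 = P.a j (i + 1) := by
  simp [FP.pt, FP.ed]

theorem pt_sub (P : FP) (j : Fin 4) (i : ℕ) (s t : ℝ) :
    P.pt j i t - P.pt j i s = (t - s) • P.ed j i := by
  simp only [FP.pt, sub_smul]; abel

theorem pt_add (P : FP) (j : Fin 4) (i : ℕ) (s t : ℝ) :
    P.pt j i s + t • P.ed j i = P.pt j i (s + t) := by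
  simp only [FP.pt, add_smul]; abel

theorem ind_smul {e1 e2 V : E3} (h : Ind e1 e2 V) {c1 c2 : ℝ} (h1 : 0 < c1) (h2 : 0 < c2) :
    Ind (c1 • e1) (c2 • e2) V := fun a b c ha hb e => by
  rw [smul_smul, smul_smul] at e
  obtain ⟨k1, k2, k3⟩ := h _ _ _ (mul_nonneg ha h1.le) (mul_nonneg hb h2.le) e
  exact ⟨(mul_eq_zero.1 k1).resolve_right h1.ne', (mul_eq_zero.1 k2).resolve_right h2.ne', k3⟩

theorem tri3_N (μ : ℝ) (P : FP) : (tri3 μ P).N = 3 * P.N - 4 := rfl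

theorem tri3_a_zero (μ : ℝ) (P : FP) (j : Fin 4) : (tri3 μ P).a j 0 = P.a j 0 := by
  simp [tri3]

theorem tri3_a_last (μ : ℝ) {P : FP} (hN : 2 ≤ P.N) (j : Fin 4) :
    (tri3 μ P).a j (3 * P.N - 4) = P.a j P.N := by
  have h : 3 * P.N - 4 ≠ 0 := by omega
  simp [tri3, h]

/-- the inner vertices -/
theorem tri3_a_mid (μ : ℝ) (P : FP) (j : Fin 4) {n : ℕ} (h0 : n ≠ 0) (h1 : n ≠ 3 * P.N - 4) :
    (tri3 μ P).a j n = P.pt j ((n - 1) / 3 + 1) (al μ ((n - 1) % 3)) := by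
  simp [tri3, h0, h1]

/-- the vertex `3 q + 1 + r` is on the old edge `q + 1` -/
theorem tri3_a (μ : ℝ) (P : FP) (j : Fin 4) {q r : ℕ} (hq : q + 3 ≤ P.N) (hr : r ≤ 3) :
    (tri3 μ P).a j (3 * q + 1 + r) = P.pt j (q + 1) (al μ r) := by
  rw [tri3_a_mid μ P j (by omega) (by omega)]
  rcases hr.eq_or_lt with rfl | hr
  · rw [show (3 * q + 1 + 3 - 1) / 3 + 1 = q + 1 + 1 by omega,
      show (3 * q + 1 + 3 - 1) % 3 = 0 by omega, al_zero, al_three, pt_zero, pt_one]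
  · rw [show (3 * q + 1 + r - 1) / 3 + 1 = q + 1 by omega,
      show (3 * q + 1 + r - 1) % 3 = r by omega]

/-- the old inner vertices -/
theorem tri3_a_old (μ : ℝ) (P : FP) (j : Fin 4) {q : ℕ} (hq : q + 2 ≤ P.N) :
    (tri3 μ P).a j (3 * q + 1) = P.a j (q + 1) := by
  rw [tri3_a_mid μ P j (by omega) (by omega), show (3 * q + 1 - 1) / 3 + 1 = q + 1 by omega,
    show (3 * q + 1 - 1) % 3 = 0 by omega, al_zero, pt_zero]

theorem tri3_ed (μ : ℝ) (P : FP) (j : Fin 4) {q r : ℕ} (hq : q + 3 ≤ P.N) (hr : r < 3) :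
    (tri3 μ P).ed j (3 * q + 1 + r) = (al μ (r + 1) - al μ r) • P.ed j (q + 1) := by
  rw [FP.ed, add_assoc (3 * q + 1), tri3_a μ P j hq hr.le, tri3_a μ P j hq (by omega), pt_sub]

theorem tri3_pt (μ : ℝ) (P : FP) (j : Fin 4) {q r : ℕ} (hq : q + 3 ≤ P.N) (hr : r < 3) (ν : ℝ) :
    (tri3 μ P).pt j (3 * q + 1 + r) ν =
      P.pt j (q + 1) (al μ r + ν * (al μ (r + 1) - al μ r)) := by
  rw [FP.pt, tri3_ed μ P j hq hr, tri3_a μ P j hq hr.le, smul_smul, pt_add]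

theorem tri3_v (μ : ℝ) (P : FP) (j : Fin 4) {q r : ℕ} (hq : q + 3 ≤ P.N) (hr : r < 3) (ν : ℝ) :
    (tri3 μ P).v j (3 * q + 1 + r) ν =
      P.v j (q + 1) (al μ r + ν * (al μ (r + 1) - al μ r)) := by
  have h0 : 3 * q + 1 + r ≠ 0 := by omega
  have h1 : 3 * q + 1 + r ≠ 3 * P.N - 5 := by omega
  simp only [tri3, h0, h1, if_false]
  rw [show (3 * q + 1 + r - 1) / 3 + 1 = q + 1 by omega,
    show (3 * q + 1 + r - 1) % 3 = r by omega]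

theorem tri3_ed_zero (μ : ℝ) {P : FP} (hN : 2 ≤ P.N) (j : Fin 4) :
    (tri3 μ P).ed j 0 = P.ed j 0 := by
  have h := tri3_a_old μ P j (q := 0) hN
  rw [FP.ed, FP.ed, tri3_a_zero, ← h]

theorem tri3_a_pen (μ : ℝ) {P : FP} (hN : 2 ≤ P.N) (j : Fin 4) :
    (tri3 μ P).a j (3 * P.N - 5) = P.a j (P.N - 1) := by
  have h := tri3_a_old μ P j (q := P.N - 2) (by omega)
  rwa [show 3 * (P.N - 2) + 1 = 3 * P.N - 5 by omega, show P.N - 2 + 1 = P.N - 1 by omega] at h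

theorem tri3_ed_last (μ : ℝ) {P : FP} (hN : 2 ≤ P.N) (j : Fin 4) :
    (tri3 μ P).ed j (3 * P.N - 5) = P.ed j (P.N - 1) := by
  rw [FP.ed, FP.ed, show 3 * P.N - 5 + 1 = 3 * P.N - 4 by omega, tri3_a_last μ hN,
    tri3_a_pen μ hN, show P.N - 1 + 1 = P.N by omega]

theorem tri3_pt_zero (μ : ℝ) {P : FP} (hN : 2 ≤ P.N) (j : Fin 4) (ν : ℝ) :
    (tri3 μ P).pt j 0 ν = P.pt j 0 ν := by
  rw [FP.pt, FP.pt, tri3_ed_zero μ hN, tri3_a_zero]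

theorem tri3_pt_last (μ : ℝ) {P : FP} (hN : 2 ≤ P.N) (j : Fin 4) (ν : ℝ) :
    (tri3 μ P).pt j (3 * P.N - 5) ν = P.pt j (P.N - 1) ν := by
  rw [FP.pt, FP.pt, tri3_ed_last μ hN, tri3_a_pen μ hN]

theorem tri3_v_zero (μ : ℝ) (P : FP) (j : Fin 4) (ν : ℝ) : (tri3 μ P).v j 0 ν = P.v j 0 ν := by
  simp [tri3]

theorem tri3_v_last (μ : ℝ) {P : FP} (hN : 2 ≤ P.N) (j : Fin 4) (ν : ℝ) :
    (tri3 μ P).v j (3 * P.N - 5) ν = P.v j (P.N - 1) ν := by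
  have h : 3 * P.N - 5 ≠ 0 := by omega
  simp [tri3, h]

/-- the three kinds of edges -/
theorem edge_cases {N n : ℕ} (hN : 2 ≤ N) (hn : n < 3 * N - 4) :
    n = 0 ∨ n = 3 * N - 5 ∨ ∃ q r, q + 3 ≤ N ∧ r < 3 ∧ n = 3 * q + 1 + r := by
  by_cases h0 : n = 0
  · exact Or.inl h0
  by_cases h1 : n = 3 * N - 5
  · exact Or.inr (Or.inl h1)
  exact Or.inr (Or.inr ⟨(n - 1) / 3, (n - 1) % 3, by omega, by omega, by omega⟩)

/-! ### A uniform description: the edge `n` is the part `[lw n, up n]` of the old edge `ix n` -/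

/-- the old edge -/
def ix (n : ℕ) : ℕ := (n + 2) / 3

/-- the lower end -/
def lw (μ : ℝ) (n : ℕ) : ℝ := al μ ((n - 1) % 3)

/-- the upper end -/
def up (μ : ℝ) (N n : ℕ) : ℝ := if n = 0 ∨ n = 3 * N - 5 then 1 else al μ ((n - 1) % 3 + 1)

theorem ix_mid (q : ℕ) {r : ℕ} (hr : r < 3) : ix (3 * q + 1 + r) = q + 1 := by
  unfold ix; omega

theorem lw_mid (μ : ℝ) (q : ℕ) {r : ℕ} (hr : r < 3) : lw μ (3 * q + 1 + r) = al μ r := by
  rw [lw, show (3 * q + 1 + r - 1) % 3 = r by omega]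

theorem up_mid (μ : ℝ) {N q r : ℕ} (hq : q + 3 ≤ N) (hr : r < 3) :
    up μ N (3 * q + 1 + r) = al μ (r + 1) := by
  rw [up, if_neg (by omega), show (3 * q + 1 + r - 1) % 3 = r by omega]

theorem ix_zero : ix 0 = 0 := rfl
theorem lw_zero (μ : ℝ) : lw μ 0 = 0 := al_zero μ
theorem up_zero (μ : ℝ) (N : ℕ) : up μ N 0 = 1 := if_pos (Or.inl rfl)
theorem ix_last {N : ℕ} (hN : 2 ≤ N) : ix (3 * N - 5) = N - 1 := by unfold ix; omega
theorem lw_last (μ : ℝ) {N : ℕ} (hN : 2 ≤ N) : lw μ (3 * N - 5) = 0 := by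
  rw [lw, show (3 * N - 5 - 1) % 3 = 0 by omega, al_zero]
theorem up_last (μ : ℝ) (N : ℕ) : up μ N (3 * N - 5) = 1 := if_pos (Or.inr rfl)

theorem ix_lt {N n : ℕ} (hn : n < 3 * N - 4) : ix n < N := by unfold ix; omega

theorem ed_eq (μ : ℝ) {P : FP} (hN : 2 ≤ P.N) (j : Fin 4) {n : ℕ} (hn : n < 3 * P.N - 4) :
    (tri3 μ P).ed j n = (up μ P.N n - lw μ n) • P.ed j (ix n) := by
  rcases edge_cases hN hn with rfl | rfl | ⟨q, r, hq, hr, rfl⟩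
  · rw [tri3_ed_zero μ hN, up_zero, lw_zero, ix_zero, sub_zero, one_smul]
  · rw [tri3_ed_last μ hN, up_last, lw_last μ hN, ix_last hN, sub_zero, one_smul]
  · rw [tri3_ed μ P j hq hr, up_mid μ hq hr, lw_mid μ q hr, ix_mid q hr]

theorem pt_eq (μ : ℝ) {P : FP} (hN : 2 ≤ P.N) (j : Fin 4) {n : ℕ} (hn : n < 3 * P.N - 4) (ν : ℝ) :
    (tri3 μ P).pt j n ν = P.pt j (ix n) (lw μ n + ν * (up μ P.N n - lw μ n)) := by
  rcases edge_cases hN hn with rfl | rfl | ⟨q, r, hq, hr, rfl⟩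
  · rw [tri3_pt_zero μ hN, up_zero, lw_zero, ix_zero, sub_zero, mul_one, zero_add]
  · rw [tri3_pt_last μ hN, up_last, lw_last μ hN, ix_last hN, sub_zero, mul_one, zero_add]
  · rw [tri3_pt μ P j hq hr, up_mid μ hq hr, lw_mid μ q hr, ix_mid q hr]

theorem v_eq (μ : ℝ) {P : FP} (hN : 2 ≤ P.N) (j : Fin 4) {n : ℕ} (hn : n < 3 * P.N - 4) (ν : ℝ) :
    (tri3 μ P).v j n ν = P.v j (ix n) (lw μ n + ν * (up μ P.N n - lw μ n)) := by
  rcases edge_cases hN hn with rfl | rfl | ⟨q, r, hq, hr, rfl⟩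
  · rw [tri3_v_zero, up_zero, lw_zero, ix_zero, sub_zero, mul_one, zero_add]
  · rw [tri3_v_last μ hN, up_last, lw_last μ hN, ix_last hN, sub_zero, mul_one, zero_add]
  · rw [tri3_v μ P j hq hr, up_mid μ hq hr, lw_mid μ q hr, ix_mid q hr]

theorem al_bd {μ : ℝ} (h0 : 0 < μ) (h1 : μ < 1 / 2) {r : ℕ} (hr : r < 3) :
    0 ≤ al μ r ∧ al μ r < al μ (r + 1) ∧ al μ (r + 1) ≤ 1 := by
  interval_cases r <;> simp only [zero_add, Nat.reduceAdd, al_zero, al_one, al_two, al_three] <;>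
    refine ⟨?_, ?_, ?_⟩ <;> linarith

theorem bd {μ : ℝ} (h0 : 0 < μ) (h1 : μ < 1 / 2) (N n : ℕ) :
    0 ≤ lw μ n ∧ lw μ n < up μ N n ∧ up μ N n ≤ 1 := by
  obtain ⟨k1, k2, k3⟩ := al_bd h0 h1 (Nat.mod_lt (n - 1) (by norm_num : 0 < 3))
  unfold up lw
  split_ifs
  · exact ⟨k1, k2.trans_le k3, le_rfl⟩
  · exact ⟨k1, k2, k3⟩

theorem par_bd {μ : ℝ} (h0 : 0 < μ) (h1 : μ < 1 / 2) (N n : ℕ) {ν : ℝ} (hν : ν ∈ Icc (0 : ℝ) 1) :
    lw μ n ≤ lw μ n + ν * (up μ N n - lw μ n) ∧ lw μ n + ν * (up μ N n - lw μ n) ≤ up μ N n := by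
  obtain ⟨-, k2, -⟩ := bd h0 h1 N n
  obtain ⟨a, b⟩ := hν
  constructor <;> nlinarith

theorem par_mem {μ : ℝ} (h0 : 0 < μ) (h1 : μ < 1 / 2) (N n : ℕ) {ν : ℝ} (hν : ν ∈ Icc (0 : ℝ) 1) :
    lw μ n + ν * (up μ N n - lw μ n) ∈ Icc (0 : ℝ) 1 := by
  obtain ⟨k1, -, k3⟩ := bd h0 h1 N n
  obtain ⟨a, b⟩ := par_bd h0 h1 N n hν
  exact ⟨k1.trans a, b.trans k3⟩

/-- consecutive edges -/
theorem adj (μ : ℝ) {N n : ℕ} (hn : n + 1 < 3 * N - 4) :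
    (n % 3 ≠ 0 ∧ ix (n + 1) = ix n ∧ lw μ (n + 1) = up μ N n) ∨
      (n = 3 * ix n ∧ ix (n + 1) = ix n + 1 ∧ up μ N n = 1 ∧ lw μ (n + 1) = 0) := by
  by_cases h : n % 3 = 0
  · refine Or.inr ⟨by unfold ix; omega, by unfold ix; omega, ?_, ?_⟩
    · unfold up
      split_ifs with h1
      · rfl
      · rw [show (n - 1) % 3 + 1 = 3 by omega, al_three]
    · rw [lw, Nat.add_sub_cancel, h, al_zero]
  · refine Or.inl ⟨h, by unfold ix; omega, ?_⟩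
    rw [lw, up, if_neg (by omega), show (n + 1 - 1) % 3 = (n - 1) % 3 + 1 by omega]

/-- every point of an old edge is on a new edge -/
theorem cover {μ : ℝ} (h0 : 0 < μ) (h1 : μ < 1 / 2) {N i : ℕ} (hN : 2 ≤ N) (hi : i < N) {s : ℝ}
    (hs : s ∈ Icc (0 : ℝ) 1) :
    ∃ n < 3 * N - 4, ∃ ν ∈ Icc (0 : ℝ) 1, ix n = i ∧ lw μ n + ν * (up μ N n - lw μ n) = s := by
  have key : ∃ n < 3 * N - 4, ix n = i ∧ lw μ n ≤ s ∧ s ≤ up μ N n := by
    by_cases a : i = 0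
    · exact ⟨0, by omega, a ▸ ix_zero, by rw [lw_zero]; exact hs.1, by rw [up_zero]; exact hs.2⟩
    by_cases b : i = N - 1
    · exact ⟨3 * N - 5, by omega, b ▸ ix_last hN, by rw [lw_last μ hN]; exact hs.1,
        by rw [up_last]; exact hs.2⟩
    have c : ∃ r < 3, al μ r ≤ s ∧ s ≤ al μ (r + 1) := by
      by_cases c1 : s ≤ μ
      · exact ⟨0, by norm_num, by rw [al_zero]; exact hs.1, by rw [zero_add, al_one]; exact c1⟩
      by_cases c2 : s ≤ 1 - μ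
      · exact ⟨1, by norm_num, by rw [al_one]; linarith, (al_two μ).symm ▸ c2⟩
      · exact ⟨2, by norm_num, by rw [al_two]; linarith, (al_three μ).symm ▸ hs.2⟩
    obtain ⟨r, hr, c1, c2⟩ := c
    exact ⟨3 * (i - 1) + 1 + r, by omega, by rw [ix_mid _ hr]; omega, by rwa [lw_mid _ _ hr],
      by rwa [up_mid _ (by omega) hr]⟩
  obtain ⟨n, hn, e, a, b⟩ := key
  have d : 0 < up μ N n - lw μ n := sub_pos.2 (bd h0 h1 N n).2.1
  exact ⟨n, hn, (s - lw μ n) / (up μ N n - lw μ n),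
    ⟨div_nonneg (sub_nonneg.2 a) d.le, (div_le_one d).2 (by linarith)⟩, e,
    by rw [div_mul_cancel₀ _ d.ne']; ring⟩

end T

end Vale.Agent.Q258U
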