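import Vale.Agent.Q258U.Core

/-!
# The monotone pieces of a framed polygon as functions of the level
-/

set_option linter.all false

namespace Vale.Agent.Q258U

open Vale.Agent.P258.Braid Vale.Agent.N258B Vale.Agent.Q258D Set Complex

namespace X1

open Classical in
/-- the number of the piece of an edge -/
noncomputable def rho (P : FP) (j : Fin 4) (i : ℕ) : ℕ := ((Finset.range i).filter (Crit P j)).card

/-- the parameter of the level `t` on an edge -/
noncomputable def mm (P : FP) (j : Fin 4) (i : ℕ) (t : ℝ) : ℝ :=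
  max 0 (min 1 ((t - (P.a j i).2) / (P.ed j i).2))

/-- the part of the edge `i` before the point of level `t` of the piece `r` -/
noncomputable def kap (P : FP) (j : Fin 4) (r i : ℕ) (t : ℝ) : ℝ :=
  if rho P j i < r then 1 else if rho P j i = r then mm P j i t else 0

/-- the core -/
noncomputable def cc (P : FP) (j : Fin 4) (r : ℕ) (t : ℝ) : ℂ :=
  (P.a j 0).1 + ∑ i ∈ Finset.range P.N, (kap P j r i t : ℂ) * (P.ed j i).1

/-- the framing -/
noncomputable def ww (P : FP) (j : Fin 4) (r : ℕ) (t : ℝ) : ℂ :=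
  (P.v j 0 0).1 + ∑ i ∈ Finset.range P.N, ((P.v j i (kap P j r i t)).1 - (P.v j i 0).1)

/-- the framing with its sign -/
noncomputable def uu (P : FP) (j : Fin 4) (r : ℕ) (t : ℝ) : ℂ := (-1) ^ r * ww P j r t

variable {P : FP} {j : Fin 4} {T : ℝ} {k : ℕ}

theorem rho_zero : rho P j 0 = 0 := by simp [rho]

theorem rho_crit {i : ℕ} (h : Crit P j i) : rho P j (i + 1) = rho P j i + 1 := by
  classical
  unfold rho
  rw [Finset.range_add_one, Finset.filter_insert, if_pos h, Finset.card_insert_of_notMem (by simp)]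

theorem rho_not {i : ℕ} (h : ¬ Crit P j i) : rho P j (i + 1) = rho P j i := by
  classical
  unfold rho
  rw [Finset.range_add_one, Finset.filter_insert, if_neg h]

theorem rho_mono : Monotone (rho P j) := monotone_nat_of_le_succ fun i => by
  by_cases h : Crit P j i
  · rw [rho_crit h]; omega
  · rw [rho_not h]

theorem rho_last (hS : Std P) (hk : cnt P j + 1 = 2 * k) : rho P j (P.N - 1) + 1 = 2 * k := by
  have h4 := hS.N4
  have h : ¬ Crit P j (P.N - 1) := fun h => by have := h.1; omega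
  have h2 := rho_not h
  rw [show P.N - 1 + 1 = P.N by omega] at h2
  rw [← h2]; exact hk

theorem rho_lt (hS : Std P) (hk : cnt P j + 1 = 2 * k) {i : ℕ} (hi : i < P.N) :
    rho P j i < 2 * k := by
  have := rho_last hS hk
  have := rho_mono (P := P) (j := j) (show i ≤ P.N - 1 by omega)
  omega

theorem ed2 (i : ℕ) : (P.ed j i).2 = (P.a j (i + 1)).2 - (P.a j i).2 := rfl

theorem ed1 (i : ℕ) : (P.ed j i).1 = (P.a j (i + 1)).1 - (P.a j i).1 := rfl

theorem pt2 (i : ℕ) (μ : ℝ) : (P.pt j i μ).2 = (P.a j i).2 + μ * (P.ed j i).2 := rfl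

theorem pt1 (i : ℕ) (μ : ℝ) : (P.pt j i μ).1 = (P.a j i).1 + μ * (P.ed j i).1 := by
  simp [FP.pt]

theorem sq_one (r : ℕ) : ((-1 : ℝ) ^ r) * (-1) ^ r = 1 := by
  rw [← mul_pow]; simp

theorem sgn (hS : Std P) (hN : NH P) : ∀ i < P.N, 0 < (-1 : ℝ) ^ rho P j i * (P.ed j i).2 := by
  intro i
  induction i with
  | zero =>
    intro _
    have h1 := hS.s1h j
    have h0 := hS.s0 j
    rw [rho_zero, ed2, h0]; simp only [pow_zero, one_mul, zero_add]; linarith
  | succ i ih =>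
    intro hi
    have h := ih (by omega)
    have hs := sq_one (rho P j i)
    by_cases c : Crit P j i
    · rw [rho_crit c, pow_succ]
      have h2 := c.2
      by_contra hn
      push Not at hn
      have h3 : 0 ≤ (-1 : ℝ) ^ rho P j i * (P.ed j (i + 1)).2 := by linarith
      have h4 := mul_nonneg h.le h3
      have h5 : (-1 : ℝ) ^ rho P j i * (P.ed j i).2 * ((-1 : ℝ) ^ rho P j i * (P.ed j (i + 1)).2)
          = ((-1 : ℝ) ^ rho P j i * (-1) ^ rho P j i) * ((P.ed j i).2 * (P.ed j (i + 1)).2) := by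
        ring
      rw [h5, hs] at h4; linarith
    · rw [rho_not c]
      have h2 : 0 ≤ (P.ed j i).2 * (P.ed j (i + 1)).2 := by
        by_contra hn
        exact c ⟨hi, by linarith⟩
      have h3 := hN j (i + 1) hi
      have h6 : (-1 : ℝ) ^ rho P j i * (P.ed j (i + 1)).2 ≠ 0 :=
        mul_ne_zero (pow_ne_zero _ (by norm_num)) h3
      by_contra hn
      push Not at hn
      have h4 := mul_neg_of_pos_of_neg h (lt_of_le_of_ne hn h6)
      have h5 : (-1 : ℝ) ^ rho P j i * (P.ed j i).2 * ((-1 : ℝ) ^ rho P j i * (P.ed j (i + 1)).2)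
          = ((-1 : ℝ) ^ rho P j i * (-1) ^ rho P j i) * ((P.ed j i).2 * (P.ed j (i + 1)).2) := by
        ring
      rw [h5, hs] at h4; linarith

theorem up (hS : Std P) (hN : NH P) {i : ℕ} (hi : i < P.N) (h : Even (rho P j i)) :
    0 < (P.ed j i).2 := by
  have := sgn (j := j) hS hN i hi
  rwa [h.neg_one_pow, one_mul] at this

theorem down (hS : Std P) (hN : NH P) {i : ℕ} (hi : i < P.N) (h : Odd (rho P j i)) :
    (P.ed j i).2 < 0 := by
  have := sgn (j := j) hS hN i hi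
  rw [h.neg_one_pow] at this; linarith

theorem mono (hS : Std P) (hN : NH P) (r i : ℕ) : ∀ d, i + d ≤ P.N →
    (∀ n, i ≤ n → n < i + d → rho P j n = r) →
    (-1 : ℝ) ^ r * (P.a j i).2 ≤ (-1 : ℝ) ^ r * (P.a j (i + d)).2 := by
  intro d
  induction d with
  | zero => intro _ _; exact le_rfl
  | succ d ih =>
    intro h1 h2
    have h3 := ih (by omega) fun n a b => h2 n a (by omega)
    have h4 := sgn (j := j) hS hN (i + d) (by omega)
    rw [h2 (i + d) (by omega) (by omega), ed2] at h4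
    rw [← add_assoc]
    linarith

theorem kap_mem (r i : ℕ) (t : ℝ) : kap P j r i t ∈ Icc (0 : ℝ) 1 := by
  unfold kap mm
  split_ifs
  · exact ⟨zero_le_one, le_rfl⟩
  · exact ⟨le_max_left _ _, max_le zero_le_one (min_le_left _ _)⟩
  · exact ⟨le_rfl, zero_le_one⟩

theorem kap_cont (r i : ℕ) : Continuous (kap P j r i) := by
  unfold kap mm
  split_ifs
  · exact continuous_const
  · fun_prop
  · exact continuous_const

theorem kap_lt (hS : Std P) (hN : NH P) {i i0 : ℕ} (h0 : i0 < P.N) (hi : i < i0) {μ : ℝ}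
    (hμ : μ ∈ Icc (0 : ℝ) 1) : kap P j (rho P j i0) i (P.pt j i0 μ).2 = 1 := by
  unfold kap
  split_ifs with c1 c2
  · rfl
  · have h1 := sgn (j := j) hS hN i (by omega)
    have h2 := sgn (j := j) hS hN i0 h0
    have h3 := mono (j := j) hS hN (rho P j i0) (i + 1) (i0 - (i + 1)) (by omega) fun n a b =>
      le_antisymm (rho_mono (by omega)) (c2 ▸ rho_mono (by omega))
    rw [show i + 1 + (i0 - (i + 1)) = i0 by omega] at h3
    rw [c2] at h1
    have h4 : 1 ≤ ((P.pt j i0 μ).2 - (P.a j i).2) / (P.ed j i).2 := by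
      rw [← mul_div_mul_left _ _ (pow_ne_zero (rho P j i0) (by norm_num : (-1 : ℝ) ≠ 0)),
        one_le_div h1, pt2]
      have h5 := mul_nonneg hμ.1 h2.le
      rw [ed2 i]
      nlinarith
    unfold mm
    rw [min_eq_left h4, max_eq_right zero_le_one]
  · have := rho_mono (P := P) (j := j) hi.le
    omega

theorem kap_eq (hN : NH P) {i0 : ℕ} (h0 : i0 < P.N) {μ : ℝ}
    (hμ : μ ∈ Icc (0 : ℝ) 1) : kap P j (rho P j i0) i0 (P.pt j i0 μ).2 = μ := by
  unfold kap mm
  rw [if_neg (lt_irrefl _), if_pos rfl, pt2, add_sub_cancel_left,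
    mul_div_cancel_right₀ _ (hN j i0 h0), min_eq_right hμ.2, max_eq_right hμ.1]

theorem kap_gt (hS : Std P) (hN : NH P) {i i0 : ℕ} (h0 : i < P.N) (hi : i0 < i) {μ : ℝ}
    (hμ : μ ∈ Icc (0 : ℝ) 1) : kap P j (rho P j i0) i (P.pt j i0 μ).2 = 0 := by
  unfold kap
  split_ifs with c1 c2
  · have := rho_mono (P := P) (j := j) hi.le
    omega
  · have h1 := sgn (j := j) hS hN i h0
    have h2 := sgn (j := j) hS hN i0 (by omega)
    have h3 := mono (j := j) hS hN (rho P j i0) (i0 + 1) (i - (i0 + 1)) (by omega) fun n a b =>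
      le_antisymm (c2 ▸ rho_mono (by omega)) (rho_mono (by omega))
    rw [show i0 + 1 + (i - (i0 + 1)) = i by omega] at h3
    rw [c2] at h1
    have h4 : ((P.pt j i0 μ).2 - (P.a j i).2) / (P.ed j i).2 ≤ 0 := by
      rw [← mul_div_mul_left _ _ (pow_ne_zero (rho P j i0) (by norm_num : (-1 : ℝ) ≠ 0))]
      refine div_nonpos_of_nonpos_of_nonneg ?_ h1.le
      have h5 := mul_nonneg (sub_nonneg.2 hμ.2) h2.le
      rw [pt2]
      rw [ed2 i0] at h5 ⊢
      nlinarith
    unfold mm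
    exact max_eq_left (min_le_of_right_le h4)
  · rfl

theorem tele {N i0 : ℕ} (h0 : i0 < N) (F A : ℕ → ℂ) (h1 : ∀ i < i0, F i = A (i + 1) - A i)
    (h2 : ∀ i, i0 < i → i < N → F i = 0) :
    A 0 + ∑ i ∈ Finset.range N, F i = A i0 + F i0 := by
  rw [← Finset.sum_subset (Finset.range_mono (show i0 + 1 ≤ N from h0)) fun i a b =>
    h2 i (by simp at b; omega) (by simpa using a), Finset.sum_range_succ,
    Finset.sum_congr rfl fun i hi => h1 i (Finset.mem_range.1 hi), Finset.sum_range_sub]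
  ring

theorem cc_eq (hS : Std P) (hN : NH P) {i0 : ℕ} (h0 : i0 < P.N) {μ : ℝ} (hμ : μ ∈ Icc (0 : ℝ) 1) :
    cc P j (rho P j i0) (P.pt j i0 μ).2 = (P.pt j i0 μ).1 := by
  unfold cc
  rw [tele h0 _ (fun i => (P.a j i).1), kap_eq hN h0 hμ, pt1]
  · intro i hi
    rw [kap_lt hS hN h0 hi hμ, ed1]; simp
  · intro i hi hi'
    rw [kap_gt hS hN hi' hi hμ]; simp

theorem ww_eq (hS : Std P) (hN : NH P) {i0 : ℕ} (h0 : i0 < P.N) {μ : ℝ} (hμ : μ ∈ Icc (0 : ℝ) 1) :
    ww P j (rho P j i0) (P.pt j i0 μ).2 = (P.v j i0 μ).1 := by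
  unfold ww
  rw [tele h0 _ (fun i => (P.v j i 0).1), kap_eq hN h0 hμ]
  · ring
  · intro i hi
    rw [kap_lt hS hN h0 hi hμ, hS.glue j i (by omega)]
  · intro i hi hi'
    rw [kap_gt hS hN hi' hi hμ]; simp

theorem cc_cont (r : ℕ) : Continuous (cc P j r) := by
  unfold cc
  refine continuous_const.add (continuous_finset_sum _ fun i _ => ?_)
  exact (continuous_ofReal.comp (kap_cont r i)).mul continuous_const

theorem ww_cont (hS : Std P) (r : ℕ) : Continuous (ww P j r) := by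
  unfold ww
  refine continuous_const.add (continuous_finset_sum _ fun i hi => ?_)
  obtain ⟨L, hL⟩ := hS.lip
  have h1 : ContinuousOn (P.v j i) (Icc 0 1) := by
    refine (LipschitzOnWith.of_dist_le_mul (K := L.toNNReal) fun x hx y hy => ?_).continuousOn
    rw [dist_eq_norm, Real.dist_eq]
    refine (hL j i (Finset.mem_range.1 hi) x hx y hy).trans ?_
    gcongr
    exact Real.le_coe_toNNReal L
  exact (continuous_fst.comp (h1.comp_continuous (kap_cont r i) (kap_mem r i))).sub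
    continuous_const

/-- the heights of the vertices -/
theorem hts (hS : Std P) (hN : NH P) (hL : Lev T P) {n : ℕ} (hn : n ≤ P.N) :
    (P.a j n).2 = T ∨ (P.a j n).2 = 0 ∨ (1 ≤ (P.a j n).2 ∧ (P.a j n).2 ≤ T - 2) := by
  have h4 := hL.1
  rcases n with _ | n
  · rw [hS.s0 j]; right; right; constructor <;> simp; linarith
  rcases hn.eq_or_lt with e | e
  · rw [e, hS.e0 j]; right; right; constructor <;> simp; linarith
  obtain ⟨h1, h2, h3⟩ := hL.2 j n e
  by_cases c : Crit P j n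
  · rcases lt_or_gt_of_ne (hN j n (by omega)) with s | s
    · exact Or.inr (Or.inl (h2 c s))
    · exact Or.inl (h1 c s)
  · obtain ⟨a, b⟩ := h3 c
    exact Or.inr (Or.inr ⟨by linarith, b⟩)

theorem lo_nonneg (k r : ℕ) : 0 ≤ lo k r := by unfold lo; split_ifs <;> norm_num

/-- the levels of the points of an edge -/
theorem lev_mem (hS : Std P) (hN : NH P) (hL : Lev T P) (hk : cnt P j + 1 = 2 * k) {i : ℕ}
    (hi : i < P.N) {μ : ℝ} (hμ : μ ∈ Icc (0 : ℝ) 1) :
    lo k (rho P j i) ≤ (P.pt j i μ).2 ∧ (P.pt j i μ).2 ≤ T := by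
  have h4 := hL.1
  have a1 := hts (j := j) hS hN hL hi.le
  have a2 := hts (j := j) hS hN hL (show i + 1 ≤ P.N from hi)
  have m0 := hμ.1
  have m1 := sub_nonneg.2 hμ.2
  have e : (P.pt j i μ).2 = (1 - μ) * (P.a j i).2 + μ * (P.a j (i + 1)).2 := by
    rw [pt2, ed2]; ring
  have key : ∀ x : ℝ, x ≤ (P.a j i).2 → x ≤ (P.a j (i + 1)).2 → x ≤ (P.pt j i μ).2 :=
    fun x h1 h2 => by rw [e]; nlinarith [mul_le_mul_of_nonneg_left h1 m1,
      mul_le_mul_of_nonneg_left h2 m0]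
  constructor
  · unfold lo
    split_ifs with c
    · rcases c with c | c
      · have s := up (j := j) hS hN hi (by rw [c]; exact Even.zero)
        rw [ed2] at s
        have b : 1 ≤ (P.a j i).2 := by
          rcases i with _ | i
          · rw [hS.s0 j]
          · have c' : ¬ Crit P j i := fun h => by rw [rho_crit h] at c; omega
            linarith [((hL.2 j i hi).2.2 c').1]
        exact key 1 b (by linarith)
      · have s := down (j := j) hS hN hi ⟨k - 1, by omega⟩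
        rw [ed2] at s
        have b : 1 ≤ (P.a j (i + 1)).2 := by
          rcases (show i + 1 ≤ P.N from hi).eq_or_lt with e | e
          · rw [e, hS.e0 j]
          · have c' : ¬ Crit P j i := fun h => by
              have := rho_lt hS hk e
              rw [rho_crit h] at this; omega
            linarith [((hL.2 j i e).2.2 c').1]
        exact key 1 (by linarith) b
    · refine key 0 ?_ ?_
      · rcases a1 with a | a | a <;> linarith
      · rcases a2 with a | a | a <;> linarith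
  · have b1 : (P.a j i).2 ≤ T := by rcases a1 with a | a | a <;> linarith
    have b2 : (P.a j (i + 1)).2 ≤ T := by rcases a2 with a | a | a <;> linarith
    rw [e]; nlinarith [mul_le_mul_of_nonneg_left b1 m1, mul_le_mul_of_nonneg_left b2 m0]

/-- the first edge of a piece -/
theorem first (hS : Std P) (hk : cnt P j + 1 = 2 * k) {r : ℕ} (hr : r + 1 < 2 * k) :
    ∃ n, Crit P j n ∧ rho P j n = r := by
  classical
  have h1 := rho_last hS hk
  have hex : ∃ n, r + 1 ≤ rho P j n := ⟨P.N - 1, by omega⟩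
  have h2 := Nat.find_spec hex
  rcases e : Nat.find hex with _ | n
  · rw [e, rho_zero] at h2; omega
  · have h3 := Nat.find_min hex (show n < Nat.find hex by omega)
    rw [e] at h2
    by_cases c : Crit P j n
    · rw [rho_crit c] at h2; exact ⟨n, c, by omega⟩
    · rw [rho_not c] at h2; omega

/-- every level is met -/
theorem surj (hS : Std P) (hN : NH P) (hL : Lev T P) (hk : cnt P j + 1 = 2 * k) {r : ℕ}
    (hr : r < 2 * k) {t : ℝ} (h1 : lo k r ≤ t) (h2 : t ≤ T) :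
    ∃ i < P.N, rho P j i = r ∧ ∃ μ ∈ Icc (0 : ℝ) 1, (P.pt j i μ).2 = t := by
  classical
  have h4 := hS.N4
  have l0 := lo_nonneg k r
  let Q : ℕ → Prop := fun i => rho P j i = r ∧ (-1 : ℝ) ^ r * (P.a j i).2 ≤ (-1 : ℝ) ^ r * t
  have hex : ∃ i ≤ P.N - 1, Q i := by
    rcases r with _ | r
    · refine ⟨0, by omega, rho_zero, ?_⟩
      rw [hS.s0 j]
      simpa [lo] using h1
    · obtain ⟨n, c, e⟩ := first hS hk hr
      have hn := c.1
      refine ⟨n + 1, by omega, by rw [rho_crit c, e], ?_⟩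
      rcases Nat.even_or_odd r with p | p
      · rw [(hL.2 j n hn).1 c (up hS hN (by omega) (e ▸ p)), p.add_one.neg_one_pow]; linarith
      · rw [(hL.2 j n hn).2.1 c (down hS hN (by omega) (e ▸ p)), p.add_one.neg_one_pow]; linarith
  obtain ⟨i0, hi0, hq0⟩ := hex
  have hq : Q (Nat.findGreatest Q (P.N - 1)) := Nat.findGreatest_spec hi0 hq0
  have hle : Nat.findGreatest Q (P.N - 1) ≤ P.N - 1 := Nat.findGreatest_le _
  have hmax : ∀ n, Nat.findGreatest Q (P.N - 1) < n → n ≤ P.N - 1 → ¬ Q n :=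
    fun n a b => Nat.findGreatest_is_greatest a b
  generalize Nat.findGreatest Q (P.N - 1) = i at hq hle hmax
  obtain ⟨q1, q2⟩ := hq
  have hi : i < P.N := by omega
  have q3 : (-1 : ℝ) ^ r * t ≤ (-1 : ℝ) ^ r * (P.a j (i + 1)).2 := by
    rcases (show i + 1 ≤ P.N from hi).eq_or_lt with e | e
    · have e2 := rho_last hS hk
      rw [show P.N - 1 = i by omega, q1] at e2
      rw [e, hS.e0 j, (show Odd r from ⟨k - 1, by omega⟩).neg_one_pow]
      have : lo k r = 1 := by simp [lo, e2]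
      linarith
    · by_cases c : Crit P j i
      · rcases Nat.even_or_odd r with p | p
        · rw [(hL.2 j i e).1 c (up hS hN hi (q1 ▸ p)), p.neg_one_pow]; linarith
        · rw [(hL.2 j i e).2.1 c (down hS hN hi (q1 ▸ p)), p.neg_one_pow]; linarith
      · by_contra hn
        exact hmax (i + 1) (by omega) (by omega) ⟨by rw [rho_not c, q1], by linarith⟩
  have s := sgn (j := j) hS hN i hi
  rw [q1] at s
  refine ⟨i, hi, q1, (t - (P.a j i).2) / (P.ed j i).2, ?_, ?_⟩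
  · rw [← mul_div_mul_left _ _ (pow_ne_zero r (by norm_num : (-1 : ℝ) ≠ 0))]
    refine ⟨div_nonneg (by linarith) s.le, (div_le_one s).2 ?_⟩
    rw [ed2]; linarith
  · rw [pt2, div_mul_cancel₀ _ (hN j i hi)]; ring

/-- a ray from the origin -/
def ray (p : ℝ) (z : ℂ) : Prop := 0 < z.im ∧ z.re = p * z.im

theorem ray_eq {p q : ℝ} {z : ℂ} (h : ray p z) (h' : ray q z) : p = q :=
  mul_right_cancel₀ h.1.ne' (h.2.symm.trans h'.2)

theorem pS_inj {j j' : Fin 4} (h : pS j = pS j') : j = j' := by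
  fin_cases j <;> fin_cases j' <;> simp [pS] at h ⊢ <;> norm_num at h

theorem pE_inj {j j' : Fin 4} (h : pE j = pE j') : j = j' := by
  fin_cases j <;> fin_cases j' <;> simp [pE] at h ⊢ <;> norm_num at h

theorem pS_ne {j j' : Fin 4} (h : pS j = pE j') : False := by
  fin_cases j <;> fin_cases j' <;> simp [pS, pE] at h <;> norm_num at h

theorem pS_bd (j : Fin 4) : 0 ≤ pS j ∧ pS j ≤ 28 := by
  fin_cases j <;> simp [pS] <;> norm_num

theorem pE_bd (j : Fin 4) : 0 ≤ pE j ∧ pE j ≤ 28 := by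
  fin_cases j <;> simp [pE] <;> norm_num

theorem foot0 (hS : Std P) {μ : ℝ} (hμ : μ ∈ Icc (0 : ℝ) 1) :
    ray (pS j) (P.pt j 0 μ).1 ∧ (P.pt j 0 μ).1 ∈ Box := by
  have b := pS_bd j
  have e1 : (P.pt j 0 μ).1.re = pS j * (1 + μ) := by
    rw [pt1, ed1, zero_add, hS.s1 j, hS.s0 j]; simp; ring
  have e2 : (P.pt j 0 μ).1.im = 1 + μ := by
    rw [pt1, ed1, zero_add, hS.s1 j, hS.s0 j]; simp; ring
  obtain ⟨m0, m1⟩ := hμ
  refine ⟨⟨by rw [e2]; linarith, by rw [e1, e2]⟩, ?_, ?_, ?_, ?_⟩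
  · rw [e1]; nlinarith
  · rw [e1]; nlinarith
  · rw [e2]; linarith
  · rw [e2]; linarith

theorem footN (hS : Std P) {i : ℕ} (hi : i + 1 = P.N) {μ : ℝ} (hμ : μ ∈ Icc (0 : ℝ) 1) :
    ray (pE j) (P.pt j i μ).1 ∧ (P.pt j i μ).1 ∈ Box := by
  have b := pE_bd j
  have a1 := hS.e1 j
  rw [show P.N - 1 = i by omega] at a1
  have e1 : (P.pt j i μ).1.re = pE j * (2 - μ) := by
    rw [pt1, ed1, hi, a1, hS.e0 j]; simp; ring
  have e2 : (P.pt j i μ).1.im = 2 - μ := by
    rw [pt1, ed1, hi, a1, hS.e0 j]; simp; ring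
  obtain ⟨m0, m1⟩ := hμ
  refine ⟨⟨by rw [e2]; linarith, by rw [e1, e2]⟩, ?_, ?_, ?_, ?_⟩
  · rw [e1]; nlinarith
  · rw [e1]; nlinarith
  · rw [e2]; linarith
  · rw [e2]; linarith

theorem inner (hE : Emb P) {i : ℕ} (h1 : 1 ≤ i) (h2 : i + 2 ≤ P.N) {μ : ℝ}
    (hμ : μ ∈ Icc (0 : ℝ) 1) (hb : (P.pt j i μ).1 ∈ Box) :
    (i = 1 ∧ ray (pS j) (P.pt j i μ).1) ∨ (i + 2 = P.N ∧ ray (pE j) (P.pt j i μ).1) := by
  have hS := hE.std
  have b := hb.2.2.2
  by_cases c1 : i = 1
  · subst c1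
    have a := hS.s2i j
    have e : μ = 0 := by
      rw [pt1, ed1, hS.s1 j] at b
      simp at b
      nlinarith [hμ.1]
    refine Or.inl ⟨rfl, ?_⟩
    rw [e, pt1, hS.s1 j]
    constructor <;> simp
    ring
  by_cases c2 : i + 2 = P.N
  · have a := hS.e2i j
    have a1 := hS.e1 j
    rw [show P.N - 2 = i by omega] at a
    rw [show P.N - 1 = i + 1 by omega] at a1
    have e : μ = 1 := by
      rw [pt1, ed1, a1] at b
      simp at b
      nlinarith [hμ.2]
    refine Or.inr ⟨c2, ?_⟩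
    rw [e, pt1, ed1, a1]
    constructor <;> simp
    ring
  exact absurd hb (hE.box j i (by omega) (by omega) μ hμ)

theorem adj (hE : Emb P) {i : ℕ} (hi : i + 1 < P.N) {μ μ' : ℝ} (hμ : μ ∈ Icc (0 : ℝ) 1)
    (hμ' : μ' ∈ Icc (0 : ℝ) 1) (h : P.pt j i μ = P.pt j (i + 1) μ') : μ = 1 := by
  have h1 := hE.vert j i hi (1 - μ) μ' 0 (sub_nonneg.2 hμ.2) hμ'.1 (by
    have e : P.a j (i + 1) = P.a j i + P.ed j i := by simp [FP.ed]
    unfold FP.pt at h
    rw [e] at h
    rw [zero_smul, add_zero, sub_smul, one_smul]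
    linear_combination (exp := 1) -h)
  linarith [h1.1]

theorem meet (hE : Emb P) {j j' : Fin 4} {i i' : ℕ} (hi : i ≤ i') (hi' : i' < P.N) {μ μ' : ℝ}
    (hμ : μ ∈ Icc (0 : ℝ) 1) (hμ' : μ' ∈ Icc (0 : ℝ) 1) (h : P.pt j i μ = P.pt j' i' μ') :
    j = j' ∧ (i = i' ∨ (i + 1 = i' ∧ μ = 1)) := by
  have hS := hE.std
  have fin : j = j' → i + 1 = i' → j = j' ∧ (i = i' ∨ (i + 1 = i' ∧ μ = 1)) := fun a b => by
    subst a b
    exact ⟨rfl, Or.inr ⟨rfl, adj hE hi' hμ hμ' h⟩⟩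
  by_cases c : i = 0
  · subst c
    obtain ⟨r1, b1⟩ := foot0 (j := j) hS hμ
    rw [h] at r1 b1
    by_cases c1 : i' = 0
    · subst c1
      exact ⟨pS_inj (ray_eq r1 (foot0 hS hμ').1), Or.inl rfl⟩
    by_cases c2 : i' + 1 = P.N
    · exact (pS_ne (ray_eq r1 (footN hS c2 hμ').1)).elim
    rcases inner hE (by omega) (by omega) hμ' b1 with ⟨a, r2⟩ | ⟨a, r2⟩
    · exact fin (pS_inj (ray_eq r1 r2)) (by omega)
    · exact (pS_ne (ray_eq r1 r2)).elim
  by_cases c2 : i' + 1 = P.N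
  · obtain ⟨r1, b1⟩ := footN (j := j') hS c2 hμ'
    rw [← h] at r1 b1
    by_cases c1 : i = i'
    · subst c1
      exact ⟨pE_inj (ray_eq (footN hS c2 hμ).1 r1), Or.inl rfl⟩
    rcases inner hE (by omega) (by omega) hμ b1 with ⟨a, r2⟩ | ⟨a, r2⟩
    · exact (pS_ne (ray_eq r2 r1)).elim
    · exact fin (pE_inj (ray_eq r2 r1)) (by omega)
  have d := fun x => hE.disj j i j' i' (by omega) (by omega) (by omega) (by omega) x μ hμ μ' hμ' h
  have e : j = j' := by
    by_contra e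
    exact d (Or.inl e)
  by_cases c1 : i = i'
  · exact ⟨e, Or.inl c1⟩
  · refine fin e ?_
    by_contra e'
    exact d (Or.inr (by omega))

theorem pt_one (i : ℕ) : P.pt j i 1 = P.a j (i + 1) := by simp [FP.pt, FP.ed]

theorem pt_zero (i : ℕ) : P.pt j i 0 = P.a j i := by simp [FP.pt]

theorem half (hE : Emb P) (hN : NH P) (hL : Lev T P) {j j' : Fin 4} {i i' : ℕ} (hi : i ≤ i')
    (hi' : i' < P.N) {μ μ' : ℝ} (hμ : μ ∈ Icc (0 : ℝ) 1) (hμ' : μ' ∈ Icc (0 : ℝ) 1)
    (h : P.pt j i μ = P.pt j' i' μ') :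
    j = j' ∧ (rho P j i = rho P j' i' ∨ ((P.pt j i μ).2 = T ∧ rho P j i / 2 = rho P j' i' / 2) ∨
      ((P.pt j i μ).2 = 0 ∧ (rho P j i + 1) / 2 = (rho P j' i' + 1) / 2)) := by
  obtain ⟨rfl, rfl | ⟨rfl, rfl⟩⟩ := meet hE hi hi' hμ hμ' h
  · exact ⟨rfl, Or.inl rfl⟩
  refine ⟨rfl, ?_⟩
  by_cases c : Crit P j i
  · rw [rho_crit c, pt_one]
    rcases Nat.even_or_odd (rho P j i) with p | p
    · refine Or.inr (Or.inl ⟨(hL.2 j i hi').1 c (up hE.std hN (by omega) p), ?_⟩)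
      obtain ⟨m, hm⟩ := p
      omega
    · refine Or.inr (Or.inr ⟨(hL.2 j i hi').2.1 c (down hE.std hN (by omega) p), ?_⟩)
      obtain ⟨m, hm⟩ := p
      omega
  · exact Or.inl (rho_not c).symm

/-- the two edges at a critical point -/
theorem near (hS : Std P) (hN : NH P) (hC : CN P) {n : ℕ} (c : Crit P j n) {t : ℝ}
    (h1 : ((P.a j (n + 1)).2 - t) / (P.ed j n).2 ∈ Icc (0 : ℝ) 1)
    (h2 : (t - (P.a j (n + 1)).2) / (P.ed j (n + 1)).2 ∈ Icc (0 : ℝ) 1) :
    cc P j (rho P j n) t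
      = (P.a j (n + 1)).1 + ((t - (P.a j (n + 1)).2) / (P.ed j n).2 : ℝ) * (P.ed j n).1 ∧
    cc P j (rho P j n + 1) t
      = (P.a j (n + 1)).1 + ((t - (P.a j (n + 1)).2) / (P.ed j (n + 1)).2 : ℝ) * (P.ed j (n + 1)).1 ∧
    ww P j (rho P j n) t = (P.v j n 1).1 ∧ ww P j (rho P j n + 1) t = (P.v j n 1).1 := by
  have hn := c.1
  have n1 := hN j n (by omega)
  have n2 := hN j (n + 1) hn
  have m1 : 1 - ((P.a j (n + 1)).2 - t) / (P.ed j n).2 ∈ Icc (0 : ℝ) 1 :=
    ⟨by linarith [h1.2], by linarith [h1.1]⟩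
  have e1 : (P.pt j n (1 - ((P.a j (n + 1)).2 - t) / (P.ed j n).2)).2 = t := by
    rw [pt2, sub_mul, div_mul_cancel₀ _ n1, ed2]; ring
  have e2 : (P.pt j (n + 1) ((t - (P.a j (n + 1)).2) / (P.ed j (n + 1)).2)).2 = t := by
    rw [pt2, div_mul_cancel₀ _ n2]; ring
  have a1 := cc_eq (j := j) hS hN (show n < P.N by omega) m1
  have a2 := cc_eq (j := j) hS hN hn h2
  have b1 := ww_eq (j := j) hS hN (show n < P.N by omega) m1
  have b2 := ww_eq (j := j) hS hN hn h2
  rw [e1] at a1 b1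
  rw [e2, rho_crit c] at a2 b2
  refine ⟨?_, ?_, ?_, ?_⟩
  · rw [a1, pt1]
    have : (P.a j (n + 1)).1 = (P.a j n).1 + (P.ed j n).1 := by rw [ed1]; ring
    rw [this]
    push_cast
    ring
  · rw [a2, pt1]
  · rw [b1, (hC j n c _ m1).1]
  · rw [b2, (hC j n c _ h2).2]

theorem det_comb (a b v : ℂ) (x y : ℝ) :
    det ((x : ℂ) * a - (y : ℂ) * b) v = x * det a v - y * det b v := by
  simp [det]; ring

theorem det_neg (a v : ℂ) : det a (-v) = - det a v := by simp [det]; ring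

theorem top (hS : Std P) (hN : NH P) (hG : Sgn P) (hC : CN P) (hL : Lev T P)
    (hk : cnt P j + 1 = 2 * k) {i : ℕ} (hi : i < k) :
    ∃ z dL dR m : ℂ, 0 < det (dR - dL) m ∧ ∀ s ∈ Icc (0 : ℝ) 1,
    cc P j (2 * i) (T - s) = z + s * dL ∧ cc P j (2 * i + 1) (T - s) = z + s * dR ∧
    uu P j (2 * i) (T - s) = m ∧ uu P j (2 * i + 1) (T - s) = -m := by
  obtain ⟨n, c, e⟩ := first hS hk (show 2 * i + 1 < 2 * k by omega)
  have hn := c.1
  have h4 := hL.1
  have u1 := up (j := j) hS hN (show n < P.N by omega) (e ▸ even_two_mul i)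
  have u2 := down (j := j) hS hN hn (by rw [rho_crit c, e]; exact odd_two_mul_add_one i)
  have hT := (hL.2 j n hn).1 c u1
  have g1 : 1 ≤ (P.ed j n).2 := by
    rw [ed2] at u1 ⊢
    rcases hts (j := j) hS hN hL (show n ≤ P.N by omega) with a | a | a <;> linarith
  have g2 : (P.ed j (n + 1)).2 ≤ -1 := by
    rw [ed2] at u2 ⊢
    rcases hts (j := j) hS hN hL (show n + 1 + 1 ≤ P.N by omega) with a | a | a <;> linarith
  obtain ⟨s1, s2⟩ := hG j n c
  have d1 := (mul_pos_iff_of_pos_left u1).1 s1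
  have d2 := (mul_pos_iff_of_pos_left u1).1 s2
  refine ⟨(P.a j (n + 1)).1, ((-1 / (P.ed j n).2 : ℝ) : ℂ) * (P.ed j n).1,
    ((-1 / (P.ed j (n + 1)).2 : ℝ) : ℂ) * (P.ed j (n + 1)).1, (P.v j n 1).1, ?_, fun s hs => ?_⟩
  · rw [det_comb]
    have a1 := mul_pos (div_pos_of_neg_of_neg (by norm_num : (-1 : ℝ) < 0) u2) d2
    have a2 := mul_neg_of_neg_of_pos (div_neg_of_neg_of_pos (by norm_num : (-1 : ℝ) < 0) u1) d1
    linarith
  · obtain ⟨a1, a2, a3, a4⟩ := near (t := T - s) hS hN hC c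
      (by rw [hT, sub_sub_cancel]
          exact ⟨div_nonneg hs.1 u1.le, (div_le_one u1).2 (by linarith [hs.2])⟩)
      (by rw [hT, sub_sub_cancel_left]
          exact ⟨div_nonneg_of_nonpos (by linarith [hs.1]) u2.le,
            (div_le_one_of_neg u2).2 (by linarith [hs.2])⟩)
    rw [e] at a1 a2 a3 a4
    unfold uu
    rw [a1, a2, a3, a4, hT, (even_two_mul i).neg_one_pow, (odd_two_mul_add_one i).neg_one_pow]
    refine ⟨?_, ?_, ?_, ?_⟩ <;> push_cast <;> ring

theorem bot (hS : Std P) (hN : NH P) (hG : Sgn P) (hC : CN P) (hL : Lev T P)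
    (hk : cnt P j + 1 = 2 * k) {i : ℕ} (hi : i + 1 < k) :
    ∃ z dL dR m : ℂ, 0 < det (dR - dL) m ∧ ∀ s ∈ Icc (0 : ℝ) 1,
    cc P j (2 * i + 1) s = z + s * dL ∧ cc P j (2 * i + 2) s = z + s * dR ∧
    uu P j (2 * i + 1) s = m ∧ uu P j (2 * i + 2) s = -m := by
  obtain ⟨n, c, e⟩ := first hS hk (show 2 * i + 1 + 1 < 2 * k by omega)
  have hn := c.1
  have h4 := hL.1
  have ev : Even (2 * i + 1 + 1) := ⟨i + 1, by ring⟩
  have u1 := down (j := j) hS hN (show n < P.N by omega) (e ▸ odd_two_mul_add_one i)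
  have u2 := up (j := j) hS hN hn (by rw [rho_crit c, e]; exact ev)
  have hT := (hL.2 j n hn).2.1 c u1
  have g1 : (P.ed j n).2 ≤ -1 := by
    rw [ed2] at u1 ⊢
    rcases hts (j := j) hS hN hL (show n ≤ P.N by omega) with a | a | a <;> linarith
  have g2 : 1 ≤ (P.ed j (n + 1)).2 := by
    rw [ed2] at u2 ⊢
    rcases hts (j := j) hS hN hL (show n + 1 + 1 ≤ P.N by omega) with a | a | a <;> linarith
  obtain ⟨s1, s2⟩ := hG j n c
  have d1 := neg_of_mul_pos_right s1 u1.le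
  have d2 := neg_of_mul_pos_right s2 u1.le
  refine ⟨(P.a j (n + 1)).1, ((1 / (P.ed j n).2 : ℝ) : ℂ) * (P.ed j n).1,
    ((1 / (P.ed j (n + 1)).2 : ℝ) : ℂ) * (P.ed j (n + 1)).1, -(P.v j n 1).1, ?_, fun s hs => ?_⟩
  · rw [det_neg, det_comb]
    have a1 := mul_neg_of_pos_of_neg (div_pos one_pos u2) d2
    have a2 := mul_pos_of_neg_of_neg (div_neg_of_pos_of_neg one_pos u1) d1
    linarith
  · obtain ⟨a1, a2, a3, a4⟩ := near (t := s) hS hN hC c
      (by rw [hT, zero_sub]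
          exact ⟨div_nonneg_of_nonpos (by linarith [hs.1]) u1.le,
            (div_le_one_of_neg u1).2 (by linarith [hs.2])⟩)
      (by rw [hT, sub_zero]
          exact ⟨div_nonneg hs.1 u2.le, (div_le_one u2).2 (by linarith [hs.2])⟩)
    rw [e] at a1 a2 a3 a4
    unfold uu
    rw [show 2 * i + 2 = 2 * i + 1 + 1 from rfl, a1, a2, a3, a4, hT, ev.neg_one_pow,
      (odd_two_mul_add_one i).neg_one_pow]
    refine ⟨?_, ?_, ?_, ?_⟩ <;> push_cast <;> ring

theorem sd (hE : Emb P) (hN : NH P) (hV : HV P) (hG : Sgn P) (hC : CN P) (hL : Lev T P)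
    (hk : ∀ j, cnt P j + 1 = 2 * k) : SD k T (cc P) (uu P) := by
  have hS := hE.std
  have h4 := hS.N4
  refine ⟨hL.1, fun j r => cc_cont r, fun j r => continuous_const.mul (ww_cont hS r), ?_, ?_, ?_,
    ?_, ?_, fun j i hi => top hS hN hG hC hL (hk j) hi, fun j i hi => bot hS hN hG hC hL (hk j) hi⟩
  · intro j r hr t h1 h2
    obtain ⟨i, hi, rfl, μ, hμ, rfl⟩ := surj hS hN hL (hk j) hr h1 h2
    unfold uu
    rw [ww_eq hS hN hi hμ]
    refine mul_ne_zero (pow_ne_zero _ (by norm_num)) fun h => ?_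
    have e : P.v j i μ = 0 := Prod.ext h (hV j i hi μ hμ)
    have := (hE.edge j i hi μ hμ 0 0 1 le_rfl le_rfl (by simp [e])).2.2
    norm_num at this
  · intro j r hr j' r' hr' t h1 h1' h2 h
    obtain ⟨i', hi', rfl, μ', hμ', e'⟩ := surj hS hN hL (hk j') hr' h1' h2
    obtain ⟨i, hi, rfl, μ, hμ, e⟩ := surj hS hN hL (hk j) hr h1 h2
    have a := cc_eq (j := j) hS hN hi hμ
    have a' := cc_eq (j := j') hS hN hi' hμ'
    rw [e, h] at a
    rw [e'] at a'
    have hp : P.pt j i μ = P.pt j' i' μ' := Prod.ext (a.symm.trans a') (e.trans e'.symm)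
    rcases le_total i i' with c | c
    · rw [← e]; exact half hE hN hL c hi' hμ hμ' hp
    · obtain ⟨b1, b2⟩ := half hE hN hL c hi hμ' hμ hp.symm
      rw [e'] at b2
      refine ⟨b1.symm, ?_⟩
      rcases b2 with b | b | b
      · exact Or.inl b.symm
      · exact Or.inr (Or.inl ⟨b.1, b.2.symm⟩)
      · exact Or.inr (Or.inr ⟨b.1, b.2.symm⟩)
  · intro j
    have m : (0 : ℝ) ∈ Icc (0 : ℝ) 1 := ⟨le_rfl, zero_le_one⟩
    have a := cc_eq (j := j) hS hN (show 0 < P.N by omega) m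
    have b := ww_eq (j := j) hS hN (show 0 < P.N by omega) m
    rw [pt_zero, rho_zero, hS.s0 j] at a b
    rw [hS.vs j 0 m] at b
    unfold uu
    refine ⟨a, ?_⟩
    rw [show ww P j 0 1 = _ from b]; simp
  · intro j
    have m : (1 : ℝ) ∈ Icc (0 : ℝ) 1 := ⟨zero_le_one, le_rfl⟩
    have a := cc_eq (j := j) hS hN (show P.N - 1 < P.N by omega) m
    have b := ww_eq (j := j) hS hN (show P.N - 1 < P.N by omega) m
    have e := rho_last hS (hk j)
    rw [pt_one, show P.N - 1 + 1 = P.N by omega, hS.e0 j,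
      show rho P j (P.N - 1) = 2 * k - 1 by omega] at a b
    rw [hS.ve j 1 m] at b
    unfold uu
    refine ⟨a, ?_⟩
    rw [show ww P j (2 * k - 1) 1 = _ from b,
      (show Odd (2 * k - 1) from ⟨k - 1, by omega⟩).neg_one_pow]
    push_cast; norm_num
  · intro j r h0 hr t ht
    have l : lo k r = 0 := by unfold lo; rw [if_neg (by omega)]
    obtain ⟨i, hi, rfl, μ, hμ, rfl⟩ := surj hS hN hL (hk j) (show r < 2 * k by omega)
      (l ▸ ht.1) (by linarith [ht.2, hL.1])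
    rw [cc_eq hS hN hi hμ]
    have e := rho_last hS (hk j)
    have t1 := ht.2
    rw [pt2, ed2] at t1
    refine hE.box j i ?_ ?_ μ hμ
    · by_contra c
      obtain rfl | rfl : i = 0 ∨ i = 1 := by omega
      · rw [rho_zero] at h0; omega
      · nlinarith [hS.s1h j, hS.s2h j, hμ.1]
    · by_contra c
      obtain c | c : i = P.N - 1 ∨ i + 2 = P.N := by omega
      · rw [← c] at e; omega
      · have a1 := hS.e1h j
        have a2 := hS.e2h j
        rw [show P.N - 1 = i + 1 by omega] at a1 a2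
        rw [show P.N - 2 = i by omega] at a2
        nlinarith [hμ.2]

theorem bd (hE : Emb P) (hN : NH P) (hV : HV P) (hL : Lev T P)
    (hk : ∀ j, cnt P j + 1 = 2 * k) (ε : ℝ) : Bd P ε = BS k T (cc P) (uu P) ε := by
  have hS := hE.std
  have key : ∀ j, ∀ i < P.N, ∀ μ ∈ Icc (0 : ℝ) 1, ∀ y : E3, y.2 = (P.pt j i μ).2 →
      ((y = P.pt j i μ + ε • P.v j i μ ∨ y = P.pt j i μ - ε • P.v j i μ) ↔
      (y.1 = cc P j (rho P j i) y.2 + ε * uu P j (rho P j i) y.2 ∨
        y.1 = cc P j (rho P j i) y.2 - ε * uu P j (rho P j i) y.2)) := by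
    intro j i hi μ hμ y hy
    unfold uu
    rw [hy, cc_eq hS hN hi hμ, ww_eq hS hN hi hμ, Prod.ext_iff, Prod.ext_iff]
    simp only [Prod.fst_add, Prod.snd_add, Prod.fst_sub, Prod.snd_sub, Prod.smul_fst,
      Prod.smul_snd, hV j i hi μ hμ, smul_zero, add_zero, sub_zero, hy, and_true,
      Complex.real_smul]
    rcases neg_one_pow_eq_or ℂ (rho P j i) with e | e
    · rw [e, one_mul]
    · rw [e, neg_one_mul, mul_neg, sub_neg_eq_add, ← sub_eq_add_neg, or_comm]
  ext y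
  constructor
  · rintro ⟨j, i, hi, μ, hμ, h⟩
    have hy : y.2 = (P.pt j i μ).2 := by
      rcases h with h | h <;> simp [h, hV j i hi μ hμ]
    have l := lev_mem hS hN hL (hk j) hi hμ
    exact ⟨j, rho P j i, rho_lt hS (hk j) hi, hy ▸ l.1, hy ▸ l.2, (key j i hi μ hμ y hy).1 h⟩
  · rintro ⟨j, r, hr, h1, h2, h⟩
    obtain ⟨i, hi, rfl, μ, hμ, e⟩ := surj hS hN hL (hk j) hr h1 h2
    exact ⟨j, i, hi, μ, hμ, (key j i hi μ hμ y e.symm).2 h⟩

end X1

theorem rowX1 : RowX1 := fun P _ _ hE hN hV hG hC hL hk =>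
  ⟨X1.cc P, X1.uu P, X1.sd hE hN hV hG hC hL hk, X1.bd hE hN hV hL hk⟩

end Vale.Agent.Q258U
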