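import Vale.Agent.Q258U.Core
import Mathlib.Topology.Order.IntermediateValue
import Mathlib.Topology.Order.MonotoneContinuity

/-!
# Strands with straight ends form a plat
-/

set_option linter.all false

namespace Vale.Agent.Q258U.X2

open Vale.Agent.P258.Braid Vale.Agent.N258B Vale.Agent.Q258D Set Complex Filter Topology

/-- the tube lemma for the complement of a closed set -/
theorem tube {Y : Type} [TopologicalSpace Y] {K : Set Y} (hK : IsCompact K) (f : ℝ × Y → ℂ)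
    (hf : Continuous f) {C : Set ℂ} (hC : IsClosed C) (h : ∀ y ∈ K, f (0, y) ∉ C) :
    ∀ᶠ e in 𝓝 (0 : ℝ), ∀ y ∈ K, f (e, y) ∉ C :=
  hK.eventually_forall_of_forall_eventually (P := fun e y => f (e, y) ∉ C) fun y hy =>
    hf.continuousAt.eventually_mem (hC.isOpen_compl.mem_nhds (h y hy))

theorem tube_ne {Y : Type} [TopologicalSpace Y] {K : Set Y} (hK : IsCompact K) (f g : ℝ × Y → ℂ)
    (hf : Continuous f) (hg : Continuous g) (h : ∀ y ∈ K, f (0, y) ≠ g (0, y)) :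
    ∀ᶠ e in 𝓝 (0 : ℝ), ∀ y ∈ K, f (e, y) ≠ g (e, y) :=
  (tube hK (fun p => f p - g p) (hf.sub hg) (isClosed_singleton (x := 0))
    fun y hy e => h y hy (sub_eq_zero.1 e)).mono fun _ H y hy e => H y hy (sub_eq_zero.2 e)

variable {ι : Type}

/-- the displacement of the tip of a cap -/
noncomputable def cor (S : ι → ℝ → ℂ) (p : ι → ι) (t0 : ℝ) (i : ι) : ℂ :=
  (S i t0 + S (p i) t0) / 2 - S i 0

theorem capsep [Finite ι] (S : ι → ℝ → ℂ) (p : ι → ι) (hc : ∀ i, Continuous (S i))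
    (hp : ∀ i, S (p i) 0 = S i 0) : ∀ᶠ t0 in 𝓝 (0 : ℝ), ∀ i j, S i 0 ≠ S j 0 →
      ∀ τ ∈ Icc (0 : ℝ) 1, ∀ σ ∈ Icc (0 : ℝ) 1,
        S i (τ * t0) + σ * cor S p t0 i ≠ S j (τ * t0) + σ * cor S p t0 j := by
  refine eventually_all.2 fun i => eventually_all.2 fun j => ?_
  by_cases h : S i 0 = S j 0
  · exact Eventually.of_forall fun _ h' => absurd h h'
  have c : ∀ i, Continuous fun q : ℝ × ℝ × ℝ => S i (q.2.1 * q.1) + q.2.2 * cor S p q.1 i :=
    fun i => by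
      unfold cor
      have := hc i
      have := hc (p i)
      fun_prop
  refine (tube_ne ((isCompact_Icc (a := (0 : ℝ)) (b := 1)).prod (isCompact_Icc (a := (0 : ℝ))
    (b := 1))) _ _ (c i) (c j) fun y _ => ?_).mono fun t0 H _ τ hτ σ hσ => H (τ, σ) ⟨hτ, hσ⟩
  simpa [cor, hp] using h

/-- the change of the height -/
noncomputable def ze (T t0 s : ℝ) : ℝ := t0 + t0 * s + (T - 3 * t0) * max 0 (min s 1)

theorem ze_mono {T t0 : ℝ} (h0 : 0 < t0) (h : 3 * t0 ≤ T) : StrictMono (ze T t0) :=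
  fun a b hab => by
    unfold ze
    have h1 : max 0 (min a 1) ≤ max 0 (min b 1) := by gcongr
    have := mul_le_mul_of_nonneg_left h1 (sub_nonneg.2 h)
    have := mul_lt_mul_of_pos_left hab h0
    linarith

theorem ze_mid {T t0 s : ℝ} (hs : s ∈ Icc (0 : ℝ) 1) : ze T t0 s = t0 + s * (T - 2 * t0) := by
  unfold ze
  rw [min_eq_left hs.2, max_eq_right hs.1]; ring

theorem ze_low {T t0 s : ℝ} (hs : 0 ≤ s) : ze T t0 (-s) = (1 - s) * t0 := by
  unfold ze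
  rw [min_eq_left (by linarith), max_eq_left (by linarith)]; ring

theorem ze_high {T t0 s : ℝ} (hs : 0 ≤ s) : ze T t0 (1 + s) = T - (1 - s) * t0 := by
  unfold ze
  rw [min_eq_right (by linarith), max_eq_right (by linarith)]; ring

theorem ze_surj {T t0 : ℝ} (h0 : 0 < t0) (h : 3 * t0 ≤ T) : Function.Surjective (ze T t0) := by
  intro y
  rcases le_total y t0 with h1 | h1
  · refine ⟨-(1 - y / t0), ?_⟩
    rw [ze_low (sub_nonneg.2 ((div_le_one h0).2 h1))]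
    field_simp; ring
  rcases le_total y (T - t0) with h2 | h2
  · have h3 : 0 < T - 2 * t0 := by linarith
    refine ⟨(y - t0) / (T - 2 * t0), ?_⟩
    rw [ze_mid ⟨div_nonneg (by linarith) h3.le, (div_le_one h3).2 (by linarith)⟩,
      div_mul_cancel₀ _ h3.ne']
    ring
  · refine ⟨1 + (1 - (T - y) / t0), ?_⟩
    rw [ze_high (sub_nonneg.2 ((div_le_one h0).2 (by linarith)))]
    field_simp; ring

/-- the partner in a matching -/
theorem partner {μ : ι → ℕ} (h : Two μ) : ∃ p : ι → ι, (∀ i, p i ≠ i) ∧ (∀ i, μ (p i) = μ i) ∧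
    (∀ i j, i ≠ j → μ i = μ j → j = p i) := by
  choose p h1 h2 h3 using h
  exact ⟨p, h1, h2, fun i j e f => (h3 i j f.symm).resolve_left e.symm⟩

/-- the weight of the displacement -/
noncomputable def wt (t0 t : ℝ) : ℝ := max 0 (1 - t / t0)

theorem wt_zero {t0 t : ℝ} (h0 : 0 < t0) (h : t0 ≤ t) : wt t0 t = 0 :=
  max_eq_left (sub_nonpos.2 ((one_le_div h0).2 h))

theorem wt_mul {t0 τ : ℝ} (h0 : 0 < t0) (h : τ ≤ 1) : wt t0 (τ * t0) = 1 - τ := by
  unfold wt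
  rw [mul_div_assoc, div_self h0.ne', mul_one, max_eq_right (sub_nonneg.2 h)]

/-- the family of strands -/
noncomputable def fam (S : ι → ℝ → ℂ) (p q : ι → ι) (T t0 : ℝ) (i : ι) (z : ℝ × ℝ) : ℂ :=
  S i z.2 + (z.1 * wt t0 z.2 : ℝ) * cor S p t0 i +
    (z.1 * wt t0 (T - z.2) : ℝ) * cor (fun i t => S i (T - t)) q t0 i

theorem cor_eq {S : ι → ℝ → ℂ} {p : ι → ι} {μ : ι → ℕ} (hp : ∀ i j, i ≠ j → μ i = μ j → j = p i)
    (hb : ∀ i j, S i 0 = S j 0 ↔ μ i = μ j) {i j : ι} (e : i ≠ j) (h : μ i = μ j) (t0 : ℝ) :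
    cor S p t0 i = cor S p t0 j := by
  unfold cor
  rw [← hp i j e h, ← hp j i e.symm h.symm, (hb i j).2 h, add_comm]

theorem lin_mul {f : ℝ → ℂ} (h : ∀ t ∈ Icc (0 : ℝ) 1, f t = f 0 + t * (f 1 - f 0)) {t0 τ : ℝ}
    (h0 : 0 < t0) (h1 : t0 ≤ 1) (hτ : τ ∈ Icc (0 : ℝ) 1) :
    f (τ * t0) = f 0 + τ * (f t0 - f 0) := by
  rw [h (τ * t0) ⟨mul_nonneg hτ.1 h0.le, mul_le_one₀ hτ.2 h0.le h1⟩, h t0 ⟨h0.le, h1⟩]
  push_cast; ring

theorem plat_of (h1 : RowC1) [Finite ι] {μb μt : ι → ℕ} (wb : Two μb) (wt' : Two μt)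
    (S : ι → ℝ → ℂ) (T : ℝ) (hT : 3 ≤ T) (hc : ∀ i, Continuous (S i))
    (inj : ∀ t ∈ Ioo 0 T, ∀ i j, S i t = S j t → i = j)
    (hb : ∀ i j, S i 0 = S j 0 ↔ μb i = μb j) (ht : ∀ i j, S i T = S j T ↔ μt i = μt j)
    (lb : ∀ i, ∀ t ∈ Icc (0 : ℝ) 1, S i t = S i 0 + t * (S i 1 - S i 0))
    (lt : ∀ i, ∀ t ∈ Icc (0 : ℝ) 1, S i (T - t) = S i T + t * (S i (T - 1) - S i T)) :
    ∀ᶠ t0 in 𝓝 (0 : ℝ), 0 < t0 → ∀ (x y : X ι) (γ : Path x y),
      (∀ (t : unitInterval) i, (γ t).1 i = S i (t0 + t * (T - 2 * t0))) →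
      Eqv {z | ∃ i, 0 ≤ z.2 ∧ z.2 ≤ T ∧ z.1 = S i z.2} (plat μb μt γ) := by
  classical
  obtain ⟨p, p1, p2, p3⟩ := partner wb
  obtain ⟨q, q1, q2, q3⟩ := partner wt'
  set R : ι → ℝ → ℂ := fun i t => S i (T - t) with hR
  have hcR : ∀ i, Continuous (R i) := fun i => (hc i).comp (by fun_prop)
  have ht' : ∀ i j, R i 0 = R j 0 ↔ μt i = μt j := fun i j => by simpa [hR] using ht i j
  have lt' : ∀ i, ∀ t ∈ Icc (0 : ℝ) 1, R i t = R i 0 + t * (R i 1 - R i 0) := fun i t h => by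
    simpa [hR] using lt i t h
  filter_upwards [capsep S p hc fun i => (hb _ _).2 (p2 i),
    capsep R q hcR fun i => (ht' _ _).2 (q2 i), Iio_mem_nhds (zero_lt_one' ℝ)]
    with t0 A B h01 h0 x y γ hγ
  replace h01 : t0 ≤ 1 := le_of_lt h01
  have f0 : ∀ i s τ, τ ∈ Icc (0 : ℝ) 1 → fam S p q T t0 i (s, τ * t0) =
      S i (τ * t0) + (s * (1 - τ) : ℝ) * cor S p t0 i := fun i s τ hτ => by
    have : τ * t0 ≤ 1 := mul_le_one₀ hτ.2 h0.le h01
    unfold fam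
    rw [wt_mul h0 hτ.2, wt_zero h0 (by dsimp only; linarith)]
    simp
  have f1 : ∀ i s τ, τ ∈ Icc (0 : ℝ) 1 → fam S p q T t0 i (s, T - τ * t0) =
      R i (τ * t0) + (s * (1 - τ) : ℝ) * cor R q t0 i := fun i s τ hτ => by
    have : τ * t0 ≤ 1 := mul_le_one₀ hτ.2 h0.le h01
    unfold fam
    rw [sub_sub_cancel, wt_mul h0 hτ.2, wt_zero h0 (by dsimp only; linarith)]
    simp [hR]
  have f2 : ∀ i s t, t0 ≤ t → t ≤ T - t0 → fam S p q T t0 i (s, t) = S i t :=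
    fun i s t a b => by
      unfold fam
      rw [wt_zero h0 a, wt_zero h0 (by dsimp only; linarith)]
      simp
  have cf : ∀ i, Continuous (fam S p q T t0 i) := fun i => by
    unfold fam wt
    have := hc i
    fun_prop
  have lv : ∀ t, 0 ≤ t → t ≤ t0 → ∃ τ ∈ Icc (0 : ℝ) 1, t = τ * t0 := fun t a b =>
    ⟨t / t0, ⟨div_nonneg a h0.le, (div_le_one h0).2 b⟩, by field_simp⟩
  have hs1 : ∀ s τ : ℝ, s ∈ Icc (0 : ℝ) 1 → τ ∈ Icc (0 : ℝ) 1 → s * (1 - τ) ∈ Icc (0 : ℝ) 1 :=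
    fun s τ a b => ⟨mul_nonneg a.1 (sub_nonneg.2 b.2),
      mul_le_one₀ a.2 (sub_nonneg.2 b.2) (by linarith [b.1])⟩
  have key : ∀ i j, i ≠ j → ∀ s ∈ Icc (0 : ℝ) 1, ∀ t ∈ Icc 0 T, (μb i = μb j → t0 ≤ t) →
      (μt i = μt j → t ≤ T - t0) → fam S p q T t0 i (s, t) ≠ fam S p q T t0 j (s, t) := by
    intro i j e s hs t ht a b
    rcases lt_or_ge t t0 with c | c
    · obtain ⟨τ, hτ, rfl⟩ := lv t ht.1 c.le
      rw [f0 _ _ _ hτ, f0 _ _ _ hτ]
      exact A i j (fun h => absurd (a ((hb _ _).1 h)) (not_le.2 c)) τ hτ _ (hs1 s τ hs hτ)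
    rcases lt_or_ge (T - t0) t with d | d
    · obtain ⟨τ, hτ, h⟩ := lv (T - t) (by linarith [ht.2]) (by linarith)
      obtain rfl : t = T - τ * t0 := by linarith
      rw [f1 _ _ _ hτ, f1 _ _ _ hτ]
      exact B i j (fun h => absurd (b ((ht' _ _).1 h)) (not_le.2 d)) τ hτ _ (hs1 s τ hs hτ)
    · rw [f2 _ _ _ c d, f2 _ _ _ c d]
      exact fun h => e (inj t ⟨by linarith, by linarith⟩ i j h)
  obtain ⟨h, hh⟩ := h1 ι 0 T (fam S p q T t0) (by linarith) (fun i => (cf i).continuousOn) (by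
    intro i j
    by_cases e : i = j
    · exact ⟨fun _ => 0, fun _ => 1, continuousOn_const, fun s _ t _ => ⟨one_ne_zero, by simp [e]⟩⟩
    obtain ⟨α, hα, hα'⟩ : ∃ α : ℝ, (μb i = μb j → α = t0) ∧ (μb i ≠ μb j → α = 0) :=
      ⟨if μb i = μb j then t0 else 0, fun h => if_pos h, fun h => if_neg h⟩
    obtain ⟨β, hβ, hβ'⟩ : ∃ β : ℝ, (μt i = μt j → β = T - t0) ∧ (μt i ≠ μt j → β = T) :=
      ⟨if μt i = μt j then T - t0 else T, fun h => if_pos h, fun h => if_neg h⟩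
    have a1 : 0 ≤ α ∧ α ≤ t0 := by
      by_cases c : μb i = μb j
      · rw [hα c]; exact ⟨h0.le, le_rfl⟩
      · rw [hα' c]; exact ⟨le_rfl, h0.le⟩
    have b1 : T - t0 ≤ β ∧ β ≤ T := by
      by_cases c : μt i = μt j
      · rw [hβ c]; exact ⟨le_rfl, by linarith⟩
      · rw [hβ' c]; exact ⟨by linarith, le_rfl⟩
    refine ⟨fun t => if t < α then t / t0 else if β < t then (T - t) / t0 else 1,
      fun z => fam S p q T t0 i (z.1, max α (min z.2 β)) -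
        fam S p q T t0 j (z.1, max α (min z.2 β)), ?_, fun s hs t ht => ⟨?_, ?_⟩⟩
    · have := cf i
      have := cf j
      fun_prop
    · refine sub_ne_zero.2 (key i j e s hs _ ⟨le_max_of_le_left a1.1, max_le (by linarith)
        ((min_le_right _ _).trans b1.2)⟩ (fun c => hα c ▸ le_max_left _ _) fun c => ?_)
      rw [hβ c]
      exact max_le (by linarith) (min_le_right _ _)
    · dsimp only
      split_ifs with c d
      · have c' : μb i = μb j := by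
          by_contra c'
          rw [hα' c'] at c
          linarith [ht.1]
        rw [hα c'] at c ⊢
        obtain ⟨τ, hτ, rfl⟩ := lv t ht.1 c.le
        rw [max_eq_left ((min_le_left _ _).trans c.le), f0 _ _ _ hτ, f0 _ _ _ hτ,
          f2 _ _ _ le_rfl (by linarith), f2 _ _ _ le_rfl (by linarith),
          cor_eq p3 hb e c', lin_mul (lb i) h0 h01 hτ, lin_mul (lb j) h0 h01 hτ, (hb i j).2 c',
          mul_div_assoc, div_self h0.ne']
        push_cast; ring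
      · have c' : μt i = μt j := by
          by_contra c'
          rw [hβ' c'] at d
          linarith [ht.2]
        rw [hβ c'] at d ⊢
        obtain ⟨τ, hτ, h⟩ := lv (T - t) (by linarith [ht.2]) (by linarith)
        obtain rfl : t = T - τ * t0 := by linarith
        rw [min_eq_right d.le, max_eq_right (by linarith), f1 _ _ _ hτ, f1 _ _ _ hτ,
          f2 _ _ _ (by linarith) le_rfl, f2 _ _ _ (by linarith) le_rfl,
          cor_eq q3 ht' e c', lin_mul (lt' i) h0 h01 hτ, lin_mul (lt' j) h0 h01 hτ, (ht' i j).2 c',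
          sub_sub_cancel, mul_div_assoc, div_self h0.ne']
        simp only [hR]
        push_cast; ring
      · rw [min_eq_left (not_lt.1 d), max_eq_right (not_lt.1 c)]
        simp)
  have hx : ∀ i, x.1 i = S i t0 := fun i => by
    have := hγ 0 i
    simpa using this
  have hy : ∀ i, y.1 i = R i t0 := fun i => by
    have := hγ 1 i
    rw [γ.target] at this
    rw [this, hR]
    congr 1
    simp only [Icc.coe_one]; ring
  have m3 : 3 * t0 ≤ T := by linarith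
  set Z := ((ze_mono h0 m3).orderIsoOfSurjective _ (ze_surj h0 m3)).toHomeomorph with hZ
  have Zs : ∀ s, Z s = ze T t0 s := fun _ => rfl
  have F1 : ∀ i (s : unitInterval), fam S p q T t0 i (1, ze T t0 s) = (γ s).1 i := fun i s => by
    have := mul_nonneg s.2.1 (by linarith : 0 ≤ T - 2 * t0)
    have := mul_le_mul_of_nonneg_right s.2.2 (by linarith : 0 ≤ T - 2 * t0)
    rw [ze_mid s.2, f2 _ _ _ (by linarith) (by linarith), hγ]
  have I1 : ∀ s ∈ Icc (0 : ℝ) 1, 1 - s ∈ Icc (0 : ℝ) 1 := fun s h =>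
    ⟨by linarith [h.2], by linarith [h.1]⟩
  have F2 : ∀ i, ∀ s ∈ Icc (0 : ℝ) 1, fam S p q T t0 i (1, ze T t0 (-s)) =
      x.1 i + (s / 2 : ℝ) * (x.1 (p i) - x.1 i) := fun i s hs => by
    rw [ze_low hs.1, f0 _ _ _ (I1 s hs), lin_mul (lb i) h0 h01 (I1 s hs), hx, hx, cor]
    push_cast; ring
  have F3 : ∀ i, ∀ s ∈ Icc (0 : ℝ) 1, fam S p q T t0 i (1, ze T t0 (1 + s)) =
      y.1 i + (s / 2 : ℝ) * (y.1 (q i) - y.1 i) := fun i s hs => by
    rw [ze_high hs.1, f1 _ _ _ (I1 s hs), lin_mul (lt' i) h0 h01 (I1 s hs), hy, hy, cor]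
    push_cast; ring
  have z0 : ze T t0 (-1) = 0 := by rw [ze_low zero_le_one]; ring
  have z1 : ze T t0 (1 + 1) = T := by rw [ze_high zero_le_one]; ring
  have zz : ∀ s, -1 ≤ s ∧ s ≤ 1 + 1 ↔ 0 ≤ ze T t0 s ∧ ze T t0 s ≤ T := fun s => by
    rw [← (ze_mono h0 m3).le_iff_le (a := -1), ← (ze_mono h0 m3).le_iff_le (a := s), z0, z1]
  refine Eqv.trans (K' := {z | ∃ i, 0 ≤ z.2 ∧ z.2 ≤ T ∧ z.1 = fam S p q T t0 i (1, z.2)})
    ⟨h, ?_⟩ (Eqv.symm ⟨(Homeomorph.refl ℂ).prodCongr Z, ?_⟩)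
  · have g0 : ∀ i t, fam S p q T t0 i (0, t) = S i t := fun i t => by simp [fam]
    ext ⟨w, t⟩
    constructor
    · rintro ⟨⟨w', t'⟩, ⟨i, a, b, c⟩, e⟩
      dsimp only at a b c
      rw [c, ← g0, hh i t' ⟨a, b⟩] at e
      cases e
      exact ⟨i, a, b, rfl⟩
    · rintro ⟨i, a, b, c⟩
      dsimp only at a b c
      refine ⟨(S i t, t), ⟨i, a, b, rfl⟩, ?_⟩
      rw [c, ← g0, hh i t ⟨a, b⟩]
  · ext ⟨w, t⟩
    obtain ⟨s, rfl⟩ := ze_surj h0 m3 t
    have e : (w, ze T t0 s) = ((Homeomorph.refl ℂ).prodCongr Z) (w, s) := rfl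
    rw [e, (((Homeomorph.refl ℂ).prodCongr Z).injective).mem_set_image, ← e]
    constructor
    · rintro (⟨i, t, c⟩ | ⟨i, j, a, b, t, ht, c⟩ | ⟨i, j, a, b, t, ht, c⟩)
      · cases c
        have := (zz t).1 ⟨by linarith [t.2.1], by linarith [t.2.2]⟩
        exact ⟨i, this.1, this.2, (F1 i t).symm⟩
      · cases c
        have := (zz (-t)).1 ⟨by linarith [ht.2], by linarith [ht.1]⟩
        exact ⟨i, this.1, this.2, by rw [p3 i j a b]; exact (F2 i t ht).symm⟩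
      · cases c
        have := (zz (1 + t)).1 ⟨by linarith [ht.1], by linarith [ht.2]⟩
        exact ⟨i, this.1, this.2, by rw [q3 i j a b]; exact (F3 i t ht).symm⟩
    · rintro ⟨i, a, b, c⟩
      dsimp only at a b c
      obtain ⟨a, b⟩ := (zz s).2 ⟨a, b⟩
      rcases le_total s 0 with d | d
      · have hs : -s ∈ Icc (0 : ℝ) 1 := ⟨by linarith, by linarith⟩
        refine Or.inr (Or.inl ⟨i, p i, (p1 i).symm, (p2 i).symm, -s, hs, ?_⟩)
        rw [← F2 i _ hs, neg_neg, c]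
      rcases le_total s 1 with d' | d'
      · exact Or.inl ⟨i, ⟨s, d, d'⟩, by rw [← F1 i, c]⟩
      · have hs : s - 1 ∈ Icc (0 : ℝ) 1 := ⟨by linarith, by linarith⟩
        refine Or.inr (Or.inr ⟨i, q i, (q1 i).symm, (q2 i).symm, s - 1, hs, ?_⟩)
        rw [← F3 i _ hs, add_sub_cancel, c]

end Vale.Agent.Q258U.X2
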