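import Vale.Agent.Q258U.X2a
import Mathlib.Analysis.Complex.Convex

/-!
# The sixteen strands on the boundary of the disc; small parallelograms
-/

set_option linter.all false

namespace Vale.Agent.Q258U.X2

open Vale.Agent.P258.Braid Vale.Agent.N258B Vale.Agent.Q258D Set Complex Filter Topology

/-- real parts -/
noncomputable def fr (ε : ℝ) (n : ℕ) (t : ℝ) : ℝ :=
  if n = 0 then -(t * ε) else if n = 15 then t * (28 + ε)
  else if n % 2 = 1 then 2 * n - t * (2 - ε) else 2 * n - 2 + t * (2 - ε)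

/-- imaginary parts -/
def fi (n : ℕ) (t : ℝ) : ℝ := if n = 0 ∨ n = 15 then t else 1

/-- the strands on the boundary of the disc -/
noncomputable def fp (ε : ℝ) (n : ℕ) (t : ℝ) : ℂ := (fr ε n t : ℂ) + (fi n t : ℂ) * I

theorem fp_re (ε : ℝ) (n : ℕ) (t : ℝ) : (fp ε n t).re = fr ε n t := by simp [fp]

theorem fp_im (ε : ℝ) (n : ℕ) (t : ℝ) : (fp ε n t).im = fi n t := by simp [fp]

theorem fp_cont (ε : ℝ) (n : ℕ) : Continuous (fp ε n) := by
  unfold fp fr fi
  split_ifs <;> fun_prop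

theorem fp_lin (ε : ℝ) (n : ℕ) (t : ℝ) : fp ε n t = fp ε n 0 + t * (fp ε n 1 - fp ε n 0) := by
  unfold fp fr fi
  split_ifs <;> push_cast <;> ring

theorem fp_one (ε : ℝ) {q : ℕ} (hq : q < 8) (e : Bool) :
    fp ε (2 * q + e.toNat) 1 = ((4 * q : ℝ) : ℂ) + I + (sg e * ε : ℝ) * 1 := by
  apply Complex.ext <;> cases e <;> interval_cases q <;> simp [fp_re, fp_im, fr, fi, sg] <;> ring

theorem fp_zero (ε : ℝ) {n n' : ℕ} (h : n < 16) (h' : n' < 16) :
    fp ε n 0 = fp ε n' 0 ↔ (n + 1) / 2 % 8 = (n' + 1) / 2 % 8 := by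
  have key : ∀ n < 16, fr ε n 0 = (if (n + 1) / 2 % 8 = 0 then 0
      else 4 * ((n + 1) / 2 % 8 : ℕ) - 2 : ℝ) ∧
      fi n 0 = (if (n + 1) / 2 % 8 = 0 then 0 else 1 : ℝ) := fun n h => by
    interval_cases n <;> simp [fr, fi] <;> norm_num
  rw [Complex.ext_iff, fp_re, fp_re, fp_im, fp_im, (key n h).1, (key n h).2, (key n' h').1,
    (key n' h').2]
  generalize (n + 1) / 2 % 8 = a
  generalize (n' + 1) / 2 % 8 = b
  split_ifs with h1 h2 h2
  · simp [h1, h2]
  · simp [h1]; omega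
  · simp [h2]; omega
  · simp

theorem fp_box {ε t : ℝ} (hε : ε ∈ Ioc (0 : ℝ) 1) (ht : t ∈ Icc (0 : ℝ) 1) {n : ℕ} (h : n < 16) :
    fp ε n t ∈ Box := by
  obtain ⟨e0, e1⟩ := hε
  obtain ⟨t0, t1⟩ := ht
  have h1 : 0 ≤ t * ε := by positivity
  have h2 : t * ε ≤ t := by nlinarith
  simp only [Box, mem_setOf_eq, fp_re, fp_im]
  interval_cases n <;> simp [fr, fi] <;> (try constructor) <;> (try constructor) <;>
    (try constructor) <;> linarith

theorem box_closed : IsClosed Box := by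
  unfold Box
  simp only [setOf_and]
  refine (isClosed_le ?_ ?_).inter ((isClosed_le ?_ ?_).inter ((isClosed_le ?_ ?_).inter
    (isClosed_le ?_ ?_))) <;> fun_prop

theorem box_convex : Convex ℝ Box := by
  unfold Box
  simp only [setOf_and]
  exact (convex_halfSpace_re_ge _).inter ((convex_halfSpace_re_le _).inter
    ((convex_halfSpace_im_ge _).inter (convex_halfSpace_im_le _)))

theorem fp_ne {ε t : ℝ} (hε : ε ∈ Ioc (0 : ℝ) 1) (ht : t ∈ Ioc (0 : ℝ) 1) {q : ℕ} (h : q < 8) :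
    fp ε (2 * q) t ≠ fp ε (2 * q + 1) t := fun e => by
  obtain ⟨e0, e1⟩ := hε
  obtain ⟨t0, t1⟩ := ht
  have h1 : 0 < t * ε := by positivity
  have h2 : t * ε ≤ t := by nlinarith
  have a := congrArg re e
  have b := congrArg im e
  simp only [fp_re, fp_im] at a b
  interval_cases q <;> simp [fr, fi] at a b <;> linarith

theorem fp_disj {ε t : ℝ} (hε : ε ∈ Ioc (0 : ℝ) 1) (ht : t ∈ Ioc (0 : ℝ) 1) {q q' : ℕ}
    (h : q < q') (h' : q' < 8) : Disjoint (segment ℝ (fp ε (2 * q) t) (fp ε (2 * q + 1) t))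
      (segment ℝ (fp ε (2 * q') t) (fp ε (2 * q' + 1) t)) := by
  obtain ⟨e0, e1⟩ := hε
  obtain ⟨t0, t1⟩ := ht
  have h1 : 0 < t * ε := by positivity
  have h2 : t * ε ≤ t := by nlinarith
  refine disjoint_left.2 ?_
  rintro _ ⟨a, b, ha, hb, hab, rfl⟩ ⟨a', b', ha', hb', hab', e⟩
  have x := congrArg re e
  have y := congrArg im e
  simp only [add_re, add_im, real_smul, re_ofReal_mul, im_ofReal_mul, fp_re, fp_im] at x y
  obtain rfl : a = 1 - b := by linarith
  obtain rfl : a' = 1 - b' := by linarith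
  have up : ∀ q < 7, (1 - b) * fr ε (2 * q) t + b * fr ε (2 * q + 1) t < 4 * q + 2 := by
    intro q hq
    have k1 : fr ε (2 * q) t ≤ 4 * q + 2 - t := by
      interval_cases q <;> simp [fr] <;> linarith
    have k2 : fr ε (2 * q + 1) t ≤ 4 * q + 2 - t := by
      interval_cases q <;> simp [fr] <;> linarith
    linarith [mul_le_mul_of_nonneg_left k1 ha, mul_le_mul_of_nonneg_left k2 hb]
  by_cases h7 : q' = 7
  · subst h7
    have u := up q h
    by_cases h0 : q = 0
    · subst h0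
      simp [fr, fi] at x y u
      have : (1 - t) * (1 - b - b') = 0 := by linarith
      rcases mul_eq_zero.1 this with k | k
      · obtain rfl : t = 1 := by linarith
        nlinarith
      · obtain rfl : b' = 1 - b := by linarith
        nlinarith [mul_nonneg ha t0.le, mul_nonneg hb t0.le, mul_nonneg ha h1.le,
          mul_nonneg hb h1.le, mul_nonneg hb (sub_nonneg.2 h2), mul_nonneg ha (sub_nonneg.2 h2)]
    · have i1 : fi (2 * q) t = 1 := if_neg (by omega)
      have i2 : fi (2 * q + 1) t = 1 := if_neg (by omega)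
      have i3 : (q : ℝ) ≤ 6 := by exact_mod_cast (by omega : q ≤ 6)
      rw [i1, i2] at y
      rw [← x] at u
      simp [fr, fi] at y u
      have : (1 - t) * b' = 0 := by linarith
      rcases mul_eq_zero.1 this with k | k
      · obtain rfl : t = 1 := by linarith
        nlinarith
      · subst k
        nlinarith
  · have u := up q (by omega)
    have i3 : (q : ℝ) + 1 ≤ q' := by exact_mod_cast h
    have k1 : 4 * q' - 2 ≤ fr ε (2 * q') t := by
      interval_cases q' <;> simp [fr] <;> first | omega | linarith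
    have k2 : 4 * q' - 2 ≤ fr ε (2 * q' + 1) t := by
      interval_cases q' <;> simp [fr] <;> first | omega | linarith
    linarith [mul_le_mul_of_nonneg_left k1 ha', mul_le_mul_of_nonneg_left k2 hb']

theorem fp_ds {ε t : ℝ} (hε : ε ∈ Ioc (0 : ℝ) 1) (ht : t ∈ Ioo (0 : ℝ) 1) :
    DS fun n => fp ε n t := by
  obtain ⟨e0, e1⟩ := hε
  obtain ⟨t0, t1⟩ := ht
  have h1 : 0 < t * ε := by positivity
  have h2 : t * ε ≤ t := by nlinarith
  simp only [DS, fp_re, fp_im]
  refine ⟨by simp [fi], by simp [fr]; nlinarith, by simp [fi]; linarith, fun n a b => ?_⟩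
  interval_cases n <;> simp [fr, fi] <;> linarith

theorem mem_disc (ε : ℝ) (z : E3) : z ∈ sides ε ∪ wedge ε ↔
    ∃ n < 16, z.2 ∈ Icc (0 : ℝ) 1 ∧ z.1 = fp ε n z.2 := by
  constructor
  · rintro (⟨t, ht, rfl | rfl⟩ | ⟨p, t, ht, rfl | rfl⟩)
    · exact ⟨0, by omega, ht, by simp [fp, fr, fi]⟩
    · exact ⟨15, by omega, ht, by simp [fp, fr, fi]⟩
    · refine ⟨2 * p + 1, by omega, ht, ?_⟩
      have := p.2
      simp only [fp, fr, fi]
      rw [if_neg (by omega), if_neg (by omega), if_pos (by omega), if_neg (by omega)]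
      push_cast; ring
    · refine ⟨2 * p + 2, by omega, ht, ?_⟩
      have := p.2
      simp only [fp, fr, fi]
      rw [if_neg (by omega), if_neg (by omega), if_neg (by omega), if_neg (by omega)]
      push_cast; ring
  · obtain ⟨w, t⟩ := z
    rintro ⟨n, hn, ht, hw⟩
    dsimp only at ht hw
    subst hw
    by_cases h0 : n = 0
    · exact Or.inl ⟨t, ht, Or.inl (by simp [fp, fr, fi, h0])⟩
    by_cases h1 : n = 15
    · exact Or.inl ⟨t, ht, Or.inr (by simp [fp, fr, fi, h1])⟩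
    by_cases h2 : n % 2 = 1
    · obtain ⟨p, rfl⟩ : ∃ p, n = 2 * p + 1 := ⟨n / 2, by omega⟩
      refine Or.inr ⟨⟨p, by omega⟩, t, ht, Or.inl (Prod.ext ?_ rfl)⟩
      simp only [fp, fr, fi]
      rw [if_neg h0, if_neg h1, if_pos h2, if_neg (by omega)]
      push_cast; ring
    · obtain ⟨p, rfl⟩ : ∃ p, n = 2 * p + 2 := ⟨n / 2 - 1, by omega⟩
      refine Or.inr ⟨⟨p, by omega⟩, t, ht, Or.inr (Prod.ext ?_ rfl)⟩
      simp only [fp, fr, fi]
      rw [if_neg h0, if_neg h1, if_neg h2, if_neg (by omega)]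
      push_cast; ring

theorem cap_ne {z dL dR m : ℂ} (h : 0 < det (dR - dL) m) {s : ℝ} (hs : s ≠ 0) (a b : ℝ) :
    z + s * dL + a * m ≠ z + s * dR + b * (-m) := fun e => by
  have x := congrArg re e
  have y := congrArg im e
  simp only [add_re, add_im, re_ofReal_mul, im_ofReal_mul, neg_re, neg_im] at x y
  simp only [det, sub_re, sub_im] at h
  refine hs ((mul_eq_zero.1 (?_ : s * ((dR.re - dL.re) * m.im - (dR.im - dL.im) * m.re) = 0
    )).resolve_right h.ne')
  linear_combination m.re * y - m.im * x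

theorem det_scale (d m : ℂ) (s e : ℝ) : det (s * d) (e * m) = s * e * det d m := by
  simp only [det, re_ofReal_mul, im_ofReal_mul]; ring

theorem seg_mem {c u w : ℂ} {ε : ℝ}
    (h : w ∈ segment ℝ (c + (sg false * ε : ℝ) * u) (c + (sg true * ε : ℝ) * u)) :
    ∃ ρ ∈ Icc (-1 : ℝ) 1, w = c + (ρ * ε : ℝ) * u := by
  obtain ⟨a, b, ha, hb, hab, rfl⟩ := h
  obtain rfl : a = 1 - b := by linarith
  refine ⟨2 * b - 1, ⟨by linarith, by linarith⟩, ?_⟩
  simp only [real_smul, sg]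
  push_cast
  simp
  ring

theorem sg_mem (e : Bool) : sg e ∈ Icc (-1 : ℝ) 1 := by
  cases e <;> simp [sg]

theorem par_disj {κ : Type} [Finite κ] (f g p : κ → ℝ → ℂ) (hf : ∀ i, Continuous (f i))
    (hg : ∀ i, Continuous (g i)) (hp : ∀ i, Continuous (p i)) (e : ∀ i, g i 0 = f i 0)
    {B : Set ℂ} (hB : IsClosed B) (h1 : ∀ i, ∀ ρ ∈ Icc (-1 : ℝ) 1, f i 0 + ρ * p i 0 ∉ B)
    (h2 : ∀ i j, i ≠ j → ∀ ρ ∈ Icc (-1 : ℝ) 1, ∀ ρ' ∈ Icc (-1 : ℝ) 1,
      f i 0 + ρ * p i 0 ≠ f j 0 + ρ' * p j 0) :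
    ∀ᶠ t in 𝓝 (0 : ℝ), (∀ i, Disjoint (par (f i t, g i t, p i t)) B) ∧
      ∀ i j, i ≠ j → Disjoint (par (f i t, g i t, p i t)) (par (f j t, g j t, p j t)) := by
  have hK : IsCompact (Icc (0 : ℝ) 1 ×ˢ Icc (-1 : ℝ) 1) := isCompact_Icc.prod isCompact_Icc
  refine (eventually_all.2 fun i => ?_).and (eventually_all.2 fun i => eventually_all.2 fun j => ?_)
  · have := hf i
    have := hg i
    have := hp i
    refine (tube hK (fun z => f i z.1 + z.2.1 * (g i z.1 - f i z.1) + z.2.2 * p i z.1)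
      (by fun_prop) hB fun y hy => ?_).mono fun t H => disjoint_left.2 ?_
    · simpa [e] using h1 i y.2 hy.2
    · rintro _ ⟨s, hs, r, hr, rfl⟩
      exact H (s, r) ⟨hs, hr⟩
  · by_cases hij : i = j
    · exact Eventually.of_forall fun _ h => absurd hij h
    have := hf i
    have := hg i
    have := hp i
    have := hf j
    have := hg j
    have := hp j
    refine (tube_ne (hK.prod hK)
      (fun z => f i z.1 + z.2.1.1 * (g i z.1 - f i z.1) + z.2.1.2 * p i z.1)
      (fun z => f j z.1 + z.2.2.1 * (g j z.1 - f j z.1) + z.2.2.2 * p j z.1)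
      (by fun_prop) (by fun_prop) fun y hy => ?_).mono fun t H _ => disjoint_left.2 ?_
    · simpa [e] using h2 i j hij y.1.2 hy.1.2 y.2.2 hy.2.2
    · rintro _ ⟨s, hs, r, hr, rfl⟩ ⟨s', hs', r', hr', k⟩
      exact H ((s, r), (s', r')) ⟨⟨hs, hr⟩, ⟨hs', hr'⟩⟩ k

end Vale.Agent.Q258U.X2
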